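import Vale.Agent.P277Z.Tr.Sk
import Vale.Agent.P277Z.Val.Sub
import Vale.Agent.P277Z.Val.Fin
import Vale.Agent.P277Z.Slc.Defs
import Vale.Agent.P277Z.O1.Cnt
import Vale.Agent.P277.Stmts5

/-!
# P277, block TOP: forms, Green functions, strata (definitions)
-/

set_option linter.all false
set_option maxSynthPendingDepth 3

open scoped Manifold ContDiff Topology
open Vale.Agent.P272.K Vale.Agent.P285.H281.FD Vale.Agent.P277 Set Filter Module
open Vale.Agent.P267.H175 (SmAt dF dF_add dF_smul smAt_zero)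
open Vale.Agent.P277.PH (HolF SmR)
open Vale.Agent.P277.T2 (IsCmpV)
open Vale.Agent.P277.T3 (ThinM)
open Vale.Agent.P277Z.Tr (pb intG rb HolM Ctr)
open Vale.Agent.P277Z.Val (Lg Sb Hom Res Good disc jac)
open Vale.Agent.P277Z.Slc (LEq)

noncomputable section

namespace Vale.Agent.P277Z.Top

/-- real forms of degree `k` on a complex manifold of dimension `d` -/
abbrev Fr (d k : ℕ) (M : Type) : Type := M → Cm d [⋀^Fin k]→L[ℝ] ℝ

/-- a compact complex manifold of dimension `d` -/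
structure Mf (d : ℕ) where
  /-- the space -/
  M : Type
  [top : TopologicalSpace M]
  [t2 : T2Space M]
  [cpt : CompactSpace M]
  [ch : ChartedSpace (Cm d) M]
  [mf : IsManifold 𝓘(ℂ, Cm d) ω M]

attribute [instance] Mf.top Mf.t2 Mf.cpt Mf.ch Mf.mf

/-- the fourfold of a model -/
abbrev lgM (V : Lg) : Mf 4 := ⟨V.W⟩

/-- the standard real basis of `ℂ^d` -/
def tb (d : ℕ) : Basis (Fin (2 * d)) ℝ (Cm d) := (rb d).reindex (finCongr (Nat.mul_comm d 2))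

/-- the integral of a form of top degree -/
def Mf.int {d : ℕ} (X : Mf d) (a : Fr d (2 * d) X.M) : ℝ := intG MeasureTheory.volume (tb d) a

/-- multiplication by `i` -/
def Jm (d : ℕ) : Cm d →L[ℝ] Cm d :=
  (Complex.I • ContinuousLinearMap.id ℂ (Cm d)).restrictScalars ℝ

/-- the wedge product of forms -/
def wd {d p q : ℕ} {M : Type} (a : Fr d p M) (b : Fr d q M) : Fr d (q + p) M :=
  fun x => wdg (a x) (b x)

/-- type `(1,1)` -/
def Is11 {d : ℕ} {M : Type} (a : Fr d 2 M) : Prop :=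
  ∀ x v w, a x ![Complex.I • v, Complex.I • w] = a x ![v, w]

/-- semipositive -/
def Psd {d : ℕ} {M : Type} (a : Fr d 2 M) : Prop := ∀ x v, 0 ≤ a x ![v, Complex.I • v]

/-- positive -/
def Pd {d : ℕ} {M : Type} (a : Fr d 2 M) : Prop := ∀ x v, v ≠ 0 → 0 < a x ![v, Complex.I • v]

section forms

variable (d : ℕ) {M : Type} [TopologicalSpace M] [ChartedSpace (Cm d) M]

/-- `d^c u = -(1 / 4 π) du ∘ J` -/
def dc (u : M → ℝ) : Fr d 1 M := fun x =>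
  ContinuousAlternatingMap.ofSubsingleton ℝ (Cm d) ℝ (0 : Fin 1) ((-(4 * Real.pi)⁻¹) •
    (fderiv ℝ (fun z => u ((chartAt (Cm d) x).symm z)) (chartAt (Cm d) x x)).comp (Jm d))

/-- `d d^c u`; the current `d d^c log |z|²` is the Dirac mass -/
def ddc (u : M → ℝ) : Fr d 2 M := dF (dc d u)

variable {d}

/-- smooth forms -/
def Sm {k : ℕ} (a : Fr d k M) : Prop := ∀ x, SmAt a x

/-- smooth closed forms -/
def Cl {k : ℕ} (a : Fr d k M) : Prop := ∀ x, SmAt a x ∧ dF a x = 0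

/-- `a = d d^c u` -/
def IsEx (a : Fr d 2 M) : Prop := ∃ u : M → ℝ, ∀ x, SmR d u x ∧ a x = ddc d u x

/-- `α` is the curvature form of the metric `ψ` of the line bundle `L` -/
structure IsCv (L : Bd M) (ψ : L.ι → M → ℝ) (α : Fr d 2 M) : Prop where
  lb : IsLB d L
  met : IsMet d L ψ
  eq : ∀ i, ∀ x ∈ L.U i, α x = ddc d (ψ i) x

/-- `g` is a Green function of the divisor `∑ i ∈ T, m i • D i`, with the form `α` -/
def IsGr {ι : Type} (T : Finset ι) (D : ι → Set M) (m : ι → ℝ) (α : Fr d 2 M) (g : M → ℝ) : Prop :=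
  ∀ x, ∃ (ζ : ι → M → ℂ) (u : M → ℝ), (∀ i ∈ T, LEq d (D i) x (ζ i)) ∧
    ∀ᶠ y in 𝓝 x, SmR d u y ∧ α y = ddc d u y ∧
      ((∀ i ∈ T, y ∉ D i) → g y = ∑ i ∈ T, m i * Real.log (‖ζ i y‖ ^ 2) - u y)

/-- the same for one hypersurface -/
def IsGr1 (D : Set M) (α : Fr d 2 M) (g : M → ℝ) : Prop :=
  IsGr (Finset.univ : Finset Unit) (fun _ => D) (fun _ => 1) α g

variable (d) in
/-- holomorphic maps to a complex space -/
def HolY (Y : CSp) (f : M → Y.pt) : Prop :=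
  Continuous f ∧ ∀ x g, Y.Hol g (f x) → HolF d (fun x => g (f x)) x

variable (d) in
/-- the differential of `a` at `x` does not vanish -/
def Sub (a : M → ℂ) (x : M) : Prop :=
  ∀ e : Chart d M, At e x → fderiv ℂ (fun z => a (e.symm z)) (e x) ≠ 0

end forms

/-- smooth closed real `(1,1)`-forms -/
def C11 {d : ℕ} (X : Mf d) : Submodule ℝ (Fr d 2 X.M) where
  carrier := {a | Cl a ∧ Is11 a}
  add_mem' := fun {a b} ha hb => ⟨fun x => ⟨(ha.1 x).1.add (hb.1 x).1, by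
      rw [dF_add (ha.1 x).1 (hb.1 x).1, (ha.1 x).2, (hb.1 x).2, add_zero]⟩, fun x v w => by
    simp only [Pi.add_apply, ContinuousAlternatingMap.add_apply, ha.2 x v w, hb.2 x v w]⟩
  zero_mem' := ⟨fun x => ⟨smAt_zero x, by
      have := dF_smul (0 : ℝ) (0 : Fr d 2 X.M) x
      rwa [zero_smul, zero_smul] at this⟩, fun _ _ _ => rfl⟩
  smul_mem' := fun c a ha => ⟨fun x => ⟨(ha.1 x).1.smul c, by
      rw [dF_smul, (ha.1 x).2, smul_zero]⟩, fun x v w => by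
    simp only [Pi.smul_apply, ContinuousAlternatingMap.smul_apply, ha.2 x v w]⟩

/-- the curvature forms of line bundles -/
def Lam {d : ℕ} (X : Mf d) : AddSubgroup (C11 X) :=
  AddSubgroup.closure {a | ∃ (L : Bd X.M) (ψ : L.ι → X.M → ℝ), IsCv L ψ a.1}

/-- `∫ x y` on a surface -/
def B2 (X : Mf 2) (x y : Fr 2 2 X.M) : ℝ := X.int (wd x y)

/-- `∫ x y z` on a threefold -/
def T3 (X : Mf 3) (x y z : Fr 3 2 X.M) : ℝ := X.int (wd x (wd y z))

/-! ### the base -/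

/-- Cut off functions and local coordinates on a complex space. -/
structure Bas (Y : CSp) where
  /-- the number of functions -/
  n : ℕ
  /-- the cut off functions -/
  ρ : Fin n → Y.pt → ℝ
  /-- the coordinates -/
  t : Fin n → Y.pt → ℂ
  nn : ∀ i y, 0 ≤ ρ i y
  hol : ∀ i, ∀ y ∈ tsupport (ρ i), Y.Hol (t i) y
  sm : ∀ i y, ∃ (N : ℕ) (φ : Fin N → Y.pt → ℂ) (b : Cm N → ℝ), (∀ a, Y.Hol (φ a) y) ∧
    ContDiff ℝ ∞ b ∧ ∀ᶠ y' in 𝓝 y, ρ i y' = b fun a => φ a y'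
  gen : ∀ y g, Y.Hol g y → ∃ G : Cm n → ℂ,
    AnalyticAt ℂ G (fun i => if 0 < ρ i y then t i y else 0) ∧
      ∀ᶠ y' in 𝓝 y, g y' = G fun i => if 0 < ρ i y then t i y' else 0

/-- the pull back of the positive form `∑ ρ i • d d^c |t i|²` -/
def Bas.form {Y : CSp} (B : Bas Y) (d : ℕ) {M : Type} [TopologicalSpace M] [ChartedSpace (Cm d) M]
    (f : M → Y.pt) : Fr d 2 M :=
  fun x => ∑ i, B.ρ i (f x) • ddc d (fun x' => ‖B.t i (f x')‖ ^ 2) x

/-- `σ ∩ O` is a disc with the coordinate `t` and the parametrisation `g`. -/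
structure IsDisc (Y : CSp) (σ O : Set Y.pt) (t : Y.pt → ℂ) (g : ℂ → Y.pt) (Δ : Set ℂ) : Prop where
  isOpen : IsOpen O
  isOpen' : IsOpen Δ
  conv : Convex ℝ Δ
  hol : ∀ y ∈ O, Y.Hol t y
  par : ∀ s ∈ Δ, ContinuousAt g s ∧ t (g s) = s ∧
    ∀ h, Y.Hol h (g s) → AnalyticAt ℂ (fun s => h (g s)) s
  img : σ ∩ O = g '' Δ

/-! ### strata -/

open Classical in
/-- the surfaces `S` with `(l, S) ∈ V.cmp` -/
def cl (V : Lg) (l : Fin V.r) : Finset (Set V.W) := (V.cmp.filter fun c => c.1 = l).image Prod.snd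

/-- The threefolds and the surfaces of a model as manifolds. -/
structure Par (V : Lg) where
  /-- the threefolds -/
  H : Fin V.r → Mf 3
  /-- the embeddings -/
  ι : ∀ l, (H l).M → V.W
  /-- the surfaces -/
  S : Set V.W → Mf 2
  /-- the embeddings in the threefolds -/
  j : ∀ l T, (S T).M → (H l).M
  /-- the embeddings in the fourfold -/
  ι₂ : ∀ T, (S T).M → V.W
  emb : ∀ l, Sb 3 4 (ι l)
  rng : ∀ l, range (ι l) = V.G l
  conn : ∀ l, ConnectedSpace (H l).M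
  emb₂ : ∀ c ∈ V.cmp, Sb 2 3 (j c.1 c.2)
  fac : ∀ c ∈ V.cmp, ∀ x, ι c.1 (j c.1 c.2 x) = ι₂ c.2 x
  rng₂ : ∀ c ∈ V.cmp, range (ι₂ c.2) = c.2
  conn₂ : ∀ c ∈ V.cmp, ConnectedSpace (S c.2).M

variable {V : Lg}

/-- the integral of `θ` over the cycle `∑ c, ρ c • c.2` -/
def Par.Z (P : Par V) (ρ : Fin V.r × Set V.W → ℝ) (θ : Fr 4 4 V.W) : ℝ :=
  ∑ c ∈ V.cmp, ρ c * (P.S c.2).int (pb (Cm 2) (P.ι₂ c.2) θ)

/-- `α` is the class of the divisor `∑ S, m S • S` of the threefold `G l` -/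
def Par.Cls (P : Par V) (l : Fin V.r) (m : Set V.W → ℝ) (α : Fr 3 2 (P.H l).M) : Prop :=
  ∃ g, IsGr (cl V l) (fun T => range (P.j l T)) m α g

/-- all the divisors of the family `ρ` have class zero -/
def Par.Nul (P : Par V) (ρ : Fin V.r × Set V.W → ℝ) : Prop :=
  ∀ l, P.Cls l (fun T => ρ (l, T)) 0

open Classical in
/-- the double surfaces -/
def ed (U : Lg) : Finset (Fin U.r × Fin U.r × Set U.W) :=
  (Finset.univ ×ˢ Finset.univ ×ˢ U.cmp.image Prod.snd).filter fun e => e.1 < e.2.1 ∧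
    ∃ y ∈ U.G e.1 ∩ U.G e.2.1, e.2.2 = connectedComponentIn (U.G e.1 ∩ U.G e.2.1) y

/-- the type of the double surfaces -/
abbrev Ed (U : Lg) : Type := {e // e ∈ ed U}

/-- A polarisation: `A` is the curvature of `- ∑ c k • G k`, and `A + τ p^* η` is positive. -/
structure Pol (U : Lg) (Y : CSp) (p : U.W → Y.pt) where
  /-- the data on the base -/
  B : Bas Y
  /-- the coefficients -/
  c : Fin U.r → ℕ
  /-- the curvature form -/
  A : Fr 4 2 U.W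
  /-- the constant -/
  τ : ℝ
  cpos : ∀ k, 0 < c k
  τpos : 0 < τ
  cv : ∃ (L : Bd U.W) (ψ : L.ι → U.W → ℝ), IsCv L ψ A
  gr : ∃ g, IsGr Finset.univ U.G (fun k => (c k : ℝ)) (-A) g
  pos : Pd (A + τ • B.form 4 p)

/-- the type of the intersection data -/
abbrev Cf {U : Lg} (Q : Par U) : Type :=
  P277Z.O1.Cfg (Fin U.r) (Ed U) (fun k => C11 (Q.H k)) (fun e => C11 (Q.S e.1.2.2))

/-- `C` is the intersection data of the model `U` over `Y`. -/
structure IsCfg {U : Lg} {Y : CSp} {p : U.W → Y.pt} (Q : Par U) (R : Pol U Y p) (C : Cf Q) :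
    Prop where
  s : ∀ e, C.s e = e.1.1
  t : ∀ e, C.t e = e.1.2.1
  T : ∀ k x y z, C.T k x y z = T3 (Q.H k) x.1 y.1 z.1
  N : ∀ k x, x ∈ C.N k ↔ IsEx x.1
  D : ∀ k, C.D k = Submodule.span ℝ (Lam (Q.H k) : Set (C11 (Q.H k)))
  B : ∀ e x y, C.B e x y = B2 (Q.S e.1.2.2) x.1 y.1
  rs : ∀ e x, (C.rs e x).1 = pb (Cm 2) (Q.j (C.s e) e.1.2.2) x.1
  rt : ∀ e x, (C.rt e x).1 = pb (Cm 2) (Q.j (C.t e) e.1.2.2) x.1
  cs : ∀ e, C.cs e ∈ Lam _ ∧ ∃ g, IsGr1 (range (Q.j (C.s e) e.1.2.2)) (C.cs e).1 g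
  ct : ∀ e, C.ct e ∈ Lam _ ∧ ∃ g, IsGr1 (range (Q.j (C.t e) e.1.2.2)) (C.ct e).1 g
  A : ∀ k, (C.A k).1 = pb (Cm 3) (Q.ι k) R.A
  o : ∀ k, (C.o k).1 = R.B.form 3 fun x => p (Q.ι k x)
  c : ∀ k, C.c k = R.c k
  τ : C.τ = R.τ
  P : ∀ e, C.P e ↔ (p '' e.1.2.2).Subsingleton
  n : ∀ k, C.c k • C.n k + C.A k + (∑ e, (Pi.single (C.s e) (C.c (C.t e) • C.cs e) +
    Pi.single (C.t e) (C.c (C.s e) • C.ct e)) : ∀ k, C11 (Q.H k)) k = 0

/-! ### the hypotheses -/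

/-- `y` lies on no component in `X`, or on one only, which is a strict transform. -/
def Rg {V U : Lg} (s : Fin U.r → Fin V.r) (X : Finset (Fin V.r)) (y : V.W) : Prop :=
  ∀ k ∈ X, y ∈ V.G k → k ∈ range s ∧ ∀ j ∈ X, y ∈ V.G j → j = k

/-- A modification with exceptional set in the components in `X`; `s k` is the strict transform
of `k`. -/
structure Dom (V U : Lg) (μ : V.W → U.W) (s : Fin U.r → Fin V.r) (X : Finset (Fin V.r)) :
    Prop where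
  hol : HolM 4 4 μ
  surj : Function.Surjective μ
  pre : ∀ y, μ y ∈ U.E → ∃ k ∈ X, y ∈ V.G k
  inj : ∀ y y', Rg s X y → μ y' = μ y → y' = y
  det : ∀ y, Rg s X y → ∀ (e' : Chart 4 V.W) (e : Chart 4 U.W), At e' y → At e (μ y) →
    jac μ e' e y ≠ 0
  img : ∀ k, μ '' V.G (s k) = U.G k
  mem : ∀ k, s k ∈ X
  sinj : Function.Injective s
  thin : ∀ k ∈ X, k ∉ range s → ThinM 4 2 (μ '' V.G k)

/-- `K + M - ∑ a l • G l` is the pull back of a real Cartier divisor of `Y`, `M` nef. -/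
def Pair (V : Lg) (Y : CSp) (ψ : V.W → Y.pt) (a : Fin V.r → ℝ) : Prop :=
  ∃ (k : ℕ) (m : Fin k → ℕ) (χ : Chart 4 V.W → Cm 4 → Matrix (Fin 4) (Fin 4) ℂ)
    (M : Fin k → Bd V.W) (L : Fin k → Bd Y.pt) (c : Fin k → ℕ) (n : Fin k → Fin V.r → ℤ)
    (ρ : Fin k → ℝ), IsKahler χ ∧
    (∀ e, IsLB 4 (M e) ∧ Nef χ (M e) ∧ IsLBx Y (L e) ∧ 0 < c e ∧ 0 ≤ ρ e) ∧
    ∑ e, ρ e * m e = 1 ∧ a = disc ρ c n ∧
    ∃ t, IsCmpV ψ L (fun e => (((Bd.can 4 V.W).pow (m e)).mul (M e)).pow (c e)) V.G n t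

/-- `K_Y` is `ℚ`-Cartier with canonical singularities. -/
def Vol (U : Lg) (Y : CSp) (p : U.W → Y.pt) : Prop :=
  ∀ y, ∃ (O : Set Y.pt) (m : ℕ) (η : Chart 4 U.W → U.W → ℂ), IsOpen O ∧ y ∈ O ∧ 1 ≤ m ∧
    ∀ x, p x ∈ O → (∀ e, At e x → HolF 4 (η e) x ∧ (x ∉ U.E → η e x ≠ 0)) ∧
      ∀ e e', At e x → At e' x → η e x = (Bd.can 4 U.W).g e e' x ^ m * η e' x

open Classical in
/-- The data of step TOP. -/
structure Hyp₀ (V : Lg) (a : Fin V.r → ℝ) (Y : CSp) (ψ : V.W → Y.pt) (α : ℝ) (U : Lg)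
    (μ : V.W → U.W) (p : U.W → Y.pt) : Prop where
  αle : α ≤ 1
  normal : IsNormal 4 Y
  good : Good V a
  res : Res V Y ψ (Finset.univ.filter fun k => 0 < a k)
  resU : Res U Y p Finset.univ
  dimU : DimLe Y 1 (p '' U.E)
  hol : HolM 4 4 μ
  fac : ∀ y, p (μ y) = ψ y
  pair : Pair V Y ψ a
  vol : Vol U Y p
  car : ∀ l, a l + 1 < α → ∀ y, ∃ f, Y.Hol f y ∧ ∀ᶠ y' in 𝓝 y, f y' = 0 ↔ y' ∈ ψ '' V.G l
  echo : ∀ c ∈ V.cmp, a c.1 < 0 → DimLe Y 1 (ψ '' c.2) → α ≤ V.eC a c + (1 + a c.1)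

open Classical in
/-- The same, with the strict transforms. -/
structure Hyp (V : Lg) (a : Fin V.r → ℝ) (Y : CSp) (ψ : V.W → Y.pt) (α : ℝ) (U : Lg)
    (μ : V.W → U.W) (s : Fin U.r → Fin V.r) (p : U.W → Y.pt) : Prop
    extends Hyp₀ V a Y ψ α U μ p where
  dom : Dom V U μ s (Finset.univ.filter fun k => 0 < a k)

end Vale.Agent.P277Z.Top
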