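import Vale.Agent.P277Z.Top.HbGl
import Vale.Agent.P277Z.Int.HI
import Vale.Agent.P277.H619.Pair

/-!
# P277, block TOP: the Hodge index theorem for real forms
-/

set_option maxSynthPendingDepth 3
set_option linter.unusedSectionVars false

open scoped Manifold ContDiff Topology ComplexConjugate ComplexOrder
open ContinuousAlternatingMap Vale.Agent.P267.H928.Int Vale.Agent.P267.H175
open Vale.Agent.P272.K Vale.Agent.P277 Vale.Agent.P277.H619 Complex Matrix Filter Set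
open MeasureTheory

noncomputable section

namespace Vale.Agent.P277Z.Top.H38

section mix

theorem det_add2 (W X : Matrix (Fin 2) (Fin 2) ℂ) (t : ℝ) :
    32 * (W + (t : ℂ) • X).det.re = 16 * (mix2 W W).re + 2 * t * (16 * (mix2 W X).re) +
      t ^ 2 * (16 * (mix2 X X).re) := by
  have h : 32 * (W + (t : ℂ) • X).det = 16 * mix2 W W + ((2 * t : ℝ) : ℂ) * (16 * mix2 W X) +
      ((t ^ 2 : ℝ) : ℂ) * (16 * mix2 X X) := by
    simp only [det_fin_two, mix2, Matrix.add_apply, Matrix.smul_apply, smul_eq_mul]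
    push_cast
    ring
  have h1 := congrArg Complex.re h
  simp only [add_re, re_ofReal_mul] at h1
  simpa using h1

theorem det_add3 (W X : Matrix (Fin 3) (Fin 3) ℂ) (t : ℝ) :
    384 * (W + (t : ℂ) • X).det.re = 64 * (mix3 W W W).re + 3 * t * (64 * (mix3 W W X).re) +
      3 * t ^ 2 * (64 * (mix3 W X X).re) + t ^ 3 * (64 * (mix3 X X X).re) := by
  have h : 384 * (W + (t : ℂ) • X).det = 64 * mix3 W W W +
      ((3 * t : ℝ) : ℂ) * (64 * mix3 W W X) + ((3 * t ^ 2 : ℝ) : ℂ) * (64 * mix3 W X X) +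
      ((t ^ 3 : ℝ) : ℂ) * (64 * mix3 X X X) := by
    simp only [det_fin_three, mix3, Matrix.add_apply, Matrix.smul_apply, smul_eq_mul]
    push_cast
    ring
  have h1 := congrArg Complex.re h
  simp only [add_re, re_ofReal_mul] at h1
  simpa using h1

end mix

section mfd

variable {d : ℕ} {M : Type} [TopologicalSpace M] [ChartedSpace (Cm d) M]

theorem smAt_wdg {p q : ℕ} {a : M → Cm d [⋀^Fin p]→L[ℝ] ℝ} {b : M → Cm d [⋀^Fin q]→L[ℝ] ℝ} {y : M}
    (ha : SmAt a y) (hb : SmAt b y) : SmAt (fun y => wdg (a y) (b y)) y := by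
  have h : ∀ e : Chart d M, loc e (fun y => wdg (a y) (b y)) =
      fun z => wdg (loc e a z) (loc e b z) := fun e => funext fun z => loc_wdg e a b z
  rw [SmAt, h]
  exact contDiffAt_wdg ha hb

variable [IsManifold 𝓘(ℂ, Cm d) ω M]

theorem dens_top {k : ℕ} (b : Module.Basis (Fin k) ℝ (Cm d)) {A : M → Cm d [⋀^Fin k]→L[ℝ] ℝ}
    (hA : ∀ x, SmAt A x) : INT.IsDensity fun (e : Chart d M) z => loc e A z b where
  cont e x h := by
    have := INT.isManifold_real d M
    exact (ContinuousAlternatingMap.apply ℝ (Cm d) ℝ (b : Fin k → Cm d)).continuous.continuousAt.comp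
      ((smAt_iff h.1 h.2).1 (hA x)).continuousAt
  change e e' x h h' := by
    have := INT.isManifold_real d M
    have h1 := loc_change h.1 h'.1 A (e.map_source h.2) (by rw [e.left_inv h.2]; exact h'.2)
    rw [e.left_inv h.2] at h1
    show loc e A (e x) b = loc e' A (e' x) b * _
    rw [h1, top_comp, INT.det_fderiv_real
      ((INT.transition_contDiffAt h h').differentiableAt (by simp)), smul_eq_mul, mul_comm]
    rfl

/-- `γ = -c (du) ∘ i` -/
def IsDc (c : ℝ) (u : M → ℝ) (γ : M → Cm d [⋀^Fin 1]→L[ℝ] ℝ) (y : M) : Prop :=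
  ∀ v, γ y ![v] =
    -c * fderiv ℝ (fun z => u ((chartAt (Cm d) y).symm z)) (chartAt (Cm d) y y) (I • v)

theorem IsDc.loc {c : ℝ} {u : M → ℝ} {γ : M → Cm d [⋀^Fin 1]→L[ℝ] ℝ} {x : M} (h : IsDc c u γ x)
    (hu : DifferentiableAt ℝ (fun z => u ((chartAt (Cm d) x).symm z)) (chartAt (Cm d) x x))
    {e : Chart d M} (he : At e x) (v : Cm d) :
    loc e γ (e x) ![v] = -c * fderiv ℝ (fun z => u (e.symm z)) (e x) (I • v) := by
  have h' : At (chartAt (Cm d) x) x := ⟨chart_mem_atlas _ _, mem_chart_source _ _⟩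
  have h1 : Vale.Agent.P267.H175.loc e γ (e x) ![v] =
      γ x ![fderiv ℝ (fun y => chartAt (Cm d) x (e.symm y)) (e x) v] := by
    rw [loc_eq γ he, compContinuousLinearMap_apply]
    congr 1
    funext i
    fin_cases i
    rfl
  have h2 : DifferentiableAt ℝ (fun y => chartAt (Cm d) x (e.symm y)) (e x) :=
    ((INT.transition_contDiffAt he h').differentiableAt (by simp)).restrictScalars ℝ
  have h3 : (fun z => u (e.symm z)) =ᶠ[𝓝 (e x)]
      (fun z => u ((chartAt (Cm d) x).symm z)) ∘ fun y => chartAt (Cm d) x (e.symm y) := by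
    have h4 := e.continuousAt_symm (e.map_source he.2)
    rw [ContinuousAt, e.left_inv he.2] at h4
    filter_upwards [h4.eventually (chart_source_mem_nhds (Cm d) x)] with z hz
    simp only [Function.comp, (chartAt (Cm d) x).left_inv hz]
  rw [h1, h, h3.fderiv_eq, fderiv_comp _ (by rw [e.left_inv he.2]; exact hu) h2, e.left_inv he.2,
    ContinuousLinearMap.comp_apply, fderiv_chg he h', fderiv_chg he h', mulVec_smul]

/-- multiplication by `i` as a real linear map -/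
def mulI (d : ℕ) : Cm d →L[ℝ] Cm d := (I • ContinuousLinearMap.id ℂ (Cm d)).restrictScalars ℝ

/-- `L ↦ -c L ∘ i` -/
def dcL (d : ℕ) (c : ℝ) : (Cm d →L[ℝ] ℝ) →L[ℝ] (Cm d [⋀^Fin 1]→L[ℝ] ℝ) :=
  (-c) • ((ofSubsingletonLIE (𝕜 := ℝ) (E := Cm d) (F := ℝ) (0 : Fin 1)
    ).toContinuousLinearEquiv.toContinuousLinearMap.comp
      ((ContinuousLinearMap.compL ℝ (Cm d) (Cm d) ℝ).flip (mulI d)))

theorem dcL_apply (c : ℝ) (L : Cm d →L[ℝ] ℝ) (v : Fin 1 → Cm d) :
    dcL d c L v = -c * L (I • v 0) := rfl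

theorem ddc_at {c : ℝ} {u : M → ℝ} {γ : M → Cm d [⋀^Fin 1]→L[ℝ] ℝ} {x : M}
    (h : ∀ᶠ y in 𝓝 x, IsDc c u γ y)
    (hu : ∀ᶠ y in 𝓝 x,
      ContDiffAt ℝ ∞ (fun z => u ((chartAt (Cm d) y).symm z)) (chartAt (Cm d) y y)) :
    SmAt γ x ∧ J11 (dF γ x) ∧ mat (dF γ x) =
      (c : ℂ) • cHess (fun z => u ((chartAt (Cm d) x).symm z)) (chartAt (Cm d) x x) := by
  set e := chartAt (Cm d) x with he
  have h' : At e x := ⟨chart_mem_atlas _ _, mem_chart_source _ _⟩
  have h4 := e.continuousAt_symm (e.map_source h'.2)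
  rw [ContinuousAt, e.left_inv h'.2] at h4
  have h1 : ∀ᶠ z in 𝓝 (e x), ∀ v, loc e γ z ![v] =
      -c * fderiv ℝ (fun z => u (e.symm z)) z (I • v) := by
    filter_upwards [ev_at h', h4.eventually h, h4.eventually hu] with z h1 h2 h3 v
    have h5 := h2.loc (h3.differentiableAt (by simp)) h1.1 v
    rwa [h1.2] at h5
  have h2 : loc e γ =ᶠ[𝓝 (e x)] fun z => dcL d c (fderiv ℝ (fun z => u (e.symm z)) z) := by
    filter_upwards [h1] with z hz
    ext v
    have h3 : v = ![v 0] := by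
      funext i
      fin_cases i
      rfl
    rw [dcL_apply, ← hz, ← h3]
  have h5 : ContDiffAt ℝ ∞ (loc e γ) (e x) := by
    refine ContDiffAt.congr_of_eventuallyEq ?_ h2
    exact (dcL d c).contDiff.contDiffAt.comp _
      (hu.self_of_nhds.fderiv_right (m := ∞) (by simp))
  exact ⟨h5, mat_ddc (h5.differentiableAt (by simp)) (hu.self_of_nhds.of_le INT.two_le_inf) h1⟩

/-- from the matrix language back to forms -/
theorem eq_ddc {x : M → Cm d [⋀^Fin 2]→L[ℝ] ℝ} (hx : ∀ y, J11 (x y)) (h : Int.Exa (mtF x))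
    {c : ℝ} (hc : c ≠ 0) : ∃ u : M → ℝ, SmoothFn (n := d) u ∧
      ∀ γ : M → Cm d [⋀^Fin 1]→L[ℝ] ℝ, (∀ y, IsDc c u γ y) → ∀ y, x y = dF γ y := by
  obtain ⟨u, hu, h1⟩ := h
  have hu' : SmoothFn (n := d) fun y => c⁻¹ * u y := fun e y he => contDiffAt_const.mul (hu e y he)
  refine ⟨fun y => c⁻¹ * u y, hu', fun γ hγ y => ?_⟩
  have h' : ∀ y : M, At (chartAt (Cm d) y) y := fun y =>
    ⟨chart_mem_atlas _ _, mem_chart_source _ _⟩
  obtain ⟨-, h2, h3⟩ := ddc_at (x := y) (Eventually.of_forall hγ)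
    (Eventually.of_forall fun y => hu' _ y (h' y))
  refine mat_inj (hx y) h2 ?_
  have h4 := h1 _ y (h' y)
  rw [mtF, loc_self] at h4
  rw [h3, h4, C2.cHess_const_mul _ ((hu _ y (h' y)).of_le INT.two_le_inf), smul_smul]
  have h5 : (c : ℂ) * (c⁻¹ : ℝ) = 1 := by
    rw [← ofReal_mul, mul_inv_cancel₀ hc, ofReal_one]
  rw [h5, one_smul]

end mfd

section hi

theorem hi1 {M : Type} [TopologicalSpace M] [ChartedSpace (Cm 1) M] [IsManifold 𝓘(ℂ, Cm 1) ω M]
    [T2Space M] [CompactSpace M] [ConnectedSpace M] {w x : M → Cm 1 [⋀^Fin 2]→L[ℝ] ℝ}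
    (hw : IsKahler (mtF w)) (hxs : ∀ y, SmAt x y) (hx : ∀ y, J11 (x y)) (hxc : ∀ y, dF x y = 0)
    (b : Fin 2 → Cm 1) (h0 : b 0 = Pi.single 0 1) (h1 : b 1 = Pi.single 0 I)
    (h : (INT.intX fun (e : Chart 1 M) z => loc e x z b) = 0) : Int.Exa (mtF x) := by
  refine Int.hi_one hw (closed_mtF hxs hx hxc) (herm_mtF hx) ?_
  have h2 : (INT.intX fun (e : Chart 1 M) z => loc e x z b) =
      INT.intX fun (e : Chart 1 M) z => 4 * (mtF x e z).det.re := by
    congr 1
    funext e z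
    have h3 : b = ![b 0, b 1] := by
      funext i
      fin_cases i <;> rfl
    rw [h3, h0, h1, det_unique]
    exact bl_xy 0 0
  rw [h2, INT.intX_const_mul] at h
  linarith

theorem hi2 {M : Type} [TopologicalSpace M] [ChartedSpace (Cm 2) M] [IsManifold 𝓘(ℂ, Cm 2) ω M]
    [T2Space M] [CompactSpace M] [ConnectedSpace M] {w x : M → Cm 2 [⋀^Fin 2]→L[ℝ] ℝ}
    (hw : IsKahler (mtF w)) (hws : ∀ y, SmAt w y) (hw1 : ∀ y, J11 (w y))
    (hxs : ∀ y, SmAt x y) (hx : ∀ y, J11 (x y)) (hxc : ∀ y, dF x y = 0)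
    (b : Module.Basis (Fin 4) ℝ (Cm 2)) (h0 : b 0 = Pi.single 0 1) (h1 : b 1 = Pi.single 0 I)
    (h2 : b 2 = Pi.single 1 1) (h3 : b 3 = Pi.single 1 I)
    (h : (INT.intX fun (e : Chart 2 M) z => loc e (fun y => wdg (w y) (x y)) z b) = 0) :
    (INT.intX fun (e : Chart 2 M) z => loc e (fun y => wdg (x y) (x y)) z b) ≤ 0 ∧
    ((INT.intX fun (e : Chart 2 M) z => loc e (fun y => wdg (x y) (x y)) z b) = 0 →
      Int.Exa (mtF x)) := by
  have d1 := dens_top b fun y => smAt_wdg (hws y) (hws y)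
  have d2 := dens_top b fun y => smAt_wdg (hws y) (hxs y)
  have d3 := dens_top b fun y => smAt_wdg (hxs y) (hxs y)
  refine Int.hi_poly hw (closed_mtF hxs hx hxc) (herm_mtF hx) (k := 32) (a3 := 0)
    (a0 := INT.intX fun (e : Chart 2 M) z => loc e (fun y => wdg (w y) (w y)) z b)
    (by norm_num) fun t => ?_
  have h4 : 32 * Int.Vol (mtF w) (mtF x) t = INT.intX fun (e : Chart 2 M) z =>
      loc e (fun y => wdg (w y) (w y)) z b + 2 * t * loc e (fun y => wdg (w y) (x y)) z b +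
        t ^ 2 * loc e (fun y => wdg (x y) (x y)) z b := by
    rw [Int.Vol, ← INT.intX_const_mul]
    refine INT.intX_congr fun e y he => ?_
    have j1 := j11_loc he (hw1 y)
    have j2 := j11_loc he (hx y)
    rw [loc_wdg, loc_wdg, loc_wdg, top2 j1 j1 b h0 h1 h2 h3, top2 j1 j2 b h0 h1 h2 h3,
      top2 j2 j2 b h0 h1 h2 h3]
    exact det_add2 _ _ t
  rw [h4, INT.intX_add (d1.add (d2.const_mul _)) (d3.const_mul _), INT.intX_add d1 (d2.const_mul _),
    INT.intX_const_mul, INT.intX_const_mul, h]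
  ring

theorem hi3 {M : Type} [TopologicalSpace M] [ChartedSpace (Cm 3) M] [IsManifold 𝓘(ℂ, Cm 3) ω M]
    [T2Space M] [CompactSpace M] [ConnectedSpace M] {w x : M → Cm 3 [⋀^Fin 2]→L[ℝ] ℝ}
    (hw : IsKahler (mtF w)) (hws : ∀ y, SmAt w y) (hw1 : ∀ y, J11 (w y))
    (hxs : ∀ y, SmAt x y) (hx : ∀ y, J11 (x y)) (hxc : ∀ y, dF x y = 0)
    (b : Module.Basis (Fin 6) ℝ (Cm 3)) (h0 : b 0 = Pi.single 0 1) (h1 : b 1 = Pi.single 0 I)
    (h2 : b 2 = Pi.single 1 1) (h3 : b 3 = Pi.single 1 I) (h4 : b 4 = Pi.single 2 1)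
    (h5 : b 5 = Pi.single 2 I)
    (h : (INT.intX fun (e : Chart 3 M) z =>
      loc e (fun y => wdg (w y) (wdg (w y) (x y))) z b) = 0) :
    (INT.intX fun (e : Chart 3 M) z => loc e (fun y => wdg (w y) (wdg (x y) (x y))) z b) ≤ 0 ∧
    ((INT.intX fun (e : Chart 3 M) z => loc e (fun y => wdg (w y) (wdg (x y) (x y))) z b) = 0 →
      Int.Exa (mtF x)) := by
  have d1 := dens_top b fun y => smAt_wdg (hws y) (smAt_wdg (hws y) (hws y))
  have d2 := dens_top b fun y => smAt_wdg (hws y) (smAt_wdg (hws y) (hxs y))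
  have d3 := dens_top b fun y => smAt_wdg (hws y) (smAt_wdg (hxs y) (hxs y))
  have d4 := dens_top b fun y => smAt_wdg (hxs y) (smAt_wdg (hxs y) (hxs y))
  have key := Int.hi_poly hw (closed_mtF hxs hx hxc) (herm_mtF hx) (k := 384)
    (a0 := INT.intX fun (e : Chart 3 M) z => loc e (fun y => wdg (w y) (wdg (w y) (w y))) z b)
    (a2 := 3 * INT.intX fun (e : Chart 3 M) z => loc e (fun y => wdg (w y) (wdg (x y) (x y))) z b)
    (a3 := INT.intX fun (e : Chart 3 M) z => loc e (fun y => wdg (x y) (wdg (x y) (x y))) z b)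
    (by norm_num) fun t => by
      have h6 : 384 * Int.Vol (mtF w) (mtF x) t = INT.intX fun (e : Chart 3 M) z =>
          loc e (fun y => wdg (w y) (wdg (w y) (w y))) z b +
          3 * t * loc e (fun y => wdg (w y) (wdg (w y) (x y))) z b +
          3 * t ^ 2 * loc e (fun y => wdg (w y) (wdg (x y) (x y))) z b +
          t ^ 3 * loc e (fun y => wdg (x y) (wdg (x y) (x y))) z b := by
        rw [Int.Vol, ← INT.intX_const_mul]
        refine INT.intX_congr fun e y he => ?_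
        have j1 := j11_loc he (hw1 y)
        have j2 := j11_loc he (hx y)
        rw [loc_wdg e w, loc_wdg e w, loc_wdg e w, loc_wdg e w, loc_wdg e w, loc_wdg e x,
          loc_wdg e x, loc_wdg e x, top3 j1 j1 j1 b h0 h1 h2 h3 h4 h5,
          top3 j1 j1 j2 b h0 h1 h2 h3 h4 h5, top3 j1 j2 j2 b h0 h1 h2 h3 h4 h5,
          top3 j2 j2 j2 b h0 h1 h2 h3 h4 h5]
        exact det_add3 _ _ t
      rw [h6, INT.intX_add ((d1.add (d2.const_mul _)).add (d3.const_mul _)) (d4.const_mul _),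
        INT.intX_add (d1.add (d2.const_mul _)) (d3.const_mul _), INT.intX_add d1 (d2.const_mul _),
        INT.intX_const_mul, INT.intX_const_mul, INT.intX_const_mul, h]
      ring
  exact ⟨by linarith [key.1], fun h7 => key.2 (by rw [h7, mul_zero])⟩

end hi

end Vale.Agent.P277Z.Top.H38
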