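import Vale.Agent.P277Z.Top.Sk
import Vale.Agent.P277Z.Gd.Cal
import Vale.Agent.P277Z.Slc.Div
import Vale.Agent.P272.K.Inv.Hess

/-!
# P277, block TOP: curvature forms and Green functions (rows LAM, GRU, GRX)
-/

set_option linter.all false
set_option maxSynthPendingDepth 3

open scoped Manifold ContDiff Topology
open Vale.Agent.P272.K Vale.Agent.P285.H281.FD Vale.Agent.P277 Set Filter
open Vale.Agent.P267.H175 (SmAt dF smAt_dF dF_dF dF_congr)
open Vale.Agent.P277.PH (SmR)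
open Vale.Agent.P277Z.Tr (pb HolM)
open Vale.Agent.P277Z.Slc (LEq tendsto_symm at_chartAt)
open Vale.Agent.P277Z.Gd

noncomputable section

namespace Vale.Agent.P277Z.Top

namespace Gx

variable {d : ℕ} {M : Type} [TopologicalSpace M] [ChartedSpace (Cm d) M] {x : M} {u v : M → ℝ}
  {f : M → ℂ}

theorem smR_congr (h : SmR d u x) (e : v =ᶠ[𝓝 x] u) : SmR d v x := fun c hc =>
  (h c hc).congr_of_eventuallyEq ((tendsto_symm hc).eventually e)

theorem smR_cont (h : SmR d u x) : ContinuousAt u x := by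
  have he := at_chartAt (n := d) x
  refine ((h _ he).continuousAt.comp ((chartAt (Cm d) x).continuousAt he.2)).congr ?_
  filter_upwards [Slc.At.near he] with y hy
  simp [(chartAt (Cm d) x).left_inv hy.2]

theorem smR_add (hu : SmR d u x) (hv : SmR d v x) : SmR d (fun y => u y + v y) x :=
  fun e he => (hu e he).add (hv e he)

theorem smR_sub (hu : SmR d u x) (hv : SmR d v x) : SmR d (fun y => u y - v y) x :=
  fun e he => (hu e he).sub (hv e he)

theorem smR_mul (hu : SmR d u x) (hv : SmR d v x) : SmR d (fun y => u y * v y) x :=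
  fun e he => (hu e he).mul (hv e he)

theorem smR_const (c : ℝ) : SmR d (fun _ => c) x := fun _ _ => contDiffAt_const

theorem smR_sum {ι : Type} {T : Finset ι} {w : ι → M → ℝ} (h : ∀ i ∈ T, SmR d (w i) x) :
    SmR d (fun y => ∑ i ∈ T, w i y) x := fun e he => ContDiffAt.sum fun i hi => h i hi e he

theorem smR_log (h : Hol d f x) (h0 : f x ≠ 0) : SmR d (fun y => Real.log (‖f y‖ ^ 2)) x := by
  intro e he
  have h1 : f (e.symm (e x)) ≠ 0 := by rwa [e.left_inv he.2]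
  exact ((((h e he).contDiffAt (n := ∞)).restrict_scalars ℝ).norm ℝ h1).pow 2 |>.log
    (pow_ne_zero 2 (norm_ne_zero_iff.2 h1))

theorem log_mul {a b : ℂ} (ha : a ≠ 0) (hb : b ≠ 0) :
    Real.log (‖a * b‖ ^ 2) = Real.log (‖a‖ ^ 2) + Real.log (‖b‖ ^ 2) := by
  rw [norm_mul, mul_pow, Real.log_mul (pow_ne_zero 2 (norm_ne_zero_iff.2 ha))
    (pow_ne_zero 2 (norm_ne_zero_iff.2 hb))]

theorem lb_hol {L : Bd M} (h : IsLB d L) {i j : L.ι} (hi : x ∈ L.U i) (hj : x ∈ L.U j) :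
    Hol d (L.g i j) x := fun e he => (h.holo i j e x he hi hj).analyticAt

theorem met_sm {L : Bd M} {ψ : L.ι → M → ℝ} (h : IsLB d L) (hψ : IsMet d L ψ) {i : L.ι}
    (hi : x ∈ L.U i) : ∀ᶠ y in 𝓝 x, SmR d (ψ i) y := by
  filter_upwards [(h.isOpen i).mem_nhds hi] with y hy e he using hψ.smooth i e y he hy

theorem isLB_mul {L N : Bd M} (h : IsLB d L) (k : IsLB d N) : IsLB d (L.mul N) where
  isOpen i := (h.isOpen i.1).inter (k.isOpen i.2)
  cover x := (h.cover x).elim fun i hi => (k.cover x).elim fun j hj => ⟨(i, j), hi, hj⟩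
  holo i j e x he hi hj := (h.holo _ _ e x he hi.1 hj.1).mul (k.holo _ _ e x he hi.2 hj.2)
  ne_zero i j x hi hj := mul_ne_zero (h.ne_zero _ _ x hi.1 hj.1) (k.ne_zero _ _ x hi.2 hj.2)
  cocycle i j l x hi hj hl := (mul_mul_mul_comm _ _ _ _).trans
    (congrArg₂ (· * ·) (h.cocycle _ _ _ x hi.1 hj.1 hl.1) (k.cocycle _ _ _ x hi.2 hj.2 hl.2))

theorem isLB_inv {L : Bd M} (h : IsLB d L) : IsLB d (Bd.inv L) where
  isOpen := h.isOpen
  cover := h.cover
  holo i j e x he hi hj := (h.holo i j e x he hi hj).inv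
    (by rw [e.left_inv he.2]; exact h.ne_zero i j x hi hj)
  ne_zero i j x hi hj := inv_ne_zero (h.ne_zero i j x hi hj)
  cocycle i j l x hi hj hl := (mul_inv _ _).symm.trans (congrArg _ (h.cocycle i j l x hi hj hl))

variable [IsManifold 𝓘(ℂ, Cm d) ω M]

theorem log_near (h : Hol d f x) (h0 : f x ≠ 0) :
    ∀ᶠ y in 𝓝 x, SmR d (fun y => Real.log (‖f y‖ ^ 2)) y :=
  (h.near.and (h.continuousAt'.eventually_ne h0)).mono fun _ k => smR_log k.1 k.2

theorem j11_ddc (hu : ∀ᶠ y in 𝓝 x, SmR d u y) : H38.J11 (ddc d u x) :=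
  (H38.ddc_at (.of_forall (isDc_dc u)) (hu.mono fun _ => smR_chart)).2.1

/-- `log |f|²` is pluriharmonic -/
theorem ddc_log (h : Hol d f x) (h0 : f x ≠ 0) :
    ddc d (fun y => Real.log (‖f y‖ ^ 2)) x = 0 := by
  have he := at_chartAt (n := d) x
  have h1 := (H38.ddc_at (.of_forall (isDc_dc (d := d) fun y => Real.log (‖f y‖ ^ 2)))
    ((log_near h h0).mono fun _ => smR_chart)).2.2
  rw [cHess_log_norm_sq (h _ he).contDiffAt (by rwa [he.left_inv]), smul_zero] at h1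
  refine H38.mat_inj (j11_ddc (log_near h h0)) (fun _ _ => rfl) (h1.trans ?_)
  simpa using (H38.mat_smul 0 (0 : Cm d [⋀^Fin 2]→L[ℝ] ℝ)).symm

theorem ddc_neg (hu : ∀ᶠ y in 𝓝 x, SmR d u y) : ddc d (fun y => -u y) x = -ddc d u x := by
  simpa using ddc_smul (-1) hu

theorem ddc_sub (hu : ∀ᶠ y in 𝓝 x, SmR d u y) (hv : ∀ᶠ y in 𝓝 x, SmR d v y) :
    ddc d (fun y => u y - v y) x = ddc d u x - ddc d v x := by
  simp only [sub_eq_add_neg]
  rw [ddc_add (v := fun y => -v y) hu (hv.mono fun y k e he => (k e he).neg), ddc_neg hv]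

theorem ddc_sum {ι : Type} (T : Finset ι) {w : ι → M → ℝ}
    (h : ∀ i ∈ T, ∀ᶠ y in 𝓝 x, SmR d (w i) y) :
    ddc d (fun y => ∑ i ∈ T, w i y) x = ∑ i ∈ T, ddc d (w i) x := by
  classical
  induction T using Finset.induction_on with
  | empty => exact congrFun (ddc_const 0) x
  | insert i T hi ih =>
    have h1 := fun j hj => h j (Finset.mem_insert_of_mem (b := i) hj)
    simp only [Finset.sum_insert hi]
    rw [ddc_add (h i (Finset.mem_insert_self i T))
      (((eventually_all_finset T).2 h1).mono fun _ => smR_sum), ih h1]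

theorem smAt_ddc (hu : ∀ᶠ y in 𝓝 x, SmR d u y) : SmAt (ddc d u) x ∧ dF (ddc d u) x = 0 := by
  obtain ⟨V, h1, h2, h3⟩ := eventually_nhds_iff.1 hu.eventually_nhds
  exact ⟨smAt_dF h2 (fun y hy => smAt_dc (h1 y hy)) h3, dF_dF h2 (fun y hy => smAt_dc (h1 y hy)) h3⟩

/-- forms with local potentials -/
theorem cl_of_loc {α : Fr d 2 M} (h : ∀ x, ∃ u, ∀ᶠ y in 𝓝 x, SmR d u y ∧ α y = ddc d u y) :
    Cl α ∧ Is11 α := by
  refine ⟨fun x => ?_, fun x => ?_⟩ <;> obtain ⟨u, hu⟩ := h x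
  · have h1 := smAt_ddc (hu.mono fun _ k => k.1)
    have h2 : α =ᶠ[𝓝 x] ddc d u := hu.mono fun _ k => k.2
    exact ⟨h1.1.congr h2, (dF_congr h2).trans h1.2⟩
  · rw [hu.self_of_nhds.2]
    exact j11_ddc (hu.mono fun _ k => k.1)

omit [IsManifold 𝓘(ℂ, Cm d) ω M] in
theorem isEx_of {α : Fr d 2 M} (u : M → ℝ)
    (h : ∀ x, ∃ v, SmR d v x ∧ α x = ddc d v x ∧ u =ᶠ[𝓝 x] v) : IsEx α :=
  ⟨u, fun x => (h x).elim fun _ k => ⟨smR_congr k.1 k.2.2, k.2.1.trans (ddc_congr k.2.2).symm⟩⟩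

variable {L N : Bd M} {ψ : L.ι → M → ℝ} {φ : N.ι → M → ℝ} {α β : Fr d 2 M}

theorem cv_of_met (h : IsLB d L) (hψ : IsMet d L ψ) : ∃ α : Fr d 2 M, IsCv L ψ α := by
  choose c hc using h.cover
  refine ⟨fun x => ddc d (ψ (c x)) x, h, hψ, fun i x hi => ?_⟩
  have h1 : ψ (c x) =ᶠ[𝓝 x] fun y => ψ i y + Real.log (‖L.g (c x) i y‖ ^ 2) := by
    filter_upwards [(h.isOpen i).mem_nhds hi, (h.isOpen _).mem_nhds (hc x)] with y k1 k2
      using hψ.change _ i y k2 k1
  have h2 := lb_hol h (hc x) hi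
  have h3 := h.ne_zero _ _ x (hc x) hi
  rw [ddc_congr h1, ddc_add (met_sm h hψ hi) (log_near h2 h3), ddc_log h2 h3, add_zero]

theorem cv_cl (h : IsCv L ψ α) : Cl α ∧ Is11 α := cl_of_loc fun x =>
  (h.lb.cover x).elim fun i hi => ⟨ψ i, (met_sm h.lb h.met hi).and
    (mem_of_superset ((h.lb.isOpen i).mem_nhds hi) (h.eq i))⟩

theorem cv_mul (h : IsCv L ψ α) (k : IsCv N φ β) :
    IsCv (L.mul N) (fun i x => ψ i.1 x + φ i.2 x) (α + β) where
  lb := isLB_mul h.lb k.lb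
  met := ⟨fun i e x he hi => (h.met.smooth _ e x he hi.1).add (k.met.smooth _ e x he hi.2),
    fun i j x hi hj => by
      rw [h.met.change _ _ x hi.1 hj.1, k.met.change _ _ x hi.2 hj.2, add_add_add_comm,
        ← log_mul (h.lb.ne_zero _ _ x hi.1 hj.1) (k.lb.ne_zero _ _ x hi.2 hj.2)]
      rfl⟩
  eq i x hi := by
    rw [ddc_add (met_sm h.lb h.met hi.1) (met_sm k.lb k.met hi.2), ← h.eq _ x hi.1, ← k.eq _ x hi.2]
    rfl

theorem cv_inv (h : IsCv L ψ α) : IsCv (Bd.inv L) (fun i x => -ψ i x) (-α) where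
  lb := isLB_inv h.lb
  met := ⟨fun i e x he hi => (h.met.smooth i e x he hi).neg, fun i j x hi hj => by
    rw [h.met.change i j x hi hj, neg_add, ← Real.log_inv, ← inv_pow, ← norm_inv]
    rfl⟩
  eq i x hi := by
    rw [ddc_neg (met_sm h.lb h.met hi), ← h.eq i x hi]
    rfl

theorem cv_triv : IsCv (Slc.triv M) (fun _ _ => 0) (0 : Fr d 2 M) where
  lb := Slc.isLB_triv
  met := ⟨fun _ _ _ _ _ => contDiffAt_const, fun _ _ _ _ _ => by simp [Slc.triv]⟩
  eq _ x _ := (congrFun (ddc_const 0) x).symm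

theorem cv_ex {ψ' : L.ι → M → ℝ} (h : IsCv L ψ α) (k : IsCv L ψ' β) : IsEx (α - β) := by
  choose c hc using h.lb.cover
  have h1 := fun x => met_sm h.lb h.met (hc x)
  have h2 := fun x => met_sm k.lb k.met (hc x)
  refine isEx_of (fun x => ψ (c x) x - ψ' (c x) x) fun x => ⟨fun y => ψ (c x) y - ψ' (c x) y,
    smR_sub (h1 x).self_of_nhds (h2 x).self_of_nhds, ?_, ?_⟩
  · rw [ddc_sub (h1 x) (h2 x), ← h.eq _ x (hc x), ← k.eq _ x (hc x)]
    rfl
  · filter_upwards [(h.lb.isOpen _).mem_nhds (hc x)] with y hy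
    rw [h.met.change _ _ y (hc y) hy, k.met.change _ _ y (hc y) hy, add_sub_add_right_eq_sub]

section pull

variable {d' : ℕ} {S : Type} [TopologicalSpace S] [ChartedSpace (Cm d') S]
  [IsManifold 𝓘(ℂ, Cm d') ω S] {F : S → M}

theorem hol_comp (hF : HolM d' d F) {z : S} (h : Hol d f (F z)) :
    Hol d' (fun y => f (F y)) z := by
  intro e he
  have h0 := at_chartAt (n := d) (F z)
  refine (AnalyticAt.comp_of_eq (h _ h0) (hF.2 z e _ he h0) (by rw [he.left_inv])).congr ?_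
  filter_upwards [((hF.1.tendsto z).comp (tendsto_symm he)).eventually (Slc.At.near h0)] with w hw
  exact congrArg f ((chartAt (Cm d) (F z)).left_inv hw.2)

theorem cv_pull (hF : HolM d' d F) (h : IsCv L ψ α) :
    IsCv (HD.pull F L) (fun i x => ψ i (F x)) (pb (Cm d') F α) where
  lb := ⟨fun i => (h.lb.isOpen i).preimage hF.1, fun x => h.lb.cover (F x),
    fun _ _ e _ he hi hj => (hol_comp hF (lb_hol h.lb hi hj) e he).contDiffAt,
    fun i j x => h.lb.ne_zero i j (F x), fun i j k x => h.lb.cocycle i j k (F x)⟩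
  met := ⟨fun _ e _ he hi => smR_comp hF (met_sm h.lb h.met hi).self_of_nhds e he,
    fun i j x => h.met.change i j (F x)⟩
  eq i x hi := by
    rw [← pb_ddc hF (met_sm h.lb h.met hi), pb, pb, h.eq i _ hi]

end pull

theorem ex_met [T2Space M] [CompactSpace M] (h : IsLB d L) : ∃ ψ, IsMet d L ψ :=
  (P301.H450.exists_metric (P285Z.Br.toLB L h)).imp fun _ => (P285Z.Br.same_toLB L h).met.1

end Gx

open Gx

theorem stLam : StLam := fun d X => by
  refine ⟨fun _ _ _ => cv_cl, fun L h => (ex_met h).imp fun _ => cv_of_met h,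
    fun a => ⟨fun h => ?_, fun h => AddSubgroup.subset_closure h⟩, fun _ _ _ _ _ => cv_ex,
    fun _ _ _ _ _ _ => cv_pull⟩
  induction h using AddSubgroup.closure_induction with
  | mem _ h => exact h
  | zero => exact ⟨_, _, cv_triv⟩
  | add _ _ _ _ h k => exact h.elim fun _ ⟨_, h⟩ => k.elim fun _ ⟨_, k⟩ => ⟨_, _, cv_mul h k⟩
  | neg _ _ h => exact h.elim fun _ ⟨_, h⟩ => ⟨_, _, cv_inv h⟩

theorem stGru : StGru := by
  intro d X ι T D m α α' g g' h h'
  have := ChartedSpace.secondCountable_of_sigmaCompact (Cm d) X.M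
  have h0 : ∀ i ∈ T, ∀ x, ∃ ζ, LEq d (D i) x ζ := fun i hi x =>
    (h x).elim fun ζ ⟨_, k, _⟩ => ⟨ζ i, k i hi⟩
  have hD : Dense (⋂ i ∈ T, (D i)ᶜ) := dense_biInter_of_isOpen
    (fun i hi => (Slc.isClosed_of_leq (h0 i hi)).isOpen_compl) T.countable_toSet fun i hi =>
      Slc.Dv.dense_compl (h0 i hi)
  refine isEx_of (extendFrom (⋂ i ∈ T, (D i)ᶜ) fun y => g' y - g y) fun x => ?_
  obtain ⟨ζ, u, h1, h2⟩ := h x
  obtain ⟨ζ', u', k1, k2⟩ := h' x
  choose! w w1 w2 w3 using fun i hi => Slc.stUnit d X.M (D i) x _ _ (h1 i hi) (k1 i hi)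
  have h3 := h2.mono fun _ k => k.1
  have k3 := k2.mono fun _ k => k.1
  have h4 : ∀ i ∈ T, ∀ᶠ y in 𝓝 x, SmR d (fun y => m i * Real.log (‖w i y‖ ^ 2)) y := fun i hi =>
    (log_near (w1 i hi) (w2 i hi)).mono fun _ => smR_mul (smR_const _)
  have h5 := ((eventually_all_finset T).2 h4).mono fun _ => smR_sum
  have h6 := (h3.and k3).mono fun _ k => smR_sub k.1 k.2
  have h7 := (h6.and h5).mono fun _ k => smR_add k.1 k.2
  refine ⟨_, h7.self_of_nhds, ?_, ?_⟩
  · rw [ddc_add h6 h5, ddc_sub h3 k3, ddc_sum T h4, Finset.sum_eq_zero fun i hi => by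
      rw [ddc_smul _ (log_near (w1 i hi) (w2 i hi)), ddc_log (w1 i hi) (w2 i hi), smul_zero],
      add_zero, ← h2.self_of_nhds.2.1, ← k2.self_of_nhds.2.1]
    rfl
  have h8 : ∀ᶠ y in 𝓝 x, y ∈ ⋂ i ∈ T, (D i)ᶜ → (u y - u' y) +
      ∑ i ∈ T, m i * Real.log (‖w i y‖ ^ 2) = g' y - g y := by
    filter_upwards [h2, k2, (eventually_all_finset T).2 fun i hi => ((w3 i hi).and
      ((w1 i hi).continuousAt'.eventually_ne (w2 i hi))).and (h1 i hi).1] with y a b c e
    have e' : ∀ i ∈ T, y ∉ D i := mem_iInter₂.1 e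
    rw [a.2.2 e', b.2.2 e', Finset.sum_congr rfl (f := fun i => m i * Real.log (‖ζ' i y‖ ^ 2))
      fun i hi => by rw [(c i hi).1.1, log_mul (c i hi).1.2 (mt (c i hi).2.1 (e' i hi)), mul_add],
      Finset.sum_add_distrib]
    ring
  filter_upwards [h7, h8.eventually_nhds] with y a b
  refine extendFrom_eq (hD y) (((smR_cont a).tendsto.mono_left nhdsWithin_le_nhds).congr' ?_)
  filter_upwards [self_mem_nhdsWithin, mem_nhdsWithin_of_mem_nhds b] with z c e using e c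

theorem stGrx : StGrx := by
  intro d X D O hD hO hDO
  have := ChartedSpace.secondCountable_of_sigmaCompact (Cm d) X.M
  obtain ⟨L, σ, hL⟩ := Slc.stDiv d X.M D hD
  obtain ⟨ψ, hψ⟩ := ex_met hL.lb
  obtain ⟨χ, h0, h1, -⟩ := exists_contMDiffMap_zero_one_nhds_of_isClosed (n := ⊤) 𝓘(ℝ, Cm d)
    hO.isClosed_compl hL.closed (disjoint_compl_left_iff_subset.2 hDO)
  have hχ : ∀ x, SmR d χ x := fun x e he => INT.smoothFn_of_contMDiff χ.contMDiff e x he
  choose c hc using hL.lb.cover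
  set G : X.M → ℝ := fun y => Real.log (‖σ (c y) y‖ ^ 2) - ψ (c y) y with hG
  have h2 : ∀ i, ∀ y ∈ L.U i, y ∉ D → G y = Real.log (‖σ i y‖ ^ 2) - ψ i y := fun i y hy k => by
    simp only [hG]
    rw [hL.sec.change _ i y (hc y) hy, hψ.change _ i y (hc y) hy,
      log_mul (hL.lb.ne_zero _ _ y (hc y) hy) (mt (hL.leq i y hy).mem.1 k)]
    ring
  have h3 : ∀ i, ∀ x ∈ L.U i, x ∉ D → G =ᶠ[𝓝 x] fun y => Real.log (‖σ i y‖ ^ 2) - ψ i y :=
    fun i x hx k => by
      filter_upwards [(hL.lb.isOpen i).mem_nhds hx, hL.closed.isOpen_compl.mem_nhds k] with y a b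
        using h2 i y a b
  have h4 : ∀ x, SmR d (fun y => (1 - χ y) * G y) x := fun x => by
    by_cases k : x ∈ D
    · refine smR_congr (smR_const 0) ?_
      filter_upwards [(nhds_le_nhdsSet k) h1] with y hy
      rw [hy, sub_self, zero_mul]
    · exact smR_mul (smR_sub (smR_const 1) (hχ x)) (smR_congr (smR_sub
        (smR_log (hL.leq _ x (hc x)).hol (mt (hL.leq _ x (hc x)).mem.1 k))
        (met_sm hL.lb hψ (hc x)).self_of_nhds) (h3 _ x (hc x) k))
  have h5 : IsMet d L fun i y => ψ i y + (1 - χ y) * G y :=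
    ⟨fun i e x he hi => (hψ.smooth i e x he hi).add (h4 x e he), fun i j x hi hj => by
      rw [hψ.change i j x hi hj, add_right_comm]⟩
  obtain ⟨α, hα⟩ := cv_of_met hL.lb h5
  have h6 : D ⊆ tsupport χ := fun x hx => subset_tsupport _ (by
    rw [Function.mem_support, h1.self_of_nhdsSet x hx]
    exact one_ne_zero)
  refine ⟨⟨α, cv_cl hα⟩, fun y => χ y * G y, tsupport χ, AddSubgroup.subset_closure ⟨L, _, hα⟩,
    fun x => ⟨fun _ => σ (c x), fun y => ψ (c x) y + (1 - χ y) * G y,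
      fun _ _ => hL.leq _ x (hc x), ?_⟩, isClosed_tsupport _, h6,
    fun x hx => by_contra fun k => notMem_tsupport_iff_eventuallyEq.2 ((nhds_le_nhdsSet k) h0) hx,
    fun x hx => ⟨mul_eq_zero_of_left (image_eq_zero_of_notMem_tsupport hx) _, ?_⟩⟩
  · filter_upwards [met_sm hL.lb h5 (hc x), (hL.lb.isOpen _).mem_nhds (hc x)] with y a b
    refine ⟨a, hα.eq _ y b, fun k => ?_⟩
    rw [Fintype.sum_unique, h2 _ y b (k () (Finset.mem_univ _))]
    ring
  · have k : x ∉ D := fun k => hx (h6 k)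
    refine (hα.eq _ x (hc x)).trans ((ddc_congr ?_).trans
      (ddc_log (hL.leq _ x (hc x)).hol (mt (hL.leq _ x (hc x)).mem.1 k)))
    filter_upwards [h3 _ x (hc x) k, notMem_tsupport_iff_eventuallyEq.1 hx] with y a b
    rw [a, b, Pi.zero_apply]
    ring

end Vale.Agent.P277Z.Top
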