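import Vale.Agent.P277Z.Top.Defs
import Vale.Agent.P277Z.Slc.Deg

/-!
# P277, block TOP: the statements
-/

set_option linter.all false
set_option maxSynthPendingDepth 3

open scoped Manifold ContDiff Topology
open Vale.Agent.P272.K Vale.Agent.P285.H281.FD Vale.Agent.P277 Set Filter Module
open Vale.Agent.P267.H175 (SmAt dF)
open Vale.Agent.P277.PH (HolF SmR)
open Vale.Agent.P277.T3 (ThinM)
open Vale.Agent.P277Z.Tr (pb HolM Ctr)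
open Vale.Agent.P277Z.Val (Lg Sb Hom Res Good Tp Sf N3)
open Vale.Agent.P277Z.Slc (LEq RS dZ)

noncomputable section

namespace Vale.Agent.P277Z.Top

/-- **TOP** -/
def StTop : Prop :=
  ∀ (V V₀ U : Lg) (a : Fin V.r → ℝ) (Y : CSp) (ψ : V.W → Y.pt) (α : ℝ) (π : V.W → V₀.W)
    (μ : V.W → U.W) (p : U.W → Y.pt), Hyp₀ V a Y ψ α U μ p →
    Hom V V₀ π → (∀ l, a l < 0 → ¬ ThinM 4 2 (π '' V.G l)) → Val.Top V a Y ψ α V₀.cmp.card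

/-! ### Forms -/

/-- **PL**: the formula of Poincare and Lelong -/
def StPL : Prop :=
  ∀ (d : ℕ) (X : Mf (d + 1)) (ι : Type) (T : Finset ι) (N : ι → Mf d) (j : ∀ i, (N i).M → X.M)
    (m : ι → ℝ) (α : Fr (d + 1) 2 X.M) (g : X.M → ℝ) (K O : Set X.M)
    (φ : Fr (d + 1) (2 * d) X.M), (∀ i ∈ T, Sb d (d + 1) (j i)) →
    IsGr T (fun i => range (j i)) m α g → IsClosed K → IsOpen O → K ⊆ O →
    (∀ i ∈ T, range (j i) ⊆ K) → (∀ x ∉ K, g x = 0) → Sm φ → (∀ x ∈ O, dF φ x = 0) →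
    X.int (wd α φ) = ∑ i ∈ T, m i * (N i).int (pb (Cm d) (j i) φ)

/-- **GRX**: Green functions with small support -/
def StGrx : Prop :=
  ∀ (d : ℕ) (X : Mf d) (D O : Set X.M), (∀ x, ∃ ζ, LEq d D x ζ) → IsOpen O → D ⊆ O →
    ∃ (α : C11 X) (g : X.M → ℝ) (K : Set X.M), α ∈ Lam X ∧ IsGr1 D α.1 g ∧ IsClosed K ∧
      D ⊆ K ∧ K ⊆ O ∧ ∀ x ∉ K, g x = 0 ∧ α.1 x = 0

/-- **GRU**: the class of a divisor is unique -/
def StGru : Prop :=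
  ∀ (d : ℕ) (X : Mf d) (ι : Type) (T : Finset ι) (D : ι → Set X.M) (m : ι → ℝ)
    (α α' : Fr d 2 X.M) (g g' : X.M → ℝ), IsGr T D m α g → IsGr T D m α' g' → IsEx (α - α')

/-- **LAM**: curvature forms -/
def StLam : Prop :=
  ∀ (d : ℕ) (X : Mf d),
    (∀ (L : Bd X.M) ψ α, IsCv (d := d) L ψ α → α ∈ C11 X) ∧
    (∀ L : Bd X.M, IsLB d L → ∃ ψ α, IsCv (d := d) L ψ α) ∧
    (∀ a : C11 X, a ∈ Lam X ↔ ∃ (L : Bd X.M) (ψ : L.ι → X.M → ℝ), IsCv L ψ a.1) ∧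
    (∀ (L : Bd X.M) ψ ψ' α α', IsCv (d := d) L ψ α → IsCv L ψ' α' → IsEx (α - α')) ∧
    ∀ (d' : ℕ) (X' : Mf d') (f : X'.M → X.M) (L : Bd X.M) ψ α, HolM d' d f →
      IsCv (d := d) L ψ α → IsCv (HD.pull f L) (fun i x => ψ i (f x)) (pb (Cm d') f α)

/-- **INT**: the degree is the integral of the curvature -/
def StInt : Prop :=
  ∀ (R : RS) (L : Bd R.C) (ψ : L.ι → R.C → ℝ) (α : Fr 1 2 R.C), IsCv L ψ α →
    (⟨R.C⟩ : Mf 1).int α = dZ R L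

/-- **HI**: the Hodge index theorem in dimensions one, two and three -/
def StHI : Prop :=
  (∀ X : Mf 1, ConnectedSpace X.M → ∀ x : C11 X, X.int x.1 = 0 → IsEx x.1) ∧
  (∀ X : Mf 2, ConnectedSpace X.M → ∀ w x : C11 X, Pd w.1 → B2 X x.1 w.1 = 0 →
    B2 X x.1 x.1 ≤ 0 ∧ (B2 X x.1 x.1 = 0 → IsEx x.1)) ∧
  ∀ X : Mf 3, ConnectedSpace X.M → ∀ w x : C11 X, Pd w.1 → T3 X w.1 x.1 w.1 = 0 →
    T3 X w.1 x.1 x.1 ≤ 0 ∧ (T3 X w.1 x.1 x.1 = 0 → IsEx x.1)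

/-- **POS**: positivity of integrals -/
def StPos : Prop :=
  (∀ (X : Mf 1) (o : Fr 1 2 X.M), Sm o → Psd o → 0 ≤ X.int o ∧ (o ≠ 0 → 0 < X.int o)) ∧
  (∀ (X : Mf 2) (o w : Fr 2 2 X.M), Sm o → Is11 o → Psd o → Sm w → Is11 w → Psd w →
    0 ≤ B2 X o w ∧ (∀ x, o x ≠ 0 → (∀ v, v ≠ 0 → 0 < w x ![v, Complex.I • v]) → 0 < B2 X o w)) ∧
  ∀ (X : Mf 3) (o w : Fr 3 2 X.M), Sm o → Is11 o → Psd o → o ≠ 0 → Sm w → Is11 w → Pd w →
    0 < T3 X o w w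

/-- **RK**: maps of small rank -/
def StRk : Prop :=
  ∀ (d n : ℕ) (X : Mf (d + 1)) (Z : Mf n) (f : X.M → Z.M), HolM (d + 1) n f →
    (Ctr (d + 1) n f → (∀ θ : Fr n (2 * (d + 1)) Z.M, pb (Cm (d + 1)) f θ = 0) ∧
      (∀ θ : Fr n (2 * d + 1) Z.M, pb (Cm (d + 1)) f θ = 0) ∧
      (Nonempty Z.M → ThinM n d (range f))) ∧
    (ConnectedSpace X.M → ∀ O, IsOpen O → O.Nonempty → ThinM n d (f '' O) → Ctr (d + 1) n f)

/-- **DEG**: surfaces with the same image define proportional currents -/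
def StDeg : Prop :=
  ∀ (n : ℕ) (X X' : Mf 2) (Z : Mf n) (f : X.M → Z.M) (f' : X'.M → Z.M), ConnectedSpace X.M →
    HolM 2 n f → HolM 2 n f' → range f' ⊆ range f → ∃ l : ℝ, (¬ Ctr 2 n f' → 0 < l) ∧
      ∀ θ : Fr n 4 Z.M, Sm θ → X'.int (pb (Cm 2) f' θ) = l * X.int (pb (Cm 2) f θ)

/-! ### The base -/

/-- **BAS** -/
def StBas : Prop := ∀ Y : CSp, Nonempty (Bas Y)

/-- **FORM**: the pull back of the positive form of the base -/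
def StForm : Prop :=
  ∀ (Y : CSp) (B : Bas Y) (d : ℕ) (X : Mf d) (f : X.M → Y.pt), HolY d Y f →
    Sm (B.form d f) ∧ Is11 (B.form d f) ∧ Psd (B.form d f) ∧
    (∀ x v, B.form d f x ![v, Complex.I • v] = 0 ↔ ∀ h, Y.Hol h (f x) →
      fderiv ℂ (fun z => h (f ((chartAt (Cm d) x).symm z))) (chartAt (Cm d) x x) v = 0) ∧
    (DimLe Y 1 (range f) → Cl (B.form d f) ∧ wd (B.form d f) (B.form d f) = 0) ∧
    ((range f).Subsingleton → B.form d f = 0) ∧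
    (ConnectedSpace X.M → ¬ (range f).Subsingleton → B.form d f ≠ 0) ∧
    ∀ (d' : ℕ) (X' : Mf d') (j : X'.M → X.M), HolM d' d j →
      pb (Cm d') j (B.form d f) = B.form d' fun x => f (j x)

/-- **POL**: polarisations -/
def StPol : Prop :=
  ∀ (U : Lg) (Y : CSp) (p : U.W → Y.pt), Res U Y p Finset.univ → Nonempty (Pol U Y p)

/-- **IRR**: curves which are images of connected manifolds are irreducible -/
def StIrr : Prop :=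
  ∀ (Y : CSp) (d : ℕ) (X : Mf d) (f : X.M → Y.pt), ConnectedSpace X.M → HolY d Y f →
    DimLe Y 1 (range f) →
    (∀ B : Set Y.pt, IsAn Y univ B → ¬ (range f ∩ B).Countable → range f ⊆ B) ∧
    (∀ (d' : ℕ) (X' : Mf d') (f' : X'.M → Y.pt), HolY d' Y f' → DimLe Y 1 (range f') →
      ¬ (range f ∩ range f').Countable → range f ⊆ range f') ∧
    (¬ (range f).Subsingleton → ¬ (range f).Countable ∧
      {y ∈ range f | ¬ ∃ O t g Δ, IsDisc Y (range f) O t g Δ ∧ y ∈ O}.Countable)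

/-- The manifolds `N i` are the components of the smooth fibre of `f` over `y`. -/
structure IsFib {d : ℕ} {X : Mf (d + 1)} {Y : CSp} (f : X.M → Y.pt) (y : Y.pt) {J : Type}
    (N : J → Mf d) (j : ∀ i, (N i).M → X.M) : Prop where
  emb : ∀ i, Sb d (d + 1) (j i)
  conn : ∀ i, ConnectedSpace (N i).M
  disj : ∀ i i', i ≠ i' → Disjoint (range (j i)) (range (j i'))
  rng : ⋃ i, range (j i) = f ⁻¹' {y}

/-- **FIB**: integration over the fibres -/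
def StFib : Prop :=
  ∀ (Y : CSp) (B : Bas Y) (d : ℕ) (X : Mf (d + 1)) (f : X.M → Y.pt), ConnectedSpace X.M →
    HolY (d + 1) Y f → DimLe Y 1 (range f) → ¬ (range f).Subsingleton →
    ∃ κ : ℝ, 0 < κ ∧ ∀ O t g Δ, IsDisc Y (range f) O t g Δ → ∀ s ∈ Δ,
      (∀ x, f x = g s → Sub (d + 1) (fun x => t (f x)) x) →
      (∃ (J : Type) (_ : Fintype J) (N : J → Mf d) (j : ∀ i, (N i).M → X.M), IsFib f (g s) N j) ∧
      ∀ (J : Type) [Fintype J] (N : J → Mf d) (j : ∀ i, (N i).M → X.M), IsFib f (g s) N j →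
        ∀ φ : Fr (d + 1) (2 * d) X.M, Cl φ →
          X.int (wd (B.form (d + 1) f) φ) = κ * ∑ i, (N i).int (pb (Cm d) (j i) φ)

/-- **EQD**: all components of all smooth fibres have the same integrals -/
def StEqd : Prop :=
  ∀ (Y : CSp) (d : ℕ) (X : Mf (d + 1)) (f : X.M → Y.pt), ConnectedSpace X.M →
    HolY (d + 1) Y f → DimLe Y 1 (range f) → ∀ φ : Fr (d + 1) (2 * d) X.M, Cl φ →
    ∃ δ : ℝ, ∀ O t g Δ, IsDisc Y (range f) O t g Δ → ∀ s ∈ Δ,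
      (∀ x, f x = g s → Sub (d + 1) (fun x => t (f x)) x) →
      ∀ (J : Type) [Fintype J] (N : J → Mf d) (j : ∀ i, (N i).M → X.M), IsFib f (g s) N j →
        ∀ i, (N i).int (pb (Cm d) (j i) φ) = δ

/-- **RAT**: the degrees on the fibres are rational -/
def StRat : Prop :=
  ∀ (Y : CSp) (B : Bas Y) (X : Mf 2) (f : X.M → Y.pt), ConnectedSpace X.M → HolY 2 Y f →
    DimLe Y 1 (range f) → ∃ κ : ℝ, ∀ x ∈ Lam X, ∃ q : ℚ, B2 X x.1 (B.form 2 f) = q * κ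

/-! ### Models -/

/-- **PAR** -/
def StPar : Prop := ∀ V : Lg, Nonempty (Par V)

/-- **GRN** -/
def StGrn : Prop :=
  ∀ (V : Lg) (P : Par V) (l : Fin V.r) (m : Set V.W → ℝ), V.Green l m → P.Cls l m 0

/-- **EX**: the intersection data exist -/
def StEx : Prop :=
  ∀ (U : Lg) (Y : CSp) (p : U.W → Y.pt) (Q : Par U) (R : Pol U Y p), Res U Y p Finset.univ →
    DimLe Y 1 (p '' U.E) → ∃ C : Cf Q, IsCfg Q R C

/-- **GYS** -/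
def StGys : Prop :=
  ∀ (U : Lg) (Y : CSp) (p : U.W → Y.pt) (Q : Par U) (R : Pol U Y p) (C : Cf Q), IsCfg Q R C →
    ∀ a : ∀ k, C11 (Q.H k), (∀ Φ : Fr 4 4 U.W, Cl Φ →
      ∑ k, (Q.H k).int (wd (a k).1 (pb (Cm 3) (Q.ι k) Φ)) = 0) → C.Gys a

/-- **GOOD** -/
def StGood : Prop :=
  ∀ (U : Lg) (Y : CSp) (p : U.W → Y.pt) (Q : Par U) (R : Pol U Y p) (C : Cf Q),
    Res U Y p Finset.univ → DimLe Y 1 (p '' U.E) → IsCfg Q R C →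
    C.Good ∧ ∀ e, C.Gys (C.g1 e)

/-- The maps of the strict transforms. -/
structure IsLift {V U : Lg} (P : Par V) (Q : Par U) (μ : V.W → U.W) (s : Fin U.r → Fin V.r)
    (ν : ∀ k, (P.H (s k)).M → (Q.H k).M) : Prop where
  hol : ∀ k, HolM 3 3 (ν k)
  fac : ∀ k x, Q.ι k (ν k x) = μ (P.ι (s k) x)
  int : ∀ k (θ : Fr 3 6 (Q.H k).M), Sm θ →
    (P.H (s k)).int (pb (Cm 3) (ν k) θ) = (Q.H k).int θ

/-- **LIFT** -/
def StLift : Prop :=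
  ∀ (V U : Lg) (P : Par V) (Q : Par U) (μ : V.W → U.W) (s : Fin U.r → Fin V.r) X,
    Dom V U μ s X → (∃ ν, IsLift P Q μ s ν) ∧ ∀ θ : Fr 4 8 U.W, Sm θ →
      (lgM V).int (pb (Cm 4) μ θ) = (lgM U).int θ

/-- **EDGE**: the pull back of a double surface -/
def StEdge : Prop :=
  ∀ (V U : Lg) (P : Par V) (Q : Par U) (μ : V.W → U.W) (s : Fin U.r → Fin V.r) X ν,
    Dom V U μ s X → IsLift P Q μ s ν → ∀ c ∈ U.cmp, ∀ (Y : CSp) (p : U.W → Y.pt) (_ : Pol U Y p),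
    HolY 4 Y p → DimLe Y 1 (p '' U.E) → ∀ (β : Fr 3 2 (Q.H c.1).M) (g : (Q.H c.1).M → ℝ),
    IsGr1 (range (Q.j c.1 c.2)) β g → ∃ m : Set V.W → ℝ,
      P.Cls (s c.1) m (pb (Cm 3) (ν c.1) β) ∧ ∀ θ : Fr 4 4 U.W, Sm θ →
        ∑ T ∈ cl V (s c.1), m T * (P.S T).int (pb (Cm 2) (P.ι₂ T) (pb (Cm 4) μ θ)) =
          (Q.S c.2).int (pb (Cm 2) (Q.ι₂ c.2) θ)

/-- **REP1**: the class of the image of a surface -/
def StRep1 : Prop :=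
  ∀ (V U : Lg) (P : Par V) (Q : Par U) (μ : V.W → U.W) (s : Fin U.r → Fin V.r) X ν,
    Dom V U μ s X → IsLift P Q μ s ν → ∀ c ∈ V.cmp, μ '' c.2 ⊆ U.E → c.1 ∉ X → ∃ (k : Fin U.r) (m : Set V.W → ℝ) (β : C11 (Q.H k)),
      β ∈ Submodule.span ℝ (Lam (Q.H k) : Set (C11 (Q.H k))) ∧
      P.Cls (s k) m (pb (Cm 3) (ν k) β.1) ∧ (∀ T, m T ≠ 0 → μ '' T ⊆ μ '' c.2) ∧
      ∀ θ : Fr 4 4 U.W, Sm θ →
        ∑ T ∈ cl V (s k), m T * (P.S T).int (pb (Cm 2) (P.ι₂ T) (pb (Cm 4) μ θ)) =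
          (P.S c.2).int (pb (Cm 2) (P.ι₂ c.2) (pb (Cm 4) μ θ))

/-- **REP**: the classes of the relations -/
def StRep : Prop :=
  ∀ (V U : Lg) (a : Fin V.r → ℝ) (Y : CSp) (ψ : V.W → Y.pt) (α : ℝ) (μ : V.W → U.W)
    (s : Fin U.r → Fin V.r) (p : U.W → Y.pt) (P : Par V) (Q : Par U) ν,
    Hyp V a Y ψ α U μ s p → IsLift P Q μ s ν →
    ∃ (R : Submodule ℝ (Fin V.r × Set V.W → ℝ)) (m : R →ₗ[ℝ] (Fin V.r × Set V.W → ℝ))
      (β : R →ₗ[ℝ] ∀ k, C11 (Q.H k)), R ≤ V.RG (Tp V a α) ∧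
      finrank ℝ (V.RG (Tp V a α)) ≤ finrank ℝ R + (Sf V a Y ψ α).card ∧ ∀ ρ : R,
        (∀ k, β ρ k ∈ Submodule.span ℝ (Lam (Q.H k) : Set (C11 (Q.H k)))) ∧
        (∀ k, P.Cls (s k) (fun T => m ρ (s k, T)) (pb (Cm 3) (ν k) (β ρ k).1)) ∧
        (∀ c, m ρ c ≠ 0 → c ∈ V.cmp ∧ c.1 ∈ range s ∧
          ∃ l, a l + 1 < α ∧ ψ '' c.2 ⊆ ψ '' V.G l) ∧
        ∀ θ : Fr 4 4 U.W, Sm θ → P.Z (m ρ) (pb (Cm 4) μ θ) = P.Z ρ.1 (pb (Cm 4) μ θ)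

/-- **DOM**: strict transforms -/
def StDom : Prop :=
  ∀ (V U : Lg) (Y : CSp) (ψ : V.W → Y.pt) (exc : Finset (Fin V.r)) (μ : V.W → U.W)
    (p : U.W → Y.pt), IsNormal 4 Y → Res V Y ψ exc → Res U Y p Finset.univ → HolM 4 4 μ →
    (∀ y, p (μ y) = ψ y) → ∃ s, Dom V U μ s exc

/-- **TR** -/
def StTR : Prop :=
  ∀ (V V₀ U : Lg) (π : V.W → V₀.W) (μ : V.W → U.W) (s : Fin U.r → Fin V.r) (P : Par V)
    (L : Set (Fin V.r)) X, Hom V V₀ π → Dom V U μ s X →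
    (∀ l ∈ L, ¬ ThinM 4 2 (π '' V.G l) ∧ l ∉ X) →
    ∀ R : Submodule ℝ (Fin V.r × Set V.W → ℝ),
      (∀ ρ ∈ R, (∀ c, ρ c ≠ 0 → c ∈ V.cmp ∧ c.1 ∈ L) ∧ ∃ ρ', (∀ c, c.1 ∈ L → ρ' c = ρ c) ∧
        P.Nul ρ' ∧ ∀ θ : Fr 4 4 U.W, Sm θ → P.Z ρ' (pb (Cm 4) μ θ) = 0) →
      finrank ℝ R ≤ V₀.cmp.card

open Classical in
/-- **CLS**: the class group step -/
def StCls : Prop :=
  ∀ (V U : Lg) (a : Fin V.r → ℝ) (Y : CSp) (ψ : V.W → Y.pt) (α : ℝ) (μ : V.W → U.W)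
    (s : Fin U.r → Fin V.r) (p : U.W → Y.pt) (Q : Par U) (R : Pol U Y p) (C : Cf Q),
    Hyp V a Y ψ α U μ s p → IsCfg Q R C → ∀ (k₀ : Fin U.r) (l : Fin V.r),
    ¬ (p '' U.G k₀).Subsingleton → a l + 1 < α → p '' U.G k₀ ⊆ ψ '' V.G l →
    C.Cls (fun k => Lam (Q.H k)) {k | p '' U.G k = p '' U.G k₀}
      (Finset.univ.filter fun k => 0 < a k ∧ a k < α ∧ ψ '' V.G k = p '' U.G k₀).card

end Vale.Agent.P277Z.Top
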