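import Vale.Agent.P277Z.Top.Ddc
import Vale.Agent.P277Z.Top.Sk

/-!
# P277, block TOP: Green functions (rows GRX, GRU) and the formula of Poincare and Lelong (row PL)
-/

set_option maxSynthPendingDepth 3

open scoped Manifold ContDiff Topology Real
open Vale.Agent.P267.H175 Filter Set MeasureTheory
open Vale.Agent.P277Z.Tr (pb intG rb HolM intG_smul intG_sub)
open Vale.Agent.P272.K (Cm Chart At)
open Vale.Agent.P285.H281.FD
open Vale.Agent.P277.PH (SmR)
open Vale.Agent.P277Z.Slc (at_chartAt tendsto_symm LEq stUnit stDiv isClosed_of_leq)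
open Vale.Agent.P277Z.Val (Sb)

noncomputable section

namespace Vale.Agent.P277Z.Top.PL

variable {n : ℕ}

instance mfSc (X : Mf n) : SecondCountableTopology X.M :=
  ChartedSpace.secondCountable_of_sigmaCompact (Cm n) X.M

theorem dense_off {X : Mf n} {ι : Type} {T : Finset ι} {D : ι → Set X.M}
    (h : ∀ i ∈ T, ∀ x, ∃ ζ, LEq n (D i) x ζ) : Dense {y | ∀ i ∈ T, y ∉ D i} := by
  classical
  induction T using Finset.induction_on with
  | empty => simp
  | insert i T hi ih =>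
    have h1 := h i (Finset.mem_insert_self i T)
    have h2 := (Slc.Dv.dense_compl h1).inter_of_isOpen_left
      (ih fun j hj => h j (Finset.mem_insert_of_mem hj)) (isClosed_of_leq h1).isOpen_compl
    refine h2.mono fun y hy => ?_
    simp only [mem_ofPred_eq, Finset.forall_mem_insert]
    exact ⟨hy.1, hy.2⟩

theorem _root_.Vale.Agent.P277Z.Top.IsGr.dense {X : Mf n} {ι : Type} {T : Finset ι} {D : ι → Set X.M} {m : ι → ℝ}
    {α : Fr n 2 X.M} {g : X.M → ℝ} (h : IsGr T D m α g) : Dense {y | ∀ i ∈ T, y ∉ D i} :=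
  dense_off fun i hi x => by
    obtain ⟨ζ, u, h1, -⟩ := h x
    exact ⟨ζ i, h1 i hi⟩

theorem glue {M : Type} [TopologicalSpace M] {G : Set M} (hG : Dense G) {f : M → ℝ} {F : M → M → ℝ}
    (hF : ∀ x, ∀ᶠ y in 𝓝 x, ContinuousAt (F x) y ∧ (y ∈ G → F x y = f y)) (x : M) :
    (fun y => F y y) =ᶠ[𝓝 x] F x := by
  filter_upwards [(hF x).eventually_nhds] with y hy
  refine tendsto_nhds_unique_of_frequently_eq (hF y).self_of_nhds.1 hy.self_of_nhds.1 ?_
  refine ((mem_closure_iff_frequently.1 (hG y)).and_eventually (hy.and (hF y))).mono fun z hz => ?_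
  rw [hz.2.2.2 hz.1, hz.2.1.2 hz.1]

/-- the difference of two Green functions is smooth -/
theorem gru_aux {X : Mf n} {ι : Type} {T : Finset ι} {D : ι → Set X.M} {m : ι → ℝ}
    {α α' : Fr n 2 X.M} {g g' : X.M → ℝ} (h : IsGr T D m α g) (h' : IsGr T D m α' g') :
    ∃ u : X.M → ℝ, (∀ x, SmR n u x ∧ (α - α') x = ddc n u x) ∧
      ∀ x, (∀ i ∈ T, x ∉ D i) → u x = g' x - g x := by
  have key : ∀ x, ∃ F : X.M → ℝ, ∀ᶠ y in 𝓝 x, SmR n F y ∧ (α - α') y = ddc n F y ∧
      ((∀ i ∈ T, y ∉ D i) → F y = g' y - g y) := by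
    intro x
    obtain ⟨ζ, u, h1, h2⟩ := h x
    obtain ⟨ζ', u', h1', h2'⟩ := h' x
    have h3 : ∀ i, ∃ w : X.M → ℂ, i ∈ T → ∀ᶠ y in 𝓝 x, Hol n w y ∧ w y ≠ 0 ∧
        ζ' i y = w y * ζ i y ∧ (ζ i y = 0 ↔ y ∈ D i) := by
      intro i
      by_cases hi : i ∈ T
      · obtain ⟨w, k1, k2, k3⟩ := stUnit n X.M (D i) x _ _ (h1 i hi) (h1' i hi)
        refine ⟨w, fun _ => ?_⟩
        filter_upwards [k1.near, k1.continuousAt.eventually_ne k2, k3, (h1 i hi).1] with y a b c e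
          using ⟨a, b, c, e⟩
      · exact ⟨0, fun h => absurd h hi⟩
    choose w hw using h3
    refine ⟨fun y => ∑ i ∈ T, m i * Real.log (‖w i y‖ ^ 2) + (u y - u' y), ?_⟩
    filter_upwards [(Finset.eventually_all T).2 hw, h2.eventually_nhds, h2'.eventually_nhds]
      with y k1 k2 k2'
    have s1 : ∀ i ∈ T, ∀ᶠ z in 𝓝 y, SmR n (fun z => m i * Real.log (‖w i z‖ ^ 2)) z := fun i hi =>
      (smR_log_ev (k1 i hi).1 (k1 i hi).2.1).mono fun _ hz => smR_mul (smR_const _) hz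
    have s2 := ((Finset.eventually_all T).2 s1).mono fun _ hz => smR_sum hz
    have s3 := k2.mono fun _ hz => hz.1
    have s4 := k2'.mono fun _ hz => hz.1
    have s5 := (s3.and s4).mono fun _ hz => smR_sub hz.1 hz.2
    refine ⟨smR_add s2.self_of_nhds s5.self_of_nhds, ?_, fun hy => ?_⟩
    · rw [ddc_add' s2 s5, ddc_sum s1, ddc_sub s3 s4, Finset.sum_eq_zero, zero_add, Pi.sub_apply,
        k2.self_of_nhds.2.1, k2'.self_of_nhds.2.1]
      intro i hi
      rw [ddc_mul, ddc_log' (k1 i hi).1 (k1 i hi).2.1, smul_zero]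
    · rw [k2.self_of_nhds.2.2 hy, k2'.self_of_nhds.2.2 hy]
      have h4 : ∑ i ∈ T, m i * Real.log (‖ζ' i y‖ ^ 2) =
          ∑ i ∈ T, m i * Real.log (‖w i y‖ ^ 2) + ∑ i ∈ T, m i * Real.log (‖ζ i y‖ ^ 2) := by
        rw [← Finset.sum_add_distrib]
        refine Finset.sum_congr rfl fun i hi => ?_
        obtain ⟨-, a, b, c⟩ := k1 i hi
        rw [b, norm_mul, mul_pow, Real.log_mul (pow_ne_zero 2 (norm_ne_zero_iff.2 a))
          (pow_ne_zero 2 (norm_ne_zero_iff.2 (mt c.1 (hy i hi)))), mul_add]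
      rw [h4]
      ring
  choose F hF using key
  have hg := glue h.dense (f := fun y => g' y - g y) (F := F) fun x =>
    (hF x).mono fun y hy => ⟨smR_cont hy.1, hy.2.2⟩
  exact ⟨fun y => F y y, fun x => ⟨smR_congr (hF x).self_of_nhds.1 (hg x),
    (hF x).self_of_nhds.2.1.trans (ddc_congr (hg x)).symm⟩, fun x hx => (hF x).self_of_nhds.2.2 hx⟩

theorem gru : StGru := fun _ _ _ _ _ _ _ _ _ _ h h' =>
  let ⟨u, hu, _⟩ := gru_aux h h'
  ⟨u, hu⟩

/-- finite smooth partitions of unity -/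
theorem exists_fpou (X : Mf n) {W : X.M → Set X.M} (hW : ∀ x, IsOpen (W x)) (hx : ∀ x, x ∈ W x) :
    ∃ (F : Finset X.M) (ρ : X.M → X.M → ℝ), (∀ a y, SmR n (ρ a) y) ∧ (∀ a y, 0 ≤ ρ a y) ∧
      (∀ a, tsupport (ρ a) ⊆ W a) ∧ ∀ y, ∑ a ∈ F, ρ a y = 1 := by
  obtain ⟨ρ, hρ⟩ := SmoothPartitionOfUnity.exists_isSubordinate (M := X.M) 𝓘(ℝ, Cm n)
    (s := univ) isClosed_univ W hW (fun x _ => mem_iUnion.2 ⟨x, hx x⟩)
  have hfin : {i | (Function.support (ρ i)).Nonempty}.Finite :=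
    ρ.locallyFinite.finite_nonempty_of_compact
  refine ⟨hfin.toFinset, fun a => ρ a, fun a => smR_of_contMDiff (ρ a).contMDiff, ρ.nonneg, hρ,
    fun y => ?_⟩
  rw [← ρ.sum_eq_one (mem_univ y), finsum_eq_sum_of_support_subset]
  intro i hi
  exact hfin.mem_toFinset.2 ⟨y, hi⟩

theorem grx : StGrx := by
  classical
  intro n X D O hD hO hDO
  obtain ⟨L, σ, hL⟩ := stDiv n X.M D hD
  have hDc : IsClosed D := isClosed_of_leq hD
  choose c hc using hL.lb.cover
  obtain ⟨F, ρ, hρ, -, hW, hone⟩ := exists_fpou X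
    (W := fun a => if a ∈ D then L.U (c a) ∩ O else Dᶜ)
    (fun a => by split_ifs; exacts [(hL.lb.isOpen _).inter hO, hDc.isOpen_compl])
    (fun a => by split_ifs with h; exacts [⟨hc a, hDO h⟩, h])
  set A : X.M → L.ι → X.M → ℂ := fun a i => if a ∈ D then L.g i (c a) else σ i with hA
  set b : X.M → X.M → ℂ := fun a => if a ∈ D then σ (c a) else 1 with hb
  have hA1 : ∀ a i y, y ∈ L.U i → y ∈ tsupport (ρ a) → Hol n (A a i) y ∧ A a i y ≠ 0 ∧
      σ i y = A a i y * b a y ∧ ∀ j, y ∈ L.U j → A a j y = L.g j i y * A a i y := by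
    intro a i y hi hy
    have h1 := hW a hy
    by_cases ha : a ∈ D
    · simp only [hA, hb, if_pos ha] at h1 ⊢
      exact ⟨fun e he => (hL.lb.holo _ _ e y he hi h1.1).analyticAt, hL.lb.ne_zero _ _ y hi h1.1,
        hL.sec.change _ _ y hi h1.1, fun j hj => (hL.lb.cocycle _ _ _ y hj hi h1.1).symm⟩
    · simp only [hA, hb, if_neg ha] at h1 ⊢
      exact ⟨(hL.leq i y hi).hol, mt (hL.leq i y hi).mem.1 h1, (mul_one _).symm,
        fun j hj => hL.sec.change _ _ y hj hi⟩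
  have hlog : ∀ {s t : ℂ}, s ≠ 0 → t ≠ 0 →
      Real.log (‖s * t‖ ^ 2) = Real.log (‖s‖ ^ 2) + Real.log (‖t‖ ^ 2) := fun hs ht => by
    rw [norm_mul, mul_pow, Real.log_mul (pow_ne_zero 2 (norm_ne_zero_iff.2 hs))
      (pow_ne_zero 2 (norm_ne_zero_iff.2 ht))]
  set ψ : L.ι → X.M → ℝ := fun i y => ∑ a ∈ F, ρ a y * Real.log (‖A a i y‖ ^ 2) with hψ
  set g : X.M → ℝ := fun y => ∑ a ∈ F, ρ a y * Real.log (‖b a y‖ ^ 2) with hg
  have hmet : IsMet n L ψ := by
    refine ⟨fun i e x he hi => smR_sum (s := F)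
      (f := fun a y => ρ a y * Real.log (‖A a i y‖ ^ 2)) (fun a _ => ?_) e he, fun i j x hi hj => ?_⟩
    · by_cases hx : x ∈ tsupport (ρ a)
      · exact smR_mul (hρ a x) (smR_log (hA1 a i x hi hx).1 (hA1 a i x hi hx).2.1)
      · refine smR_congr (smR_const 0) ?_
        filter_upwards [(isClosed_tsupport _).isOpen_compl.mem_nhds hx] with y hy
        rw [image_eq_zero_of_notMem_tsupport hy, zero_mul]
    · rw [← one_mul (Real.log _), ← hone x, Finset.sum_mul, ← Finset.sum_add_distrib]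
      refine Finset.sum_congr rfl fun a _ => ?_
      by_cases hx : x ∈ tsupport (ρ a)
      · rw [(hA1 a j x hj hx).2.2.2 i hi, hlog (hL.lb.ne_zero _ _ x hi hj) (hA1 a j x hj hx).2.1]
        ring
      · rw [image_eq_zero_of_notMem_tsupport hx]
        ring
  have hgψ : ∀ i, ∀ y ∈ L.U i, y ∉ D → g y = Real.log (‖σ i y‖ ^ 2) - ψ i y := by
    intro i y hi hy
    rw [← one_mul (Real.log _), ← hone y, Finset.sum_mul, ← Finset.sum_sub_distrib]
    refine Finset.sum_congr rfl fun a _ => ?_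
    by_cases hx : y ∈ tsupport (ρ a)
    · obtain ⟨-, k1, k2, -⟩ := hA1 a i y hi hx
      have k3 : σ i y ≠ 0 := mt (hL.leq i y hi).mem.1 hy
      rw [k2] at k3 ⊢
      rw [hlog k1 (right_ne_zero_of_mul k3)]
      ring
    · rw [image_eq_zero_of_notMem_tsupport hx]
      ring
  obtain ⟨α, hα⟩ := exists_cv hL.lb hmet
  set K : Set X.M := D ∪ ⋃ a ∈ F.filter (· ∈ D), tsupport (ρ a) with hK
  have hKc : IsClosed K :=
    hDc.union (isClosed_biUnion_finset fun a _ => isClosed_tsupport _)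
  have hg0 : ∀ x ∉ K, g x = 0 := by
    intro x hx
    refine Finset.sum_eq_zero fun a ha => ?_
    by_cases h : a ∈ D
    · rw [image_eq_zero_of_notMem_tsupport fun h' => hx (Or.inr (mem_biUnion
        (Finset.mem_coe.2 (Finset.mem_filter.2 ⟨ha, h⟩)) h')), zero_mul]
    · simp [hb, h]
  refine ⟨⟨α, hα.mem_C11⟩, g, K, AddSubgroup.subset_closure ⟨L, ψ, hα⟩, fun x => ?_, hKc,
    subset_union_left, union_subset hDO (iUnion₂_subset fun a ha => ?_), fun x hx => ⟨hg0 x hx, ?_⟩⟩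
  · refine ⟨fun _ => σ (c x), ψ (c x), fun _ _ => hL.leq _ x (hc x), ?_⟩
    filter_upwards [met_ev hL.lb hmet (hc x), (hL.lb.isOpen _).mem_nhds (hc x)] with y h1 h2
    refine ⟨h1, hα.eq _ y h2, fun hy => ?_⟩
    rw [hgψ _ y h2 (hy () (Finset.mem_univ _))]
    simp
  · have h1 := hW a
    simp only [if_pos (Finset.mem_filter.1 ha).2] at h1
    exact h1.trans inter_subset_right
  · have h1 : ψ (c x) =ᶠ[𝓝 x] fun y => Real.log (‖σ (c x) y‖ ^ 2) := by
      filter_upwards [hKc.isOpen_compl.mem_nhds hx, (hL.lb.isOpen _).mem_nhds (hc x)] with y k1 k2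
      have := hgψ _ y k2 fun h => k1 (Or.inl h)
      rw [hg0 y k1] at this
      linarith
    show α x = 0
    rw [hα.eq _ x (hc x), ddc_congr h1, ddc_log' (hL.leq _ x (hc x)).hol
      (mt (hL.leq _ x (hc x)).mem.1 fun h => hx (Or.inl h))]

theorem tb_apply (d : ℕ) (k : Fin (2 * d)) (j : Fin d) :
    tb d k j = if j.val = k.val / 2 then (if k.val % 2 = 0 then 1 else Complex.I) else 0 := by
  have hk : k.val / 2 < d := by omega
  have h1 : tb d k = Pi.single (⟨k.val / 2, hk⟩ : Fin d)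
      (Complex.basisOneI ⟨k.val % 2, Nat.mod_lt _ two_pos⟩) := by
    simp only [tb, rb, Module.Basis.reindex_apply, Pi.basis_apply]
    rfl
  rw [h1, Pi.single_apply]
  simp only [Fin.ext_iff]
  split_ifs with h2 h3
  · simp [h3]
  · have h4 : k.val % 2 = 1 := by omega
    simp [h4]
  · rfl

theorem adapted (d : ℕ) : Adapted (q := 2 * d) (tb (d + 1)) (tb d) := by
  refine ⟨funext fun j => ?_, funext fun j => ?_, fun i => funext fun j => ?_⟩
  · rw [tb_apply]
    refine Fin.cases ?_ (fun j => ?_) j <;> simp [iot_zero, iot_succ]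
  · rw [tb_apply, Fin.val_succ]
    refine Fin.cases ?_ (fun j => ?_) j <;> simp [iot_zero, iot_succ]
  · rw [tb_apply]
    have h1 : (i.val + 1 + 1) / 2 = i.val / 2 + 1 := by omega
    have h2 : (i.val + 1 + 1) % 2 = i.val % 2 := by omega
    refine Fin.cases ?_ (fun j => ?_) j
    · simp [iot_zero, h1]
    · simp [iot_succ, h1, h2, tb_apply]

theorem holM_of_sb {d d' : ℕ} {S M : Type} [TopologicalSpace S] [TopologicalSpace M]
    [ChartedSpace (Cm d') S] [ChartedSpace (Cm d) M] {j : S → M} (h : Sb d' d j) : HolM d' d j :=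
  ⟨h.cont, fun x e e' he he' => (h.holo x e e' he he').1⟩

/-- one hypersurface -/
theorem pl_one {d : ℕ} {X : Mf (d + 1)} {N : Mf d} {j : N.M → X.M} (hj : Sb d (d + 1) j)
    {α : Fr (d + 1) 2 X.M} {g : X.M → ℝ} (h : IsGr1 (range j) α g) {K : Set X.M} (hK : IsClosed K)
    (hjK : range j ⊆ K) (hg : ∀ x ∉ K, g x = 0) {φ : Fr (d + 1) (2 * d) X.M} (hφ : Sm φ)
    (hc : ∀ x ∈ K, dF φ x = 0) : X.int (wd α φ) = N.int (pb (Cm d) j φ) := by
  classical
  have hπ : (4 * π) ≠ 0 := by positivity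
  have key := pl_gen (q := 2 * d) (N := fun y => if y ∈ range j then 0 else Real.exp (g y))
    (θ := (4 * π) • α) (tb (d + 1)) (tb d) (adapted d) (holM_of_sb hj) hj.inj (fun p => ?_) hφ
    (fun y => ?_)
  · have h1 : Gd.wg (p := 0 + 1 + 1) (q := 2 * d) ((4 * π) • α) φ = (4 * π) • wd α φ :=
      Gd.wg_smul_left _ _ _
    have h2 := intG_smul volume (tb (d + 1)) (4 * π) (wd α φ)
    exact mul_left_cancel₀ hπ (h2.symm.trans
      ((congrArg (intG volume (tb (d + 1))) h1).symm.trans key))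
  · obtain ⟨ζ, u, h1, h2⟩ := h p
    have hl := h1 () (Finset.mem_univ _)
    have he := at_chartAt (n := d + 1) p
    obtain ⟨V, hV, hVo, hp⟩ := eventually_nhds_iff.1 (hl.near.and h2.eventually_nhds)
    set e := chartAt (Cm (d + 1)) p with hee
    have hat : ∀ z ∈ e.target, At e (e.symm z) := fun z hz => ⟨he.1, e.map_target hz⟩
    refine ⟨e.target ∩ e.symm ⁻¹' V, fun z => ζ () (e.symm z), fun z => -u (e.symm z),
      e.symm.isOpen_inter_preimage hVo, ⟨e.map_source he.2, by rwa [mem_preimage, e.left_inv he.2]⟩,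
      inter_subset_left, fun z hz => ?_, fun z hz => ?_, fun z hz => ?_, fun z hz => ?_,
      fun z hz => (hV _ hz.2).1.mem, fun h0 => (hl.2 e he).2 (by rwa [e.left_inv he.2] at h0)⟩
    · have := (hV _ hz.2).1.hol e (hat z hz.1)
      rw [e.right_inv hz.1] at this
      exact this.differentiableAt.differentiableWithinAt
    · have := (hV _ hz.2).2.self_of_nhds.1 e (hat z hz.1)
      rw [e.right_inv hz.1] at this
      exact this.neg
    · show (if e.symm z ∈ range j then 0 else Real.exp (g (e.symm z))) = _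
      split_ifs with h3
      · rw [(hV _ hz.2).1.mem.2 h3]
        simp
      · have h4 : 0 < ‖ζ () (e.symm z)‖ ^ 2 :=
          pow_pos (norm_pos_iff.2 (mt (hV _ hz.2).1.mem.1 h3)) 2
        rw [(hV _ hz.2).2.self_of_nhds.2.2 fun _ _ => h3, Finset.univ_unique, Finset.sum_singleton,
          one_mul, sub_eq_add_neg, Real.exp_add, Real.exp_log h4]
    · have h3 := loc_ddc (hat z hz.1) ((hV _ hz.2).2.mono fun _ h => h.1)
      rw [e.right_inv hz.1] at h3
      have h4 : loc e α z = loc e (ddc (d + 1) u) z := by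
        rw [loc, loc, (hV _ hz.2).2.self_of_nhds.2.1]
      have h5 : loc e ((4 * π) • α) z = (4 * π) • loc e α z := rfl
      refine h5.trans ?_
      rw [h4, h3, ddc_neg, smul_smul, mul_neg, mul_inv_cancel₀ hπ]
      exact neg_one_smul _ _
  · by_cases hy : y ∈ K
    · exact Or.inl (hc y hy)
    · refine Or.inr ?_
      filter_upwards [hK.isOpen_compl.mem_nhds hy] with x hx
      rw [if_neg fun h => hx (hjK h), hg x hx, Real.exp_zero]

/-- linear combinations of Green functions -/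
theorem isGr_sum {X : Mf n} {ι : Type} {T : Finset ι} {D : ι → Set X.M} (m : ι → ℝ)
    {α : ι → Fr n 2 X.M} {g : ι → X.M → ℝ} (h : ∀ i ∈ T, IsGr1 (D i) (α i) (g i)) :
    IsGr T D m (∑ i ∈ T, m i • α i) fun y => ∑ i ∈ T, m i * g i y := by
  intro x
  have h1 : ∀ i, ∃ (ζ : X.M → ℂ) (u : X.M → ℝ), i ∈ T → LEq n (D i) x ζ ∧ ∀ᶠ y in 𝓝 x,
      SmR n u y ∧ α i y = ddc n u y ∧ (y ∉ D i → g i y = Real.log (‖ζ y‖ ^ 2) - u y) := by
    intro i
    by_cases hi : i ∈ T
    · obtain ⟨ζ, u, k1, k2⟩ := h i hi x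
      refine ⟨ζ (), u, fun _ => ⟨k1 () (Finset.mem_univ _), k2.mono fun y hy =>
        ⟨hy.1, hy.2.1, fun hy' => ?_⟩⟩⟩
      rw [hy.2.2 fun _ _ => hy']
      simp
    · exact ⟨0, 0, fun h => absurd h hi⟩
  choose ζ u hu using h1
  refine ⟨ζ, fun y => ∑ i ∈ T, m i * u i y, fun i hi => (hu i hi).1, ?_⟩
  filter_upwards [((Finset.eventually_all T).2 fun i hi => (hu i hi).2).eventually_nhds] with y hy
  have s1 : ∀ i ∈ T, ∀ᶠ z in 𝓝 y, SmR n (fun z => m i * u i z) z := fun i hi =>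
    hy.mono fun _ hz => smR_mul (smR_const _) (hz i hi).1
  refine ⟨smR_sum fun i hi => (s1 i hi).self_of_nhds, ?_, fun hD => ?_⟩
  · rw [ddc_sum s1, Finset.sum_apply]
    refine Finset.sum_congr rfl fun i hi => ?_
    rw [ddc_mul, Pi.smul_apply, (hy.self_of_nhds i hi).2.1]
  · rw [← Finset.sum_sub_distrib]
    refine Finset.sum_congr rfl fun i hi => ?_
    rw [(hy.self_of_nhds i hi).2.2 (hD i hi), mul_sub]

/-- `∫ d d^c u ∧ φ = 0` if `φ` is closed on the support of `u` -/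
theorem int_ddc {d : ℕ} {X : Mf (d + 1)} {u : X.M → ℝ} (hu : ∀ x, SmR (d + 1) u x)
    {φ : Fr (d + 1) (2 * d) X.M} (hφ : Sm φ) (h : ∀ x, dF φ x = 0 ∨ ∃ c, ∀ᶠ y in 𝓝 x, u y = c) :
    X.int (wd (ddc (d + 1) u) φ) = 0 :=
  intG_dF_wg' (p := 1) (q := 2 * d) (tb (d + 1)) (fun _ => smAt_dc (Eventually.of_forall hu)) hφ
    fun x => (h x).imp_right fun ⟨c, hc⟩ => by
      rw [← dc_const c]
      exact dc_congr hc

theorem pl : StPL := by
  intro d X ι T N j m α g K O φ hj h hK hO hKO hjK hg hφ hc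
  have h1 : ∀ i, ∃ (β : Fr (d + 1) 2 X.M) (g' : X.M → ℝ) (K' : Set X.M), Sm β ∧ (i ∈ T →
      IsGr1 (range (j i)) β g' ∧ IsClosed K' ∧ range (j i) ⊆ K' ∧ K' ⊆ O ∧ ∀ x ∉ K', g' x = 0) := by
    intro i
    by_cases hi : i ∈ T
    · obtain ⟨β, g', K', -, k1, k2, k3, k4, k5⟩ := grx (d + 1) X (range (j i)) O (fun x => by
        obtain ⟨ζ, u, h1, -⟩ := h x
        exact ⟨ζ i, h1 i hi⟩) hO ((hjK i hi).trans hKO)
      exact ⟨β.1, g', K', fun x => (β.2.1 x).1, fun _ => ⟨k1, k2, k3, k4, fun x hx => (k5 x hx).1⟩⟩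
    · exact ⟨0, 0, ∅, fun x => smAt_zero x, fun h => absurd h hi⟩
  choose β g' K' hβ hK' using h1
  obtain ⟨u, hu, hu'⟩ := gru_aux h (isGr_sum m fun i hi => (hK' i hi).1)
  have hcl : IsClosed (K ∪ ⋃ i ∈ T, K' i) :=
    hK.union (isClosed_biUnion_finset fun i hi => (hK' i hi).2.1)
  have h2 := int_ddc (fun x => (hu x).1) hφ fun x => by
    by_cases hx : x ∈ K ∪ ⋃ i ∈ T, K' i
    · exact Or.inl (hc x (union_subset hKO (iUnion₂_subset fun i hi => (hK' i hi).2.2.2.1) hx))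
    · refine Or.inr ⟨0, ?_⟩
      filter_upwards [hcl.isOpen_compl.mem_nhds hx] with y hy
      rw [hu' y fun i hi h => hy (Or.inl (hjK i hi h)), hg y fun h => hy (Or.inl h), sub_zero]
      refine Finset.sum_eq_zero fun i hi => ?_
      rw [(hK' i hi).2.2.2.2 y fun h => hy (Or.inr (mem_biUnion (Finset.mem_coe.2 hi) h)), mul_zero]
  have h3 := intG_sum (k := 2 * (d + 1)) (tb (d + 1)) T (a := fun i => m i • wd (β i) φ)
    fun i y => (Gd.smAt_wg (hβ i y) (hφ y)).smul _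
  have h4 : wd (ddc (d + 1) u) φ = wd α φ - ∑ i ∈ T, m i • wd (β i) φ := by
    funext y
    have : wd (ddc (d + 1) u) φ y = P277.wdgL (Cm (d + 1)) 2 (2 * d) (ddc (d + 1) u y) (φ y) := rfl
    rw [this, ← (hu y).2, Pi.sub_apply, Pi.sub_apply, Finset.sum_apply, Finset.sum_apply, map_sub,
      map_sum, _root_.sub_apply, _root_.sum_apply]
    congr 1
    refine Finset.sum_congr rfl fun i _ => ?_
    rw [Pi.smul_apply, map_smul]
    rfl
  have h5 := intG_sub volume (tb (d + 1)) (a := wd α φ)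
    (fun y => Gd.smAt_wg (h.mem_C11.1 y).1 (hφ y)) h3.1
  have h6 : X.int (wd α φ) = ∑ i ∈ T, intG volume (tb (d + 1)) (m i • wd (β i) φ) := by
    rw [h4] at h2
    rw [← h3.2]
    exact sub_eq_zero.1 (h5.symm.trans h2)
  rw [h6]
  refine Finset.sum_congr rfl fun i hi => ?_
  obtain ⟨k1, k2, k3, k4, k5⟩ := hK' i hi
  rw [← pl_one (hj i hi) k1 k2 k3 k5 hφ fun x hx => hc x (k4 hx)]
  exact intG_smul volume (tb (d + 1)) (m i) (wd (β i) φ)

end Vale.Agent.P277Z.Top.PL
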