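import Vale.Agent.P277Z.Top.GysA
import Vale.Agent.P277Z.Top.Grn

/-!
# P277, block TOP, row GYS: the Gysin equations
-/

set_option linter.all false
set_option maxSynthPendingDepth 3

open scoped Manifold ContDiff Topology
open Vale.Agent.P272.K Vale.Agent.P277 Set Filter
open Vale.Agent.P267.H175 (SmAt dF dF_congr dF_smul smAt_zero)
open Vale.Agent.P277.H619 (wdg_zero_left)
open Vale.Agent.P277Z.Tr (pb pb_eq_zero)
open Vale.Agent.P277Z.Val (Sb Lg IsCC isCC_cc)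
open Vale.Agent.P277Z.Slc (LEq)
open Vale.Agent.P277Z.Gd

noncomputable section

namespace Vale.Agent.P277Z.Top

namespace Gy

variable {V : Lg} {l k : Fin V.r}

open Classical in
/-- the components of `G l ∩ G k` -/
def cc (V : Lg) (l k : Fin V.r) : Finset (Set V.W) := (V.cmp.image Prod.snd).filter (IsCC V l k)

theorem cc_cmp {T : Set V.W} (h : IsCC V l k T) : (l, T) ∈ V.cmp := Lg.cmp_iff.2 ⟨k, h⟩

theorem mem_cc {T : Set V.W} : T ∈ cc V l k ↔ IsCC V l k T := by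
  classical
  simp only [cc, Finset.mem_filter, Finset.mem_image, and_iff_right_iff_imp]
  exact fun h => ⟨_, cc_cmp h, rfl⟩

theorem cc_comm : cc V l k = cc V k l := by
  ext T
  rw [mem_cc, mem_cc]
  exact ⟨IsCC.symm, IsCC.symm⟩

theorem cc_self : cc V l l = ∅ :=
  Finset.eq_empty_of_forall_notMem fun _ h => (mem_cc.1 h).ne rfl

/-- sums over the double surfaces -/
theorem sum_ed (f : Fin V.r → Fin V.r → Set V.W → ℝ) :
    ∑ e : Ed V, (f e.1.1 e.1.2.1 e.1.2.2 + f e.1.2.1 e.1.1 e.1.2.2) =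
      ∑ l, ∑ k, ∑ T ∈ cc V l k, f l k T := by
  classical
  have h1 : ed V = (Finset.univ ×ˢ Finset.univ ×ˢ V.cmp.image Prod.snd).filter
      fun e => e.1 < e.2.1 ∧ IsCC V e.1 e.2.1 e.2.2 := by
    ext e
    refine ⟨fun h => Finset.mem_filter.2 ⟨?_, ed_cc ⟨e, h⟩⟩, fun h => ?_⟩
    · simp only [Finset.mem_product, Finset.mem_univ, true_and, Finset.mem_image]
      exact ⟨_, ed_s ⟨e, h⟩, rfl⟩
    · exact mem_ed (Finset.mem_filter.1 h).2.1 (Finset.mem_filter.1 h).2.2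
  rw [Finset.sum_coe_sort (ed V) fun e => f e.1 e.2.1 e.2.2 + f e.2.1 e.1 e.2.2, h1,
    Finset.sum_filter]
  simp only [Finset.sum_product, ite_add_zero, Finset.sum_add_distrib, cc, Finset.sum_filter]
  rw [Finset.sum_comm (f := fun l k => ∑ T ∈ V.cmp.image Prod.snd,
    if l < k ∧ IsCC V l k T then f k l T else 0)]
  simp only [← Finset.sum_add_distrib]
  refine Finset.sum_congr rfl fun l _ => Finset.sum_congr rfl fun k _ =>
    Finset.sum_congr rfl fun T _ => ?_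
  by_cases h : IsCC V l k T
  · rcases lt_or_gt_of_ne h.ne with e | e
    · simp [h, h.symm, e, e.le]
    · simp [h, h.symm, e, e.le]
  · have h' : ¬ IsCC V k l T := fun e => h e.symm
    simp [h, h']

theorem leq_G (k : Fin V.r) (x : V.W) : ∃ ζ, LEq 4 (V.G k) x ζ :=
  let ⟨ζ, h⟩ := V.exEq x
  ⟨ζ k, h k⟩

variable (P : Par V)

theorem leq_res (hlk : k ≠ l) (x : (P.H l).M) : ∃ ζ, LEq 4 (V.G k) (P.ι l x) ζ ∧
    LEq 3 (P.ι l ⁻¹' V.G k) x (fun y => ζ (P.ι l y)) ∧ (P.ι l x ∉ V.G k → ζ = fun _ => 1) := by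
  have hι := (P.emb l).cont.continuousAt (x := x)
  by_cases hx : P.ι l x ∈ V.G k
  · obtain ⟨Φ, ρ, lab, h1, h2, h3, -⟩ := V.snc.nch2 hlk.symm (par_G P l x) hx
      (i := 0) (j := 1) (by decide) (p := fun _ => True) (by simp)
    have h5 := @Sb.isCo 3 _ V.W _ _ _ V.ch _ V.mf _ (P.emb l) x Φ 0 (h1.crd _ h1.src).isCo
      ((hι.eventually h1.nhds).mono fun y hy => (h1.iff1 h2 hy).1 (par_G P l y))
    have h6 : LEq 4 (V.G k) (P.ι l x) fun w => Φ w 1 := by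
      have := h1.eq h1.src k
      unfold Val.eqn at this
      rw [h3] at this
      exact this
    refine ⟨_, h6, ⟨hι.eventually h6.1, fun e he => ⟨analyticAt_pi_iff.1 (h5 e he).1 0, ?_⟩⟩,
      fun e => absurd hx e⟩
    intro _ h0
    obtain ⟨v, hv⟩ := (LinearMap.injective_iff_surjective
      (f := (fderiv ℂ (fun z j => Φ (P.ι l (e.symm z)) ((0 : Fin 4).succAbove j)) (e x) :
        Cm 3 →ₗ[ℂ] Cm 3))).1 (Val.LocIso.inj (h5 e he)) (Pi.single 0 1)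
    have h10 : fderiv ℂ (fun z => Φ (P.ι l (e.symm z)) 1) (e x) v = _ :=
      congrArg (fun L : Cm 3 →L[ℂ] ℂ => L v) (fderiv_apply (h5 e he).1.differentiableAt (0 : Fin 3))
    rw [h0] at h10
    exact zero_ne_one (α := ℂ) (h10.trans ((congrFun hv 0).trans (by simp)))
  · have h1 : ∀ᶠ w in 𝓝 (P.ι l x), (1 : ℂ) = 0 ↔ w ∈ V.G k :=
      mem_of_superset ((V.closed k).isOpen_compl.mem_nhds hx) fun w hw =>
        iff_of_false one_ne_zero hw
    exact ⟨fun _ => 1, ⟨h1, fun _ _ => ⟨analyticAt_const, fun h => absurd h one_ne_zero⟩⟩,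
      ⟨hι.eventually h1, fun _ _ => ⟨analyticAt_const, fun h => absurd h one_ne_zero⟩⟩,
      fun _ => rfl⟩

/-- the restriction of a Green function to another component -/
theorem gr_res (hlk : k ≠ l) {τ : Fr 4 2 V.W} {g : V.W → ℝ} (h : IsGr1 (V.G k) τ g) :
    IsGr (cc V l k) (fun T => range (P.j l T)) (fun _ => 1) (pb (Cm 3) (P.ι l) τ)
      fun x => g (P.ι l x) := by
  classical
  intro x
  have hι := (P.emb l).cont.continuousAt (x := x)
  obtain ⟨ζ, h1, h2, h3⟩ := leq_res P hlk x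
  obtain ⟨u, hu⟩ := gr_loc h (x := P.ι l x) (ζ := fun _ => ζ) fun _ _ => h1
  have hm : ∀ {T}, IsCC V l k T → ∀ y, y ∈ range (P.j l T) ↔ P.ι l y ∈ T := fun hT =>
    par_mem P (cc_cmp hT)
  refine ⟨fun T y => if P.ι l x ∈ T then ζ (P.ι l y) else 1, fun y => u (P.ι l y),
    fun T hT => ?_, ?_⟩
  · have hT := mem_cc.1 hT
    by_cases hx : P.ι l x ∈ T
    · simp only [if_pos hx]
      refine ⟨?_, h2.2⟩
      filter_upwards [h2.1, hι.eventually (hT.loc _ hx)] with y a1 a2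
      rw [a1, hm hT, a2]
      exact ⟨fun e => ⟨par_G P l y, e⟩, fun e => e.2⟩
    · simp only [if_neg hx]
      refine ⟨?_, fun _ _ => ⟨analyticAt_const, fun h => absurd h one_ne_zero⟩⟩
      filter_upwards [hι.eventually (hT.closed.isOpen_compl.mem_nhds hx)] with y hy
      exact iff_of_false one_ne_zero (mt (hm hT y).1 hy)
  · filter_upwards [hι.eventually hu.eventually_nhds] with y hy
    have h4 := hy.self_of_nhds
    refine ⟨smR_comp (par_hol P l) h4.1, ?_, fun h5 => ?_⟩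
    · rw [← pb_ddc (par_hol P l) (hy.mono fun _ h => h.1), pb, pb, h4.2.1]
    · have h6 : P.ι l y ∉ V.G k := fun e =>
        have a := isCC_cc hlk ⟨par_G P l y, e⟩
        h5 _ (mem_cc.2 a) ((hm a y).2 (mem_connectedComponentIn ⟨par_G P l y, e⟩))
      show g (P.ι l y) = _
      rw [h4.2.2 fun _ _ => h6]
      refine congrArg (· - u (P.ι l y)) ?_
      by_cases hx : P.ι l x ∈ V.G k
      · have a := isCC_cc hlk ⟨par_G P l x, hx⟩
        have b := mem_connectedComponentIn (F := V.G l ∩ V.G k) ⟨par_G P l x, hx⟩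
        rw [Finset.sum_eq_single_of_mem _ (mem_cc.2 a) fun T hT hn => by
          rw [if_neg fun e => hn ((mem_cc.1 hT).eq _ e)]
          simp]
        simp [b]
      · simp [h3 hx]

theorem pl_res (hlk : k ≠ l) {τ : Fr 4 2 V.W} {g : V.W → ℝ} (h : IsGr1 (V.G k) τ g)
    {K O : Set V.W} (hK : IsClosed K) (hO : IsOpen O) (hKO : K ⊆ O) (hG : V.G k ⊆ K)
    (hg : ∀ x ∉ K, g x = 0) {φ : Fr 3 4 (P.H l).M} (hφ : Sm φ)
    (hc : ∀ x, P.ι l x ∈ O → dF φ x = 0) : (P.H l).int (wd (pb (Cm 3) (P.ι l) τ) φ) =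
      ∑ T ∈ cc V l k, (P.S T).int (pb (Cm 2) (P.j l T) φ) := by
  have := PL.pl 2 (P.H l) _ (cc V l k) P.S (P.j l) _ _ _ (P.ι l ⁻¹' K) (P.ι l ⁻¹' O) φ
    (fun T hT => P.emb₂ _ (cc_cmp (mem_cc.1 hT))) (gr_res P hlk h) (hK.preimage (P.emb l).cont)
    (hO.preimage (P.emb l).cont) (preimage_mono hKO) (fun T hT x hx =>
      hG ((mem_cc.1 hT).sub ((par_mem P (cc_cmp (mem_cc.1 hT)) x).1 hx)).2)
    (fun x hx => hg _ hx) hφ hc
  simpa using this

theorem cl_cut {τ Z : Fr 4 2 V.W} {K O : Set V.W} (hτ : Cl τ) (hZ : Sm Z) (hK : IsClosed K)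
    (hKO : K ⊆ O) (h0 : ∀ x ∉ K, τ x = 0) (hc : ∀ x ∈ O, dF Z x = 0) : Cl (wd τ Z) := by
  refine fun x => ⟨sm_wd (cl_sm hτ) hZ x, ?_⟩
  by_cases hx : x ∈ K
  · rw [dF_wd (hτ x).1 (hZ x) (hc x (hKO hx)), (hτ x).2]
    exact wdg_zero_left (p := 3) _
  · have e : wd τ Z =ᶠ[𝓝 x] 0 := by
      filter_upwards [hK.isOpen_compl.mem_nhds hx] with z hz
      rw [wd, h0 z hz]
      exact wdg_zero_left _
    rw [dF_congr e]
    simpa using dF_smul (0 : ℝ) (0 : Fr 4 4 V.W) x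

section eqs

variable (a y : ∀ k, C11 (P.H k))

/-- the integrals over the double surfaces -/
def bb (l k : Fin V.r) (T : Set V.W) : ℝ :=
  B2 (P.S T) (pb (Cm 2) (P.j k T) (a k).1) (pb (Cm 2) (P.j l T) (y l).1)

theorem cl_ay (m : Fin V.r) : Cl (wd (a m).1 (y m).1) := cl_wd (c_cl _) (c_cl _)

/-- the functional `x ↦ ∫ x a y` -/
def FF (m : Fin V.r) : C11 (P.H m) →ₗ[ℝ] ℝ := pair (d := 2) (cl_sm (cl_ay P a y m))

/-- the same on the fourfold -/
def GG (m : Fin V.r) : C11 (lgM V) →ₗ[ℝ] ℝ :=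
  (FF P a y m).comp (res (X := lgM V) (par_hol P m))

theorem FF_eq (m : Fin V.r) (x : C11 (P.H m)) :
    FF P a y m x = (P.H m).int (wd x.1 (wd (a m).1 (y m).1)) := rfl

theorem GG_eq (m : Fin V.r) (x : C11 (lgM V)) :
    GG P a y m x = (P.H m).int (wd (pb (Cm 3) (P.ι m) x.1) (wd (a m).1 (y m).1)) := rfl

theorem eq3 (ha : ∀ Φ : Fr 4 4 V.W, Cl Φ →
      ∑ k, (P.H k).int (wd (a k).1 (pb (Cm 3) (P.ι k) Φ)) = 0) (m : Fin V.r) :
    ∃ (τ : C11 (lgM V)) (g : V.W → ℝ), IsGr1 (V.G m) τ.1 g ∧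
      GG P a y m τ + ∑ k, ∑ T ∈ cc V m k, bb P a y m k T = 0 := by
  obtain ⟨O, Z, o1, o2, o3, o4, o5⟩ := exists_ext P m (c_cl (y m))
  obtain ⟨τ, g, K, -, t1, t2, t3, t4, t5⟩ := PL.grx 4 (lgM V) (V.G m) O (leq_G m) o1 o2
  refine ⟨τ, g, t1, ?_⟩
  have h := ha _ (cl_cut (c_cl τ) o3 t2 t4 (fun x hx => (t5 x hx).2) o4)
  rw [← h, ← Finset.add_sum_erase _ _ (Finset.mem_univ m),
    ← Finset.add_sum_erase _ _ (Finset.mem_univ m), cc_self, Finset.sum_empty, zero_add, pb_wd,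
    o5, wd_lcomm, GG_eq]
  refine congrArg₂ _ rfl (Finset.sum_congr rfl fun k hk => ?_)
  have hk := Finset.ne_of_mem_erase hk
  rw [pb_wd, wd_lcomm, pl_res P hk.symm t1 t2 o1 t4 t3
    (fun x hx => (t5 x hx).1) (sm_wd (c_sm _) (sm_pb (par_hol P k) o3)) fun x hx => by
      rw [dF_wd (c_sm _ x) (sm_pb (par_hol P k) o3 x)
        ((dF_hpb (par_hol P k) (o3 _)).trans (pb_eq_zero (o4 _ hx))), (c_cl (a k) x).2]
      exact wdg_zero_left (p := 3) _, cc_comm]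
  refine Finset.sum_congr rfl fun T hT => ?_
  have hT := mem_cc.1 hT
  rw [pb_wd, par_pb P (cc_cmp hT), ← par_pb P (cc_cmp hT.symm), o5]
  rfl

theorem eq2 {τ : Fin V.r → C11 (lgM V)} {g : Fin V.r → V.W → ℝ}
    (t1 : ∀ k, IsGr1 (V.G k) (τ k).1 (g k)) {c : Fin V.r → ℝ} {A : Fr 4 2 V.W} {g' : V.W → ℝ}
    (hg : IsGr Finset.univ V.G c (-A) g') (m : Fin V.r) {A' : C11 (P.H m)}
    (hA : A'.1 = pb (Cm 3) (P.ι m) A) :
    c m * GG P a y m (τ m) + ∑ k, ∑ T ∈ cc V m k, c k * bb P a y m m T + FF P a y m A' = 0 := by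
  have h := int_ex (d := 2) (P.H m) (isEx_pb (par_hol P m) (PL.gru 4 (lgM V) _ _ _ _ _ _ _ _
    (gr_comb (fun k _ => leq_G k) (fun k _ => t1 k) _) hg)) (cl_ay P a y m)
  have e1 : (∑ k, c k • τ k).1 = ∑ k, c k • (τ k).1 := by simp
  have e : GG P a y m (∑ k, c k • τ k) + FF P a y m A' = 0 := by
    rw [← h, sub_neg_eq_add, Tr.pb_add, ← hA, ← e1]
    exact ((FF P a y m).map_add _ _).symm
  rw [map_sum, ← Finset.add_sum_erase _ _ (Finset.mem_univ m), map_smul, smul_eq_mul] at e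
  rw [← e, ← Finset.add_sum_erase _ _ (Finset.mem_univ m), cc_self, Finset.sum_empty, zero_add]
  refine congrArg₂ _ (congrArg₂ _ rfl (Finset.sum_congr rfl fun k hk => ?_)) rfl
  rw [map_smul, smul_eq_mul, ← Finset.mul_sum, GG_eq, pl_res P (Finset.ne_of_mem_erase hk) (t1 k)
    isClosed_univ isOpen_univ subset_rfl (subset_univ _) (fun x hx => absurd trivial hx)
    (cl_sm (cl_ay P a y m)) fun x _ => (cl_ay P a y m x).2]
  exact congrArg _ (Finset.sum_congr rfl fun T _ => by rw [pb_wd]; rfl)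

theorem eq4 {T : Set V.W} {x : C11 (P.H k)} (h : (k, T) ∈ V.cmp)
    (h' : ∃ g, IsGr1 (range (P.j k T)) x.1 g) : FF P a y k x = bb P a y k k T :=
  let ⟨_, h'⟩ := h'
  (PL.pl_one (d := 2) (P.emb₂ _ h) h' isClosed_univ (subset_univ _)
    (fun x hx => absurd trivial hx) (cl_sm (cl_ay P a y k)) fun x _ => (cl_ay P a y k x).2).trans
    (by rw [pb_wd]; rfl)

theorem eq1 {Y : CSp} {p : V.W → Y.pt} {R : Pol V Y p} {C : Cf P} (hC : IsCfg P R C) :
    ∑ m, FF P a y m (C.n m) + ∑ m, (C.c m)⁻¹ * FF P a y m (C.A m) +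
      ∑ l, ∑ k, ∑ T ∈ cc V l k, (C.c l)⁻¹ * (C.c k * bb P a y l l T) = 0 := by
  let F : ∀ m, C11 (P.H m) →ₗ[ℝ] ℝ := fun m => (C.c m)⁻¹ • FF P a y m
  have hF : ∀ m c x, F m (c • x) = (C.c m)⁻¹ * (c * FF P a y m x) := fun m c x => by
    simp only [F, LinearMap.smul_apply, map_smul, smul_eq_mul, mul_left_comm]
  have h := Finset.sum_congr (s₁ := Finset.univ) rfl fun m _ => congrArg (F m) (hC.n m)
  simp only [map_add, map_zero, Finset.sum_const_zero, Finset.sum_add_distrib, Finset.sum_apply,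
    map_sum, Pi.add_apply] at h
  rw [← h, ← sum_ed, Finset.sum_add_distrib, Finset.sum_comm (s := Finset.univ),
    Finset.sum_comm (s := (Finset.univ : Finset (Fin V.r)))]
  refine congrArg₂ _ (congrArg₂ _ (Finset.sum_congr rfl fun m _ => ?_) rfl)
    (congrArg₂ _ (Finset.sum_congr rfl fun e _ => ?_) (Finset.sum_congr rfl fun e _ => ?_))
  · rw [hF, inv_mul_cancel_left₀ (by rw [hC.c]; exact Nat.cast_ne_zero.2 (R.cpos m).ne')]
  · rw [P277Z.O1.Cfg.sum_single F, hF, eq4 P a y (hC.s e ▸ ed_s e) (hC.cs e).2, hC.s, hC.t]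
  · rw [P277Z.O1.Cfg.sum_single F, hF, eq4 P a y (hC.t e ▸ ed_t e) (hC.ct e).2, hC.s, hC.t]

end eqs

end Gy

open Gy

/-- **GYS** -/
theorem stGys : StGys := by
  intro U Y p Q R C hC a ha y
  choose τ g t1 h3 using eq3 Q a y ha
  obtain ⟨g', hg'⟩ := R.gr
  have h5 : ∀ m, C.T m (a m) (C.n m) (y m) = FF Q a y m (C.n m) := fun m => by
    rw [hC.T, T3_12]
    rfl
  have h6 : ∀ e, C.B e (C.rt e (a (C.t e))) (C.rs e (y (C.s e))) +
      C.B e (C.rs e (a (C.s e))) (C.rt e (y (C.t e))) =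
      bb Q a y e.1.1 e.1.2.1 e.1.2.2 + bb Q a y e.1.2.1 e.1.1 e.1.2.2 := fun e => by
    rw [hC.B, hC.B, hC.rs, hC.rs, hC.rt, hC.rt, ← hC.s, ← hC.t]
    rfl
  have h7 : ∀ m, ∑ k, ∑ T ∈ cc U m k, bb Q a y m k T = (C.c m)⁻¹ * FF Q a y m (C.A m) +
      ∑ k, ∑ T ∈ cc U m k, (C.c m)⁻¹ * (C.c k * bb Q a y m m T) := fun m => by
    simp only [← Finset.mul_sum (a := (C.c m)⁻¹)]
    simp only [hC.c]
    rw [← mul_add, eq_inv_mul_iff_mul_eq₀ (Nat.cast_ne_zero.2 (R.cpos m).ne')]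
    linear_combination (R.c m : ℝ) * h3 m - eq2 Q a y t1 hg' m (hC.A m)
  rw [Finset.sum_congr rfl fun m _ => h5 m, Finset.sum_congr rfl fun e _ => h6 e, sum_ed,
    Finset.sum_congr rfl fun m _ => h7 m, Finset.sum_add_distrib, ← add_assoc, eq1 Q a y hC]

end Vale.Agent.P277Z.Top
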