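import Vale.Agent.P277Z.Top.Gen
import Vale.Agent.P277Z.Top.Gys
import Vale.Agent.P277Z.Top.Grx

/-!
# P277, block TOP: the classes of the components, and the last step of the class group bound
-/

set_option linter.all false
set_option maxSynthPendingDepth 3

open scoped Manifold ContDiff Topology
open Vale.Agent.P272.K Vale.Agent.P285.H281.FD Vale.Agent.P277 Set Filter Module
open Vale.Agent.P267.H175 (SmAt dF)
open Vale.Agent.P277.PH (HolF SmR)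
open Vale.Agent.P277Z.Tr (pb HolM)
open Vale.Agent.P277Z.Val (Sb Lg IsCC)
open Vale.Agent.P277Z.Slc (LEq lin)
open Vale.Agent.P277Z.Gd

noncomputable section

namespace Vale.Agent.P277Z.Top.H98

variable {U : Lg} {Q : Par U} {Y : CSp} {p : U.W → Y.pt} {R : Pol U Y p} {C : Cf Q}

theorem sum_em (hC : IsCfg Q R C) (k : Fin U.r) : ∑ i, C.c i • C.Em i k + C.A k = 0 := by
  classical
  rw [← hC.n k]
  have h : ∑ i, C.c i • C.Em i = ∑ i, Pi.single i (C.c i • C.n i) + ∑ e,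
      (Pi.single (C.s e) (C.c (C.t e) • C.cs e) + Pi.single (C.t e) (C.c (C.s e) • C.ct e)) := by
    simp only [P277Z.O1.Cfg.Em, smul_add, Finset.smul_sum, Finset.sum_add_distrib, smul_ite,
      smul_zero, Pi.single_smul]
    rw [Finset.sum_comm, Finset.sum_comm (s := (Finset.univ : Finset (Fin U.r)))]
    simp only [Finset.sum_ite_eq, Finset.mem_univ, if_true]
    abel
  have h1 := congrFun h k
  simp only [Finset.sum_apply, Pi.smul_apply, Pi.add_apply, Finset.sum_pi_single, Finset.mem_univ,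
    if_true] at h1 ⊢
  rw [h1]
  abel

theorem em_ne (hC : IsCfg Q R C) {i k : Fin U.r} (hik : i ≠ k) {τ : Fr 4 2 U.W} {g : U.W → ℝ}
    (h : IsGr1 (U.G i) τ g) {φ : Fr 3 4 (Q.H k).M} (hφ : Cl φ) :
    (Q.H k).int (wd (pb (Cm 3) (Q.ι k) τ) φ) = (Q.H k).int (wd (C.Em i k).1 φ) := by
  classical
  rw [Gy.pl_res Q hik h isClosed_univ isOpen_univ subset_rfl (subset_univ _)
    (fun x hx => absurd trivial hx) (cl_sm hφ) fun x _ => (hφ x).2]
  have h1 := Gy.sum_ed (V := U) fun l m T =>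
    if l = i then if m = k then (Q.S T).int (pb (Cm 2) (Q.j k T) φ) else 0 else 0
  simp only [Finset.sum_ite_irrel, Finset.sum_const_zero, Finset.sum_ite_eq', Finset.mem_univ,
    if_true] at h1
  rw [Gy.cc_comm, ← h1, ← pair_apply (d := 2) (cl_sm hφ), P277Z.O1.Cfg.Em, Pi.add_apply,
    Pi.single_eq_of_ne hik.symm, zero_add, Finset.sum_apply, map_sum]
  refine Finset.sum_congr rfl fun e _ => ?_
  rw [Pi.add_apply, map_add, ← hC.s, ← hC.t]
  congr 1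
  · split_ifs with a b
    · subst b
      rw [Pi.single_eq_same]
      exact (int_ct PL.pl hC e hφ).symm
    · rw [Pi.single_eq_of_ne (Ne.symm b), map_zero]
    · exact (map_zero _).symm
  · split_ifs with a b
    · subst b
      rw [Pi.single_eq_same]
      exact (int_cs PL.pl hC e hφ).symm
    · rw [Pi.single_eq_of_ne (Ne.symm b), map_zero]
    · exact (map_zero _).symm

/-- the class of `G i` restricts to `Em i k` -/
theorem em_eq (hC : IsCfg Q R C) (i k : Fin U.r) {τ : Fr 4 2 U.W} {g : U.W → ℝ}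
    (h : IsGr1 (U.G i) τ g) {φ : Fr 3 4 (Q.H k).M} (hφ : Cl φ) :
    (Q.H k).int (wd (pb (Cm 3) (Q.ι k) τ) φ) = (Q.H k).int (wd (C.Em i k).1 φ) := by
  classical
  by_cases hik : i = k
  swap
  · exact em_ne hC hik h hφ
  subst hik
  choose τ' g' K _ t1 _ using fun m => PL.grx 4 (lgM U) (U.G m) univ (Gy.leq_G m) isOpen_univ
    (subset_univ _)
  obtain ⟨g₀, hg⟩ := R.gr
  let F : C11 (Q.H i) →ₗ[ℝ] ℝ := pair (d := 2) (cl_sm hφ)
  let F' : C11 (lgM U) →ₗ[ℝ] ℝ := F.comp (res (X := lgM U) (par_hol Q i))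
  have h1 := int_ex (d := 2) (Q.H i) (isEx_pb (par_hol Q i) (PL.gru 4 (lgM U) _ _ _ _ _ _ _ _
    (gr_comb (fun k _ => Gy.leq_G k) (fun k _ => t1 k) _) hg)) hφ
  have e1 : (∑ k, (R.c k : ℝ) • τ' k).1 = ∑ k, (R.c k : ℝ) • (τ' k).1 := by simp
  have h2 : F' (∑ k, (R.c k : ℝ) • τ' k) + F (C.A i) = 0 := by
    rw [← h1, sub_neg_eq_add, Tr.pb_add, ← hC.A, ← e1]
    exact (F.map_add _ _).symm
  have h3 := congrArg F (sum_em hC i)
  rw [map_add, map_zero, ← h2, add_left_inj] at h3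
  simp only [map_sum, map_smul, hC.c, smul_eq_mul] at h3
  rw [← Finset.add_sum_erase _ _ (Finset.mem_univ i), ← Finset.add_sum_erase _ _
    (Finset.mem_univ i), Finset.sum_congr rfl fun m hm => congrArg (_ * ·) (show F (C.Em m i) =
      F' (τ' m) from (em_ne hC (Finset.ne_of_mem_erase hm) (t1 m) hφ).symm), add_left_inj] at h3
  have h4 : F (C.Em i i) = F' (τ' i) := mul_left_cancel₀ (Nat.cast_ne_zero.2 (R.cpos i).ne') h3
  have h5 := int_ex (d := 2) (Q.H i) (isEx_pb (par_hol Q i)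
    (PL.gru 4 (lgM U) _ _ _ _ _ _ _ _ h (t1 i))) hφ
  rw [Tr.pb_sub, wd_sub_left, int_sub (d := 3) _ (sm_wd (sm_pb (par_hol Q i) (cl_sm (gr_cl h).1))
    (cl_sm hφ)) (sm_wd (sm_pb (par_hol Q i) (c_sm _)) (cl_sm hφ)), sub_eq_zero] at h5
  exact h5.trans h4.symm

section cv

variable {d : ℕ} {M : Type} [TopologicalSpace M] [ChartedSpace (Cm d) M]
  [IsManifold 𝓘(ℂ, Cm d) ω M]

theorem cv_lin {ι : Type} [Fintype ι] {L : ι → Bd M} {ψ : ∀ a, (L a).ι → M → ℝ}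
    {α : ι → Fr d 2 M} (h : ∀ a, IsCv (L a) (ψ a) (α a)) (n : ι → ℤ) :
    IsCv (lin L n) (fun i x => ∑ a, (n a : ℝ) * ψ a (i a) x) (∑ a, (n a : ℝ) • α a) := by
  refine ⟨⟨fun i => ?_, fun x => ?_, fun i j e x he hi hj => ?_, fun i j x hi hj =>
    Finset.prod_ne_zero_iff.2 fun a _ => zpow_ne_zero _ ((h a).lb.ne_zero _ _ x (hi a) (hj a)),
    fun i j k x hi hj hk => ?_⟩, ⟨fun i e x he hi => ContDiffAt.sum fun a _ =>
      contDiffAt_const.mul ((h a).met.smooth _ e x he (hi a)), fun i j x hi hj => ?_⟩,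
    fun i x hi => ?_⟩
  · change IsOpen {x | ∀ e, x ∈ (L e).U (i e)}
    rw [setOf_forall]
    exact isOpen_iInter_of_finite fun a => (h a).lb.isOpen _
  · choose j hj using fun a => (h a).lb.cover x
    exact ⟨j, hj⟩
  · refine (Finset.analyticAt_fun_prod _ fun a _ => ?_).contDiffAt
    exact ((h a).lb.holo _ _ e x he (hi a) (hj a)).analyticAt.fun_zpow
      (by rw [he.left_inv]; exact (h a).lb.ne_zero _ _ x (hi a) (hj a))
  · show (∏ _, _) * ∏ _, _ = ∏ _, _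
    rw [← Finset.prod_mul_distrib]
    exact Finset.prod_congr rfl fun a _ => by
      rw [← mul_zpow, (h a).lb.cocycle _ _ _ x (hi a) (hj a) (hk a)]
  · show _ = _ + Real.log (‖∏ _, _‖ ^ 2)
    have h0 := fun a => norm_ne_zero_iff.2 ((h a).lb.ne_zero _ _ x (hi a) (hj a))
    rw [norm_prod, ← Finset.prod_pow, Real.log_prod fun a _ => by
      rw [norm_zpow]; exact pow_ne_zero _ (zpow_ne_zero _ (h0 a)), ← Finset.sum_add_distrib]
    refine Finset.sum_congr rfl fun a _ => ?_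
    rw [(h a).met.change _ _ x (hi a) (hj a), norm_zpow, Real.log_pow, Real.log_pow, Real.log_zpow]
    ring
  · rw [ddc_sum _ fun a _ => (met_ev (h a) (hi a)).mono fun _ => smR_cmul _, Finset.sum_apply]
    exact Finset.sum_congr rfl fun a _ => by
      rw [ddc_smul _ (met_ev (h a) (hi a)), Pi.smul_apply, (h a).eq _ x (hi a)]

/-- the curvature of `𝒪(G)` is a Green form -/
theorem gr_div {G : Set M} {O : Bd M} {σ : O.ι → M → ℂ} (h : Slc.IsDiv d G O σ)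
    {ψ : O.ι → M → ℝ} {α : Fr d 2 M} (c : IsCv O ψ α) : ∃ g, IsGr1 G α g := by
  choose I hI using h.lb.cover
  refine ⟨fun x => Real.log (‖σ (I x) x‖ ^ 2) - ψ (I x) x, fun x =>
    ⟨fun _ => σ (I x), ψ (I x), fun _ _ => h.leq _ x (hI x), ?_⟩⟩
  filter_upwards [(h.lb.isOpen _).mem_nhds (hI x), met_ev c (hI x)] with y a b
  refine ⟨b, c.eq _ y a, fun k => ?_⟩
  have k1 : σ (I x) y ≠ 0 := fun e => k () (Finset.mem_univ _) ((h.leq _ y a).mem.1 e)
  have k2 := h.lb.ne_zero _ _ y (hI y) a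
  rw [h.sec.change _ _ y (hI y) a, c.met.change _ _ y (hI y) a, norm_mul, mul_pow,
    Real.log_mul (by positivity) (by positivity)]
  simp
  ring

end cv

/-- `z` is the class of `L` on the compact manifolds in the components over `F` -/
def HasCl (Q : Par U) (F : Set U.W) (L : Bd U.W) (z : ∀ k, C11 (Q.H k)) : Prop :=
  ∀ k (d : ℕ) (X : Mf d) (j : X.M → (Q.H k).M), HolM d 3 j → (∀ w, Q.ι k (j w) ∈ F) →
    IsLB d (HD.pull (fun w => Q.ι k (j w)) L) ∧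
    ∀ ψ α, IsCv (d := d) (HD.pull (fun w => Q.ι k (j w)) L) ψ α →
      ∃ θ : Fr d 1 X.M, Sm θ ∧ α - pb (Cm d) j (z k).1 = dF θ

variable {F : Set U.W}

theorem dF_sub' {d k : ℕ} {X : Mf d} {a b : Fr d k X.M} (ha : Sm a) (hb : Sm b) :
    dF (a - b) = dF a - dF b := funext fun x => by
  rw [sub_eq_add_neg, ← neg_one_smul ℝ b, P267.H175.dF_add (ha x) ((hb x).smul _),
    P267.H175.dF_smul, neg_one_smul, Pi.sub_apply, sub_eq_add_neg]

theorem dF_sum' {d k : ℕ} {X : Mf d} {ι : Type} (s : Finset ι) {a : ι → Fr d k X.M}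
    (ha : ∀ i, Sm (a i)) : dF (∑ i ∈ s, a i) = ∑ i ∈ s, dF (a i) := by
  classical
  induction s using Finset.induction_on with
  | empty => exact funext fun x => by simpa using P267.H175.dF_smul 0 (0 : Fr d k X.M) x
  | insert i s hi ih =>
    rw [Finset.sum_insert hi, Finset.sum_insert hi, ← ih]
    exact funext fun x => P267.H175.dF_add (ha i x) (sm_sum s (fun i _ => ha i) x)

/-- one metric is enough -/
theorem hasCl_of {L : Bd U.W} {z : ∀ k, C11 (Q.H k)} (h : ∀ k (d : ℕ) (X : Mf d)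
    (j : X.M → (Q.H k).M), HolM d 3 j → (∀ w, Q.ι k (j w) ∈ F) →
      ∃ ψ α, IsCv (d := d) (HD.pull (fun w => Q.ι k (j w)) L) ψ α ∧
        ∃ θ : Fr d 1 X.M, Sm θ ∧ α - pb (Cm d) j (z k).1 = dF θ) : HasCl Q F L z := by
  intro k d X j hj hF
  obtain ⟨ψ, α, h1, θ, h2, h3⟩ := h k d X j hj hF
  refine ⟨h1.lb, fun ψ' α' h4 => ?_⟩
  obtain ⟨β, h5, h6⟩ := isEx_dF (Gx.cv_ex h1 h4)
  exact ⟨θ - β, sm_sub h2 h5, by rw [dF_sub' h2 h5, ← h3, ← h6]; abel⟩

theorem HasCl.ex {L : Bd U.W} {z : ∀ k, C11 (Q.H k)} (h : HasCl Q F L z) (k) {d : ℕ} (X : Mf d)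
    {j : X.M → (Q.H k).M} (hj : HolM d 3 j) (hF : ∀ w, Q.ι k (j w) ∈ F) :
    ∃ ψ α, IsCv (d := d) (HD.pull (fun w => Q.ι k (j w)) L) ψ α ∧
      ∃ θ : Fr d 1 X.M, Sm θ ∧ α - pb (Cm d) j (z k).1 = dF θ := by
  obtain ⟨ψ, α, h1⟩ := (stLam d X).2.1 _ (h k d X j hj hF).1
  exact ⟨ψ, α, h1, (h k d X j hj hF).2 ψ α h1⟩

theorem HasCl.lin {ι : Type} [Fintype ι] {L : ι → Bd U.W} {z : ι → ∀ k, C11 (Q.H k)}
    (h : ∀ a, HasCl Q F (L a) (z a)) (n : ι → ℤ) :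
    HasCl Q F (lin L n) (∑ a, (n a : ℝ) • z a) := hasCl_of fun k d X j hj hF => by
  choose ψ α h1 θ h2 h3 using fun a => (h a).ex k X hj hF
  refine ⟨_, _, cv_lin h1 n, ∑ a, (n a : ℝ) • θ a, sm_sum _ fun a _ => sm_smul _ (h2 a), ?_⟩
  have h4 : pb (Cm d) j ((∑ a, (n a : ℝ) • z a) k).1 = ∑ a, (n a : ℝ) • pb (Cm d) j (z a k).1 := by
    have := congrArg Subtype.val (map_sum (res hj) (fun a => (n a : ℝ) • z a k) Finset.univ)
    rw [Finset.sum_apply]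
    exact this.trans (by simp only [map_smul, Submodule.coe_sum, Submodule.coe_smul]; rfl)
  rw [h4, dF_sum' _ fun a => sm_smul _ (h2 a), ← Finset.sum_sub_distrib]
  refine Finset.sum_congr rfl fun a _ => ?_
  rw [← smul_sub, h3]
  exact funext fun x => (P267.H175.dF_smul _ _ x).symm

/-- global line bundles -/
theorem hasCl_cv {L : Bd U.W} {ψ : L.ι → U.W → ℝ} {τ : C11 (lgM U)} (h : IsCv L ψ τ.1) :
    HasCl Q F L fun k => res (X := lgM U) (par_hol Q k) τ := hasCl_of fun k d X j hj _ =>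
  ⟨_, _, Gx.cv_pull (holM_comp (par_hol Q k) hj) h, 0, sm_zero, by
    rw [← pb_pb hj (par_hol Q k)]
    exact (sub_self _).trans (funext fun x => by
      simpa using (P267.H175.dF_smul 0 (0 : Fr d 1 X.M) x).symm)⟩

/-- a bundle with a section without zeros on `F` -/
theorem HasCl.triv {L : Bd U.W} {z : ∀ k, C11 (Q.H k)} (h : HasCl Q F L z) {s : L.ι → U.W → ℂ}
    (hs : ∀ w ∈ F, ∀ i, w ∈ L.U i → ContinuousAt (s i) w ∧ s i w ≠ 0 ∧
      ∀ i', w ∈ L.U i' → s i w = L.g i i' w * s i' w) (k) {d : ℕ} (X : Mf d)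
    {j : X.M → (Q.H k).M} (hj : HolM d 3 j) (hF : ∀ w, Q.ι k (j w) ∈ F) :
    ∃ θ : Fr d 1 X.M, Sm θ ∧ pb (Cm d) j (z k).1 = dF θ := by
  obtain ⟨ψ, α, h1, θ, h2, h3⟩ := h.ex k X hj hF
  obtain ⟨β, h4, h5⟩ := ex_of_iso X h1 Gx.cv_triv ⟨fun i _ w => s i (Q.ι k (j w)),
    ⟨fun i _ w _ a _ => (hs _ (hF w) i a).2.1, fun i i' _ _ w _ a b _ _ =>
      (mul_one _).trans ((hs _ (hF w) i a).2.2 i' b)⟩, fun i _ w a =>
      ((hs _ (hF w) i a.1.2).1.comp (f := fun w => Q.ι k (j w))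
        ((Q.emb k).cont.comp hj.1).continuousAt).continuousWithinAt⟩
  exact ⟨β - θ, sm_sub h4 h2, by rw [dF_sub' h4 h2, ← h3, ← h5]; abel⟩

variable {σ O : Set Y.pt} {t : Y.pt → ℂ} {g : ℂ → Y.pt} {Δ : Set ℂ} {s : ℂ}

/-- classes which are exact on the components of one general fibre are vertical -/
theorem vert_of (hFib : StFib) (B : Bas Y) (hp : HolY 4 Y p) (hd : DimLe Y 1 (p '' U.E))
    (hn : ¬ σ.Subsingleton) (hD : IsDisc Y σ O t g Δ) (hs : s ∈ Δ) (hG : Gen Q p σ t (g s))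
    {k : Fin U.r} (hk : p '' U.G k = σ) (z : C11 (Q.H k))
    (hz : ∀ (X : Mf 2) (j : X.M → (Q.H k).M), HolM 2 3 j → (∀ w, p (Q.ι k (j w)) = g s) →
      ∃ θ : Fr 2 1 X.M, Sm θ ∧ pb (Cm 2) j z.1 = dF θ) (y : C11 (Q.H k)) :
    T3 (Q.H k) y.1 (B.form 3 fun x => p (Q.ι k x)) z.1 = 0 := by
  have hr := (rng3 Q k).trans hk
  obtain ⟨κ, -, h1⟩ := hFib Y B 2 (Q.H k) _ (Q.conn k) (holY_comp hp (par_hol Q k)) (dim3 Q hd k)
    (hr ▸ hn)
  obtain ⟨⟨J, _, N, j, h2⟩, h3⟩ := h1 O t g Δ (hr ▸ hD) s hs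
    (hG.thr k (hk ▸ (hD.img.ge ⟨s, hs, rfl⟩).1)).2
  rw [T3_12, T3_23]
  refine (h3 J N j h2 _ (cl_wd (c_cl z) (c_cl y))).trans (mul_eq_zero_of_right _
    (Finset.sum_eq_zero fun i _ => ?_))
  have h4 := sb_holM (h2.emb i)
  obtain ⟨θ, h5, h6⟩ := hz (N i) (j i) h4 fun w => h2.rng.le (mem_iUnion.2 ⟨i, w, rfl⟩)
  refine (congrArg (N i).int (pb_wd (j i) z.1 y.1)).trans ?_
  rw [h6]
  exact int_dF_wd (d := 1) (N i) h5 (cl_pb h4 (c_cl y))

/-- **The last step**: a relation between line bundles near the fibre gives a relation between the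
classes. -/
theorem fin_step (hFib : StFib) (hC : IsCfg Q R C) (hp : HolY 4 Y p) (hd : DimLe Y 1 (p '' U.E))
    (hn : ¬ σ.Subsingleton) (hD : IsDisc Y σ O t g Δ) (hs : s ∈ Δ) (hG : Gen Q p σ t (g s))
    {J : Type} [Fintype J] {L : J → Bd U.W} {x : J → ∀ k, C11 (Q.H k)}
    (hL : ∀ j, HasCl Q (p ⁻¹' {g s}) (L j) (x j)) {D : Fin U.r → Bd U.W}
    {η : ∀ i, (D i).ι → U.W → ℂ} (hη : ∀ i, Slc.IsDiv 4 (U.G i) (D i) (η i))
    (n : J ⊕ Fin U.r → ℤ) {θ : (lin (Sum.elim L D) n).ι → U.W → ℂ}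
    (hθ : ∀ w, p w = g s → ∀ i, w ∈ (lin (Sum.elim L D) n).U i → ContinuousAt (θ i) w ∧
      θ i w ≠ 0 ∧ ∀ i', w ∈ (lin (Sum.elim L D) n).U i' →
        θ i w = (lin (Sum.elim L D) n).g i i' w * θ i' w)
    {k : Fin U.r} (hk : p '' U.G k = σ) (y : C11 (Q.H k)) :
    C.T k y (C.o k) ((∑ j, (n (.inl j) : ℝ) • x j - ∑ i, (-n (.inr i) : ℝ) • C.Em i) k) = 0 := by
  choose ψ α hα using fun i => (stLam 4 (lgM U)).2.1 _ (hη i).lb
  let τ : Fin U.r → C11 (lgM U) := fun i => ⟨α i, (stLam 4 (lgM U)).1 _ _ _ (hα i)⟩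
  have h1 := HasCl.lin (Q := Q) (F := p ⁻¹' {g s}) (L := Sum.elim L D)
    (z := Sum.elim x fun i k => res (X := lgM U) (par_hol Q k) (τ i))
    (fun a => Sum.casesOn a hL fun i => hasCl_cv (τ := τ i) (hα i)) n
  have h2 := vert_of hFib R.B hp hd hn hD hs hG hk _ (fun X j a b => h1.triv hθ k X a b) y
  rw [← hC.o, ← hC.T] at h2
  rw [← h2, Fintype.sum_sum_type]
  simp only [Sum.elim_inl, Sum.elim_inr, Pi.sub_apply, Pi.add_apply, Finset.sum_apply,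
    Pi.smul_apply, map_sub, map_add, map_sum, map_smul, neg_smul, Finset.sum_neg_distrib,
    Pi.neg_apply, map_neg, sub_neg_eq_add]
  refine congrArg _ (Finset.sum_congr rfl fun i _ => congrArg _ ?_)
  obtain ⟨g', hg'⟩ := gr_div (hη i) (hα i)
  rw [hC.T, hC.T, T3_23, T3_12, T3_23 _ y.1, T3_12 _ y.1]
  exact (em_eq hC i k hg' (cl_wd (c_cl y) (c_cl _))).symm

end Vale.Agent.P277Z.Top.H98
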