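import Vale.Agent.P277Z.Top.IrrA
import Vale.Agent.P277Z.Top.Sk
import Vale.Agent.P284Z.F0.Cov

/-!
# P277, block TOP, row IRR: curves which are images of connected manifolds
-/

open scoped Manifold ContDiff
open Set Filter Metric Topology
open Vale.Agent.P272.K Vale.Agent.P277
open Vale.Agent.P277.H762 (Cv cv_biUnion cv_empty)
open Vale.Agent.P277.PH (HolF at_chartAt ev_symm)

noncomputable section

namespace Vale.Agent.P277Z.Top

namespace Ir

open Val

variable {Y : CSp} {d : ℕ} {X : Mf d} {f : X.M → Y.pt} {x : X.M} {y : Y.pt}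

/-- the differential of `f` vanishes at `x` -/
def Crit (f : X.M → Y.pt) (x : X.M) : Prop :=
  ∀ h, Y.Hol h (f x) → ∀ e : Chart d X.M, At e x →
    fderiv ℂ (fun z => h (f (e.symm z))) (e x) = 0

theorem ev_of_symm {e : Chart d X.M} (he : At e x) {p : X.M → Prop}
    (h : ∀ᶠ z in 𝓝 (e x), p (e.symm z)) : ∀ᶠ y in 𝓝 x, p y := by
  filter_upwards [(e.continuousAt he.2).eventually h, e.eventually_left_inverse he.2]
    with y h1 h2 using h2 ▸ h1

instance (X : Mf d) : SecondCountableTopology X.M :=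
  ChartedSpace.secondCountable_of_sigmaCompact (Cm d) X.M

theorem isClosed_crit (hf : HolY d Y f) : IsClosed {x | Crit f x} := by
  refine isOpen_compl_iff.1 (isOpen_iff_mem_nhds.2 fun x hx => ?_)
  obtain ⟨h, h1, e, h2, h3⟩ : ∃ h, Y.Hol h (f x) ∧ ∃ e : Chart d X.M, At e x ∧
    fderiv ℂ (fun z => h (f (e.symm z))) (e x) ≠ 0 := by simpa [Crit] using hx
  filter_upwards [hf.1.continuousAt.eventually (hol_eventually h1), e.open_source.mem_nhds h2.2,
    (e.continuousAt h2.2).eventually ((hf.2 x h h1 e h2).fderiv.continuousAt.eventually_ne h3)]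
    with z k1 k2 k3 k4 using k3 (k4 h k1 e ⟨h2.1, k2⟩)

/-- the critical values are countable -/
theorem crit_count (hf : HolY d Y f) : (f '' {x | Crit f x}).Countable := by
  refine count_local fun x _ => ?_
  obtain ⟨N, V, u, hx, hu⟩ := exists_isCoord Y (f x)
  have he := at_chartAt (n := d) x
  set e := chartAt (Cm d) x
  refine ⟨e.source ∩ f ⁻¹' V, inter_mem (e.open_source.mem_nhds he.2)
    (hf.1.continuousAt.preimage_mem_nhds (hu.isOpen.mem_nhds hx)),
    countable_of_injective_of_countable_image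
      (hu.injOn.mono (image_subset_iff.2 fun z hz => hz.1.2))
      ((crit_cm d fun z a => u a (f (e.symm z))).mono ?_)⟩
  rintro _ ⟨_, ⟨z, ⟨⟨h1, h2⟩, h3⟩, rfl⟩, rfl⟩
  have h4 := fun a => hf.2 z _ (hu.hol a _ h2) e ⟨he.1, h1⟩
  refine ⟨e z, ⟨AnalyticAt.pi h4, ?_⟩, by simp only [e.left_inv h1]⟩
  rw [fderiv_pi fun a => (h4 a).differentiableAt]
  ext v a
  simp [h3 _ (hu.hol a _ h2) e ⟨he.1, h1⟩]

/-- at a point which is not critical the map factors through a disc -/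
theorem exists_dsc (hf : HolY d Y f) (hd : DimLe Y 1 (range f)) (hx : ¬ Crit f x) :
    ∃ t g, Dsc (f x) t g ∧ (∀ s, g s ∈ range f) ∧ (∀ᶠ z in 𝓝 x, g (t (f z)) = f z) ∧
      ∀ᶠ z in 𝓝 x, ¬ ∀ᶠ w in 𝓝 z, t (f w) = t (f x) := by
  obtain ⟨t, h1, e, he, h3⟩ : ∃ h, Y.Hol h (f x) ∧ ∃ e : Chart d X.M, At e x ∧
    fderiv ℂ (fun z => h (f (e.symm z))) (e x) ≠ 0 := by simpa [Crit] using hx
  obtain ⟨N, V, u, hV, hu⟩ := exists_isCoord Y (f x)
  have hT := hf.2 x t h1 e he
  have c := hf.1.continuousAt (x := x)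
  obtain ⟨γ, k1, k2, k3, k4⟩ := factor (F := fun z a => u a (f (e.symm z)))
    (AnalyticAt.pi fun a => hf.2 x _ (hu.hol a _ hV) e he) hT h3 fun i =>
      ⟨_, cv_of_dim hd ![t, u i], (ev_symm he.2 (c.eventually ((hol_eventually h1).and
        (hol_eventually (hu.hol i _ hV))))).mono fun z hz => ⟨_, ⟨mem_range_self _,
          Fin.forall_fin_two.2 hz⟩, funext (Fin.forall_fin_two.2 ⟨rfl, rfl⟩)⟩⟩
  rw [e.left_inv he.2] at k1 k2 k3
  have k5 : Tendsto γ (𝓝 (t (f x))) (𝓝 (e x)) := k2 ▸ k1.continuousAt.tendsto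
  have k6 : f (e.symm (γ (t (f x)))) = f x := by rw [k2, e.left_inv he.2]
  have k7 : Dsc (f x) t fun s => f (e.symm (γ s)) := by
    refine ⟨h1, k6, ?_, fun h hh => AnalyticAt.comp (g := fun z => h (f (e.symm z)))
      (k2.symm ▸ hf.2 x h hh e he) k1, k3⟩
    rw [ContinuousAt, k6]
    exact c.tendsto.comp ((e.tendsto_symm he.2).comp k5)
  refine ⟨t, _, k7, fun s => mem_range_self _, ?_, ?_⟩
  · filter_upwards [ev_of_symm he (p := fun z => (fun a => u a (f (e.symm (γ (t (f z)))))) =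
      fun a => u a (f z)) k4, c.eventually (hu.isOpen.mem_nhds hV),
      (k7.tend'.comp c).eventually (hu.isOpen.mem_nhds hV)] with z a1 a2 a3
      using hu.injOn a3 a2 a1
  · filter_upwards [(e.continuousAt he.2).eventually (hT.fderiv.continuousAt.eventually_ne h3),
      e.open_source.mem_nhds he.2] with z a1 a2 a3
    exact a1 ((EventuallyEq.fderiv_eq (f := fun _ => t (f x))
      (ev_symm (P := fun w => t (f w) = t (f x)) a2 a3)).trans (fderiv_const_apply _))

/-- near a regular value the image is a finite union of discs -/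
theorem loc_discs (hf : HolY d Y f) (hd : DimLe Y 1 (range f)) (hy : y ∉ f '' {x | Crit f x}) :
    ∃ (J : Type) (_ : Finite J) (t : J → Y.pt → ℂ) (g : J → ℂ → Y.pt), (∀ j, Dsc y (t j) (g j)) ∧
      ∀ᶠ z in 𝓝 y, z ∈ range f ↔ ∃ j, g j (t j z) = z := by
  choose t g h1 h2 h3 h4 using fun (x : X.M) (hx : x ∈ f ⁻¹' {y}) =>
    exists_dsc hf hd (x := x) fun h => hy ⟨x, h, hx⟩
  obtain ⟨T, hT⟩ := (isClosed_singleton.preimage hf.1).isCompact.elim_nhds_subcover'
    (fun x hx => {z | ∀ᶠ w in 𝓝 z, g x hx (t x hx (f w)) = f w}) fun x hx =>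
      (h3 x hx).eventually_nhds
  refine ⟨T, inferInstance, fun j => t j j.1.2, fun j => g j j.1.2,
    fun j => (congrArg (fun y => Dsc y (t j j.1.2) (g j j.1.2)) j.1.2).mp (h1 j j.1.2), ?_⟩
  filter_upwards [hf.1.isClosedMap.eventually_nhds_fiber
    (p := fun w => ∃ j : T, g j j.1.2 (t j j.1.2 (f w)) = f w) y fun x hx =>
      let ⟨j, a, b⟩ := mem_iUnion₂.1 (hT hx)
      b.mono fun _ c => ⟨⟨j, a⟩, c⟩] with z hz
  exact ⟨fun ⟨w, hw⟩ => hw ▸ hz w hw, fun ⟨j, e⟩ => e ▸ h2 _ _ _⟩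

theorem not_const [ConnectedSpace X.M] (hf : HolY d Y f) (h : ¬ (range f).Subsingleton)
    (x : X.M) (y : Y.pt) : ¬ ∀ᶠ z in 𝓝 x, f z = y := fun hx => by
  have h1 : IsClopen {x | ∀ᶠ z in 𝓝 x, f z = y} := by
    refine ⟨isClosed_of_closure_subset fun x hx => ?_, isOpen_setOfPred_eventually_nhds⟩
    obtain ⟨N, V, u, hV, hu⟩ := exists_isCoord Y (f x)
    have he := at_chartAt (n := d) x
    set e := chartAt (Cm d) x
    have h2 := mem_closure_iff_frequently.1 hx
    obtain rfl : f x = y := tendsto_nhds_unique_of_frequently_eq hf.1.continuousAt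
      tendsto_const_nhds (h2.mono fun _ => Eventually.self_of_nhds)
    have h3 := fun a => ev_zero_of_freq ((hf.2 x _ (hu.hol a _ hV) e he).sub
      (analyticAt_const (v := u a (f x)))) ((e.continuousAt he.2).tendsto.frequently
        ((h2.and_eventually (e.open_source.mem_nhds he.2)).mono fun z hz =>
          (ev_symm hz.2 hz.1).mono fun w hw => by simp [hw]))
    filter_upwards [ev_of_symm he (p := fun z => ∀ a, u a (f z) - u a (f x) = 0)
      (eventually_all.2 h3), hf.1.continuousAt.eventually (hu.isOpen.mem_nhds hV)] with z a1 a2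
      using hu.injOn a2 hV (funext fun a => sub_eq_zero.1 (a1 a))
  have h2 : ∀ z, f z = y := fun z =>
    Eventually.self_of_nhds (p := fun z => f z = y) ((h1.eq_univ ⟨x, hx⟩).ge (mem_univ z))
  exact h (by rintro _ ⟨a, rfl⟩ _ ⟨b, rfl⟩; rw [h2, h2])

/-- the preimages of countable sets do not disconnect -/
theorem conn_compl [ConnectedSpace X.M] (hf : HolY d Y f) (h : ¬ (range f).Subsingleton)
    {C : Set Y.pt} (hC : C.Countable) : IsPreconnected (f ⁻¹' C)ᶜ ∧ Dense (f ⁻¹' C)ᶜ := by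
  have key : ∀ x, x ∈ closure (f ⁻¹' C)ᶜ ∧ ∃ O ∈ 𝓝 x, IsPreconnected (O ∩ (f ⁻¹' C)ᶜ) := by
    intro x
    have he := at_chartAt (n := d) x
    set e := chartAt (Cm d) x
    rcases d with _ | m
    · exact (not_const hf h x _ (ev_of_symm he (p := fun z => f z = f (e.symm (e x)))
        (.of_forall fun z => by rw [Subsingleton.elim z (e x)]))).elim
    obtain ⟨N, V, u, hV, hu⟩ := exists_isCoord Y (f x)
    obtain ⟨r, hr, h1⟩ := Metric.eventually_nhds_iff_ball.1 ((eventually_all.2 fun a =>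
      (hf.2 x _ (hu.hol a _ hV) e he).eventually_analyticAt).and ((ev_symm he.2
        (hf.1.continuousAt.eventually (hu.isOpen.mem_nhds hV))).and
          (e.open_target.eventually_mem (e.map_source he.2))))
    have h2 : ∀ y, Cv m {z ∈ ball (e x) r | f (e.symm z) = y} := fun y => by
      by_cases k : ∃ q ∈ ball (e x) r, ∃ a, u a (f (e.symm q)) - u a y ≠ 0
      · obtain ⟨q, k1, a, k2⟩ := k
        exact (Rk.cv_zero (fun z hz => ((h1 z hz).1 a).sub analyticAt_const) k1 k2).mono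
          fun z hz => ⟨hz.1, by simp [hz.2]⟩
      · push Not at k
        refine cv_empty.mono fun z hz => not_const hf h x y (ev_of_symm he
          (p := fun z => f z = y) ?_)
        filter_upwards [ball_mem_nhds _ hr] with w hw using hu.injOn (h1 w hw).2.1
          (hz.2 ▸ (h1 z hz.1).2.1) (funext fun a => sub_eq_zero.1 (k w hw a))
    obtain ⟨h3, h4⟩ := conn_cv (E := {z ∈ ball (e x) r | f (e.symm z) ∈ C}) isOpen_ball
      (convex_ball (e x) r) ((cv_biUnion hC fun y _ => h2 y).mono fun z hz =>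
        mem_biUnion hz.2 ⟨hz.1, rfl⟩)
    refine ⟨mem_closure_iff_frequently.2 ((e.tendsto_symm he.2).frequently
      ((mem_closure_iff_frequently.1 (h4 (mem_ball_self hr))).mono fun z hz a => hz.2 ⟨hz.1, a⟩)),
      e.symm '' ball (e x) r, ?_, (congrArg IsPreconnected (Set.ext fun w => ?_)).mp
        (h3.image _ (e.continuousOn_symm.mono fun z hz => (h1 z hz.1).2.2))⟩
    · filter_upwards [(e.continuousAt he.2).eventually_mem (ball_mem_nhds _ hr),
        e.open_source.mem_nhds he.2] with w h1 h2 using ⟨_, h1, e.left_inv h2⟩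
    · exact ⟨fun ⟨z, hz, k⟩ => ⟨⟨z, hz.1, k⟩, fun a => hz.2 ⟨hz.1, k.symm ▸ a⟩⟩,
        fun ⟨⟨z, hz, k⟩, k'⟩ => ⟨z, ⟨hz, fun a => k' (k ▸ a.2)⟩, k⟩⟩
  exact ⟨P284Z.preconn_glue isPreconnected_univ (subset_univ _) (fun x _ => (key x).1)
    fun x _ => (key x).2, fun x => (key x).1⟩

theorem sub_of_dich [ConnectedSpace X.M] (hf : HolY d Y f) (hd : DimLe Y 1 (range f))
    {B C : Set Y.pt} (hB : IsClosed B) (hC : C.Countable) (h : ∀ y ∉ C, Dich B y)
    (h' : ¬ (range f ∩ B).Countable) : range f ⊆ B := by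
  have hC' := hC.union (crit_count hf)
  obtain ⟨h1, h2⟩ := conn_compl hf (fun k => h' (k.countable.mono inter_subset_left)) hC'
  have key : ∀ x ∈ (f ⁻¹' (C ∪ f '' {x | Crit f x}))ᶜ, (∀ᶠ z in 𝓝 x, f z ∈ B) ∨
      (∀ᶠ z in 𝓝 x, f z ∈ B → f z = f x) ∧ ∀ᶠ z in 𝓝 x, ¬ ∀ᶠ w in 𝓝 z, f w ∈ B := fun x hx => by
    obtain ⟨t, g, k1, -, k2, k3⟩ := exists_dsc hf hd (x := x) fun k => hx (.inr ⟨x, k, rfl⟩)
    have c : Tendsto (fun z => t (f z)) (𝓝 x) (𝓝 (t (f x))) :=
      (hol_continuousAt k1.hol).tendsto.comp hf.1.continuousAt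
    refine (h _ (fun k => hx (.inl k)) t g k1).imp (fun k => ?_) fun k => ?_
    · filter_upwards [c.eventually k, k2] with z a1 a2 using a2 ▸ a1
    · have k4 : ∀ᶠ z in 𝓝 x, f z ∈ B → t (f z) = t (f x) := by
        filter_upwards [c.eventually (eventually_nhdsWithin_iff.1 k), k2] with z a1 a2 a3
          using by_contra fun a4 => a1 a4 (a2.symm ▸ a3)
      refine ⟨(k4.and k2).mono fun z a b => by rw [← a.2, a.1 b, k1.eq], ?_⟩
      filter_upwards [k4.eventually_nhds, k3] with z a1 a2 a3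
        using a2 ((a1.and a3).mono fun _ b => b.1 b.2)
  have h3 : (f ⁻¹' (C ∪ f '' {x | Crit f x}))ᶜ ⊆ {x | ∀ᶠ z in 𝓝 x, f z ∈ B} := by
    refine h1.subset_of_closure_inter_subset isOpen_setOfPred_eventually_nhds
      (by_contra fun k => h' ?_) fun x hx => (key x hx.2).resolve_right fun k =>
        mem_closure_iff_frequently.1 hx.1 k.2
    refine (hC'.union (count_local (f := f)
      (S := (f ⁻¹' (C ∪ f '' {x | Crit f x}))ᶜ ∩ f ⁻¹' B) fun x hx => ?_)).mono ?_
    · refine ⟨_, ((key x hx.1).resolve_left fun a => k ⟨x, hx.1, a⟩).1,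
        (countable_singleton (f x)).mono ?_⟩
      rintro _ ⟨z, hz, rfl⟩
      exact hz.1 hz.2.2
    · rintro _ ⟨⟨x, rfl⟩, hx⟩
      exact or_iff_not_imp_left.2 fun a => ⟨x, ⟨a, hx⟩, rfl⟩
  rintro _ ⟨x, rfl⟩
  exact (hB.preimage hf.1).closure_subset_iff.2
    (fun z hz => Eventually.self_of_nhds (p := fun z => f z ∈ B) (h3 hz)) (h2 x)

theorem isDisc_of {σ : Set Y.pt} {t : Y.pt → ℂ} {g : ℂ → Y.pt} (h : Dsc y t g)
    (h' : ∀ᶠ z in 𝓝 y, z ∈ σ ↔ g (t z) = z) : ∃ O Δ, IsDisc Y σ O t g Δ ∧ y ∈ O := by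
  obtain ⟨O, h1, h2, h3⟩ := eventually_nhds_iff.1 (h'.and (hol_eventually h.hol))
  obtain ⟨r, hr, h4⟩ := Metric.eventually_nhds_iff_ball.1
    (h.near.and (h.tend.eventually (h2.mem_nhds h3)))
  refine ⟨O ∩ t ⁻¹' ball (t y) r, ball (t y) r, ⟨ContinuousOn.isOpen_inter_preimage
    (fun z hz => (hol_continuousAt (h1 z hz).2).continuousWithinAt) h2 isOpen_ball, isOpen_ball,
    convex_ball _ _, fun z hz => (h1 z hz.1).2, fun s hs => ⟨(h4 s hs).1.1 ▸ (h4 s hs).1.2.cont,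
      (h4 s hs).1.1, fun k hk => (h4 s hs).1.1 ▸ (h4 s hs).1.2.an k hk⟩, Subset.antisymm
    (fun z hz => ⟨_, hz.2.2, (h1 z hz.2.1).1.1 hz.1⟩) ?_⟩, h3, mem_ball_self hr⟩
  rintro _ ⟨s, hs, rfl⟩
  exact ⟨(h1 _ (h4 s hs).2).1.2 (h4 s hs).1.2.eq, (h4 s hs).2, by
    rwa [mem_preimage, (h4 s hs).1.1]⟩

/-- the points of the image which are not on a disc are isolated off the critical values -/
theorem disc_near (hf : HolY d Y f) (hd : DimLe Y 1 (range f)) (hy : y ∉ f '' {x | Crit f x}) :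
    ∀ᶠ z in 𝓝 y, z ≠ y → z ∈ range f → ∃ O t g Δ, IsDisc Y (range f) O t g Δ ∧ z ∈ O := by
  obtain ⟨J, _, t, g, h1, h2⟩ := loc_discs hf hd hy
  filter_upwards [one_disc h1, h2.eventually_nhds] with z k1 k2 k3 k4
  obtain ⟨i, hi⟩ := k2.self_of_nhds.1 k4
  obtain ⟨O, Δ, k5⟩ := isDisc_of (σ := range f) (k1 k3 i hi).1
    ((k2.and (k1 k3 i hi).2).mono fun _ a => a.1.trans a.2)
  exact ⟨O, _, _, Δ, k5⟩

/-- the coordinate of a disc is a submersion off the critical points -/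
theorem sub_of_disc (hf : HolY d Y f) {O : Set Y.pt} {t : Y.pt → ℂ} {g : ℂ → Y.pt} {Δ : Set ℂ}
    (h : IsDisc Y (range f) O t g Δ) (hx : f x ∈ O) (h' : ¬ Crit f x) :
    Sub d (fun x => t (f x)) x := fun e he h0 => h' fun k hk e' he' => by
  have h1 : ∀ z, f z ∈ O → t (f z) ∈ Δ ∧ g (t (f z)) = f z := fun z hz => by
    obtain ⟨s, hs, k⟩ := h.img.le ⟨mem_range_self z, hz⟩
    rw [← k, (h.par s hs).2.1]
    exact ⟨hs, rfl⟩
  have h2 := hf.2 x t (h.hol _ hx)
  have h3 : fderiv ℂ (fun z => t (f (e'.symm z))) (e' x) = 0 := by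
    have k1 := ((crd_chart he').chg (crd_chart he)).1
    have k2 : (fun z => t (f (e'.symm z))) =ᶠ[𝓝 (e' x)]
        (fun z => t (f (e.symm z))) ∘ fun z => e (e'.symm z) :=
      (ev_symm he'.2 (e.eventually_left_inverse he.2)).mono fun z hz => by simp [hz]
    rw [k2.fderiv_eq, fderiv_comp _ (by rw [e'.left_inv he'.2]; exact (h2 e he).differentiableAt)
      k1.differentiableAt, e'.left_inv he'.2, h0, ContinuousLinearMap.zero_comp]
  have h4 : (fun z => k (f (e'.symm z))) =ᶠ[𝓝 (e' x)]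
      (fun s => k (g s)) ∘ fun z => t (f (e'.symm z)) :=
    (ev_symm he'.2 (hf.1.continuousAt.eventually (h.isOpen.mem_nhds hx))).mono fun z hz => by
      simp [(h1 _ hz).2]
  rw [h4.fderiv_eq, fderiv_comp _ (by
    rw [e'.left_inv he'.2]
    exact ((h.par _ (h1 x hx).1).2.2 k ((h1 x hx).2.symm ▸ hk)).differentiableAt)
    (h2 e' he').differentiableAt, h3, ContinuousLinearMap.comp_zero]

end Ir

open Ir

theorem stIrr : StIrr := by
  intro Y d X f _ hf hd
  refine ⟨fun B hB => sub_of_dich hf hd (isOpen_compl_iff.1 (isOpen_iff_mem_nhds.2 fun y hy => ?_))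
    countable_empty fun y _ => ?_, fun d' X' f' hf' hd' => sub_of_dich hf hd
      (isCompact_range hf'.1).isClosed (crit_count hf') fun y hy => ?_, fun h => ⟨fun k => ?_, ?_⟩⟩
  · obtain ⟨k, h, h1, h2⟩ := hB y trivial
    obtain ⟨i, hi⟩ := not_forall.1 fun a => hy (h2.self_of_nhds.2 a)
    filter_upwards [h2, (hol_continuousAt (h1 i)).eventually_ne hi] with z a1 a2 a3
      using a2 (a1.1 a3 i)
  · obtain ⟨k, h, h1, h2⟩ := hB y trivial
    exact (dich_zero h1).congr h2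
  · obtain ⟨J, _, t, g, h1, h2⟩ := loc_discs hf' hd' hy
    exact (dich_ex fun j => (h1 j).dich).congr h2
  · obtain ⟨x, hx⟩ := (conn_compl hf h k).2.nonempty
    exact hx (mem_range_self x)
  · refine ((crit_count hf).union (count_local (f := id) (S := {y ∈ range f |
      ¬ ∃ O t g Δ, IsDisc Y (range f) O t g Δ ∧ y ∈ O} \ f '' {x | Crit f x}) fun y hy =>
        ⟨_, disc_near hf hd hy.2, (countable_singleton y).mono ?_⟩)).mono fun y hy =>
      or_iff_not_imp_left.2 fun a => ⟨y, ⟨hy, a⟩, rfl⟩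
    rintro _ ⟨z, hz, rfl⟩
    exact by_contra fun a => hz.2.1.2 (hz.1 a hz.2.1.1)

end Vale.Agent.P277Z.Top
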