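import Vale.Agent.P277Z.Top.Api
import Vale.Agent.P277Z.Top.Sk
import Vale.Agent.P277Z.Glc.Adj4

/-!
# P277, block TOP: the strata as manifolds, Green functions on the threefolds
-/

set_option linter.all false

open scoped Manifold ContDiff Topology
open Vale.Agent.P272.K Set Filter
open Vale.Agent.P277.PH (HolF SmR at_chartAt ev_symm)
open Vale.Agent.P277Z.Val (Sb Lg IsCC holF_ev holF_cont holF_chart)
open Vale.Agent.P277Z.Slc (LEq)
open Vale.Agent.P277Z.Glc.Ad (sb_comp snc_res leq_res leq_congr leq_one)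
open Vale.Agent.P277Z.Gd

noncomputable section

namespace Vale.Agent.P277Z.Top

/-- an immersion into a submanifold -/
theorem Pa.sb_lift {a b c : ℕ} {A B C : Type} [TopologicalSpace A] [ChartedSpace (Cm a) A]
    [IsManifold 𝓘(ℂ, Cm a) ω A] [TopologicalSpace B] [ChartedSpace (Cm b) B]
    [IsManifold 𝓘(ℂ, Cm b) ω B] [TopologicalSpace C] [ChartedSpace (Cm c) C]
    [IsManifold 𝓘(ℂ, Cm c) ω C] [CompactSpace B] [T2Space C] {ι : B → C} {g : A → B} {f : A → C}
    (hι : Sb b c ι) (hf : Sb a c f) (h : ∀ x, ι (g x) = f x) : Sb a b g := by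
  obtain rfl : f = fun x => ι (g x) := (funext h).symm
  have h1 : Continuous g := (hι.cont.isClosedEmbedding hι.inj).isInducing.continuous_iff.2 hf.cont
  refine ⟨h1, Function.Injective.of_comp (f := ι) hf.inj, fun x e k he hk => ?_⟩
  have a1 : AnalyticAt ℂ (fun z => k (g (e.symm z))) (e x) := analyticAt_pi_iff.2 fun i => by
    obtain ⟨F, b1, b2⟩ := hι.ext (holF_chart hk i)
    exact (hf.holF b1).congr ((h1.continuousAt.eventually b2).mono fun _ b => b.symm) e he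
  have he' := at_chartAt (n := c) (ι (g x))
  set e' := chartAt (Cm c) (ι (g x))
  have a3 := (hι.holo (g x) k e' hk he').1
  rw [← congrArg (fun z => k (g z)) he.left_inv] at a3
  have a4 : (fun z => e' (ι (g (e.symm z)))) =ᶠ[𝓝 (e x)]
      (fun z => e' (ι (k.symm z))) ∘ fun z => k (g (e.symm z)) := by
    filter_upwards [ev_symm he.2 (h1.continuousAt.eventually (Slc.At.near hk))] with z hz
    simp only [Function.comp_apply, hz.left_inv]
  have a5 := (hf.holo x e e' he he').2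
  rw [a4.fderiv_eq, fderiv_comp (e x) a3.differentiableAt a1.differentiableAt] at a5
  exact ⟨a1, Function.Injective.of_comp a5⟩

theorem Pa.exists_H (V : Lg) (l : Fin V.r) : ∃ (H : Mf 3) (ι : H.M → V.W), Sb 3 4 ι ∧
    range ι = V.G l ∧ ConnectedSpace H.M := by
  obtain ⟨H, _, _, _, a, _, _, ι, b, c⟩ := Val.stSub V l
  exact ⟨⟨H⟩, ι, Val.sb_iff.2 b, c, a⟩

theorem Pa.exists_S (V : Lg) (T : Set V.W) : ∃ (S : Mf 2) (ι : S.M → V.W),
    ∀ l, (l, T) ∈ V.cmp → Sb 2 4 ι ∧ range ι = T ∧ ConnectedSpace S.M := by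
  by_cases h : ∃ l, (l, T) ∈ V.cmp
  · obtain ⟨l, h⟩ := h
    obtain ⟨k, hk⟩ : ∃ k, IsCC V l k T := Lg.cmp_iff.1 h
    obtain ⟨H, ι, a1, a2, -⟩ := Pa.exists_H V l
    have h0 : ∀ x, ι x ∈ V.G l := fun x => a2 ▸ mem_range_self x
    have a3 : Val.Hyp (2 + 1) (ι ⁻¹' T) := fun x hx => by
      obtain ⟨t, i, b1, b2⟩ := (@snc_res 3 _ V.W _ _ _ _ V.ch V.mf _ _ _ _ V.snc a1 h0).hyp
        ⟨k, hk.ne⟩ x (hk.sub hx).2
      refine ⟨t, i, b1, ?_⟩
      filter_upwards [b2, a1.cont.continuousAt.eventually (hk.loc _ hx)] with y c1 c2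
      exact c2.trans ((and_iff_right (h0 y)).trans c1)
    obtain ⟨c, m, a4, -⟩ := @Val.Hyp.exists_sb 2 _ _ H.ch H.mf _ a3
    have := isCompact_iff_compactSpace.1 (hk.closed.preimage a1.cont).isCompact
    have a5 : ι '' (ι ⁻¹' T) = T := image_preimage_eq_of_subset (a2 ▸ fun y b => (hk.sub b).1)
    refine ⟨⟨ι ⁻¹' T⟩, fun x => ι x.1, fun _ _ => ⟨sb_comp a1 a4, ?_, ?_⟩⟩
    · exact (image_eq_range _ _).symm.trans a5
    · refine isConnected_iff_connectedSpace.1 ⟨?_, ?_⟩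
      · exact Nonempty.of_image (a5.symm ▸ hk.conn.nonempty)
      · rw [← (a1.cont.isClosedEmbedding a1.inj).isInducing.isPreconnected_image, a5]
        exact hk.conn.2
  · let := ChartedSpace.empty (Cm 2) Empty
    exact ⟨⟨Empty⟩, Empty.elim, fun l a => absurd ⟨l, a⟩ h⟩

/-- **PAR** -/
theorem stPar : StPar := by
  intro V
  choose H ι h1 h2 h3 using Pa.exists_H V
  choose S ι₂ h4 using Pa.exists_S V
  have h5 : ∀ c ∈ V.cmp, ∀ x, ι c.1 (@Function.invFun _ _ (h3 c.1).toNonempty (ι c.1)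
      (ι₂ c.2 x)) = ι₂ c.2 x := fun c hc x => by
    obtain ⟨k, hk⟩ := Lg.cmp_iff.1 hc
    have := (h3 c.1).toNonempty
    exact Function.invFun_eq ((h2 c.1).ge (hk.sub ((h4 _ _ hc).2.1.le (mem_range_self x))).1)
  exact ⟨⟨H, ι, S, fun l T x => @Function.invFun _ _ (h3 l).toNonempty (ι l) (ι₂ T x), ι₂, h1, h2,
    h3, fun c hc => Pa.sb_lift (h1 _) (h4 _ _ hc).1 (h5 c hc), h5, fun c hc => (h4 _ _ hc).2.1,
    fun c hc => (h4 _ _ hc).2.2⟩⟩

/-- **GRN** -/
theorem stGrn : StGrn := by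
  classical
  rintro V P l m ⟨g, hg⟩
  have hι := P.emb l
  have h0 : ∀ x, P.ι l x ∈ V.G l := fun x => P.rng l ▸ mem_range_self x
  have h1 : ∀ T, ∃ k, T ∈ cl V l → IsCC V l k T := fun T => by
    by_cases h : T ∈ cl V l
    · exact (Lg.cmp_iff.1 (mem_cl.1 h)).imp fun _ a _ => a
    · exact ⟨l, fun a => absurd a h⟩
  choose κ hκ using h1
  have h2 : ∀ T ∈ cl V l, range (P.j l T) = P.ι l ⁻¹' T := fun T a =>
    Set.ext (par_mem P (mem_cl.1 a))
  refine ⟨fun x => 2 * g (P.ι l x), fun x => ?_⟩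
  obtain ⟨ζ, hζ⟩ := V.exEq (P.ι l x)
  obtain ⟨F, cf, a1, a2, a3⟩ := hg _ (h0 x) ζ hζ
  let K : Finset (Fin V.r) := Finset.univ.filter fun k => k ≠ l ∧ P.ι l x ∉ V.G k
  refine ⟨fun T => if P.ι l x ∈ T then ζ (κ T) ∘ P.ι l else fun _ => 1,
    fun y => -(2 * (F (P.ι l y)).re + ∑ k ∈ K, cf k * Real.log (‖ζ k (P.ι l y)‖ ^ 2)),
    fun T hT => ?_, ?_⟩
  · have b := hκ T hT
    dsimp only
    rw [h2 T hT]
    split_ifs with c
    · refine leq_congr (@leq_res 3 _ V.W _ _ _ _ V.ch V.mf _ _ _ _ _ _ V.snc hι h0 _ b.ne x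
        (b.sub c).2 _ (hζ _)) ?_
      filter_upwards [hι.cont.continuousAt.eventually (b.loc _ c)] with y e
      exact e.trans (and_iff_right (h0 y))
    · exact leq_one (b.closed.preimage hι.cont) c
  · have b1 : ∀ᶠ y in 𝓝 x, ∀ k ∈ K, HolF 3 (fun y => ζ k (P.ι l y)) y ∧ ζ k (P.ι l y) ≠ 0 :=
      (eventually_all_finset K).2 fun k hk => (holF_ev (hι.holF (hζ.hol k))).and
        ((holF_cont (hι.holF (hζ.hol k))).eventually_ne fun c =>
          (Finset.mem_filter.1 hk).2.2 ((hζ.iff.self_of_nhds k).1 c))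
    filter_upwards [b1, holF_ev (hι.holF a1), hι.cont.continuousAt.eventually a3] with y c1 c2 c3
    have s1 := (holF_ev c2).mono fun _ => smR_re
    have s2 := fun k hk => ev_smR_log (c1 k hk).1 (c1 k hk).2
    have s3 := fun k hk => (s2 k hk).mono fun _ => smR_cmul (cf k)
    have s4 := ((eventually_all_finset K).2 s3).mono fun _ => smR_sum K
    have s5 := s1.mono fun _ => smR_cmul 2
    have s6 := (s5.and s4).mono fun _ a => smR_add a.1 a.2
    refine ⟨smR_neg s6.self_of_nhds, ?_, fun c4 => ?_⟩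
    · rw [ddc_neg s6, ddc_add s5 s4, ddc_smul 2 s1, ddc_re c2, ddc_sum K s3,
        Finset.sum_eq_zero fun k hk => by
          rw [ddc_smul _ (s2 k hk), ddc_log (c1 k hk).1 (c1 k hk).2, smul_zero]]
      simp
    · have c5 : ∀ k, k ≠ l → P.ι l y ∉ V.G k := fun k a b => by
        have e := mem_cl.2 (Lg.cmp_iff.2 ⟨k, Val.isCC_cc a ⟨h0 y, b⟩⟩)
        exact c4 _ e ((h2 _ e).ge (mem_connectedComponentIn (F := V.G l ∩ V.G k) ⟨h0 y, b⟩))
      have c6 : ∑ T ∈ cl V l, m T * Real.log (‖(if P.ι l x ∈ T then ζ (κ T) ∘ P.ι l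
          else fun _ => 1) y‖ ^ 2) = ∑ k with k ≠ l ∧ P.ι l x ∈ V.G k,
            cf k * Real.log (‖ζ k (P.ι l y)‖ ^ 2) := by
        rw [← Finset.sum_filter_of_ne (p := fun T => P.ι l x ∈ T) fun T _ a => by
          by_contra b
          simp [b] at a]
        refine Finset.sum_nbij κ (fun T a => ?_) (fun T a T' a' b => ?_) (fun k a => ?_)
          fun T a => ?_
        · obtain ⟨a, b⟩ := Finset.mem_filter.1 a
          exact Finset.mem_filter.2 ⟨Finset.mem_univ _, (hκ T a).ne, ((hκ T a).sub b).2⟩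
        · obtain ⟨a, c⟩ := Finset.mem_filter.1 a
          obtain ⟨a', c'⟩ := Finset.mem_filter.1 a'
          rw [(hκ T a).eq _ c, (hκ T' a').eq _ c', b]
        · obtain ⟨-, a, b⟩ := Finset.mem_filter.1 a
          have e := Val.isCC_cc a ⟨h0 x, b⟩
          have e' := mem_cl.2 (Lg.cmp_iff.2 ⟨k, e⟩)
          exact ⟨_, Finset.mem_filter.2 ⟨e', mem_connectedComponentIn ⟨h0 x, b⟩⟩,
            (hκ _ e').unique e⟩
        · obtain ⟨a, b⟩ := Finset.mem_filter.1 a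
          rw [if_pos b, a2 _ (hκ T a).ne ((hκ T a).sub b).2, ← (hκ T a).eq _ b]
          rfl
      rw [c6, c3 (h0 y) c5, ← Finset.sum_filter_add_sum_filter_not _ fun k => P.ι l x ∈ V.G k,
        Finset.filter_filter, Finset.filter_filter]
      simp only [Real.log_pow, Nat.cast_ofNat, mul_left_comm _ (2 : ℝ), ← Finset.mul_sum, K]
      ring

end Vale.Agent.P277Z.Top
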