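import Vale.Agent.P277Z.Gd.Cal
import Vale.Agent.P277Z.Slc.Unit
import Vale.Agent.P277Z.Slc.Basic

/-!
# P277Z, block TOP: `d d^c` and Green functions
-/

set_option linter.all false
set_option maxSynthPendingDepth 3

open scoped Manifold ContDiff Topology ComplexConjugate
open Vale.Agent.P272.K Set Filter Module MeasureTheory
open Vale.Agent.P267.H175 (SmAt dF loc dF_add dF_smul smAt_zero smAt_dF dF_dF dF_congr)
open Vale.Agent.P277.PH (HolF SmR)
open Vale.Agent.P277Z.Tr (pb HolM rb b2 b3 b4)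
open Vale.Agent.P277Z.Val (Sb Lg IsCC holF_ev holF_cont)
open Vale.Agent.P277Z.Slc (LEq)
open Vale.Agent.P277Z.Top
open Vale.Agent.P277Z.Top.H38 (IsDc ddc_at J11 bl mat mat_inj)

noncomputable section

namespace Vale.Agent.P277Z.Gd

theorem tb_two : tb 2 = b2 := by
  ext i : 1; simp [tb, b2]

theorem tb_three : tb 3 = b3 := by
  ext i : 1; simp [tb, b3]

theorem tb_four : tb 4 = b4 := by
  ext i : 1; simp [tb, b4]

theorem rb_apply (d : ℕ) (i : Fin d) (j : Fin 2) :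
    rb d (finProdFinEquiv (i, j)) = Pi.single i (![1, Complex.I] j) := by
  simp [rb, Complex.coe_basisOneI]

theorem cHess_nsq {d : ℕ} {z : Cm d} {F : Cm d → ℂ} (hF : AnalyticAt ℂ F z) (j k : Fin d) :
    cHess (fun y => ‖F y‖ ^ 2) z j k = dz j F z * cj (dz k F z) := by
  have hev : ∀ᶠ y in 𝓝 z, DifferentiableAt ℂ F y :=
    hF.eventually_analyticAt.mono fun y hy => hy.differentiableAt
  have hkd : DifferentiableAt ℂ (dz k F) z := by
    have h1 : DifferentiableAt ℂ (fun y => fderiv ℂ F y (Pi.single k 1)) z :=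
      hF.fderiv.differentiableAt.clm_apply (differentiableAt_const _)
    refine h1.congr_of_eventuallyEq ?_
    filter_upwards [hev] with y hy
    exact dz_of_holo hy
  have h0 : (fun y => ((‖F y‖ ^ 2 : ℝ) : ℂ)) = fun y => F y * cj (F y) := by
    funext y
    rw [show cj (F y) = (starRingEnd ℂ) (F y) from rfl, Complex.mul_conj,
      Complex.normSq_eq_norm_sq]
  have hc : ∀ {G : Cm d → ℂ} {y}, DifferentiableAt ℝ G y →
      DifferentiableAt ℝ (fun y => cj (G y)) y :=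
    fun hG => Complex.conjCLE.differentiableAt.comp _ hG
  have h1 : dzb k (fun y => F y * cj (F y)) =ᶠ[𝓝 z] fun y => F y * cj (dz k F y) := by
    filter_upwards [hev] with y hy
    have hr := hy.restrictScalars ℝ
    rw [dzb_mul hr (hc hr), dzb_cj hr, dzb_of_holo hy]
    ring
  rw [cHess_apply, h0, dz_congr h1,
    dz_mul (hF.differentiableAt.restrictScalars ℝ) (hc (hkd.restrictScalars ℝ)),
    dz_cj (hkd.restrictScalars ℝ), dzb_of_holo hkd]
  simp [cj]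

section smr

variable {d : ℕ} {M : Type} [TopologicalSpace M] [ChartedSpace (Cm d) M] {u v : M → ℝ} {x : M}

theorem at_ch (x : M) : At (chartAt (Cm d) x) x := ⟨chart_mem_atlas _ _, mem_chart_source _ _⟩

theorem smR_const (c : ℝ) : SmR d (fun _ : M => c) x := fun _ _ => contDiffAt_const

theorem smR_add (hu : SmR d u x) (hv : SmR d v x) : SmR d (fun y => u y + v y) x :=
  fun e he => (hu e he).add (hv e he)

theorem smR_sub (hu : SmR d u x) (hv : SmR d v x) : SmR d (fun y => u y - v y) x :=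
  fun e he => (hu e he).sub (hv e he)

theorem smR_neg (hu : SmR d u x) : SmR d (fun y => -u y) x := fun e he => (hu e he).neg

theorem smR_mul (hu : SmR d u x) (hv : SmR d v x) : SmR d (fun y => u y * v y) x :=
  fun e he => (hu e he).mul (hv e he)

theorem smR_cmul (c : ℝ) (hu : SmR d u x) : SmR d (fun y => c * u y) x :=
  smR_mul (smR_const c) hu

theorem smR_sum {ι : Type*} (s : Finset ι) {f : ι → M → ℝ} (h : ∀ i ∈ s, SmR d (f i) x) :
    SmR d (fun y => ∑ i ∈ s, f i y) x := fun e he => ContDiffAt.sum fun i hi => h i hi e he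

theorem smR_congr (hu : SmR d u x) (h : v =ᶠ[𝓝 x] u) : SmR d v x := fun e he =>
  (hu e he).congr_of_eventuallyEq (Tr.ev_symm he.2 h)

theorem smR_fn {φ : ℝ → ℝ} (hφ : ContDiffAt ℝ ∞ φ (u x)) (hu : SmR d u x) :
    SmR d (fun y => φ (u y)) x := fun e he =>
  ContDiffAt.comp (e x) (by rw [he.left_inv]; exact hφ) (hu e he)

theorem smR_cont (hu : SmR d u x) : ContinuousAt u x := by
  have h := (smR_chart hu).continuousAt
  have h1 := ContinuousAt.comp (f := chartAt (Cm d) x) h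
    ((chartAt (Cm d) x).continuousAt (mem_chart_source _ x))
  refine h1.congr ?_
  filter_upwards [(chartAt (Cm d) x).eventually_left_inverse (mem_chart_source _ x)] with y hy
  simp only [Function.comp_apply, hy]

theorem smR_cx {F : M → ℂ} (hF : HolF d F x) {φ : ℂ → ℝ} (hφ : ContDiffAt ℝ ∞ φ (F x)) :
    SmR d (fun y => φ (F y)) x := fun e he =>
  ContDiffAt.comp (e x) (by rw [he.left_inv]; exact hφ)
    (((hF e he).contDiffAt.restrict_scalars ℝ).of_le le_top)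

theorem smR_re {F : M → ℂ} (hF : HolF d F x) : SmR d (fun y => (F y).re) x :=
  smR_cx hF Complex.reCLM.contDiff.contDiffAt

theorem smR_nsq {F : M → ℂ} (hF : HolF d F x) : SmR d (fun y => ‖F y‖ ^ 2) x :=
  smR_cx hF (φ := fun z => ‖z‖ ^ 2) (contDiff_norm_sq ℝ).contDiffAt

theorem smR_log {F : M → ℂ} (hF : HolF d F x) (h0 : F x ≠ 0) :
    SmR d (fun y => Real.log (‖F y‖ ^ 2)) x :=
  smR_fn (Real.contDiffAt_log.2 (by positivity)) (smR_nsq hF)

variable [IsManifold 𝓘(ℂ, Cm d) ω M]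

theorem loc_dc (hu : SmR d u x) {e : Chart d M} (he : At e x) (w : Cm d) :
    loc e (dc d u) (e x) ![w] =
      -(4 * Real.pi)⁻¹ * fderiv ℝ (fun z => u (e.symm z)) (e x) (Complex.I • w) :=
  (isDc_dc u x).loc ((smR_chart hu).differentiableAt (by simp)) he w

theorem ddc_neg (hu : ∀ᶠ y in 𝓝 x, SmR d u y) : ddc d (fun y => -u y) x = -ddc d u x := by
  simpa using ddc_smul (-1) hu

theorem ddc_sub (hu : ∀ᶠ y in 𝓝 x, SmR d u y) (hv : ∀ᶠ y in 𝓝 x, SmR d v y) :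
    ddc d (fun y => u y - v y) x = ddc d u x - ddc d v x := by
  simp only [sub_eq_add_neg]
  rw [ddc_add hu (hv.mono fun _ => smR_neg), ddc_neg hv]

theorem ddc_sum {ι : Type*} (s : Finset ι) {f : ι → M → ℝ}
    (h : ∀ i ∈ s, ∀ᶠ y in 𝓝 x, SmR d (f i) y) :
    ddc d (fun y => ∑ i ∈ s, f i y) x = ∑ i ∈ s, ddc d (f i) x := by
  classical
  induction s using Finset.induction_on with
  | empty => simpa using congrFun (ddc_const (d := d) (M := M) 0) x
  | insert i s hi ih =>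
    have h1 := fun j hj => h j (Finset.mem_insert_of_mem hj)
    simp only [Finset.sum_insert hi]
    rw [ddc_add (h i (Finset.mem_insert_self i s))
      (((eventually_all_finset s).2 h1).mono fun y hy => smR_sum s hy), ih h1]

theorem smAt_ddc (hu : ∀ᶠ y in 𝓝 x, SmR d u y) : SmAt (ddc d u) x := by
  obtain ⟨O, h1, h2, h3⟩ := eventually_nhds_iff.1 hu.eventually_nhds
  exact smAt_dF h2 (fun y hy => smAt_dc (h1 y hy)) h3

theorem dF_ddc (hu : ∀ᶠ y in 𝓝 x, SmR d u y) : dF (ddc d u) x = 0 := by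
  obtain ⟨O, h1, h2, h3⟩ := eventually_nhds_iff.1 hu.eventually_nhds
  exact dF_dF h2 (fun y hy => smAt_dc (h1 y hy)) h3

theorem j11_ddc (hu : ∀ᶠ y in 𝓝 x, SmR d u y) : J11 (ddc d u x) :=
  (ddc_at (Eventually.of_forall (isDc_dc u)) (hu.mono fun _ => smR_chart)).2.1

theorem is11_ddc (hu : ∀ᶠ y in 𝓝 x, SmR d u y) (v w : Cm d) :
    ddc d u x ![Complex.I • v, Complex.I • w] = ddc d u x ![v, w] := j11_ddc hu v w

theorem mat_ddc (hu : ∀ᶠ y in 𝓝 x, SmR d u y) : mat (ddc d u x) = (((4 * Real.pi)⁻¹ : ℝ) : ℂ) •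
    cHess (fun z => u ((chartAt (Cm d) x).symm z)) (chartAt (Cm d) x x) :=
  (ddc_at (Eventually.of_forall (isDc_dc u)) (hu.mono fun _ => smR_chart)).2.2

theorem ddc_apply (hu : ∀ᶠ y in 𝓝 x, SmR d u y) (v : Cm d) :
    ddc d u x ![v, Complex.I • v] = Real.pi⁻¹ * (∑ j, ∑ k, v j *
      cHess (fun z => u ((chartAt (Cm d) x).symm z)) (chartAt (Cm d) x x) j k * conj (v k)).re := by
  have h := H38.bl_I_eq_sq (a := ddc d u x) v v
  rw [(j11_ddc hu).sq_eq, mat_ddc hu] at h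
  refine h.trans ?_
  have h1 : ∀ C : Matrix (Fin d) (Fin d) ℂ, ∑ j, ∑ k, v j * ((((4 * Real.pi)⁻¹ : ℝ) : ℂ) • C) j k *
      conj (v k) = (((4 * Real.pi)⁻¹ : ℝ) : ℂ) * ∑ j, ∑ k, v j * C j k * conj (v k) := fun C => by
    simp only [Finset.mul_sum, Matrix.smul_apply, smul_eq_mul]
    exact Finset.sum_congr rfl fun j _ => Finset.sum_congr rfl fun k _ => by ring
  rw [h1, Complex.re_ofReal_mul]
  field_simp

theorem ddc_eq_zero (hu : ∀ᶠ y in 𝓝 x, SmR d u y)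
    (h : cHess (fun z => u ((chartAt (Cm d) x).symm z)) (chartAt (Cm d) x x) = 0) :
    ddc d u x = 0 := by
  refine mat_inj (j11_ddc hu) (fun _ _ => rfl) ?_
  have h0 := H38.mat_smul 0 (0 : Cm d [⋀^Fin 2]→L[ℝ] ℝ)
  rw [zero_smul] at h0
  rw [mat_ddc hu, h, h0]
  simp

theorem ev_smR_log {F : M → ℂ} (hF : HolF d F x) (h0 : F x ≠ 0) :
    ∀ᶠ y in 𝓝 x, SmR d (fun y => Real.log (‖F y‖ ^ 2)) y :=
  ((holF_ev hF).and ((holF_cont hF).eventually_ne h0)).mono fun _ h => smR_log h.1 h.2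

theorem ddc_log {F : M → ℂ} (hF : HolF d F x) (h0 : F x ≠ 0) :
    ddc d (fun y => Real.log (‖F y‖ ^ 2)) x = 0 :=
  ddc_eq_zero (ev_smR_log hF h0) (cHess_log_norm_sq (hF _ (at_ch x)).contDiffAt
    (by rwa [(at_ch x).left_inv]))

theorem ddc_re {F : M → ℂ} (hF : HolF d F x) : ddc d (fun y => (F y).re) x = 0 := by
  have h := ddc_log (F := fun y => Complex.exp (F y / 2)) (x := x)
    (fun e he => ((hF e he).div_const).cexp') (Complex.exp_ne_zero _)
  refine Eq.trans ?_ h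
  congr 1
  funext y
  rw [Complex.norm_exp, ← Real.exp_nat_mul, Real.log_exp]
  simp
  ring

theorem sq_normSq {F : M → ℂ} (hF : HolF d F x) (v w : Cm d) :
    H38.sq (ddc d (fun y => ‖F y‖ ^ 2) x) v w = (((4 * Real.pi)⁻¹ : ℝ) : ℂ) *
      (fderiv ℂ (fun z => F ((chartAt (Cm d) x).symm z)) (chartAt (Cm d) x x) v *
        conj (fderiv ℂ (fun z => F ((chartAt (Cm d) x).symm z)) (chartAt (Cm d) x x) w)) := by
  have hu : ∀ᶠ y in 𝓝 x, SmR d (fun y => ‖F y‖ ^ 2) y := (holF_ev hF).mono fun _ => smR_nsq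
  have ha := hF _ (at_ch x)
  set L := fderiv ℂ (fun z => F ((chartAt (Cm d) x).symm z)) (chartAt (Cm d) x x) with hL
  have h1 : ∀ v : Cm d, L v = ∑ j, v j * L (Pi.single j 1) := fun v => by
    conv_lhs => rw [pi_eq_sum_univ' v, map_sum]
    simp only [map_smul, smul_eq_mul]
  rw [(j11_ddc hu).sq_eq, mat_ddc hu, h1 v, h1 w, map_sum, Finset.sum_mul_sum, Finset.mul_sum]
  refine Finset.sum_congr rfl fun j _ => ?_
  rw [Finset.mul_sum]
  refine Finset.sum_congr rfl fun k _ => ?_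
  rw [Matrix.smul_apply, cHess_nsq ha, dz_of_holo ha.differentiableAt,
    dz_of_holo ha.differentiableAt, ← hL, map_mul]
  simp only [cj, smul_eq_mul]
  ring

theorem ddc_normSq {F : M → ℂ} (hF : HolF d F x) (v w : Cm d) :
    ddc d (fun y => ‖F y‖ ^ 2) x ![v, w] = -Real.pi⁻¹ *
      (fderiv ℂ (fun z => F ((chartAt (Cm d) x).symm z)) (chartAt (Cm d) x x) v *
        conj (fderiv ℂ (fun z => F ((chartAt (Cm d) x).symm z)) (chartAt (Cm d) x x) w)).im := by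
  have h := H38.bl_eq_sq (a := ddc d (fun y => ‖F y‖ ^ 2) x) v w
  rw [sq_normSq hF, Complex.im_ofReal_mul] at h
  refine h.trans ?_
  field_simp

theorem ddc_normSq_I {F : M → ℂ} (hF : HolF d F x) (v : Cm d) :
    ddc d (fun y => ‖F y‖ ^ 2) x ![v, Complex.I • v] = Real.pi⁻¹ *
      ‖fderiv ℂ (fun z => F ((chartAt (Cm d) x).symm z)) (chartAt (Cm d) x x) v‖ ^ 2 := by
  have h := H38.bl_I_eq_sq (a := ddc d (fun y => ‖F y‖ ^ 2) x) v v
  rw [sq_normSq hF, Complex.re_ofReal_mul, Complex.mul_conj, Complex.ofReal_re,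
    Complex.normSq_eq_norm_sq] at h
  refine h.trans ?_
  field_simp

theorem isEx_neg {a : Fr d 2 M} (ha : IsEx a) : IsEx (-a) := neg_one_smul ℝ a ▸ isEx_smul (-1) ha

theorem isEx_sub {a b : Fr d 2 M} (ha : IsEx a) (hb : IsEx b) : IsEx (a - b) :=
  sub_eq_add_neg a b ▸ isEx_add ha (isEx_neg hb)

theorem isEx_ddc (hu : ∀ x, SmR d u x) : IsEx (ddc d u) := ⟨u, fun x => ⟨hu x, rfl⟩⟩

/-- forms which are locally `d d^c u` -/
theorem of_loc {α : Fr d 2 M} (h : ∀ x, ∃ u, ∀ᶠ y in 𝓝 x, SmR d u y ∧ α y = ddc d u y) :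
    Cl α ∧ Is11 α := by
  refine ⟨fun x => ?_, fun x v w => ?_⟩ <;> obtain ⟨u, hu⟩ := h x
  · have h1 := hu.mono fun _ h => h.1
    have h2 : α =ᶠ[𝓝 x] ddc d u := hu.mono fun _ h => h.2
    exact ⟨(smAt_ddc h1).congr h2, by rw [dF_congr h2, dF_ddc h1]⟩
  · rw [hu.self_of_nhds.2]
    exact is11_ddc (hu.mono fun _ h => h.1) v w

end smr

section green

variable {d : ℕ} {M : Type} [TopologicalSpace M] [ChartedSpace (Cm d) M]
  [IsManifold 𝓘(ℂ, Cm d) ω M] {ι : Type} {T : Finset ι} {D : ι → Set M} {m m' : ι → ℝ}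
  {α α' : Fr d 2 M} {g g' : M → ℝ}

theorem gr_cl (h : IsGr T D m α g) : Cl α ∧ Is11 α :=
  of_loc fun x => by
    obtain ⟨ζ, u, -, h1⟩ := h x
    exact ⟨u, h1.mono fun _ h => ⟨h.1, h.2.1⟩⟩

omit [IsManifold 𝓘(ℂ, Cm d) ω M] in
theorem gr_congr (h : IsGr T D m α g) (hm : ∀ i ∈ T, m' i = m i) (hα : α' = α)
    (hg : ∀ y, (∀ i ∈ T, y ∉ D i) → g' y = g y) : IsGr T D m' α' g' := by
  intro x
  obtain ⟨ζ, u, h1, h2⟩ := h x
  refine ⟨ζ, u, h1, h2.mono fun y hy => ⟨hy.1, hα ▸ hy.2.1, fun h3 => ?_⟩⟩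
  rw [hg y h3, hy.2.2 h3]
  exact congrArg (· - u y) (Finset.sum_congr rfl fun i hi => by rw [hm i hi])

theorem gr_smul (c : ℝ) (h : IsGr T D m α g) :
    IsGr T D (fun i => c * m i) (c • α) fun y => c * g y := by
  intro x
  obtain ⟨ζ, u, h1, h2⟩ := h x
  refine ⟨ζ, fun y => c * u y, h1, h2.eventually_nhds.mono fun y hy => ?_⟩
  have h3 := hy.self_of_nhds
  refine ⟨smR_cmul c h3.1, ?_, fun h4 => ?_⟩
  · rw [ddc_smul c (hy.mono fun _ h => h.1), ← h3.2.1]; rfl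
  · show c * g y = _
    rw [h3.2.2 h4, mul_sub, Finset.mul_sum]
    simp only [mul_assoc]

/-- a smooth function is moved from the form to the Green function -/
theorem gr_absorb {w : M → ℝ} (hw : ∀ x, SmR d w x) (h : IsGr T D m (α + ddc d w) g) :
    IsGr T D m α fun y => g y + w y := by
  intro x
  obtain ⟨ζ, u, h1, h2⟩ := h x
  refine ⟨ζ, fun y => u y - w y, h1, h2.eventually_nhds.mono fun y hy => ?_⟩
  have h3 := hy.self_of_nhds
  refine ⟨smR_sub h3.1 (hw y), ?_, fun h4 => ?_⟩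
  · rw [ddc_sub (hy.mono fun _ h => h.1) (.of_forall hw), ← h3.2.1]
    simp
  · show g y + w y = _
    rw [h3.2.2 h4]
    ring

theorem gr_ex (h : IsGr T D m α g) (he : IsEx (α - α')) : ∃ g', IsGr T D m α' g' := by
  obtain ⟨w, hw⟩ := he
  refine ⟨_, gr_absorb (g := g) (fun x => (hw x).1) (gr_congr h (fun _ _ => rfl) ?_ fun _ _ => rfl)⟩
  funext x
  rw [Pi.add_apply, ← (hw x).2]
  simp

variable [T2Space M] [CompactSpace M]

theorem leq_unit {G : Set M} {x : M} {ζ ζ' : M → ℂ} (h : LEq d G x ζ) (h' : LEq d G x ζ') :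
    ∃ u : M → ℂ, HolF d u x ∧ u x ≠ 0 ∧ ∀ᶠ y in 𝓝 x, ζ' y = u y * ζ y := by
  haveI := ChartedSpace.secondCountable_of_sigmaCompact (Cm d) M
  exact Slc.stUnit d M G x ζ ζ' h h'

/-- the local form of a Green function for arbitrary local equations -/
theorem gr_loc (h : IsGr T D m α g) {x : M} {ζ : ι → M → ℂ} (hζ : ∀ i ∈ T, LEq d (D i) x (ζ i)) :
    ∃ u : M → ℝ, ∀ᶠ y in 𝓝 x, SmR d u y ∧ α y = ddc d u y ∧
      ((∀ i ∈ T, y ∉ D i) → g y = ∑ i ∈ T, m i * Real.log (‖ζ i y‖ ^ 2) - u y) := by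
  obtain ⟨ξ, u, h1, h2⟩ := h x
  choose! v hv using fun i hi => leq_unit (h1 i hi) (hζ i hi)
  refine ⟨fun y => u y + ∑ i ∈ T, m i * Real.log (‖v i y‖ ^ 2), ?_⟩
  have h3 : ∀ᶠ y in 𝓝 x, ∀ i ∈ T, HolF d (v i) y ∧ v i y ≠ 0 ∧ ζ i y = v i y * ξ i y ∧
      (ξ i y = 0 ↔ y ∈ D i) := (eventually_all_finset T).2 fun i hi =>
    (holF_ev (hv i hi).1).and (((holF_cont (hv i hi).1).eventually_ne (hv i hi).2.1).and
      ((hv i hi).2.2.and (h1 i hi).1))
  filter_upwards [h2.eventually_nhds, h3] with y hy h4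
  have h5 := hy.self_of_nhds
  have h6 : ∀ i ∈ T, ∀ᶠ z in 𝓝 y, SmR d (fun y => m i * Real.log (‖v i y‖ ^ 2)) z :=
    fun i hi => (ev_smR_log (h4 i hi).1 (h4 i hi).2.1).mono fun _ => smR_cmul _
  refine ⟨smR_add h5.1 (smR_sum T fun i hi => (h6 i hi).self_of_nhds), ?_, fun h7 => ?_⟩
  · rw [ddc_add (hy.mono fun _ h => h.1)
      (((eventually_all_finset T).2 h6).mono fun _ h => smR_sum T h), ddc_sum T h6, ← h5.2.1,
      Finset.sum_eq_zero fun i hi => by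
        rw [ddc_smul _ (ev_smR_log (h4 i hi).1 (h4 i hi).2.1), ddc_log (h4 i hi).1 (h4 i hi).2.1,
          smul_zero], add_zero]
  · have h8 : ∀ i ∈ T, m i * Real.log (‖ζ i y‖ ^ 2) =
        m i * Real.log (‖v i y‖ ^ 2) + m i * Real.log (‖ξ i y‖ ^ 2) := fun i hi => by
      have a1 := (h4 i hi).2.1
      have a2 := mt (h4 i hi).2.2.2.1 (h7 i hi)
      rw [(h4 i hi).2.2.1, norm_mul, mul_pow, Real.log_mul (by positivity) (by positivity), mul_add]
    rw [h5.2.2 h7, Finset.sum_congr rfl h8, Finset.sum_add_distrib]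
    ring

theorem gr_add (h : IsGr T D m α g) (h' : IsGr T D m' α' g') :
    IsGr T D (fun i => m i + m' i) (α + α') fun y => g y + g' y := by
  intro x
  obtain ⟨ζ, u, h1, h2⟩ := h x
  obtain ⟨u', h3⟩ := gr_loc h' h1
  refine ⟨ζ, fun y => u y + u' y, h1, (h2.and h3).eventually_nhds.mono fun y hy => ?_⟩
  have h4 := hy.self_of_nhds
  refine ⟨smR_add h4.1.1 h4.2.1, ?_, fun h5 => ?_⟩
  · rw [ddc_add (hy.mono fun _ h => h.1.1) (hy.mono fun _ h => h.2.1), ← h4.1.2.1, ← h4.2.2.1]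
    rfl
  · show g y + g' y = _
    rw [h4.1.2.2 h5, h4.2.2.2 h5]
    simp only [add_mul, Finset.sum_add_distrib]
    ring

theorem gr_sub (h : IsGr T D m α g) (h' : IsGr T D m' α' g') :
    IsGr T D (fun i => m i - m' i) (α - α') fun y => g y - g' y :=
  gr_congr (gr_add h (gr_smul (-1) h')) (fun _ _ => by ring) (by simp [sub_eq_add_neg])
    fun _ _ => by ring

omit [IsManifold 𝓘(ℂ, Cm d) ω M] [T2Space M] [CompactSpace M] in
theorem gr_zero (hD : ∀ i ∈ T, ∀ x, ∃ ζ, LEq d (D i) x ζ) :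
    IsGr T D (fun _ => 0) (0 : Fr d 2 M) fun _ => 0 := by
  intro x
  choose! ζ hζ using fun i hi => hD i hi x
  exact ⟨ζ, fun _ => 0, hζ, .of_forall fun y => ⟨smR_const 0, by rw [ddc_const], by simp⟩⟩

theorem gr_sum (hD : ∀ i ∈ T, ∀ x, ∃ ζ, LEq d (D i) x ζ) {κ : Type*} (s : Finset κ)
    {m : κ → ι → ℝ} {α : κ → Fr d 2 M} {g : κ → M → ℝ} (h : ∀ k ∈ s, IsGr T D (m k) (α k) (g k)) :
    IsGr T D (fun i => ∑ k ∈ s, m k i) (∑ k ∈ s, α k) fun y => ∑ k ∈ s, g k y := by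
  classical
  induction s using Finset.induction_on with
  | empty => simpa using gr_zero hD
  | insert k s hk ih =>
    simp only [Finset.sum_insert hk]
    exact gr_add (h k (Finset.mem_insert_self k s)) (ih fun j hj => h j (Finset.mem_insert_of_mem hj))

open Classical in
/-- one hypersurface in a family -/
theorem gr_single (hD : ∀ i ∈ T, ∀ x, ∃ ζ, LEq d (D i) x ζ) {j : ι} (hj : j ∈ T)
    (h : IsGr1 (D j) α g) : IsGr T D (fun i => if i = j then 1 else 0) α g := by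
  intro x
  choose! ζ hζ using fun i hi => hD i hi x
  obtain ⟨u, hu⟩ := gr_loc h (x := x) (ζ := fun _ => ζ j) fun _ _ => hζ j hj
  refine ⟨ζ, u, hζ, hu.mono fun y hy => ⟨hy.1, hy.2.1, fun h1 => ?_⟩⟩
  rw [hy.2.2 fun _ _ => h1 j hj]
  simp [hj]

/-- the Green function of a divisor from those of the components -/
theorem gr_comb (hD : ∀ i ∈ T, ∀ x, ∃ ζ, LEq d (D i) x ζ) {β : ι → Fr d 2 M} {γ : ι → M → ℝ}
    (h : ∀ i ∈ T, IsGr1 (D i) (β i) (γ i)) (m : ι → ℝ) :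
    IsGr T D m (∑ i ∈ T, m i • β i) fun y => ∑ i ∈ T, m i * γ i y := by
  classical
  refine gr_congr (gr_sum hD T fun j hj => gr_smul (m j) (gr_single hD hj (h j hj)))
    (fun i hi => ?_) rfl fun _ _ => rfl
  simp [hi]

end green

section par

variable {V : Lg} (P : Par V)

theorem par_hol (l : Fin V.r) : HolM 3 4 (P.ι l) := sb_holM (P.emb l)

theorem par_hol₂ {c : Fin V.r × Set V.W} (hc : c ∈ V.cmp) : HolM 2 3 (P.j c.1 c.2) :=
  sb_holM (P.emb₂ c hc)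

theorem par_fac {c : Fin V.r × Set V.W} (hc : c ∈ V.cmp) :
    (fun x => P.ι c.1 (P.j c.1 c.2 x)) = P.ι₂ c.2 := funext (P.fac c hc)

theorem par_hol₄ {c : Fin V.r × Set V.W} (hc : c ∈ V.cmp) : HolM 2 4 (P.ι₂ c.2) :=
  par_fac P hc ▸ holM_comp (par_hol P c.1) (par_hol₂ P hc)

theorem par_pb {c : Fin V.r × Set V.W} (hc : c ∈ V.cmp) {k : ℕ} (θ : Fr 4 k V.W) :
    pb (Cm 2) (P.j c.1 c.2) (pb (Cm 3) (P.ι c.1) θ) = pb (Cm 2) (P.ι₂ c.2) θ := by
  rw [pb_pb (par_hol₂ P hc) (par_hol P c.1), par_fac P hc]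

theorem par_mem {c : Fin V.r × Set V.W} (hc : c ∈ V.cmp) (x : (P.H c.1).M) :
    x ∈ range (P.j c.1 c.2) ↔ P.ι c.1 x ∈ c.2 := by
  constructor
  · rintro ⟨y, rfl⟩
    exact (P.rng₂ c hc).le ⟨y, (P.fac c hc y).symm⟩
  · intro h
    obtain ⟨y, hy⟩ := (P.rng₂ c hc).ge h
    exact ⟨y, (P.emb c.1).inj ((P.fac c hc y).trans hy)⟩

/-- the surfaces are smooth hypersurfaces of the threefolds -/
theorem par_leq {c : Fin V.r × Set V.W} (hc : c ∈ V.cmp) (x : (P.H c.1).M) :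
    ∃ ζ, LEq 3 (range (P.j c.1 c.2)) x ζ := by
  obtain ⟨k, hk⟩ := Lg.cmp_iff.1 hc
  have hι := (P.emb c.1).cont.continuousAt (x := x)
  have hG : ∀ y, P.ι c.1 y ∈ V.G c.1 := fun y => P.rng c.1 ▸ mem_range_self y
  by_cases hx : P.ι c.1 x ∈ c.2
  · obtain ⟨Φ, ρ, lab, h1, h2, h3, -⟩ := V.snc.nch2 hk.ne.symm (hk.sub hx).1 (hk.sub hx).2
      (i := 0) (j := 1) (by decide) (p := fun _ => True) (by simp)
    have h4 := hι.eventually h1.nhds
    have h5 := @Sb.isCo 3 _ V.W _ _ _ V.ch _ V.mf _ (P.emb c.1) x Φ 0 (h1.crd _ h1.src).isCo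
      (h4.mono fun y hy => (h1.iff1 h2 hy).1 (hG y))
    refine ⟨fun y => Φ (P.ι c.1 y) 1, ?_, fun e he => ⟨analyticAt_pi_iff.1 (h5 e he).1 0, ?_⟩⟩
    · filter_upwards [h4, hι.eventually (hk.loc _ hx)] with y a1 a2
      rw [par_mem P hc, a2, ← h1.iff1 h3 a1]
      exact ⟨fun h => ⟨hG y, h⟩, fun h => h.2⟩
    · intro _ h0
      have h6 := Val.LocIso.inj (h5 e he)
      have h7 := (LinearMap.injective_iff_surjective
        (f := (fderiv ℂ (fun z j => Φ (P.ι c.1 (e.symm z)) ((0 : Fin 4).succAbove j)) (e x) :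
          Cm 3 →ₗ[ℂ] Cm 3))).1 h6
      obtain ⟨v, hv⟩ := h7 (Pi.single 0 1)
      have h8 := congrFun hv 0
      have h9 := fderiv_apply (h5 e he).1.differentiableAt (0 : Fin 3)
      have h10 : fderiv ℂ (fun z => Φ (P.ι c.1 (e.symm z)) 1) (e x) v = _ :=
        congrArg (fun L : Cm 3 →L[ℂ] ℂ => L v) h9
      rw [h0] at h10
      have h11 : (0 : ℂ) = 1 := h10.trans (h8.trans (by simp))
      exact zero_ne_one h11
  · refine ⟨fun _ => 1, ?_, fun e he => ⟨analyticAt_const, fun h => absurd h one_ne_zero⟩⟩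
    filter_upwards [hι.eventually (hk.closed.isOpen_compl.mem_nhds hx)] with y hy
    rw [par_mem P hc]
    exact ⟨fun h => absurd h one_ne_zero, fun h => absurd h hy⟩

theorem mem_cl {l : Fin V.r} {S : Set V.W} : S ∈ cl V l ↔ (l, S) ∈ V.cmp := by
  classical
  simp only [cl, Finset.mem_image, Finset.mem_filter]
  constructor
  · rintro ⟨c, ⟨h1, rfl⟩, rfl⟩
    exact h1
  · exact fun h => ⟨(l, S), ⟨h, rfl⟩, rfl⟩

theorem ed_cc (e : Ed V) : e.1.1 < e.1.2.1 ∧ IsCC V e.1.1 e.1.2.1 e.1.2.2 := by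
  classical
  have h := e.2
  simp only [ed, Finset.mem_filter] at h
  obtain ⟨-, h1, y, h2, h3⟩ := h
  exact ⟨h1, h3 ▸ Val.isCC_cc h1.ne' h2⟩

theorem ed_s (e : Ed V) : (e.1.1, e.1.2.2) ∈ V.cmp := Lg.cmp_iff.2 ⟨_, (ed_cc e).2⟩

theorem ed_t (e : Ed V) : (e.1.2.1, e.1.2.2) ∈ V.cmp := Lg.cmp_iff.2 ⟨_, (ed_cc e).2.symm⟩

theorem mem_ed {l k : Fin V.r} {S : Set V.W} (hlk : l < k) (h : IsCC V l k S) :
    (l, k, S) ∈ ed V := by
  classical
  obtain ⟨y, hy⟩ := h.conn.nonempty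
  simp only [ed, Finset.mem_filter, Finset.mem_product, Finset.mem_univ, true_and,
    Finset.mem_image]
  exact ⟨⟨(l, S), Lg.cmp_iff.2 ⟨k, h⟩, rfl⟩, hlk, y, h.sub hy, h.eq y hy⟩

end par

end Vale.Agent.P277Z.Gd
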