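import Vale.Agent.P277Z.Top.Api
import Vale.Agent.P277Z.Top.Sk
import Vale.Agent.P277.A.Dim

/-!
# P277Z, block TOP: the intersection data exist and have the Hodge index properties
-/

set_option linter.all false
set_option maxSynthPendingDepth 3

open scoped Manifold ContDiff Topology
open Vale.Agent.P272.K Vale.Agent.P285.H281.FD Vale.Agent.P277 Set Filter Module
open Vale.Agent.P267.H175 (SmAt dF)
open Vale.Agent.P277.PH (HolF SmR)
open Vale.Agent.P277Z.Tr (pb HolM)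
open Vale.Agent.P277Z.Val (Sb Lg Res)
open Vale.Agent.P277Z.Top
open P277Z.O1 (Cfg)

noncomputable section

namespace Vale.Agent.P277Z.Gd

section hol

variable {d d' : ℕ} {M S : Type} [TopologicalSpace M] [ChartedSpace (Cm d) M]
  [TopologicalSpace S] [ChartedSpace (Cm d') S] {f : S → M}

theorem holF_comp (hf : HolM d' d f) {g : M → ℂ} {x : S} (hg : HolF d g (f x)) :
    HolF d' (fun y => g (f y)) x := by
  intro e he
  have h0 := at_ch (d := d) (f x)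
  refine (AnalyticAt.comp_of_eq (hg _ h0) (hf.2 x e _ he h0) (by rw [he.left_inv])).congr ?_
  filter_upwards [Tr.ev_symm he.2 (hf.1.continuousAt.preimage_mem_nhds
    ((chartAt (Cm d) (f x)).open_source.mem_nhds h0.2))] with z hz
  simp only [Function.comp_apply]
  rw [(chartAt (Cm d) (f x)).left_inv hz]

theorem holY_comp {Y : CSp} {p : M → Y.pt} (hp : HolY d Y p) (hf : HolM d' d f) :
    HolY d' Y fun x => p (f x) :=
  ⟨hp.1.comp hf.1, fun x g hg => holF_comp (g := fun y => g (p y)) hf (hp.2 _ g hg)⟩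

end hol

/-- the formula of Poincare and Lelong for closed forms -/
theorem pl_cl (hPL : StPL) {d : ℕ} {X : Mf (d + 1)} {ι : Type} {T : Finset ι} {N : ι → Mf d}
    {j : ∀ i, (N i).M → X.M} {m : ι → ℝ} {α : Fr (d + 1) 2 X.M} {g : X.M → ℝ}
    (hj : ∀ i ∈ T, Sb d (d + 1) (j i)) (h : IsGr T (fun i => range (j i)) m α g)
    {φ : Fr (d + 1) (2 * d) X.M} (hφ : Cl φ) :
    X.int (wd α φ) = ∑ i ∈ T, m i * (N i).int (pb (Cm d) (j i) φ) :=
  hPL d X ι T N j m α g univ univ φ hj h isClosed_univ isOpen_univ Subset.rfl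
    (fun _ _ => subset_univ _) (fun x hx => absurd (mem_univ x) hx) (cl_sm hφ) fun x _ => (hφ x).2

theorem pl_one (hPL : StPL) {d : ℕ} {X : Mf (d + 1)} {N : Mf d} {j : N.M → X.M}
    {α : Fr (d + 1) 2 X.M} {g : X.M → ℝ} (hj : Sb d (d + 1) j) (h : IsGr1 (range j) α g)
    {φ : Fr (d + 1) (2 * d) X.M} (hφ : Cl φ) : X.int (wd α φ) = N.int (pb (Cm d) j φ) := by
  have := pl_cl hPL (N := fun _ : Unit => N) (j := fun _ => j) (fun _ _ => hj) h hφ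
  simpa using this

theorem res_holY {U : Lg} {Y : CSp} {p : U.W → Y.pt} {exc : Finset (Fin U.r)}
    (h : Res U Y p exc) : HolY 4 Y p := ⟨h.cont, h.hol⟩

theorem lam_pb (hL : StLam) {d d' : ℕ} {X : Mf d} {X' : Mf d'} {f : X'.M → X.M} (hf : HolM d' d f)
    {a : C11 X} (ha : a ∈ Lam X) : res hf a ∈ Lam X' := by
  obtain ⟨L, ψ, h⟩ := ((hL d X).2.2.1 a).1 ha
  exact AddSubgroup.subset_closure ⟨_, _, (hL d X).2.2.2.2 d' X' f L ψ _ hf h⟩

variable {U : Lg} {Y : CSp} {p : U.W → Y.pt} (Q : Par U) (R : Pol U Y p)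

theorem rng3 (k : Fin U.r) : range (fun x => p (Q.ι k x)) = p '' U.G k := by
  rw [← Q.rng k, ← range_comp]; rfl

theorem rng2 {c : Fin U.r × Set U.W} (hc : c ∈ U.cmp) :
    range (fun x => p (Q.ι₂ c.2 x)) = p '' c.2 := by
  conv_rhs => rw [← Q.rng₂ c hc, ← range_comp]
  rfl

theorem dim3 (hd : DimLe Y 1 (p '' U.E)) (k : Fin U.r) :
    DimLe Y 1 (range fun x => p (Q.ι k x)) :=
  hd.mono (rng3 Q k ▸ image_mono (subset_iUnion U.G k))

theorem dim2 (hd : DimLe Y 1 (p '' U.E)) {c : Fin U.r × Set U.W} (hc : c ∈ U.cmp) :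
    DimLe Y 1 (range fun x => p (Q.ι₂ c.2 x)) := by
  obtain ⟨k, hk⟩ := Lg.cmp_iff.1 hc
  exact hd.mono (rng2 Q hc ▸ image_mono fun x hx => mem_iUnion.2 ⟨_, (hk.sub hx).1⟩)

theorem ed_hol (e : Ed U) : HolM 2 4 (Q.ι₂ e.1.2.2) := par_hol₄ Q (c := (e.1.1, e.1.2.2)) (ed_s e)

theorem ed_rng (e : Ed U) : range (fun x => p (Q.ι₂ e.1.2.2 x)) = p '' e.1.2.2 :=
  rng2 Q (c := (e.1.1, e.1.2.2)) (ed_s e)

theorem ed_dim (hd : DimLe Y 1 (p '' U.E)) (e : Ed U) :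
    DimLe Y 1 (range fun x => p (Q.ι₂ e.1.2.2 x)) := dim2 Q hd (c := (e.1.1, e.1.2.2)) (ed_s e)

theorem ed_conn (e : Ed U) : ConnectedSpace (Q.S e.1.2.2).M := Q.conn₂ (e.1.1, e.1.2.2) (ed_s e)

theorem stEx (hG : StGrx) (hL : StLam) (hF : StForm) : StEx := by
  intro U Y p Q R hres hdim
  classical
  obtain ⟨L, ψ, hA⟩ := R.cv
  let A4 : C11 (lgM U) := ⟨R.A, (hL 4 (lgM U)).1 L ψ _ hA⟩
  have hc : ∀ c ∈ U.cmp, ∃ α : C11 (Q.H c.1), α ∈ Lam _ ∧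
      ∃ g, IsGr1 (range (Q.j c.1 c.2)) α.1 g := fun c hc => by
    obtain ⟨α, g, K, h1, h2, -⟩ := hG 3 (Q.H c.1) _ univ (par_leq Q hc) isOpen_univ (subset_univ _)
    exact ⟨α, h1, g, h2⟩
  choose cs hcs using fun e : Ed U => hc _ (ed_s e)
  choose ct hct using fun e : Ed U => hc _ (ed_t e)
  have ho := fun k => hF Y R.B 3 (Q.H k) _ (holY_comp (res_holY hres) (par_hol Q k))
  let A : ∀ k, C11 (Q.H k) := fun k => res (X := lgM U) (par_hol Q k) A4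
  let Z : ∀ k, C11 (Q.H k) := ∑ e : Ed U, (Pi.single e.1.1 ((R.c e.1.2.1 : ℝ) • cs e) +
    Pi.single e.1.2.1 ((R.c e.1.1 : ℝ) • ct e))
  refine ⟨{ s := fun e => e.1.1, t := fun e => e.1.2.1, T := fun k => T3L (Q.H k)
            N := fun k => ExS (Q.H k), D := fun k => Submodule.span ℝ (Lam (Q.H k))
            B := fun e => B2L _, rs := fun e => res (par_hol₂ Q (ed_s e))
            rt := fun e => res (par_hol₂ Q (ed_t e)), cs := cs, ct := ct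
            n := fun k => -(R.c k : ℝ)⁻¹ • (A k + Z k), A := A
            o := fun k => ⟨_, ((ho k).2.2.2.2.1 (dim3 Q hdim k)).1, (ho k).2.1⟩
            c := fun k => R.c k, τ := R.τ, P := fun e => (p '' e.1.2.2).Subsingleton },
    fun _ => rfl, fun _ => rfl, fun _ _ _ _ => rfl, fun _ _ => Iff.rfl, fun _ => rfl,
    fun _ _ _ => rfl, fun _ _ => rfl, fun _ _ => rfl, hcs, hct, fun _ => rfl, fun _ => rfl,
    fun _ => rfl, rfl, fun _ => Iff.rfl, fun k => ?_⟩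
  have h0 : (R.c k : ℝ) ≠ 0 := by exact_mod_cast (R.cpos k).ne'
  show (R.c k : ℝ) • -(R.c k : ℝ)⁻¹ • (A k + Z k) + A k + Z k = 0
  rw [smul_smul, mul_neg, mul_inv_cancel₀ h0, neg_one_smul]
  abel

variable {Q R} {C : Cf Q}

theorem cfg_s (h : IsCfg Q R C) (e : Ed U) : (C.s e, e.1.2.2) ∈ U.cmp := h.s e ▸ ed_s e

theorem cfg_t (h : IsCfg Q R C) (e : Ed U) : (C.t e, e.1.2.2) ∈ U.cmp := h.t e ▸ ed_t e

theorem cfg_rs (h : IsCfg Q R C) (e : Ed U) {x : C11 (Q.H (C.s e))} {θ : Fr 4 2 U.W}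
    (hx : x.1 = pb (Cm 3) (Q.ι _) θ) : (C.rs e x).1 = pb (Cm 2) (Q.ι₂ e.1.2.2) θ := by
  rw [h.rs, hx]; exact par_pb Q (cfg_s h e) θ

theorem cfg_rt (h : IsCfg Q R C) (e : Ed U) {x : C11 (Q.H (C.t e))} {θ : Fr 4 2 U.W}
    (hx : x.1 = pb (Cm 3) (Q.ι _) θ) : (C.rt e x).1 = pb (Cm 2) (Q.ι₂ e.1.2.2) θ := by
  rw [h.rt, hx]; exact par_pb Q (cfg_t h e) θ

theorem cfg_o (hF : StForm) (hp : HolY 4 Y p) (h : IsCfg Q R C) (k : Fin U.r) :
    (C.o k).1 = pb (Cm 3) (Q.ι k) (R.B.form 4 p) :=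
  (h.o k).trans ((hF Y R.B 4 (lgM U) p hp).2.2.2.2.2.2.2 3 (Q.H k) _ (par_hol Q k)).symm

theorem cfg_w (hF : StForm) (hp : HolY 4 Y p) (h : IsCfg Q R C) (k : Fin U.r) :
    (C.A k + C.τ • C.o k).1 = pb (Cm 3) (Q.ι k) (R.A + R.τ • R.B.form 4 p) := by
  rw [Submodule.coe_add, Submodule.coe_smul, h.A, cfg_o hF hp h, h.τ]; rfl

theorem cfg_ro (hF : StForm) (hp : HolY 4 Y p) (h : IsCfg Q R C) (e : Ed U) :
    (C.rs e (C.o _)).1 = R.B.form 2 fun x => p (Q.ι₂ e.1.2.2 x) :=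
  (cfg_rs h e (cfg_o hF hp h _)).trans ((hF Y R.B 4 (lgM U) p hp).2.2.2.2.2.2.2 2 (Q.S e.1.2.2) _
    (ed_hol Q e))

theorem int_cs (hPL : StPL) (h : IsCfg Q R C) (e : Ed U) {φ : Fr 3 4 (Q.H (C.s e)).M} (hφ : Cl φ) :
    (Q.H _).int (wd (C.cs e).1 φ) = (Q.S e.1.2.2).int (pb (Cm 2) (Q.j (C.s e) e.1.2.2) φ) := by
  obtain ⟨g, hg⟩ := (h.cs e).2
  exact pl_one hPL (d := 2) (Q.emb₂ _ (cfg_s h e)) hg hφ

theorem int_ct (hPL : StPL) (h : IsCfg Q R C) (e : Ed U) {φ : Fr 3 4 (Q.H (C.t e)).M} (hφ : Cl φ) :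
    (Q.H _).int (wd (C.ct e).1 φ) = (Q.S e.1.2.2).int (pb (Cm 2) (Q.j (C.t e) e.1.2.2) φ) := by
  obtain ⟨g, hg⟩ := (h.ct e).2
  exact pl_one hPL (d := 2) (Q.emb₂ _ (cfg_t h e)) hg hφ

theorem gys_g1 (hPL : StPL) (hG : StGys) (h : IsCfg Q R C) (e : Ed U) : C.Gys (C.g1 e) := by
  refine hG U Y p Q R C h _ fun Φ hΦ => ?_
  have h1 : ∀ k, Cl (pb (Cm 3) (Q.ι k) Φ) := fun k => cl_pb (par_hol Q k) hΦ
  let F : ∀ k, C11 (Q.H k) →ₗ[ℝ] ℝ := fun k => pair (d := 2) (cl_sm (h1 k))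
  show ∑ k, F k (C.g1 e k) = 0
  simp only [Cfg.g1, Pi.sub_apply, map_sub, Finset.sum_sub_distrib]
  rw [Cfg.sum_single F, Cfg.sum_single F, sub_eq_zero]
  refine (int_cs hPL h e (h1 _)).trans (Eq.trans ?_ (int_ct hPL h e (h1 _)).symm)
  exact congrArg _ ((par_pb Q (cfg_s h e) Φ).trans (par_pb Q (cfg_t h e) Φ).symm)

theorem cfg_ps (hPL : StPL) (h : IsCfg Q R C) (e : Ed U) (x y : C11 (Q.H (C.s e))) :
    C.T _ (C.cs e) x y = C.B e (C.rs e x) (C.rs e y) := by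
  rw [h.T, h.B, h.rs, h.rs]
  exact (int_cs hPL h e (cl_wd (c_cl x) (c_cl y))).trans
    (congrArg (Q.S e.1.2.2).int (pb_wd (Q.j (C.s e) e.1.2.2) x.1 y.1))

theorem cfg_pt (hPL : StPL) (h : IsCfg Q R C) (e : Ed U) (x y : C11 (Q.H (C.t e))) :
    C.T _ (C.ct e) x y = C.B e (C.rt e x) (C.rt e y) := by
  rw [h.T, h.B, h.rt, h.rt]
  exact (int_ct hPL h e (cl_wd (c_cl x) (c_cl y))).trans
    (congrArg (Q.S e.1.2.2).int (pb_wd (Q.j (C.t e) e.1.2.2) x.1 y.1))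

theorem cfg_A (hL : StLam) (h : IsCfg Q R C) (k : Fin U.r) : C.A k ∈ Lam (Q.H k) := by
  obtain ⟨L, ψ, hA⟩ := R.cv
  have h1 := (hL 4 (lgM U)).2.2.2.2 3 (Q.H k) _ L ψ _ (par_hol Q k) hA
  rw [← h.A] at h1
  exact AddSubgroup.subset_closure ⟨_, _, h1⟩

theorem cfg_w3 (hF : StForm) (hp : HolY 4 Y p) (h : IsCfg Q R C) (k : Fin U.r) :
    Pd (C.A k + C.τ • C.o k).1 := by
  rw [cfg_w hF hp h]; exact pd_pb (Q.emb k) R.pos

theorem cfg_w2 (hF : StForm) (hp : HolY 4 Y p) (h : IsCfg Q R C) (e : Ed U) :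
    Pd (C.rs e (C.A _ + C.τ • C.o _)).1 := by
  rw [h.rs]; exact pd_pb (Q.emb₂ _ (cfg_s h e)) (cfg_w3 hF hp h _)

theorem cfg_oo (hF : StForm) (hp : HolY 4 Y p) (hdim : DimLe Y 1 (p '' U.E)) (h : IsCfg Q R C)
    (k : Fin U.r) (y : C11 (Q.H k)) : C.T k (C.o k) (C.o k) y = 0 := by
  have h1 := ((hF Y R.B 3 (Q.H k) _ (holY_comp hp (par_hol Q k))).2.2.2.2.1 (dim3 Q hdim k)).2
  rw [← h.o] at h1
  have h2 := wd_assoc2 (C.o k).1 (C.o k).1 y.1
  rw [h1, wd_zero_left] at h2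
  rw [h.T]
  exact (congrArg (Q.H k).int h2.symm).trans (int_zero _)

theorem cfg_tyK (hP : StPos) (hF : StForm) (hp : HolY 4 Y p) (hdim : DimLe Y 1 (p '' U.E))
    (h : IsCfg Q R C) (k : Fin U.r) (h0 : ¬ (p '' U.G k).Subsingleton) :
    0 < C.T k (C.o k) (C.A k) (C.A k) := by
  have o3 := hF Y R.B 3 (Q.H k) _ (holY_comp hp (par_hol Q k))
  rw [← h.o, rng3] at o3
  have h1 := hP.2.2 (Q.H k) (C.o k).1 _ (c_sm _) (C.o k).2.2 o3.2.2.1
    (o3.2.2.2.2.2.2.1 (Q.conn k) h0) (c_sm _) (C.A k + C.τ • C.o k).2.2 (cfg_w3 hF hp h k)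
  have h2 : C.T k (C.o k) (C.A k) (C.o k) = 0 := by
    rw [h.T, T3_23, ← h.T, cfg_oo hF hp hdim h]
  rw [← h.T] at h1
  simp only [map_add, map_smul, LinearMap.add_apply, LinearMap.smul_apply, cfg_oo hF hp hdim h,
    h2, smul_zero, add_zero] at h1
  exact h1

theorem cfg_o0 (hF : StForm) (hp : HolY 4 Y p) (h : IsCfg Q R C) (k : Fin U.r)
    (h0 : (p '' U.G k).Subsingleton) : C.o k = 0 := by
  have o3 := hF Y R.B 3 (Q.H k) _ (holY_comp hp (par_hol Q k))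
  rw [← h.o, rng3] at o3
  exact Subtype.ext (o3.2.2.2.2.2.1 h0)

theorem cfg_tyP (hF : StForm) (hp : HolY 4 Y p) (h : IsCfg Q R C) (e : Ed U) (he : C.P e) :
    C.rs e (C.o _) = 0 := by
  have o2 := hF Y R.B 2 (Q.S e.1.2.2) _ (holY_comp hp (ed_hol Q e))
  rw [← cfg_ro hF hp h, ed_rng] at o2
  exact Subtype.ext (o2.2.2.2.2.2.1 ((h.P e).1 he))

theorem pd_psd {d : ℕ} {M : Type} {a : Fr d 2 M} (h : Pd a) : Psd a := fun x v => by
  by_cases hv : v = 0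
  · subst hv
    exact ((a x).map_coord_zero (m := ![0, Complex.I • 0]) 0 rfl).ge
  · exact (h x v hv).le

theorem cfg_tyH (hP : StPos) (hF : StForm) (hp : HolY 4 Y p) (hdim : DimLe Y 1 (p '' U.E))
    (h : IsCfg Q R C) (e : Ed U) (he : ¬ C.P e) : 0 < C.B e (C.rs e (C.o _)) (C.rs e (C.A _)) := by
  have o2 := hF Y R.B 2 (Q.S e.1.2.2) _ (holY_comp hp (ed_hol Q e))
  rw [← cfg_ro hF hp h] at o2
  obtain ⟨x, hx⟩ := Function.ne_iff.1 (o2.2.2.2.2.2.2.1 (ed_conn Q e)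
    (by rw [ed_rng]; exact mt (h.P e).2 he))
  have h2 := (hP.2.1 (Q.S e.1.2.2) _ _ (c_sm _) (C.rs e (C.o _)).2.2 o2.2.2.1 (c_sm _)
    (C.rs e (C.A _ + C.τ • C.o _)).2.2 (pd_psd (cfg_w2 hF hp h e))).2 x hx (cfg_w2 hF hp h e x)
  have h3 : C.B e (C.rs e (C.o _)) (C.rs e (C.o _)) = 0 := by
    rw [h.B]
    exact (congrArg (Q.S e.1.2.2).int (o2.2.2.2.2.1 (ed_dim Q hdim e)).2).trans (int_zero _)
  rw [← h.B] at h2
  simp only [map_add, map_smul, h3, smul_zero, add_zero] at h2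
  exact h2

theorem stGood (hPL : StPL) (hL : StLam) (hHI : StHI) (hP : StPos) (hF : StForm) (hG : StGys) :
    StGood := by
  intro U Y p Q R C hres hdim h
  have hp := res_holY hres
  refine ⟨?_, gys_g1 hPL hG h⟩
  exact
    { T12 := fun k x y z => by rw [h.T, h.T, T3_12]
      T23 := fun k x y z => by rw [h.T, h.T, T3_23]
      Bs := fun e x y => by rw [h.B, h.B, B2_comm]
      cpos := fun k => by rw [h.c]; exact_mod_cast R.cpos k
      ps := cfg_ps hPL h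
      pt := cfg_pt hPL h
      Ac := fun e u => by rw [h.B, h.B, cfg_rs h e (h.A _), cfg_rt h e (h.A _)]
      oc := fun e u => by
        rw [h.B, h.B, cfg_rs h e (cfg_o hF hp h _), cfg_rt h e (cfg_o hF hp h _)]
      NT := fun k x hx y z => by
        rw [h.T]; exact int_ex (d := 2) _ ((h.N k x).1 hx) (cl_wd (c_cl y) (c_cl z))
      Ns := fun e x hx u => by
        rw [h.B, h.rs]
        exact int_ex (d := 1) _ (isEx_pb (par_hol₂ Q (cfg_s h e)) ((h.N _ x).1 hx)) (c_cl u)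
      Nt := fun e x hx u => by
        rw [h.B, h.rt]
        exact int_ex (d := 1) _ (isEx_pb (par_hol₂ Q (cfg_t h e)) ((h.N _ x).1 hx)) (c_cl u)
      AD := fun k => by rw [h.D]; exact Submodule.subset_span (cfg_A hL h k)
      sD := fun e => by rw [h.D]; exact Submodule.subset_span (h.cs e).1
      tD := fun e => by rw [h.D]; exact Submodule.subset_span (h.ct e).1
      nrm := fun k => by rw [h.n]; exact zero_mem _
      hi3 := fun k x hx => by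
        rw [h.T] at hx
        rw [h.T, h.N]
        exact hHI.2.2 _ (Q.conn k) _ x (cfg_w3 hF hp h k) hx
      hi2 := fun e u hu => by
        rw [h.B] at hu ⊢
        exact (hHI.2.1 _ (ed_conn Q e) _ u (cfg_w2 hF hp h e) hu).1
      tyK := fun k => by
        by_cases h0 : (p '' U.G k).Subsingleton
        · exact Or.inl (cfg_o0 hF hp h k h0 ▸ zero_mem _)
        · exact Or.inr ⟨cfg_oo hF hp hdim h k, cfg_tyK hP hF hp hdim h k h0⟩
      tyP := fun e he u => by rw [cfg_tyP hF hp h e he, map_zero, LinearMap.zero_apply]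
      tyH := cfg_tyH hP hF hp hdim h
      gys := fun e _ => gys_g1 hPL hG h e }

end Vale.Agent.P277Z.Gd
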