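import Vale.Agent.P277Z.Top.FbSk
import Vale.Agent.P277Z.Slc.Basic
import Vale.Agent.P277.H622.B1

/-!
# P277, block TOP: a holomorphic function has countably many critical values
-/

set_option linter.all false

open scoped Manifold ContDiff Topology
open Vale.Agent.P272.K Set Filter Metric

noncomputable section

namespace Vale.Agent.P277Z.Top.Fb

namespace CritH

theorem cnt_local {X : Type} [TopologicalSpace X] [SecondCountableTopology X] {S : Set X}
    {f : X → ℂ} (h : ∀ x ∈ S, ∃ N ∈ 𝓝 x, (f '' (N ∩ S)).Countable) : (f '' S).Countable := by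
  choose! N h1 h2 using h
  obtain ⟨t, ht, hc, hS⟩ := TopologicalSpace.countable_cover_nhdsWithin (s := S) (f := N)
    fun x hx => mem_nhdsWithin_of_mem_nhds (h1 x hx)
  refine (hc.biUnion fun x hx => h2 x (ht hx)).mono ?_
  rintro _ ⟨y, hy, rfl⟩
  obtain ⟨x, hx, h3⟩ := mem_iUnion₂.1 (hS hy)
  exact mem_biUnion hx ⟨y, ⟨h3, hy⟩, rfl⟩

theorem key {d : ℕ} {T : Cm d → ℂ} (k : ℕ) : ∀ (Ω : Set (Cm k)) (g : Cm k → Cm d), IsOpen Ω →
    (∀ p ∈ Ω, AnalyticAt ℂ g p ∧ AnalyticAt ℂ T (g p)) →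
    ((fun p => T (g p)) '' {p | p ∈ Ω ∧ fderiv ℂ T (g p) = 0}).Countable := by
  induction k with
  | zero => exact fun Ω g _ _ => (to_countable _).image _
  | succ k ih =>
    intro Ω g hΩ hg
    refine cnt_local fun p hp => ?_
    by_cases h0 : ∀ᶠ q in 𝓝 p, fderiv ℂ T (g q) = 0
    · obtain ⟨r, hr, hb⟩ := Metric.eventually_nhds_iff_ball.1 (h0.and (hΩ.mem_nhds hp.1))
      have hd : ∀ q ∈ ball p r, HasFDerivAt (fun p => T (g p)) (0 : Cm (k + 1) →L[ℂ] ℂ) q :=
        fun q hq => by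
          have := (hg q (hb q hq).2).2.differentiableAt.hasFDerivAt.comp q
            (hg q (hb q hq).2).1.differentiableAt.hasFDerivAt
          rwa [(hb q hq).1, ContinuousLinearMap.zero_comp] at this
      refine ⟨ball p r, ball_mem_nhds p hr, (countable_singleton (T (g p))).mono ?_⟩
      rintro _ ⟨q, hq, rfl⟩
      exact isOpen_ball.is_const_of_fderiv_eq_zero (𝕜 := ℂ) (convex_ball p r).isPreconnected
        (fun q hq => (hd q hq).differentiableAt.differentiableWithinAt)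
        (fun q hq => (hd q hq).fderiv) hq.1 (mem_ball_self hr)
    · obtain ⟨a, ha⟩ : ∃ a : Fin d, ¬ (fun q => fderiv ℂ T (g q) (Pi.single a 1)) =ᶠ[𝓝 p] 0 := by
        by_contra! h
        refine h0 ((eventually_all.2 h).mono fun q hq => ?_)
        refine ContinuousLinearMap.coe_injective (LinearMap.pi_ext' fun a => LinearMap.ext_ring ?_)
        simpa using hq a
      obtain ⟨r, hr, hb⟩ := Metric.mem_nhds_iff.1 (hΩ.mem_nhds hp.1)
      have hJ : AnalyticOnNhd ℂ (fun q => fderiv ℂ T (g q) (Pi.single a 1)) (ball p r) :=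
        fun q hq => ((ContinuousLinearMap.apply ℂ ℂ (Pi.single a (1 : ℂ) : Cm d)).analyticAt _).comp
          ((hg q (hb hq)).2.fderiv.comp (hg q (hb hq)).1)
      obtain ⟨W, g', h1, h2, h3⟩ := P277.H622.stB1 k (ball p r) _ isOpen_ball hJ fun z hz h =>
        ha (Eventually.mono (ball_mem_nhds p hr)
          (hJ.eqOn_zero_of_preconnected_of_eventuallyEq_zero (convex_ball p r).isPreconnected hz h))
      refine ⟨ball p r, ball_mem_nhds p hr, (countable_iUnion fun l => ih (W l)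
        (fun q => g (g' l q)) (h1 l) fun q hq => ⟨(hg _ (hb (h2 l q hq).2)).1.comp (h2 l q hq).1,
          (hg _ (hb (h2 l q hq).2)).2⟩).mono ?_⟩
      rintro _ ⟨q, hq, rfl⟩
      obtain ⟨l, s, hs, rfl⟩ := mem_iUnion.1 (h3 ⟨hq.1, by simp [hq.2.2]⟩)
      exact mem_iUnion.2 ⟨l, s, ⟨hs, hq.2.2⟩, rfl⟩

end CritH

/-- **CRIT** -/
theorem stCrit : StCrit := by
  intro d X W T hW hT
  have := ChartedSpace.secondCountable_of_sigmaCompact (Cm d) X.M
  refine CritH.cnt_local fun x _ => ?_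
  have he := Slc.at_chartAt (n := d) x
  set e := chartAt (Cm d) x
  refine ⟨e.source, e.open_source.mem_nhds he.2, (CritH.key (T := fun z => T (e.symm z)) d
    (e.target ∩ e.symm ⁻¹' W) id (e.continuousOn_symm.isOpen_inter_preimage e.open_target hW)
    fun z hz => ⟨analyticAt_id, ?_⟩).mono ?_⟩
  · have := hT _ hz.2 e ⟨he.1, e.map_target hz.1⟩
    rwa [e.right_inv hz.1] at this
  · rintro _ ⟨y, ⟨h1, h2, h3⟩, rfl⟩
    refine ⟨e y, ⟨⟨e.map_source h1, by simpa [e.left_inv h1] using h2⟩, ?_⟩,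
      congrArg T (e.left_inv h1)⟩
    by_contra h4
    refine h3 fun e' he' h5 => h4 ?_
    have := Slc.dd_chart (hT y h2) he' ⟨he.1, h1⟩
    rw [show Slc.dd T e' y = 0 from h5, ContinuousLinearMap.zero_comp] at this
    exact this

end Vale.Agent.P277Z.Top.Fb
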