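import Vale.Agent.P277Z.Top.FbSk
import Vale.Agent.P277Z.Slc.Basic

/-!
# P277, block TOP: near a component of a smooth fibre the fibres are connected
-/

open scoped Manifold ContDiff Topology
open Vale.Agent.P272.K Set Filter Metric Relation

noncomputable section

namespace Vale.Agent.P277Z.Top.Fb

namespace Box

variable {M : Type} [TopologicalSpace M] {T : M → ℂ}

/-- `B` is open, has connected slices and `T` is open on `B` -/
structure Bx (T : M → ℂ) (B : Set M) : Prop where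
  opn : IsOpen B
  conn : ∀ s, IsPreconnected (B ∩ T ⁻¹' {s})
  img : ∀ x ∈ B, ∀ U ∈ 𝓝 x, T '' U ∈ 𝓝 (T x)

theorem bx_of {E : Type} [NormedAddCommGroup E] [NormedSpace ℝ E]
    (Φ : OpenPartialHomeomorph M (ℂ × E)) {y : M} (hy : y ∈ Φ.source)
    (h : ∀ x ∈ Φ.source, (Φ x).1 = T x) {V : Set M} (hV : V ∈ 𝓝 y) :
    ∃ B, y ∈ B ∧ B ⊆ V ∧ Bx T B := by
  have h1 : ∀ᶠ p in 𝓝 (Φ y), Φ.symm p ∈ V :=
    (Φ.continuousAt_symm (Φ.map_source hy)).eventually (by rwa [Φ.left_inv hy])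
  obtain ⟨r, hr, hb⟩ := Metric.eventually_nhds_iff_ball.1
    (h1.and (Φ.open_target.mem_nhds (Φ.map_source hy)))
  refine ⟨Φ.source ∩ Φ ⁻¹' ball (Φ y) r, ⟨hy, mem_ball_self hr⟩,
    fun x hx => Φ.left_inv hx.1 ▸ (hb _ hx.2).1, Φ.isOpen_inter_preimage isOpen_ball,
    fun s => ?_, fun x hx U hU => ?_⟩
  · have e : Φ.source ∩ Φ ⁻¹' ball (Φ y) r ∩ T ⁻¹' {s} =
        Φ.symm '' (ball (Φ y) r ∩ {s} ×ˢ univ) := by
      ext x
      refine ⟨fun hx => ⟨Φ x, ⟨hx.1.2, (h x hx.1.1).trans hx.2, trivial⟩, Φ.left_inv hx.1.1⟩, ?_⟩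
      rintro ⟨p, ⟨p1, p2, -⟩, rfl⟩
      have p3 := (hb p p1).2
      refine ⟨⟨Φ.map_target p3, by rwa [mem_preimage, Φ.right_inv p3]⟩, ?_⟩
      rw [mem_preimage, ← h _ (Φ.map_target p3), Φ.right_inv p3]
      exact p2
    rw [e]
    exact ((convex_ball _ _).inter ((convex_singleton s).prod convex_univ)).isPreconnected.image _
      (Φ.continuousOn_symm.mono fun p hp => (hb p hp.1).2)
  · rw [← h x hx.1]
    refine mem_of_superset (isOpenMap_fst.image_mem_nhds (Φ.image_mem_nhds hx.1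
      (inter_mem hU (Φ.open_source.mem_nhds hx.1)))) ?_
    rintro _ ⟨_, ⟨z, hz, rfl⟩, rfl⟩
    exact ⟨z, hz.1, (h z hz.2).symm⟩

theorem chain {ι : Type} {N : Set M} (hN : IsPreconnected N) {B : ι → Set M}
    (ho : ∀ i, IsOpen (B i)) (hc : N ⊆ ⋃ i, B i) (hn : ∀ i, (N ∩ B i).Nonempty) (i j : ι) :
    ReflTransGen (fun i j => (N ∩ (B i ∩ B j)).Nonempty) i j := by
  by_contra h
  set R := ReflTransGen fun i j => (N ∩ (B i ∩ B j)).Nonempty
  obtain ⟨x, h1, h2, h3⟩ := hN (⋃ k ∈ {k | R i k}, B k) (⋃ k ∈ {k | ¬ R i k}, B k)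
    (isOpen_biUnion fun k _ => ho k) (isOpen_biUnion fun k _ => ho k) (fun x hx => by
      obtain ⟨k, hk⟩ := mem_iUnion.1 (hc hx)
      exact (em (R i k)).imp (fun a => mem_biUnion a hk) fun a => mem_biUnion a hk)
    ((hn i).mono (inter_subset_inter_right _ (subset_biUnion_of_mem (u := B) ReflTransGen.refl)))
    ((hn j).mono (inter_subset_inter_right _ (subset_biUnion_of_mem (u := B) h)))
  obtain ⟨k, k1, k2⟩ := mem_iUnion₂.1 h2
  obtain ⟨l, l1, l2⟩ := mem_iUnion₂.1 h3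
  exact l1 (ReflTransGen.tail k1 ⟨x, h1, k2, l2⟩)

theorem away [CompactSpace M] {Z : Set M} (hZ : IsClosed Z) (hT : ∀ x ∈ Z, ContinuousAt T x)
    {s : ℂ} (h : ∀ x ∈ Z, T x ≠ s) : ∀ᶠ z in 𝓝 s, ∀ x ∈ Z, T x ≠ z := by
  have h1 := (hZ.isCompact.image_of_continuousOn fun x hx => (hT x hx).continuousWithinAt).isClosed
  filter_upwards [h1.isOpen_compl.mem_nhds fun ⟨x, hx, e⟩ => h x hx e] with z hz x hx e
    using hz ⟨x, hx, e⟩

theorem main [T2Space M] [CompactSpace M] {W : Set M} {Δ : Set ℂ} (hΔ : IsOpen Δ)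
    (hT : ∀ x ∈ W, ContinuousAt T x) (hp : ∀ K ⊆ Δ, IsCompact K → IsClosed (W ∩ T ⁻¹' K))
    {x₀ : M} (h0 : x₀ ∈ W) (h1 : T x₀ ∈ Δ) {p : M → Prop}
    (hb : ∀ y ∈ W, T y = T x₀ → (∀ᶠ x in 𝓝 y, p x) ∧ ∀ V ∈ 𝓝 y, ∃ B, y ∈ B ∧ B ⊆ V ∧ Bx T B)
    (hW : IsOpen W) : ∃ (W' : Set M) (r : ℝ), IsOpen W' ∧ W' ⊆ W ∧ x₀ ∈ W' ∧ 0 < r ∧
      ball (T x₀) r ⊆ Δ ∧ (∀ K ⊆ ball (T x₀) r, IsCompact K → IsClosed (W' ∩ T ⁻¹' K)) ∧
      ∀ s ∈ ball (T x₀) r, IsPreconnected (W' ∩ T ⁻¹' {s}) ∧ ∀ x ∈ W, T x = s → p x := by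
  have hF := hp {T x₀} (singleton_subset_iff.2 h1) isCompact_singleton
  set F := W ∩ T ⁻¹' {T x₀}
  set N := connectedComponentIn F x₀
  have n0 : x₀ ∈ N := mem_connectedComponentIn ⟨h0, rfl⟩
  have n1 : N ⊆ F := connectedComponentIn_subset _ _
  have n2 : IsPreconnected N := isPreconnected_connectedComponentIn
  have n3 : IsClosed N := closure_subset_iff_isClosed.1
    (n2.closure.subset_connectedComponentIn (subset_closure n0) (closure_minimal n1 hF))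
  have n4 : ∀ y : N, ∃ B, y.1 ∈ B ∧ Bx T B ∧ ∀ x ∈ closure B, x ∈ W ∧ (T x = T x₀ → x ∈ N) := by
    rintro ⟨y, hy⟩
    obtain ⟨B, b1, b2, b3⟩ := (hb y (n1 hy).1 (n1 hy).2).2 W (hW.mem_nhds (n1 hy).1)
    obtain ⟨C, c1, c2, c3⟩ := exists_mem_nhds_isClosed_subset (b3.opn.mem_nhds b1)
    obtain ⟨B', d1, d2, d3⟩ := (hb y (n1 hy).1 (n1 hy).2).2 C c1
    refine ⟨B', d1, d3, fun x hx => ?_⟩
    have d4 := c3 (closure_minimal d2 c2 hx)
    refine ⟨b2 d4, fun e => ?_⟩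
    have d5 := (b3.conn (T x₀)).subset_connectedComponentIn (F := F) ⟨b1, (n1 hy).2⟩
      (inter_subset_inter_left _ b2) ⟨d4, e⟩
    rwa [← connectedComponentIn_eq hy] at d5
  choose B b1 b2 b3 using n4
  obtain ⟨t, ht⟩ := n3.isCompact.elim_finite_subcover B (fun y => (b2 y).opn)
    fun y hy => mem_iUnion.2 ⟨⟨y, hy⟩, b1 _⟩
  have t1 : N ⊆ ⋃ i : t, B i := fun x hx =>
    let ⟨i, hi, h⟩ := mem_iUnion₂.1 (ht hx)
    mem_iUnion.2 ⟨⟨i, hi⟩, h⟩
  have t2 : IsOpen (⋃ i : t, B i) := isOpen_iUnion fun i => (b2 i).opn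
  have t3 : ∀ x ∈ closure (⋃ i : t, B i), x ∈ W ∧ (T x = T x₀ → x ∈ N) := fun x hx => by
    rw [closure_iUnion_of_finite] at hx
    obtain ⟨i, hi⟩ := mem_iUnion.1 hx
    exact b3 i x hi
  obtain ⟨ε, e0, e1⟩ := nhds_basis_closedBall.mem_iff.1 (hΔ.mem_nhds h1)
  have a1 := away (isClosed_closure.sdiff t2) (fun x hx => hT x (t3 x hx.1).1)
    fun x hx e => hx.2 (t1 ((t3 x hx.1).2 e))
  have a2 := away ((hp _ e1 (isCompact_closedBall _ _)).sdiff (isOpen_interior (s := {x | p x})))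
    (fun x hx => hT x hx.1.1) fun x hx e => hx.2 (mem_interior_iff_mem_nhds.2 (hb x hx.1.1 e).1)
  have a3 : ∀ᶠ z in 𝓝 (T x₀), ∀ i j : t, (N ∩ (B i ∩ B j)).Nonempty → z ∈ T '' (B i ∩ B j) :=
    eventually_all.2 fun i => eventually_all.2 fun j => by
      by_cases h : (N ∩ (B i ∩ B j)).Nonempty
      · obtain ⟨x, x1, x2⟩ := h
        have x3 := (b2 i).img x x2.1 _ (((b2 i).opn.inter (b2 j).opn).mem_nhds x2)
        rw [show T x = T x₀ from (n1 x1).2] at x3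
        exact mem_of_superset x3 fun z hz _ => hz
      · exact .of_forall fun z a => (h a).elim
  obtain ⟨r, r0, hr⟩ := Metric.eventually_nhds_iff_ball.1
    ((a1.and (a2.and a3)).and (closedBall_mem_nhds _ e0))
  refine ⟨_, r, t2, fun x hx => (t3 x (subset_closure hx)).1, t1 n0, r0,
    fun z hz => e1 (hr z hz).2, fun K k1 k2 => ?_, fun s hs => ⟨?_, fun x x1 x2 => ?_⟩⟩
  · have e : (⋃ i : t, B i) ∩ T ⁻¹' K = closure (⋃ i : t, B i) ∩ (W ∩ T ⁻¹' K) := by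
      ext x
      exact ⟨fun hx => ⟨subset_closure hx.1, (t3 x (subset_closure hx.1)).1, hx.2⟩, fun hx =>
        ⟨by_contra fun a => (hr _ (k1 hx.2.2)).1.1 x ⟨hx.1, a⟩ rfl, hx.2.2⟩⟩
    rw [e]
    exact isClosed_closure.inter (hp K (fun z hz => e1 (hr z (k1 hz)).2) k2)
  · rw [iUnion_inter]
    refine IsPreconnected.iUnion_of_reflTransGen (fun i => (b2 i).conn s) fun i j =>
      ReflTransGen.mono (fun k l h => ?_) i j
        (chain n2 (fun i : t => (b2 i).opn) t1 (fun i => ⟨_, i.1.2, b1 i⟩) i j)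
    obtain ⟨x, x1, x2⟩ := (hr s hs).1.2.2 k l h
    exact ⟨x, ⟨x1.1, x2⟩, x1.2, x2⟩
  · by_contra a
    exact (hr s hs).1.2.1 x ⟨⟨x1, by rw [mem_preimage, x2]; exact (hr s hs).2⟩,
      fun b => a (interior_subset b)⟩ x2

end Box

open Box

theorem stBox : StBox := by
  intro d X W T Δ H x₀ h0 h1 h2
  obtain ⟨W', r, a1, a2, a3, a4, a5, a6, a7⟩ := main H.isOpen'
    (fun x hx => Hol.continuousAt (n := d + 1) (H.hol x hx)) H.prp h0 h1 (p := Sub (d + 1) T)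
    (fun y hy e => by
      have he := Slc.at_chartAt (n := d + 1) y
      have b1 : Slc.Ind (d + 1) (fun _ : Unit => T) y :=
        ⟨fun _ => H.hol y hy, fun e' he' => linearIndependent_unique_iff.2 (h2 y hy e e' he')⟩
      refine ⟨b1.near.mono fun x hx e' he' => (hx.2 e' he').ne_zero (), fun V hV => ?_⟩
      obtain ⟨Φ, P, c1, c2, -⟩ := Slc.par (d := d) (H.hol y hy _ he) (fun z => by
        obtain ⟨v, hv⟩ := DFunLike.ne_iff.1 (h2 y hy e _ he)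
        exact ⟨(z / _) • v, by rw [map_smul, smul_eq_mul, div_mul_cancel₀ _ hv]⟩)
        (by rw [Module.finrank_self, add_comm])
      exact bx_of ((chartAt (Cm (d + 1)) y).trans Φ) ⟨he.2, c1⟩ (fun x hx => by
        rw [OpenPartialHomeomorph.trans_apply, c2, OpenPartialHomeomorph.left_inv _ hx.1]) hV)
    H.isOpen
  exact ⟨W', ball (T x₀) r, a2, a3, mem_ball_self a4, a5,
    ⟨a1, isOpen_ball, convex_ball _ _, fun x hx => H.hol x (a2 hx), a6⟩, a7⟩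

end Vale.Agent.P277Z.Top.Fb
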