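import Vale.Agent.P277Z.Top.FbSk
import Vale.Agent.P277Z.Pj.Br

/-!
# P277, block TOP: countable unions of fibres are small
-/

set_option linter.all false

open scoped Manifold ContDiff Topology
open Vale.Agent.P272.K Vale.Agent.P277 Set Filter Metric
open Vale.Agent.P277.H762

noncomputable section

namespace Vale.Agent.P277Z.Top.Fb

namespace ConnH

theorem of_local {X : Type*} [TopologicalSpace X] [PreconnectedSpace X] {S : Set X} (hd : Dense S)
    (h : ∀ x, ∃ U ∈ 𝓝 x, IsPreconnected (U ∩ S)) : IsPreconnected S := by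
  rcases S.eq_empty_or_nonempty with rfl | ⟨p, hp⟩
  · exact isPreconnected_empty
  have key : ∀ x ∈ closure (connectedComponentIn S p), ∃ U ∈ 𝓝 x,
      U ∩ S ⊆ connectedComponentIn S p := fun x hx => by
    obtain ⟨U, h1, h2⟩ := h x
    obtain ⟨c, c1, c2⟩ := mem_closure_iff_nhds.1 hx U h1
    refine ⟨U, h1, ?_⟩
    rw [connectedComponentIn_eq c2]
    exact h2.subset_connectedComponentIn ⟨c1, connectedComponentIn_subset _ _ c2⟩ inter_subset_right
  have h1 : IsClopen (closure (connectedComponentIn S p)) :=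
    ⟨isClosed_closure, isOpen_iff_mem_nhds.2 fun x hx => by
      obtain ⟨U, h1, h2⟩ := key x hx
      exact mem_of_superset (interior_mem_nhds.2 h1) ((hd.open_subset_closure_inter
        isOpen_interior).trans (closure_mono ((inter_subset_inter_left _ interior_subset).trans h2)))⟩
  have h2 := h1.eq_univ ⟨p, subset_closure (mem_connectedComponentIn hp)⟩
  have h3 : connectedComponentIn S p = S := (connectedComponentIn_subset _ _).antisymm fun q hq =>
    let ⟨U, a, b⟩ := key q (h2 ▸ mem_univ q)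
    b ⟨mem_of_mem_nhds a, hq⟩
  exact h3 ▸ isPreconnected_connectedComponentIn

variable {Y : CSp} {d : ℕ} {X : Mf d} {f : X.M → Y.pt}

/-- local equations of the fibre through `x` -/
theorem eqs (hf : HolY d Y f) (x : X.M) {e : Chart d X.M} (he : At e x) :
    ∃ (N : ℕ) (g : Fin N → Cm d → ℂ) (r : ℝ), 0 < r ∧ (∀ a, AnalyticOnNhd ℂ (g a) (ball (e x) r)) ∧
      ∀ w ∈ ball (e x) r, w ∈ e.target ∧ (f (e.symm w) = f x ↔ ∀ a, g a w = 0) := by
  obtain ⟨N, k, V, Ω, h, φ, hV, hM⟩ := Y.model (f x)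
  have h1 : ∀ a, AnalyticAt ℂ (fun w => φ (f (e.symm w)) a - φ (f x) a) (e x) := fun a =>
    (hf.2 x (fun y => φ y a) ((hM.hol _ hV _).2 ⟨fun v => v a,
      (ContinuousLinearMap.proj (R := ℂ) (φ := fun _ : Fin N => ℂ) a).analyticAt _, .rfl⟩)
        e he).sub analyticAt_const
  obtain ⟨r, hr, h2⟩ := Metric.eventually_nhds_iff_ball.1
    ((eventually_all.2 fun a => (h1 a).eventually_analyticAt).and
      ((e.open_target.eventually_mem (e.map_source he.2)).and
        (((hf.1.tendsto x).comp (e.tendsto_symm he.2)).eventually (hM.isOpen.mem_nhds hV))))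
  refine ⟨N, _, r, hr, fun a w hw => (h2 w hw).1 a, fun w hw => ⟨(h2 w hw).2.1,
    fun k a => by rw [k, sub_self], fun k => ?_⟩⟩
  exact congrArg Subtype.val (hM.emb.injective (a₁ := ⟨_, (h2 w hw).2.2⟩) (a₂ := ⟨_, hV⟩)
    (funext fun a => sub_eq_zero.1 (k a)))

theorem near_of (x : X.M) {e : Chart d X.M} (he : At e x) {p : X.M → Prop}
    (h : ∀ᶠ w in 𝓝 (e x), p (e.symm w)) : ∀ᶠ z in 𝓝 x, p z := by
  filter_upwards [(e.continuousAt he.2).eventually h, e.eventually_left_inverse he.2] with z a b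
  rwa [b] at a

theorem not_const (hc : ConnectedSpace X.M) (hf : HolY d Y f) (hn : ¬ (range f).Subsingleton)
    (y : Y.pt) (x : X.M) : ¬ ∀ᶠ z in 𝓝 x, f z = y := fun hx => by
  have h1 : IsClopen {x | ∀ᶠ z in 𝓝 x, f z = y} := by
    refine ⟨isClosed_of_closure_subset fun x hx => ?_, isOpen_setOf_eventually_nhds⟩
    have h2 : f x = y := closure_minimal (fun z (hz : ∀ᶠ z in 𝓝 z, f z = y) => hz.self_of_nhds)
      (isClosed_eq hf.1 continuous_const) hx
    have he : At (chartAt (Cm d) x) x := ⟨chart_mem_atlas _ _, mem_chart_source _ _⟩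
    generalize chartAt (Cm d) x = e at he
    obtain ⟨N, g, r, hr, h3, h4⟩ := eqs hf x he
    obtain ⟨z, ⟨z1, z2⟩, z3⟩ := mem_closure_iff_nhds.1 hx _ (inter_mem (e.open_source.mem_nhds he.2)
      ((e.continuousAt he.2).eventually (ball_mem_nhds _ hr)))
    refine near_of x he (mem_of_superset (ball_mem_nhds _ hr) fun w hw =>
      ((h4 w hw).2.2 fun a => ?_).trans h2)
    refine (h3 a).eqOn_zero_of_preconnected_of_eventuallyEq_zero (convex_ball _ _).isPreconnected
      z2 ?_ hw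
    filter_upwards [(e.tendsto_symm z1).eventually z3, isOpen_ball.mem_nhds z2] with v b c
    exact (h4 v c).2.1 (b.trans h2.symm) a
  have h2 := h1.eq_univ ⟨x, hx⟩
  refine hn ?_
  rintro _ ⟨a, rfl⟩ _ ⟨b, rfl⟩
  exact (h2.ge (mem_univ a)).self_of_nhds.trans (h2.ge (mem_univ b)).self_of_nhds.symm

theorem cv_fib {n : ℕ} {X : Mf (n + 1)} {f : X.M → Y.pt} (hc : ConnectedSpace X.M)
    (hf : HolY (n + 1) Y f) (hn : ¬ (range f).Subsingleton) {B : Set Y.pt} (hB : B.Countable)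
    {e : Chart (n + 1) X.M} (he : e ∈ atlas (Cm (n + 1)) X.M) :
    Cv n (e '' (f ⁻¹' B ∩ e.source)) := by
  refine (cv_biUnion (T := fun y => e '' (f ⁻¹' {y} ∩ e.source)) hB fun y _ =>
    cv_of_local ?_).mono ?_
  · rintro _ ⟨x, ⟨rfl, hx⟩, rfl⟩
    obtain ⟨N, g, r, hr, h3, h4⟩ := eqs hf x ⟨he, hx⟩
    obtain ⟨a, w, hw, ha⟩ : ∃ a, ∃ w ∈ ball (e x) r, g a w ≠ 0 := by
      by_contra k
      push Not at k
      exact not_const hc hf hn (f x) x (near_of x ⟨he, hx⟩
        (mem_of_superset (ball_mem_nhds _ hr) fun w hw => (h4 w hw).2.2 fun a => k a w hw))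
    obtain ⟨W, j, j1, j2, j3⟩ := H622.stB1 n _ (g a) isOpen_ball (h3 a) fun z hz k =>
      ha ((h3 a).eqOn_zero_of_preconnected_of_eventuallyEq_zero (convex_ball _ _).isPreconnected
        hz k hw)
    refine ⟨_, ball_mem_nhds _ hr, W, j, j1, fun l p hp => (j2 l p hp).1, ?_⟩
    rintro _ ⟨h5, z, ⟨h6, h7⟩, rfl⟩
    exact j3 ⟨h5, (h4 _ h5).2.1 (by rw [e.left_inv h7]; exact h6) a⟩
  · rintro _ ⟨x, ⟨h1, h2⟩, rfl⟩
    exact mem_biUnion h1 ⟨x, ⟨rfl, h2⟩, rfl⟩

end ConnH

open ConnH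

theorem stConn : StConn := by
  intro Y d X f hc hf hn B hB
  rcases d with _ | n
  · obtain ⟨x⟩ := hc.toNonempty
    refine (not_const hc hf hn (f x) x ?_).elim
    filter_upwards [(chartAt (Cm 0) x).open_source.mem_nhds (mem_chart_source _ x)] with z hz
    rw [(chartAt (Cm 0) x).injOn hz (mem_chart_source _ x) (Subsingleton.elim _ _)]
  refine ⟨fun e he => (Val.nul_of_cv (cv_fib hc hf hn hB he)).volume_eq_zero, fun _ => ?_⟩
  refine of_local (fun x => mem_closure_iff_nhds.2 fun U hU => ?_) fun x => ?_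
  all_goals
    have hx := mem_chart_source (Cm (n + 1)) x
    have h := cv_fib hc hf hn hB (chart_mem_atlas (Cm (n + 1)) x)
    generalize chartAt (Cm (n + 1)) x = e at hx h
  · obtain ⟨w, ⟨h1, h2⟩, h3⟩ := mem_closure_iff_nhds.1 (h.dense_compl (Pj.Br.lt_rank n) (e x)) _
      (inter_mem (e.open_target.mem_nhds (e.map_source hx)) ((e.tendsto_symm hx) hU))
    exact ⟨e.symm w, h2, fun k => h3 ⟨_, ⟨k, e.map_target h1⟩, e.right_inv h1⟩⟩
  · obtain ⟨r, hr, h1⟩ := Metric.isOpen_iff.1 e.open_target _ (e.map_source hx)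
    have h2 := (Pj.Br.conn_convex isOpen_ball (convex_ball (e x) r) h).image e.symm
      (e.continuousOn_symm.mono fun w hw => h1 hw.1)
    refine ⟨e.source ∩ e ⁻¹' ball (e x) r, inter_mem (e.open_source.mem_nhds hx)
      ((e.continuousAt hx) (ball_mem_nhds _ hr)), (congrArg IsPreconnected ?_).mp h2⟩
    ext z
    constructor
    · rintro ⟨w, ⟨a, b⟩, rfl⟩
      exact ⟨⟨e.map_target (h1 a), by rwa [mem_preimage, e.right_inv (h1 a)]⟩,
        fun k => b ⟨_, ⟨k, e.map_target (h1 a)⟩, e.right_inv (h1 a)⟩⟩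
    · rintro ⟨⟨a, b⟩, c⟩
      exact ⟨e z, ⟨b, fun ⟨z', k, k'⟩ => c (e.injOn k.2 a k' ▸ k.1)⟩, e.left_inv a⟩

end Vale.Agent.P277Z.Top.Fb
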