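import Vale.Agent.P277Z.Top.FbSk

/-!
# P277, block TOP: the components of a smooth compact hypersurface
-/

open scoped Manifold ContDiff Topology
open Vale.Agent.P272.K Vale.Agent.P277 Set Filter
open Vale.Agent.P277Z.Val
open Vale.Agent.P277Z.Slc (LEq)

noncomputable section

namespace Vale.Agent.P277Z.Top.Fb

theorem Ex.hyp {n : ℕ} {W : Type} [TopologicalSpace W] [ChartedSpace (Cm n) W]
    [IsManifold 𝓘(ℂ, Cm n) ω W] {Z : Set W} (h : ∀ x ∈ Z, ∃ ζ, LEq n Z x ζ) : Val.Hyp n Z := by
  intro x hx
  obtain ⟨ζ, h1, h2⟩ := h x hx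
  have he : At (chartAt (Cm n) x) x := ⟨chart_mem_atlas _ _, mem_chart_source _ _⟩
  set e := chartAt (Cm n) x
  obtain ⟨h3, h4⟩ := h2 e he
  set D := fderiv ℂ (fun z => ζ (e.symm z)) (e x) with hD
  obtain ⟨i, hi⟩ : ∃ i, D (Pi.single i 1) ≠ 0 := by
    by_contra! k
    exact h4 (h1.self_of_nhds.2 hx) (ContinuousLinearMap.coe_injective
      ((Pi.basisFun ℂ (Fin n)).ext fun i => by simpa using k i))
  have h5 : HasFDerivAt (fun (z : Cm n) j => if j = i then ζ (e.symm z) else z j)
      (ContinuousLinearMap.pi fun j => if j = i then D else .proj j) (e x) :=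
    hasFDerivAt_pi.2 fun j => by
      split_ifs
      exacts [h3.differentiableAt.hasFDerivAt, hasFDerivAt_apply _ _]
  refine ⟨fun y j => if j = i then ζ y else e y j, i, isCo_of he ((locIso_of_inj
    (φ := fun (z : Cm n) j => if j = i then ζ (e.symm z) else z j) (AnalyticAt.pi fun j => ?_)
    ?_).congr ?_), h1.mono fun y hy => by simp only [if_true, hy]⟩
  · split_ifs
    exacts [h3, (ContinuousLinearMap.proj (R := ℂ) (φ := fun _ : Fin n => ℂ) j).analyticAt _]
  · rw [h5.fderiv]
    refine (injective_iff_map_eq_zero _).2 fun v hv => ?_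
    have h6 : v = v i • Pi.single i 1 := funext fun j => by
      by_cases k : j = i
      · simp [k]
      · simpa [k] using congrFun hv j
    have h7 : D v = 0 := by simpa using congrFun hv i
    rw [h6, map_smul, smul_eq_mul, mul_eq_zero, or_iff_left hi] at h7
    rw [h6, h7, zero_smul]
  · filter_upwards [e.open_target.mem_nhds (e.map_source he.2)] with z hz
    rw [e.right_inv hz]

theorem stEx : StEx := by
  intro d X Z hc h
  have hZ := Ex.hyp h
  obtain ⟨c, -⟩ := hZ.exists_sb
  have := ChartedSpace.locallyConnectedSpace (Cm d) Z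
  have := isCompact_iff_compactSpace.1 hc.isCompact
  have h1 : ∀ j : ConnectedComponents Z, ∃ (N : Mf d) (ι : N.M → X.M), Sb d (d + 1) ι ∧
      ConnectedSpace N.M ∧ range ι = (↑) '' (ConnectedComponents.mk ⁻¹' {j}) := by
    intro j
    obtain ⟨x, rfl⟩ := ConnectedComponents.surjective_coe j
    rw [connectedComponents_preimage_singleton]
    obtain ⟨c', m, h2, -⟩ := Val.Hyp.exists_sb (G := Subtype.val '' connectedComponent x) (by
      rintro _ ⟨y, hy, rfl⟩
      obtain ⟨t, i, k1, k2⟩ := hZ y y.2
      obtain ⟨U, k3, k4⟩ := isOpen_induced_iff.1 (isOpen_connectedComponent (x := x))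
      refine ⟨t, i, k1, ?_⟩
      filter_upwards [k2, k3.mem_nhds (show ↑y ∈ U from (k4 ▸ hy : y ∈ (↑) ⁻¹' U))] with w l1 l2
      rw [← l1, ← k4, Subtype.image_preimage_coe]
      exact and_iff_left l2)
    have := isCompact_iff_compactSpace.1
      ((isClosed_connectedComponent (x := x)).isCompact.image continuous_subtype_val)
    exact ⟨⟨_⟩, _, h2, isConnected_iff_connectedSpace.1
      (isConnected_connectedComponent.image _ continuous_subtype_val.continuousOn),
      Subtype.range_coe⟩
  choose N ι k1 k2 k3 using h1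
  refine ⟨_, Fintype.ofFinite _, N, ι, k1, k2, fun a b hab => ?_, ?_⟩
  · rw [k3, k3, disjoint_image_iff Subtype.val_injective]
    exact (disjoint_singleton.2 hab).preimage _
  · simp only [k3, ← image_iUnion, ← preimage_iUnion, iUnion_of_singleton, preimage_univ,
      image_univ, Subtype.range_coe]

end Vale.Agent.P277Z.Top.Fb
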