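import Vale.Agent.P277Z.Top.FbSk
import Vale.Agent.P277Z.Tr.Deg1

/-!
# P277, block TOP: dominated convergence for forms of top degree
-/

set_option maxSynthPendingDepth 3

open scoped Manifold ContDiff Topology
open Vale.Agent.P272.K Vale.Agent.P277 Set Filter MeasureTheory
open Vale.Agent.P267.H928.Int
open Vale.Agent.P277Z.Tr

noncomputable section

namespace Vale.Agent.P277Z.Top.Fb

theorem stLim : StLim := by
  intro d X a r A ha hr h1 hA ht
  let _ : MeasurableSpace X.M := borel X.M
  have : BorelSpace X.M := ⟨rfl⟩
  set P : Pou (Cm d) X.M := (exists_pou (E := Cm d) (M := X.M)).some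
  set c := fun e z => cf (tb d) e (show Form (Cm d) ℝ (2 * d) X.M from a) z
  have hi : Integrable (P.quo c) (P.meas volume) :=
    P.integrable_quo volume (isDens_cf _ _) ((cForm_of_sm ha).contForm.dcont _) isCompact_univ
      fun e he z hz h => absurd (mem_univ _) h
  have hc : ∀ k, Continuous (r k) := fun k => continuous_iff_continuousAt.2 fun x => by
    have he := PH.at_chartAt (n := d) x
    exact ((hr k x _ he).continuousAt.comp ((chartAt (Cm d) x).continuousAt he.2)).congr
      (((chartAt (Cm d) x).eventually_left_inverse he.2).mono fun y hy => congrArg (r k) hy)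
  have e : ∀ k, X.int (fun x => r k x • a x) = ∫ x, r k x • P.quo c x ∂(P.meas volume) := fun k =>
    integral_congr_ae (.of_forall fun x => P.quo_dmul (r k) c x)
  simp only [e]
  refine tendsto_integral_of_dominated_convergence (fun x => ‖P.quo c x‖)
    (fun k => (hc k).aestronglyMeasurable.smul hi.1) hi.norm (fun k => .of_forall fun x => ?_) ?_
  · rw [norm_smul]
    exact mul_le_of_le_one_left (norm_nonneg _) (h1 k x)
  · filter_upwards [measure_eq_zero_iff_ae_notMem.1 (Deg1.meas_null P
      (measurableSet_tendsto (l := atTop) (𝓝 1) fun k => (hc k).measurable).compl fun e he =>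
        measure_mono_null (image_mono (inter_subset_inter_left _ fun x hx =>
          by_contra fun h => hx (ht x h))) (hA e he))] with x hx
    simpa only [one_smul] using (not_not.1 hx).smul_const (P.quo c x)

end Vale.Agent.P277Z.Top.Fb
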