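import Vale.Agent.P277Z.Top.FbSk
import Vale.Agent.P277Z.Top.Api
import Vale.Agent.P277Z.Tr.Cpt

/-!
# P277, block TOP: integration over the fibres, over a disc
-/

set_option linter.all false
set_option maxSynthPendingDepth 3

open scoped Manifold ContDiff Topology
open Vale.Agent.P272.K Vale.Agent.P277 Set Filter Module MeasureTheory
open Vale.Agent.P267.H175 (SmAt dF loc dF_congr smAt_zero)
open Vale.Agent.P277.PH (HolF SmR)
open Vale.Agent.P277Z.Tr (pb SmM smAt_pb dF_pb pb_eq_zero)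
open Vale.Agent.P277Z.Val (Sb holF_ev holF_cont)
open Vale.Agent.P277Z.Slc (LEq)
open Vale.Agent.P277Z.Gd

noncomputable section

namespace Vale.Agent.P277Z.Top.Fb

theorem loc_id {k : ℕ} (η : Fr 1 k (Cm 1)) (z : Cm 1) : loc (chartAt (Cm 1) z) η = η := by
  funext w
  have : fderiv ℝ (fun y : Cm 1 => y) w = ContinuousLinearMap.id ℝ _ := fderiv_id
  simp only [loc, chartAt_self_eq, OpenPartialHomeomorph.refl_symm, OpenPartialHomeomorph.refl_apply,
    id, this]
  rfl

theorem smAt_id {k : ℕ} {η : Fr 1 k (Cm 1)} {z : Cm 1} : SmAt η z ↔ ContDiffAt ℝ ∞ η z := by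
  rw [SmAt, loc_id]; rfl

theorem dF_id {k : ℕ} (η : Fr 1 k (Cm 1)) (z : Cm 1) : dF η z = extDeriv η z := by
  rw [dF, loc_id]; rfl

theorem holF_zero (z : Cm 1) : HolF 1 (fun z : Cm 1 => z 0) z := fun e he => by
  have : e = OpenPartialHomeomorph.refl _ := he.1
  subst this
  exact (ContinuousLinearMap.proj (R := ℂ) (φ := fun _ : Fin 1 => ℂ) 0).analyticAt _

section loc

variable {d : ℕ} {M : Type} [TopologicalSpace M] [ChartedSpace (Cm d) M]
  [IsManifold 𝓘(ℂ, Cm d) ω M] {T : M → ℂ} {x : M}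

theorem smM_v (h : HolF d T x) : SmM (Cm d) (Cm 1) (fun x (_ : Fin 1) => T x) x :=
  ⟨continuousAt_pi.2 fun _ => holF_cont h,
    ((analyticAt_pi_iff.2 fun _ => h _ (at_ch x)).contDiffAt.restrict_scalars ℝ).of_le le_top⟩

theorem pb_dc_v (hT : HolF d T x) {u : Cm 1 → ℝ} (hu : SmR 1 u fun _ => T x) :
    pb (Cm d) (fun x (_ : Fin 1) => T x) (dc 1 u) x = dc d (fun y => u fun _ => T y) x := by
  have he := at_ch (d := d) x
  have h : DifferentiableAt ℂ (fun z (_ : Fin 1) => T ((chartAt (Cm d) x).symm z))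
      (chartAt (Cm d) x x) := (analyticAt_pi_iff.2 fun _ => hT _ he).differentiableAt
  have hu' : DifferentiableAt ℝ u fun _ => T x := (smR_chart hu).differentiableAt (by simp)
  have k := fderiv_comp (g := u) _ (by rwa [he.left_inv]) (h.restrictScalars ℝ)
  rw [he.left_inv, h.fderiv_restrictScalars ℝ] at k
  ext v
  rw [dc_eq, H38.dcL_apply, pb, ContinuousAlternatingMap.compContinuousLinearMap_apply, dc_eq,
    H38.dcL_apply]
  refine Eq.trans ?_ (congrArg (fun L : Cm d →L[ℝ] ℝ => -(4 * Real.pi)⁻¹ * L (Complex.I • v 0)) k).symm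
  have k2 := h.fderiv_restrictScalars ℝ
  simp only [chartAt_self_eq, OpenPartialHomeomorph.refl_symm, OpenPartialHomeomorph.refl_apply, id,
    k2]
  simp

theorem pb_ddc_v (hT : HolF d T x) {u : Cm 1 → ℝ} (hu : ∀ z, SmR 1 u z) :
    pb (Cm d) (fun x (_ : Fin 1) => T x) (ddc 1 u) x = ddc d (fun y => u fun _ => T y) x := by
  rw [ddc, ddc, ← dF_pb ((holF_ev hT).mono fun _ => smM_v) (smAt_dc (.of_forall hu))]
  exact dF_congr ((holF_ev hT).mono fun y hy => pb_dc_v hy (hu _))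

end loc

variable {d : ℕ} {X : Mf d} {W : Set X.M} {T : X.M → ℂ} {Δ K : Set ℂ}

/-- the pull back, extended by zero -/
abbrev ipb (W : Set X.M) (T : X.M → ℂ) {k : ℕ} (η : Fr 1 k (Cm 1)) : Fr d k X.M :=
  W.indicator (pb (Cm d) (fun x (_ : Fin 1) => T x) η)

theorem Prp.ind_in (h : Prp X W T Δ) {β : Type} [Zero β] (a : X.M → β) {x : X.M} (hx : x ∈ W) :
    W.indicator a =ᶠ[𝓝 x] a :=
  mem_of_superset (h.isOpen.mem_nhds hx) fun _ hy => indicator_of_mem hy a

theorem Prp.ind_out (h : Prp X W T Δ) (hK : IsCompact K) (hΔ : K ⊆ Δ) {β : Type} [Zero β]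
    {a : X.M → β} (h0 : ∀ y, T y ∉ K → a y = 0) {x : X.M} (hx : x ∉ W ∩ T ⁻¹' K) :
    W.indicator a =ᶠ[𝓝 x] 0 :=
  mem_of_superset ((h.prp K hΔ hK).isOpen_compl.mem_nhds hx) fun y hy =>
    indicator_apply_eq_zero.2 fun k => h0 y fun k' => hy ⟨k, k'⟩

variable {k : ℕ} {η : Fr 1 k (Cm 1)}

theorem Prp.sm (h : Prp X W T Δ) (hK : IsCompact K) (hΔ : K ⊆ Δ) (hη : ContDiff ℝ ∞ η)
    (h0 : ∀ z, z 0 ∉ K → η z = 0) : Sm (ipb W T η) := fun x => by
  by_cases hx : x ∈ W
  · exact (smAt_pb ((holF_ev (h.hol x hx)).mono fun _ => smM_v)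
      (smAt_id.2 hη.contDiffAt)).congr (h.ind_in _ hx)
  · exact (smAt_zero x).congr (h.ind_out hK hΔ (fun y k => pb_eq_zero (h0 _ k)) fun k => hx k.1)

theorem Prp.dF (h : Prp X W T Δ) (hK : IsCompact K) (hΔ : K ⊆ Δ) (hη : ContDiff ℝ ∞ η)
    (h0 : ∀ z, z 0 ∉ K → η z = 0) : dF (ipb W T η) = ipb W T (extDeriv η) := by
  funext x
  by_cases hx : x ∈ W
  · rw [dF_congr (h.ind_in _ hx), dF_pb ((holF_ev (h.hol x hx)).mono fun _ => smM_v)
      (smAt_id.2 hη.contDiffAt), funext (dF_id η)]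
    exact (indicator_of_mem hx _).symm
  · rw [dF_congr (h.ind_out hK hΔ (fun y k => pb_eq_zero (h0 _ k)) fun k => hx k.1)]
    simpa [indicator_of_notMem hx] using P267.H175.dF_smul 0 (0 : Fr d k X.M) x

theorem cpt_v (hK : IsCompact K) : IsCompact {z : Cm 1 | z 0 ∈ K} := by
  have : {z : Cm 1 | z 0 ∈ K} = (fun s (_ : Fin 1) => s) '' K := by
    ext z
    refine ⟨fun h => ⟨_, h, funext fun i => congrArg z (Subsingleton.elim _ _)⟩, ?_⟩
    rintro ⟨s, hs, rfl⟩
    exact hs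
  rw [this]
  exact hK.image (continuous_pi fun _ => continuous_id)

theorem integrable_v {η : Fr 1 2 (Cm 1)} (hK : IsCompact K) (hη : ContDiff ℝ ∞ η)
    (h0 : ∀ z, z 0 ∉ K → η z = 0) : Integrable fun z => η z (tb 1) :=
  ((continuous_eval_const _).comp hη.continuous).integrable_of_hasCompactSupport
    (HasCompactSupport.intro (cpt_v hK) fun z hz => by simp [h0 z hz])

theorem Prp.int_zero {X : Mf (d + 1)} {W : Set X.M} {T : X.M → ℂ} (h : Prp X W T Δ)
    {η : Fr 1 2 (Cm 1)} (hK : IsCompact K) (hΔ : K ⊆ Δ) (hη : ContDiff ℝ ∞ η)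
    (h0 : ∀ z, z 0 ∉ K → η z = 0) (hi : ∫ z, η z (tb 1) = 0) {φ : Fr (d + 1) (2 * d) X.M}
    (hφ : Cl φ) : X.int (wd (ipb W T η) φ) = 0 := by
  obtain ⟨γ, K', a1, a2, a3, a4, a5⟩ := Tr.cpt (Cm 1) volume {z | z 0 ∈ Δ} {z | z 0 ∈ K} 1 (tb 1) η
    (h.isOpen'.preimage (continuous_apply 0))
    (h.conv.linear_preimage (LinearMap.proj (R := ℝ) (φ := fun _ : Fin 1 => ℂ) 0)) (cpt_v hK)
    (fun z hz => hΔ hz) hη h0 hi
  have b1 := a2.image (continuous_apply 0)
  have b2 : (fun z : Cm 1 => z 0) '' K' ⊆ Δ := image_subset_iff.2 a3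
  have b3 : ∀ z : Cm 1, z 0 ∉ (fun z : Cm 1 => z 0) '' K' → γ z = 0 := fun z hz =>
    a4 z fun k => hz ⟨z, k, rfl⟩
  rw [← funext a5, ← h.dF b1 b2 a1 b3]
  exact int_dF_wd X (h.sm b1 b2 a1 b3) hφ

/-- the potential of a form of mass one -/
def pot (s : ℂ) (χ : ℂ → ℝ) (z : Cm 1) : ℝ := (1 - χ (z 0)) * Real.log (‖z 0 - s‖ ^ 2)

theorem smR_pot {s : ℂ} {χ : ℂ → ℝ} (h1 : ContDiff ℝ ∞ χ) (h2 : ∀ᶠ z in 𝓝 s, χ z = 1) (z : Cm 1) :
    SmR 1 (pot s χ) z := by
  by_cases h : z 0 = s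
  · refine smR_congr (smR_const 0) ?_
    filter_upwards [(continuous_apply (0 : Fin 1)).continuousAt.eventually (h ▸ h2)] with w hw
    rw [pot, hw, sub_self, zero_mul]
  · exact smR_mul (smR_sub (smR_const 1) (smR_cx (holF_zero z) h1.contDiffAt))
      (smR_log (F := fun z : Cm 1 => z 0 - s) (fun e he => (holF_zero z e he).sub analyticAt_const)
        (sub_ne_zero.2 h))

theorem exists_one (h1 : StOne) (hΔ : IsOpen Δ) {s : ℂ} (hs : s ∈ Δ) :
    ∃ (χ : ℂ → ℝ) (K : Set ℂ), IsCompact K ∧ K ⊆ Δ ∧ s ∈ K ∧ ContDiff ℝ ∞ χ ∧ (∀ z ∉ K, χ z = 0) ∧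
      (∀ z, SmR 1 (pot s χ) z) ∧ ContDiff ℝ ∞ (ddc 1 (pot s χ)) ∧
      (∀ z, z 0 ∉ K → ddc 1 (pot s χ) z = 0) ∧ ∫ z, ddc 1 (pot s χ) z (tb 1) = 1 := by
  obtain ⟨r, hr, k⟩ := Metric.nhds_basis_closedBall.mem_iff.1 (hΔ.mem_nhds hs)
  let b : ContDiffBump s := ⟨r / 2, r, half_pos hr, half_lt_self hr⟩
  have a1 := smR_pot b.contDiff b.eventuallyEq_one
  have a2 : ∀ z ∉ Metric.closedBall s r, b z = 0 := fun z hz =>
    b.zero_of_le_dist (le_of_lt (not_le.1 hz))
  refine ⟨b, _, isCompact_closedBall s r, k, Metric.mem_closedBall_self hr.le, b.contDiff, a2, a1,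
    contDiff_iff_contDiffAt.2 fun z => smAt_id.1 (smAt_ddc (.of_forall a1)), fun z hz => ?_,
    h1 s b b.contDiff b.hasCompactSupport b.eventuallyEq_one⟩
  rw [← ddc_log (F := fun z : Cm 1 => z 0 - s)
    (fun e he => (holF_zero z e he).sub analyticAt_const) (sub_ne_zero.2 fun e =>
      hz (e ▸ Metric.mem_closedBall_self hr.le))]
  refine ddc_congr ?_
  filter_upwards [(continuous_apply (0 : Fin 1)).continuousAt.eventually
    (Metric.isClosed_closedBall.isOpen_compl.mem_nhds hz)] with w hw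
  rw [pot, a2 _ hw, sub_zero, one_mul]

theorem leq_one {G : Set X.M} (hG : IsClosed G) {x : X.M} (hx : x ∉ G) : LEq d G x fun _ => 1 :=
  ⟨mem_of_superset (hG.isOpen_compl.mem_nhds hx) fun _ hy =>
    ⟨fun h => absurd h one_ne_zero, fun h => absurd h hy⟩,
    fun _ _ => ⟨analyticAt_const, fun h => absurd h one_ne_zero⟩⟩

theorem leq_sub {G : Set X.M} {x : X.M} {s : ℂ} (hT : HolF d T x) (h : Sub d T x)
    (hG : ∀ᶠ y in 𝓝 x, y ∈ G ↔ T y = s) : LEq d G x fun y => T y - s :=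
  ⟨hG.mono fun _ hy => sub_eq_zero.trans hy.symm, fun e he =>
    ⟨(hT e he).sub analyticAt_const, fun _ => by rw [fderiv_sub_const]; exact h e he⟩⟩

theorem stLoc (hPL : StPL) (h1 : StOne) : StLoc := by
  intro d X W T Δ h s hs hsub J _ N j hp φ hφ η K hη hK hKΔ h0
  classical
  obtain ⟨χ, K₀, a1, a2, a3, a4, a5, a6, a7, a8, a9⟩ := exists_one h1 h.isOpen' hs
  have hc : ∀ i, IsClosed (range (j i)) := fun i => (isCompact_range (hp.emb i).cont).isClosed
  have hr : ∀ i, range (j i) ⊆ W ∩ T ⁻¹' {s} := fun i => hp.rng ▸ subset_iUnion (fun i => range (j i)) i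
  have hu : ∀ y ∈ W, SmR (d + 1) (fun y => pot s χ fun _ => T y) y ∧
      ipb W T (ddc 1 (pot s χ)) y = ddc (d + 1) (fun y => pot s χ fun _ => T y) y := fun y hy =>
    ⟨smR_cx (h.hol y hy) (φ := fun w => pot s χ fun _ => w)
      (ContDiffAt.comp (g := pot s χ) (f := fun w (_ : Fin 1) => w) _ (smR_chart (a6 _))
        (contDiffAt_pi.2 fun _ => contDiffAt_id)),
      (indicator_of_mem hy _).trans (pb_ddc_v (h.hol y hy) a6)⟩
  have gr : IsGr Finset.univ (fun i => range (j i)) (fun _ => 1) (ipb W T (ddc 1 (pot s χ)))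
      (W.indicator fun x => χ (T x) * Real.log (‖T x - s‖ ^ 2)) := fun x => by
    by_cases hx : x ∈ W
    · by_cases hx' : T x = s
      · obtain ⟨i₀, hi⟩ := mem_iUnion.1 (hp.rng.ge ⟨hx, hx'⟩)
        have hn : ∀ i, i ≠ i₀ → x ∉ range (j i) := fun i ne k => disjoint_left.1 (hp.disj i i₀ ne) k hi
        refine ⟨fun i y => if i = i₀ then T y - s else 1, fun y => pot s χ fun _ => T y,
          fun i _ => ?_, ?_⟩
        · by_cases e : i = i₀
          · subst e
            simp only [if_true]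
            refine leq_sub (h.hol x hx) (hsub x hx hx') ?_
            filter_upwards [h.isOpen.mem_nhds hx, eventually_all.2 fun i' => show
              ∀ᶠ y in 𝓝 x, i' ≠ i → y ∉ range (j i') from eventually_imp_distrib_left.2 fun ne =>
                (hc i').isOpen_compl.mem_nhds (hn i' ne)] with y b1 b2
            refine ⟨fun k => (hr _ k).2, fun k => ?_⟩
            obtain ⟨i', k'⟩ := mem_iUnion.1 (hp.rng.ge ⟨b1, k⟩)
            obtain rfl : i' = i := not_not.1 fun ne => b2 i' ne k'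
            exact k'
          · simpa only [e, if_false] using leq_one (hc i) (hn i e)
        · filter_upwards [h.isOpen.mem_nhds hx] with y hy
          refine ⟨(hu y hy).1, (hu y hy).2, fun _ => ?_⟩
          rw [indicator_of_mem hy, Finset.sum_eq_single i₀ (fun i _ e => by simp [e]) (by simp), pot]
          simp only [if_true]
          ring
      · have hL : HolF (d + 1) (fun y => T y - s) x := fun e he =>
          (h.hol x hx e he).sub analyticAt_const
        refine ⟨fun _ _ => 1, fun y => (pot s χ fun _ => T y) - Real.log (‖T y - s‖ ^ 2),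
          fun i _ => leq_one (hc i) fun k => hx' (hr i k).2, ?_⟩
        filter_upwards [h.isOpen.mem_nhds hx, holF_ev hL,
          (holF_cont hL).eventually_ne (sub_ne_zero.2 hx')] with y hy b1 b2
        refine ⟨smR_sub (hu y hy).1 (smR_log b1 b2), ?_, fun _ => ?_⟩
        · rw [ddc_sub ((h.isOpen.eventually_mem hy).mono fun z hz => (hu z hz).1)
            (ev_smR_log b1 b2), ddc_log b1 b2, sub_zero, (hu y hy).2]
        · rw [indicator_of_mem hy, pot]
          simp only [norm_one, one_pow, Real.log_one, mul_zero, Finset.sum_const_zero]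
          ring
    · refine ⟨fun _ _ => 1, fun _ => 0, fun i _ => leq_one (hc i) fun k => hx (hr i k).1, ?_⟩
      filter_upwards [h.ind_out (a := pb (Cm (d + 1)) (fun x (_ : Fin 1) => T x) (ddc 1 (pot s χ)))
        a1 a2 (fun y k => pb_eq_zero (a8 _ k)) fun k => hx k.1,
        h.ind_out (a := fun x => χ (T x) * Real.log (‖T x - s‖ ^ 2)) a1 a2
          (fun y k => by rw [a5 _ k, zero_mul]) fun k => hx k.1] with y b1 b2
      exact ⟨smR_const 0, by rw [ddc_const]; exact b1, fun _ => by rw [b2]; simp⟩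
  have pl := hPL d X J Finset.univ N j _ _ _ _ univ φ (fun i _ => hp.emb i) gr (h.prp K₀ a2 a1)
    isOpen_univ (subset_univ _) (fun i _ y k => ⟨(hr i k).1, singleton_subset_iff.2 a3 (hr i k).2⟩)
    (fun x hx => indicator_apply_eq_zero.2 fun k => by rw [a5 _ fun k' => hx ⟨k, k'⟩, zero_mul])
    (cl_sm hφ) fun x _ => (hφ x).2
  set m := ∫ z, η z (tb 1)
  have z := h.int_zero (η := η - m • ddc 1 (pot s χ)) (hK.union a1) (union_subset hKΔ a2)
    (hη.sub (a7.const_smul m)) (fun z hz => by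
      simp [h0 z fun k => hz (.inl k), a8 z fun k => hz (.inr k)]) (by
      have := integral_sub (integrable_v hK hη h0) ((integrable_v a1 a7 a8).const_mul m)
      rw [integral_const_mul, a9] at this
      exact this.trans (sub_eq_zero.2 (mul_one m).symm)) hφ
  have e : ipb W T (η - m • ddc 1 (pot s χ)) = ipb W T η - m • ipb W T (ddc 1 (pot s χ)) := by
    funext x
    by_cases hx : x ∈ W
    · simp only [ipb, Pi.sub_apply, Pi.smul_apply, indicator_of_mem hx]; rfl
    · simp only [ipb, Pi.sub_apply, Pi.smul_apply, indicator_of_notMem hx, smul_zero, sub_zero]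
  have s1 := sm_wd (h.sm hK hKΔ hη h0) (cl_sm hφ)
  have s2 := sm_wd (h.sm a1 a2 a7 a8) (cl_sm hφ)
  rw [e, wd_sub_left, wd_smul_left, int_sub X s1 (sm_smul m s2), int_smul, pl, sub_eq_zero] at z
  simpa using z

end Vale.Agent.P277Z.Top.Fb
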