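import Vale.Agent.P277Z.Top.FbLoc

/-!
# P277, block TOP: the positive form of the base on a disc
-/

set_option linter.unusedSectionVars false
set_option maxSynthPendingDepth 3

open scoped Manifold ContDiff Topology
open Vale.Agent.P272.K Vale.Agent.P277 Set Filter
open Vale.Agent.P267.H175 (dF_congr)
open Vale.Agent.P277.PH (HolF SmR)
open Vale.Agent.P277Z.Tr (pb dF_pb)
open Vale.Agent.P277Z.Val (holF_ev holF_cont)
open Vale.Agent.P277Z.Gd

noncomputable section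

namespace Vale.Agent.P277Z.Top.Fb

namespace OmH

theorem an0 {F : ℂ → ℂ} {z : Cm 1} (h : AnalyticAt ℂ F (z 0)) :
    AnalyticAt ℂ (fun w : Cm 1 => F (w 0)) z :=
  h.comp (f := fun w : Cm 1 => w 0)
    ((ContinuousLinearMap.proj (R := ℂ) (φ := fun _ : Fin 1 => ℂ) 0).analyticAt z)

theorem holF_of {F : Cm 1 → ℂ} {z : Cm 1} (h : AnalyticAt ℂ F z) : HolF 1 F z := fun e he => by
  have : e = OpenPartialHomeomorph.refl _ := he.1
  subst this
  exact h

theorem tb_one : (tb 1 : Fin 2 → Cm 1) = ![Pi.single 0 1, Complex.I • Pi.single 0 1] := by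
  have h0 : Tr.rb 1 0 = _ := rb_apply 1 0 0
  have h1 : Tr.rb 1 1 = _ := rb_apply 1 0 1
  funext i
  fin_cases i
  · simpa [tb] using h0
  · refine Eq.trans (by simpa [tb] using h1) (b := Pi.single 0 Complex.I) ?_
    simp [← Pi.single_smul]

theorem pb_ddc_loc {d : ℕ} {M : Type} [TopologicalSpace M] [ChartedSpace (Cm d) M]
    [IsManifold 𝓘(ℂ, Cm d) ω M] {T : M → ℂ} {x : M} (hT : HolF d T x) {u : Cm 1 → ℝ}
    (hu : ∀ᶠ z in 𝓝 (fun _ : Fin 1 => T x), SmR 1 u z) :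
    pb (Cm d) (fun x (_ : Fin 1) => T x) (ddc 1 u) x = ddc d (fun y => u fun _ => T y) x := by
  rw [ddc, ddc, ← dF_pb ((holF_ev hT).mono fun _ => smM_v) (smAt_dc hu)]
  exact dF_congr (((holF_ev hT).and ((smM_v hT).1.eventually hu)).mono fun y hy =>
    pb_dc_v hy.1 hy.2)

variable {Y : CSp} (B : Bas Y) {σ O : Set Y.pt} {t : Y.pt → ℂ} {g : ℂ → Y.pt} {Δ : Set ℂ}
  (D : IsDisc Y σ O t g Δ) {z : Cm 1} (hz : z 0 ∈ Δ)

include D hz

theorem an {h : Y.pt → ℂ} (hh : Y.Hol h (g (z 0))) : AnalyticAt ℂ (fun w : Cm 1 => h (g (w 0))) z :=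
  an0 (F := fun s => h (g s)) ((D.par _ hz).2.2 h hh)

theorem cont : ContinuousAt (fun w : Cm 1 => g (w 0)) z :=
  ContinuousAt.comp (f := fun w : Cm 1 => w 0) (D.par _ hz).1 (continuous_apply 0).continuousAt

theorem smooth : ContDiffAt ℝ ∞ (B.form 1 fun w : Cm 1 => g (w 0)) z := by
  refine ContDiffAt.sum fun i _ => ?_
  by_cases hi : g (z 0) ∈ tsupport (B.ρ i)
  · obtain ⟨N, φ, b, h1, h2, h3⟩ := B.sm i (g (z 0))
    refine ContDiffAt.smul ((h2.contDiffAt.comp z (contDiffAt_pi.2 fun a =>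
      ((an D hz (h1 a)).contDiffAt.restrict_scalars ℝ))).congr_of_eventuallyEq
        ((cont D hz).eventually h3)) (smAt_id.1 (smAt_ddc ?_))
    exact (holF_ev (holF_of (an D hz (B.hol i _ hi)))).mono fun _ => smR_nsq
  · refine (contDiffAt_const (c := 0)).congr_of_eventuallyEq
      (((cont D hz).eventually (notMem_tsupport_iff_eventuallyEq.1 hi)).mono fun w hw => ?_)
    beta_reduce at hw ⊢
    rw [hw, Pi.zero_apply, zero_smul]

theorem term {i : Fin B.n} (hi : B.ρ i (g (z 0)) ≠ 0) :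
    ddc 1 (fun w : Cm 1 => ‖B.t i (g (w 0))‖ ^ 2) z (tb 1) = Real.pi⁻¹ *
      ‖fderiv ℂ (fun w : Cm 1 => B.t i (g (w 0))) z (Pi.single 0 1)‖ ^ 2 := by
  rw [tb_one]
  exact ddc_normSq_I (holF_of (an D hz (B.hol i _ (subset_tsupport _ hi)))) _

theorem some : ∃ i, B.ρ i (g (z 0)) ≠ 0 ∧
    fderiv ℂ (fun w : Cm 1 => B.t i (g (w 0))) z (Pi.single 0 1) ≠ 0 := by
  by_contra! h0
  obtain ⟨G, h1, h2⟩ := B.gen _ t (D.hol _ (D.img.ge (mem_image_of_mem g hz)).2)
  have h3 : ∀ i, DifferentiableAt ℂ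
      (fun w : Cm 1 => if 0 < B.ρ i (g (z 0)) then B.t i (g (w 0)) else 0) z ∧ fderiv ℂ
      (fun w : Cm 1 => if 0 < B.ρ i (g (z 0)) then B.t i (g (w 0)) else 0) z (Pi.single 0 1) = 0 :=
    fun i => by
      split_ifs with k
      · exact ⟨(an D hz (B.hol i _ (subset_tsupport _ k.ne'))).differentiableAt, h0 i k.ne'⟩
      · simp
  have h4 := fderiv_comp z (g := G) h1.differentiableAt (differentiableAt_pi.2 fun i => (h3 i).1)
  have h5 : (fun w : Cm 1 => w 0) =ᶠ[𝓝 z]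
      G ∘ fun w i => if 0 < B.ρ i (g (z 0)) then B.t i (g (w 0)) else 0 := by
    filter_upwards [(cont D hz).eventually h2,
      (continuous_apply 0).continuousAt.eventually (D.isOpen'.mem_nhds hz)] with w k1 k2
    exact (D.par _ k2).2.1.symm.trans k1
  rw [← h5.fderiv_eq, fderiv_pi fun i => (h3 i).1,
    (hasFDerivAt_apply (𝕜 := ℂ) (0 : Fin 1) z).fderiv] at h4
  have h6 := congrArg (fun L : Cm 1 →L[ℂ] ℂ => L (Pi.single 0 1)) h4
  have h7 : (ContinuousLinearMap.pi fun i => fderiv ℂ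
      (fun w : Cm 1 => if 0 < B.ρ i (g (z 0)) then B.t i (g (w 0)) else 0) z) (Pi.single 0 1) = 0 :=
    funext fun i => (h3 i).2
  rw [ContinuousLinearMap.comp_apply, h7, map_zero] at h6
  simp at h6

theorem pos : 0 < B.form 1 (fun w : Cm 1 => g (w 0)) z (tb 1) := by
  rw [Bas.form, ContinuousAlternatingMap.sum_apply]
  obtain ⟨j, h1, h2⟩ := some B D hz
  refine Finset.sum_pos' (fun i _ => ?_) ⟨j, Finset.mem_univ j, ?_⟩
  · by_cases hi : B.ρ i (g (z 0)) = 0
    · rw [hi, zero_smul]; rfl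
    · rw [ContinuousAlternatingMap.smul_apply, term B D hz hi]
      exact mul_nonneg (B.nn _ _) (by positivity)
  · rw [ContinuousAlternatingMap.smul_apply, term B D hz h1]
    exact mul_pos ((B.nn _ _).lt_of_ne' h1) (by positivity)

end OmH

open OmH

theorem stOm : StOm := by
  intro Y B σ O t g Δ D
  refine ⟨fun z hz => ⟨smooth B D hz, pos B D hz⟩, fun d X f hf hσ x hx => ?_⟩
  have h1 : ∀ y, f y ∈ O → t (f y) ∈ Δ ∧ g (t (f y)) = f y := fun y hy => by
    obtain ⟨s, k1, k2⟩ := D.img.le ⟨hσ (mem_range_self y), hy⟩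
    rw [← k2, (D.par s k1).2.1]
    exact ⟨k1, rfl⟩
  have h2 : ∀ i, B.ρ i (f x) • ddc d (fun y => ‖B.t i (f y)‖ ^ 2) x = B.ρ i (g (t (f x))) •
      pb (Cm d) (fun x (_ : Fin 1) => t (f x)) (ddc 1 fun w => ‖B.t i (g (w 0))‖ ^ 2) x := fun i => by
    rw [(h1 x hx).2]
    by_cases hi : B.ρ i (f x) = 0
    · rw [hi, zero_smul, zero_smul]
    · rw [pb_ddc_loc (hf.2 x t (D.hol _ hx)) ((holF_ev (holF_of (an D (z := fun _ => t (f x))
        (h1 x hx).1 (B.hol i _ (subset_tsupport _ (by rwa [← (h1 x hx).2] at hi)))))).mono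
          fun _ => smR_nsq)]
      refine congrArg _ (ddc_congr ?_)
      filter_upwards [hf.1.continuousAt.eventually (D.isOpen.mem_nhds hx)] with y hy
      rw [(h1 y hy).2]
  ext v
  rw [Bas.form, Finset.sum_congr rfl fun i _ => h2 i, pb,
    ContinuousAlternatingMap.compContinuousLinearMap_apply, Bas.form,
    ContinuousAlternatingMap.sum_apply, ContinuousAlternatingMap.sum_apply]
  rfl

end Vale.Agent.P277Z.Top.Fb
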