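import Vale.Agent.P277Z.Top.PL5
import Vale.Agent.P277Z.Top.Defs
import Vale.Agent.P277Z.Slc.Div

/-!
# P277, block TOP: the calculus of `d d^c`
-/

set_option maxSynthPendingDepth 3

open scoped Manifold ContDiff Topology Real
open ContinuousAlternatingMap Vale.Agent.P267.H928.Int Vale.Agent.P267.H175
open Vale.Agent.P277.H60 Vale.Agent.P277.H619 Filter Set
open Vale.Agent.P277Z.Tr (ev_symm)
open Vale.Agent.P272.K (Cm Chart At)
open Vale.Agent.P285.H281.FD
open Vale.Agent.P277.PH (SmR)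
open Vale.Agent.P277Z.Slc (at_chartAt tendsto_symm)

noncomputable section

namespace Vale.Agent.P277Z.Top.PL

variable {n : ℕ} {M : Type} [TopologicalSpace M] [ChartedSpace (Cm n) M] {x : M} {u u' : M → ℝ}

theorem dc_eq (u : M → ℝ) : dc n u = (-(4 * π)⁻¹) • dcM n u := by
  funext x
  ext v
  have h1 : ((-(4 * π)⁻¹) • dcM n u) x v = (-(4 * π)⁻¹) * dcM n u x v := rfl
  rw [h1, dcM, dcf, wedge1_apply, Fin.sum_univ_one]
  simp [dc, one0, Jm, Jc]

theorem ddc_eq (u : M → ℝ) (x : M) : ddc n u x = (-(4 * π)⁻¹) • dF (dcM n u) x := by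
  rw [ddc, dc_eq]
  exact dF_smul _ _ _

theorem ddc_congr (h : u =ᶠ[𝓝 x] u') : ddc n u x = ddc n u' x := by
  rw [ddc_eq, ddc_eq, dF_congr (dcM_congr h)]

theorem dc_congr (h : u =ᶠ[𝓝 x] u') : dc n u =ᶠ[𝓝 x] dc n u' := by
  rw [dc_eq, dc_eq]
  exact (dcM_congr h).mono fun y hy => congrArg (fun a => (-(4 * π)⁻¹) • a) hy

theorem dc_const (c : ℝ) : dc n (fun _ : M => c) = 0 := by
  rw [dc_eq, dcM_const]
  exact smul_zero _

theorem ddc_const (c : ℝ) (x : M) : ddc n (fun _ : M => c) x = 0 := by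
  have := dF_smul (0 : ℝ) (0 : Fr n 1 M) x
  rw [zero_smul, zero_smul] at this
  rw [ddc, dc_const, this]

theorem smF_of (h : SmR n u x) : SmF n u x := h _ (at_chartAt x)

theorem smR_cont (h : SmR n u x) : ContinuousAt u x := by
  have he := at_chartAt (n := n) x
  refine ((h _ he).continuousAt.comp ((chartAt (Cm n) x).continuousAt he.2)).congr ?_
  filter_upwards [Slc.At.near he] with y hy
  simp [(chartAt (Cm n) x).left_inv hy.2]

theorem smR_congr (h : SmR n u x) (h' : u' =ᶠ[𝓝 x] u) : SmR n u' x := fun e he =>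
  (h e he).congr_of_eventuallyEq ((tendsto_symm he).eventually h')

theorem smR_const (c : ℝ) : SmR n (fun _ => c) x := fun _ _ => contDiffAt_const

theorem smR_add (h : SmR n u x) (h' : SmR n u' x) : SmR n (fun y => u y + u' y) x :=
  fun e he => (h e he).add (h' e he)

theorem smR_sub (h : SmR n u x) (h' : SmR n u' x) : SmR n (fun y => u y - u' y) x :=
  fun e he => (h e he).sub (h' e he)

theorem smR_mul (h : SmR n u x) (h' : SmR n u' x) : SmR n (fun y => u y * u' y) x :=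
  fun e he => (h e he).mul (h' e he)

theorem smR_sum {ι : Type*} {s : Finset ι} {f : ι → M → ℝ} (h : ∀ i ∈ s, SmR n (f i) x) :
    SmR n (fun y => ∑ i ∈ s, f i y) x := fun e he => ContDiffAt.sum fun i hi => h i hi e he

theorem smR_log {a : M → ℂ} (ha : Hol n a x) (h0 : a x ≠ 0) :
    SmR n (fun y => Real.log (‖a y‖ ^ 2)) x := fun e he =>
  contDiffAt_log (ζ := fun z => a (e.symm z)) (ha e he).contDiffAt (by rwa [e.left_inv he.2])

variable [IsManifold 𝓘(ℂ, Cm n) ω M]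

theorem smR_of (h : SmF n u x) : SmR n u x := fun e he =>
  SmF.chart he.1 (e.map_source he.2) (by rwa [e.left_inv he.2])

theorem smR_of_contMDiff {ρ : M → ℝ} (hρ : ContMDiff 𝓘(ℝ, Cm n) 𝓘(ℝ) ∞ ρ) (x : M) : SmR n ρ x :=
  smR_of (smF_of_contMDiff hρ x)

theorem smR_log_ev {a : M → ℂ} (ha : Hol n a x) (h0 : a x ≠ 0) :
    ∀ᶠ y in 𝓝 x, SmR n (fun y => Real.log (‖a y‖ ^ 2)) y := by
  filter_upwards [ha.near, ha.continuousAt.eventually_ne h0] with y h1 h2 using smR_log h1 h2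

theorem loc_ddc {e : Chart n M} (he : At e x) (hu : ∀ᶠ y in 𝓝 x, SmR n u y) :
    loc e (ddc n u) (e x) = (-(4 * π)⁻¹) • extDeriv (dcf fun z => u (e.symm z)) (e x) := by
  rw [← loc_ddcM he.1 (e.map_source he.2) (by
    rw [e.left_inv he.2]; exact hu.mono fun _ => smF_of)]
  have : ddc n u = (-(4 * π)⁻¹) • dF (dcM n u) := funext fun y => ddc_eq u y
  rw [this]
  rfl

theorem ddc_chart (hu : ∀ᶠ y in 𝓝 x, SmR n u y) : ddc n u x =
    (-(4 * π)⁻¹) • extDeriv (dcf fun z => u ((chartAt (Cm n) x).symm z)) (chartAt (Cm n) x x) := by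
  rw [← loc_ddc (at_chartAt x) hu, loc_self]

theorem smAt_dc (hu : ∀ᶠ y in 𝓝 x, SmR n u y) : SmAt (dc n u) x := by
  rw [dc_eq]
  exact (smAt_dcM (hu.mono fun _ => smF_of)).smul _

theorem cl_ddc (hu : ∀ᶠ y in 𝓝 x, SmR n u y) : SmAt (ddc n u) x ∧ dF (ddc n u) x = 0 := by
  obtain ⟨V, h1, hV, hx⟩ := eventually_nhds_iff.1 hu.eventually_nhds
  exact ⟨smAt_dF hV (fun y hy => smAt_dc (h1 y hy)) hx, dF_dF hV (fun y hy => smAt_dc (h1 y hy)) hx⟩

theorem ddc_add' (hu : ∀ᶠ y in 𝓝 x, SmR n u y) (hu' : ∀ᶠ y in 𝓝 x, SmR n u' y) :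
    ddc n (fun y => u y + u' y) x = ddc n u x + ddc n u' x := by
  rw [ddc_chart hu, ddc_chart hu', ddc_chart ((hu.and hu').mono fun _ h => smR_add h.1 h.2),
    ddc_add (smF_of hu.self_of_nhds) (smF_of hu'.self_of_nhds)]
  exact smul_add _ _ _

omit [IsManifold 𝓘(ℂ, Cm n) ω M] in
theorem ddc_mul (c : ℝ) (u : M → ℝ) (x : M) : ddc n (fun y => c * u y) x = c • ddc n u x := by
  have h1 : dc n (fun y => c * u y) = c • dc n u := by
    funext y
    ext v
    have h2 : fderiv ℝ (fun z => c * u ((chartAt (Cm n) y).symm z)) (chartAt (Cm n) y y) =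
        c • fderiv ℝ (fun z => u ((chartAt (Cm n) y).symm z)) (chartAt (Cm n) y y) :=
      congrFun (fderiv_const_smul_field (f := fun z => u ((chartAt (Cm n) y).symm z)) c) _
    have h3 : (c • dc n u) y v = c * dc n u y v := rfl
    rw [h3]
    simp only [dc, h2]
    simp
    ring
  rw [ddc, h1, dF_smul, ddc]

theorem ddc_sub (hu : ∀ᶠ y in 𝓝 x, SmR n u y) (hu' : ∀ᶠ y in 𝓝 x, SmR n u' y) :
    ddc n (fun y => u y - u' y) x = ddc n u x - ddc n u' x := by
  have h1 : (fun y => u y - u' y) = fun y => u y + (-1) * u' y := by funext y; ring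
  rw [h1, ddc_add' hu (hu'.mono fun _ h => smR_mul (smR_const _) h), ddc_mul, neg_one_smul,
    sub_eq_add_neg]

theorem ddc_sum {ι : Type*} {s : Finset ι} {f : ι → M → ℝ}
    (h : ∀ i ∈ s, ∀ᶠ y in 𝓝 x, SmR n (f i) y) :
    ddc n (fun y => ∑ i ∈ s, f i y) x = ∑ i ∈ s, ddc n (f i) x := by
  classical
  induction s using Finset.induction_on with
  | empty => simpa using ddc_const 0 x
  | insert i s hi ih =>
    have h1 : ∀ j ∈ s, ∀ᶠ y in 𝓝 x, SmR n (f j) y := fun j hj => h j (Finset.mem_insert_of_mem hj)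
    simp only [Finset.sum_insert hi]
    rw [ddc_add' (h i (Finset.mem_insert_self i s))
      (((Finset.eventually_all s).2 h1).mono fun _ hy => smR_sum hy), ih h1]

theorem ddc_log' {a : M → ℂ} (ha : Hol n a x) (h0 : a x ≠ 0) :
    ddc n (fun y => Real.log (‖a y‖ ^ 2)) x = 0 := by
  have he := at_chartAt (n := n) x
  rw [ddc_chart (smR_log_ev ha h0), ddc_log (ζ := fun z => a ((chartAt (Cm n) x).symm z))
    (ha _ he).contDiffAt (by rwa [(chartAt (Cm n) x).left_inv he.2])]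
  exact smul_zero _

omit [TopologicalSpace M] [ChartedSpace (Cm n) M] [IsManifold 𝓘(ℂ, Cm n) ω M] in
theorem ddcf_apply {f : Cm n → ℝ} {z : Cm n} (hf : ContDiffAt ℝ ∞ f z) (v w : Cm n) :
    extDeriv (dcf f) z ![v, w] =
      fderiv ℝ (fderiv ℝ f) z v (Complex.I • w) - fderiv ℝ (fderiv ℝ f) z w (Complex.I • v) := by
  have h1 : DifferentiableAt ℝ (fderiv ℝ f) z :=
    (hf.fderiv_right (m := ∞) (by simp)).differentiableAt (by simp)
  have h2 : ∀ (r : Fin (0 + 1) → Cm n) (t : Cm n), fderiv ℝ (fun y => dcf f y r) z t =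
      fderiv ℝ (fderiv ℝ f) z t (Complex.I • r 0) := by
    intro r t
    have h3 : (fun y => dcf f y r) = fun y => fderiv ℝ f y (Complex.I • r 0) := by
      funext y
      rw [dcf, wedge1_apply, Fin.sum_univ_one]
      simp [one0, Jc_apply]
    rw [h3, fderiv_clm_apply h1 (differentiableAt_const _)]
    simp
  rw [extDeriv_apply ((contDiffAt_dcf hf).differentiableAt (by simp)), Fin.sum_univ_two, h2, h2]
  simp [Fin.removeNth, sub_eq_add_neg]

theorem is11_ddc (hu : ∀ᶠ y in 𝓝 x, SmR n u y) (v w : Cm n) :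
    ddc n u x ![Complex.I • v, Complex.I • w] = ddc n u x ![v, w] := by
  have h0 := smF_of hu.self_of_nhds
  have hs := ContDiffAt.isSymmSndFDerivAt h0 minS
  rw [ddc_chart hu]
  refine congrArg (fun t : ℝ => (-(4 * π)⁻¹) * t) ?_
  refine (ddcf_apply h0 _ _).trans (Eq.trans ?_ (ddcf_apply h0 _ _).symm)
  rw [smul_smul, smul_smul, Complex.I_mul_I, neg_one_smul, neg_one_smul, map_neg, map_neg,
    hs.eq (Complex.I • v) w, hs.eq (Complex.I • w) v]
  ring

/-- forms which are locally `d d^c` of a smooth function -/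
theorem mem_C11 {X : Mf n} {α : Fr n 2 X.M}
    (h : ∀ x, ∃ u, ∀ᶠ y in 𝓝 x, SmR n u y ∧ α y = ddc n u y) : α ∈ C11 X := by
  refine ⟨fun x => ?_, fun x v w => ?_⟩
  · obtain ⟨u, hu⟩ := h x
    have h1 := cl_ddc (hu.mono fun _ h => h.1)
    have h2 : α =ᶠ[𝓝 x] ddc n u := hu.mono fun _ h => h.2
    exact ⟨h1.1.congr h2, (dF_congr h2).trans h1.2⟩
  · obtain ⟨u, hu⟩ := h x
    rw [hu.self_of_nhds.2]
    exact is11_ddc (hu.mono fun _ h => h.1) v w

theorem _root_.Vale.Agent.P277Z.Top.IsGr.mem_C11 {X : Mf n} {ι : Type} {T : Finset ι} {D : ι → Set X.M} {m : ι → ℝ}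
    {α : Fr n 2 X.M} {g : X.M → ℝ} (h : IsGr T D m α g) : α ∈ C11 X :=
  PL.mem_C11 fun x => by
    obtain ⟨ζ, u, -, hu⟩ := h x
    exact ⟨u, hu.mono fun _ h => ⟨h.1, h.2.1⟩⟩

omit [IsManifold 𝓘(ℂ, Cm n) ω M] in
theorem met_ev {L : Bd M} {ψ : L.ι → M → ℝ} (hL : IsLB n L) (h : IsMet n L ψ) {i : L.ι}
    (hx : x ∈ L.U i) : ∀ᶠ y in 𝓝 x, SmR n (ψ i) y := by
  filter_upwards [(hL.isOpen i).mem_nhds hx] with y hy using fun e he => h.smooth i e y he hy

theorem _root_.Vale.Agent.P277Z.Top.IsCv.mem_C11 {X : Mf n} {L : Bd X.M} {ψ : L.ι → X.M → ℝ} {α : Fr n 2 X.M}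
    (h : IsCv L ψ α) : α ∈ C11 X :=
  PL.mem_C11 fun x => by
    obtain ⟨i, hi⟩ := h.lb.cover x
    refine ⟨ψ i, ?_⟩
    filter_upwards [met_ev h.lb h.met hi, (h.lb.isOpen i).mem_nhds hi] with y h1 h2
      using ⟨h1, h.eq i y h2⟩

/-- the curvature form of a metric -/
theorem exists_cv {L : Bd M} {ψ : L.ι → M → ℝ} (hL : IsLB n L) (h : IsMet n L ψ) :
    ∃ α : Fr n 2 M, IsCv L ψ α := by
  choose i hi using hL.cover
  refine ⟨fun x => ddc n (ψ (i x)) x, hL, h, fun j x hj => ?_⟩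
  have hg : Hol n (L.g (i x) j) x := fun e he => (hL.holo _ _ e x he (hi x) hj).analyticAt
  have h0 := hL.ne_zero _ _ x (hi x) hj
  have h1 : ψ (i x) =ᶠ[𝓝 x] fun y => ψ j y + Real.log (‖L.g (i x) j y‖ ^ 2) := by
    filter_upwards [(hL.isOpen _).mem_nhds (hi x), (hL.isOpen _).mem_nhds hj] with y h2 h3
      using h.change _ _ y h2 h3
  rw [ddc_congr h1, ddc_add' (met_ev hL h hj) (smR_log_ev hg h0), ddc_log' hg h0, add_zero]

end Vale.Agent.P277Z.Top.PL
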