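import Vale.Agent.P277Z.Top.FbSk
import Vale.Agent.P277Z.Top.Ddc
import Vale.Agent.P030.H580.Pompeiu

/-!
# P277, block TOP: the total mass of `d d^c log |z - s|²`
-/

set_option maxSynthPendingDepth 3

open scoped Manifold ContDiff Topology Real
open Vale.Agent.P272.K (Cm Chart At)
open Set Filter MeasureTheory Complex
open Vale.Agent.P030.H580 (dbar pompeiu)

noncomputable section

namespace Vale.Agent.P277Z.Top.Fb

namespace Mass

/-- second derivatives -/
def D2 (u : ℂ → ℝ) (x a b : ℂ) : ℝ := fderiv ℝ (fun y => fderiv ℝ u y b) x a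

theorem D2_eq {E : Type} [NormedAddCommGroup E] [NormedSpace ℝ E] {u : E → ℝ}
    (hu : ContDiff ℝ ∞ u) (x a b : E) :
    fderiv ℝ (fun y => fderiv ℝ u y b) x a = fderiv ℝ (fderiv ℝ u) x a b := by
  rw [fderiv_clm_apply ((hu.fderiv_right (m := ∞) (by simp)).differentiable (by simp) x)
    (differentiableAt_const _)]
  simp

theorem cd_D {u : ℂ → ℝ} (hu : ContDiff ℝ ∞ u) (b : ℂ) : ContDiff ℝ ∞ fun y => fderiv ℝ u y b :=
  (hu.fderiv_right (m := ∞) (by simp)).clm_apply contDiff_const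

theorem tb_one : (tb 1 : Fin 2 → Cm 1) = ![fun _ => 1, fun _ => I] := by
  funext i j
  fin_cases i <;> fin_cases j <;>
    simp [tb, Tr.rb, finProdFinEquiv, Fin.divNat, Fin.modNat]

theorem ddc_one {u : ℂ → ℝ} (hu : ContDiff ℝ ∞ u) (z : Cm 1) :
    ddc 1 (fun z : Cm 1 => u (z 0)) z (tb 1) = (4 * π)⁻¹ * (D2 u (z 0) 1 1 + D2 u (z 0) I I) := by
  let P : Cm 1 →L[ℝ] ℂ := ContinuousLinearMap.proj 0
  have h1 : ContDiff ℝ ∞ fun z : Cm 1 => u (z 0) := hu.comp P.contDiff
  have h2 : ∀ v w : Cm 1, fderiv ℝ (fderiv ℝ fun z : Cm 1 => u (z 0)) z v w =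
      fderiv ℝ (fderiv ℝ u) (z 0) (v 0) (w 0) := fun v w => by
    have h3 : (fun y => fderiv ℝ (fun z : Cm 1 => u (z 0)) y w) =
        (fun x => fderiv ℝ u x (w 0)) ∘ P := funext fun y =>
      congrArg (fun A : Cm 1 →L[ℝ] ℝ => A w)
        ((hu.differentiable (by simp) (P y)).hasFDerivAt.comp y P.hasFDerivAt).fderiv
    rw [← D2_eq h1, ← D2_eq hu, h3, (((cd_D hu (w 0)).differentiable (by simp)
      (P z)).hasFDerivAt.comp z P.hasFDerivAt).fderiv]
    rfl
  have h3 : ∀ y : Cm 1, PL.SmF 1 (fun z : Cm 1 => u (z 0)) y := fun y => h1.contDiffAt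
  rw [PL.ddc_chart (Eventually.of_forall fun y => PL.smR_of (h3 y)), tb_one]
  show -(4 * π)⁻¹ * extDeriv (PL.dcf fun z : Cm 1 => u (z 0)) z _ = _
  rw [PL.ddcf_apply h1.contDiffAt, h2, h2, D2, D2, D2_eq hu, D2_eq hu]
  simp only [Pi.smul_apply, smul_eq_mul, I_mul_I, mul_one, map_neg]
  ring

theorem fd_log {s z : ℂ} (hz : z ≠ s) (v : ℂ) :
    fderiv ℝ (fun z => Real.log (‖z - s‖ ^ 2)) z v = 2 * (v / (z - s)).re := by
  have h0 : z - s ≠ 0 := sub_ne_zero.2 hz
  have h1 := (((hasFDerivAt_id (𝕜 := ℝ) z).sub_const s).norm_sq).log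
    (pow_ne_zero 2 (norm_ne_zero_iff.2 h0))
  rw [show fderiv ℝ (fun z => Real.log (‖z - s‖ ^ 2)) z = _ from h1.fderiv]
  have h2 : normSq (z - s) ≠ 0 := by simpa using h0
  simp only [id, smul_apply, ContinuousLinearMap.comp_apply,
    ContinuousLinearMap.id_apply, innerSL_apply_apply, smul_eq_mul, Complex.inner, div_re,
    Complex.sq_norm, mul_re, conj_re, conj_im, nsmul_eq_mul]
  field_simp
  ring

theorem int_lap {u : ℂ → ℝ} (hu : ContDiff ℝ ∞ u) {s : ℂ} {K : Set ℂ} (hK : IsCompact K)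
    (hs : s ∈ K) (h : ∀ z ∉ K, u z = Real.log (‖z - s‖ ^ 2)) :
    ∫ z, (D2 u z 1 1 + D2 u z I I) = 4 * π := by
  let ψ : ℂ → ℂ := fun z => (fderiv ℝ u z 1 : ℝ) - I * (fderiv ℝ u z I : ℝ)
  have hψ : ContDiff ℝ ∞ ψ := (ofRealCLM.contDiff.comp (cd_D hu 1)).sub
    (contDiff_const.mul (ofRealCLM.contDiff.comp (cd_D hu I)))
  have h1 : ∀ z v, fderiv ℝ ψ z v = (D2 u z v 1 : ℝ) - I * (D2 u z v I : ℝ) := fun z v => by
    have a1 := ofRealCLM.hasFDerivAt.comp z ((cd_D hu 1).differentiable (by simp) z).hasFDerivAt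
    have a2 := ofRealCLM.hasFDerivAt.comp z ((cd_D hu I).differentiable (by simp) z).hasFDerivAt
    rw [show fderiv ℝ ψ z = _ from (a1.sub (a2.const_mul I)).fderiv]
    rfl
  have h2 : ∀ z, dbar (fun z => (z - s) * ψ z) z =
      (z - s) * ((D2 u z 1 1 + D2 u z I I : ℝ) / 2) := fun z => by
    have a1 := ((hasFDerivAt_id (𝕜 := ℝ) z).sub_const s).mul
      (hψ.differentiable (by simp) z).hasFDerivAt
    have a2 : D2 u z 1 I = D2 u z I 1 := by
      rw [D2, D2, D2_eq hu, D2_eq hu]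
      exact (hu.contDiffAt.isSymmSndFDerivAt (by simpa using ENat.LEInfty.out)).eq _ _
    rw [dbar, show fderiv ℝ (fun z => (z - s) * ψ z) z = _ from a1.fderiv]
    simp only [id, add_apply, smul_apply,
      ContinuousLinearMap.id_apply, smul_eq_mul, h1, a2]
    push_cast
    linear_combination (ψ z / 2 - (z - s) * D2 u z I I / 2) * I_mul_I
  have h3 : ∀ z ∉ K, (z - s) * ψ z = 2 := fun z hz => by
    have a1 : z ≠ s := fun e => hz (e ▸ hs)
    have a2 : fderiv ℝ u z = fderiv ℝ (fun z => Real.log (‖z - s‖ ^ 2)) z :=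
      EventuallyEq.fderiv_eq (mem_of_superset (hK.isClosed.isOpen_compl.mem_nhds hz) h)
    have a3 : ψ z = 2 * (z - s)⁻¹ := by
      simp only [ψ, a2, fd_log a1, div_eq_mul_inv, one_mul, mul_re, I_re, I_im, zero_mul, zero_sub]
      push_cast
      linear_combination 2 * re_add_im (z - s)⁻¹
    rw [a3, mul_left_comm, mul_inv_cancel₀ (sub_ne_zero.2 a1), mul_one]
  have h4 := pompeiu (fun z => (z - s) * ψ z)
    (((contDiff_id.sub contDiff_const).mul hψ).of_le (by simp)) 2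
    (tendsto_const_nhds.congr' (mem_of_superset hK.compl_mem_cocompact fun z hz => (h3 z hz).symm))
    (HasCompactSupport.intro hK fun z hz => by
      have a1 : (fun z => (z - s) * ψ z) =ᶠ[𝓝 z] fun _ => 2 :=
        mem_of_superset (hK.isClosed.isOpen_compl.mem_nhds hz) h3
      simp [dbar, a1.fderiv_eq]) s
  have h5 : ∫ ξ : ℂ, (ξ - s)⁻¹ • (-(π : ℂ)⁻¹ • dbar (fun z => (z - s) * ψ z) ξ) =
      -(π : ℂ)⁻¹ / 2 * (∫ z, (D2 u z 1 1 + D2 u z I I) : ℝ) := by
    rw [← integral_complex_ofReal, ← integral_const_mul]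
    refine integral_congr_ae ?_
    filter_upwards [compl_mem_ae_iff.2 (measure_singleton s)] with z hz
    have a1 : z - s ≠ 0 := sub_ne_zero.2 hz
    simp only [h2, smul_eq_mul]
    show _ = _ * ((D2 u z 1 1 + D2 u z I I : ℝ) : ℂ)
    field_simp
  rw [h5, sub_self, zero_mul] at h4
  have h6 : (π : ℂ) ≠ 0 := ofReal_ne_zero.2 Real.pi_ne_zero
  apply ofReal_injective
  push_cast
  field_simp at h4
  linear_combination h4

end Mass

open Mass in
/-- ROW ONE -/
theorem stOne : StOne := by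
  intro s χ hχ hc h1
  have hu : ContDiff ℝ ∞ fun z => (1 - χ z) * Real.log (‖z - s‖ ^ 2) := by
    refine contDiff_iff_contDiffAt.2 fun z => ?_
    by_cases hz : z = s
    · subst hz
      refine (contDiffAt_const (c := (0 : ℝ))).congr_of_eventuallyEq ?_
      filter_upwards [h1] with y hy
      simp [hy]
    · exact (contDiffAt_const.sub hχ.contDiffAt).mul
        (((contDiff_id.sub contDiff_const).norm_sq ℝ).contDiffAt.log
          (pow_ne_zero 2 (norm_ne_zero_iff.2 (sub_ne_zero.2 hz))))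
  have h2 := int_lap hu (s := s) hc (subset_tsupport χ (by simp [h1.self_of_nhds])) fun z hz => by
    rw [image_eq_zero_of_notMem_tsupport hz, sub_zero, one_mul]
  simp only [ddc_one hu]
  rw [← (volume_preserving_funUnique (Fin 1) ℂ).integral_comp'] at h2
  rw [integral_const_mul]
  exact (congrArg _ h2).trans (inv_mul_cancel₀ (by positivity))

end Vale.Agent.P277Z.Top.Fb
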