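import Vale.Agent.P277Z.Top.Sk
import Vale.Agent.P277.H619.Wdg

/-!
# P277, block TOP: the pull back of the positive form of the base
-/

set_option linter.all false
set_option maxSynthPendingDepth 3

open scoped Manifold ContDiff Topology
open Vale.Agent.P272.K Vale.Agent.P277 Set Filter Module
open Vale.Agent.P267.H175 (SmAt dF loc dF_congr contDiffAt_pullback)
open Vale.Agent.P277.PH (HolF at_chartAt chg_analyticAt)
open Vale.Agent.P277Z.Tr (pb SmM HolM smAt_pb dF_pb pb_comp ev_symm)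
open Vale.Agent.P277Z.Val (holF_ev holF_cont)
open ContinuousAlternatingMap

noncomputable section

namespace Vale.Agent.P277Z.Top

namespace Form

/-- the one form `(x dy - y dx) / 2 π` of the complex line -/
def lam : ℂ →L[ℝ] (ℂ [⋀^Fin 1]→L[ℝ] ℝ) :=
  ((ofSubsingletonLIE (𝕜 := ℝ) (E := ℂ) (F := ℝ) (0 : Fin 1)).toContinuousLinearEquiv :
      (ℂ →L[ℝ] ℝ) →L[ℝ] (ℂ [⋀^Fin 1]→L[ℝ] ℝ)).comp ((2 * Real.pi)⁻¹ •
    (Complex.reCLM.smulRight Complex.imCLM - Complex.imCLM.smulRight Complex.reCLM))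

theorem lam_apply (z : ℂ) (v : Fin 1 → ℂ) :
    lam z v = (2 * Real.pi)⁻¹ * (z.re * (v 0).im - z.im * (v 0).re) := rfl

/-- the area form `dx dy / π` -/
def ar : ℂ [⋀^Fin 2]→L[ℝ] ℝ := alternatizeUncurryFin lam

theorem ar_apply (v : Fin 2 → ℂ) :
    ar v = Real.pi⁻¹ * ((v 0).re * (v 1).im - (v 0).im * (v 1).re) := by
  rw [ar, alternatizeUncurryFin_apply, Fin.sum_univ_two, lam_apply, lam_apply]
  have h0 : (Fin.removeNth (0 : Fin 2) v : Fin 1 → ℂ) 0 = v 1 := rfl
  have h1 : (Fin.removeNth (1 : Fin 2) v : Fin 1 → ℂ) 0 = v 0 := rfl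
  rw [h0, h1]
  simp only [Fin.val_zero, pow_zero, one_smul, Fin.val_one, pow_one, neg_smul, mul_inv]
  ring

section self

variable {E : Type} [NormedAddCommGroup E] [NormedSpace ℝ E] {k : ℕ}

theorem loc_self' (a : E → E [⋀^Fin k]→L[ℝ] ℝ) (x : E) : loc (chartAt E x) a = a := by
  funext z
  have h : (fun y => chartAt E ((chartAt E x).symm z) ((chartAt E x).symm y)) = fun y => y := rfl
  rw [loc, h, fderiv_fun_id]
  rfl

theorem smAt_self {a : E → E [⋀^Fin k]→L[ℝ] ℝ} {x : E} (h : ContDiffAt ℝ ∞ a x) : SmAt a x := by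
  rw [SmAt, loc_self']
  exact h

theorem dF_lam (z : ℂ) : dF (fun z => lam z) z = ar := by
  rw [dF, loc_self', extDeriv, lam.fderiv]
  rfl

/-- forms of degree at least three vanish on a complex line -/
theorem comp_eq_zero {d N : ℕ} (L : Cm d →L[ℂ] Cm N)
    (hL : finrank ℂ (LinearMap.range (L : Cm d →ₗ[ℂ] Cm N)) < 2) (hk : 2 < k)
    (a : Cm N [⋀^Fin k]→L[ℝ] ℝ) : a.compContinuousLinearMap (L.restrictScalars ℝ) = 0 := by
  ext v
  refine a.toAlternatingMap.map_linearDependent _ fun h => ?_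
  let R := LinearMap.range (L : Cm d →ₗ[ℂ] Cm N)
  have h1 : LinearIndependent ℝ fun i => (⟨L (v i), v i, rfl⟩ : R) :=
    LinearIndependent.of_comp (R.subtype.restrictScalars ℝ) h
  have h2 := h1.fintype_card_le_finrank
  rw [Fintype.card_fin, ← finrank_mul_finrank ℝ ℂ R, Complex.finrank_real_complex] at h2
  change finrank ℂ R < 2 at hL
  omega

end self

section man

variable {d : ℕ} {M : Type} [TopologicalSpace M] [ChartedSpace (Cm d) M]

/-- the differential of a function in the preferred chart -/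
def dv {V : Type} [NormedAddCommGroup V] [NormedSpace ℂ V] (τ : M → V) (x : M) : Cm d →L[ℂ] V :=
  fderiv ℂ (fun z => τ ((chartAt (Cm d) x).symm z)) (chartAt (Cm d) x x)

theorem symm_self (x : M) : (chartAt (Cm d) x).symm (chartAt (Cm d) x x) = x :=
  (chartAt (Cm d) x).left_inv (mem_chart_source _ x)

theorem smM_of {τ : M → ℂ} {x : M} (h : HolF d τ x) : SmM (Cm d) ℂ τ x :=
  ⟨holF_cont h, ((h _ (at_chartAt x)).contDiffAt.restrict_scalars ℝ).of_le le_top⟩

theorem pb_ar {τ : M → ℂ} {x : M} (h : HolF d τ x) :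
    pb (Cm d) τ (fun _ => ar) x = ar.compContinuousLinearMap ((dv τ x).restrictScalars ℝ) :=
  congrArg ar.compContinuousLinearMap
    ((h _ (at_chartAt x)).differentiableAt.hasFDerivAt.restrictScalars ℝ).fderiv

theorem dc_nsq {τ : M → ℂ} {x : M} (h : HolF d τ x) :
    dc d (fun y => ‖τ y‖ ^ 2) x = pb (Cm d) τ (fun z => lam z) x := by
  have h1 := (h _ (at_chartAt x)).differentiableAt.hasFDerivAt.restrictScalars ℝ
  have h2 := h1.norm_sq.fderiv
  ext v
  have e1 : dc d (fun y => ‖τ y‖ ^ 2) x v = -(4 * Real.pi)⁻¹ *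
      fderiv ℝ (fun z => ‖τ ((chartAt (Cm d) x).symm z)‖ ^ 2) (chartAt (Cm d) x x)
        (Complex.I • v 0) := rfl
  have e2 : pb (Cm d) τ (fun z => lam z) x v = lam (τ x) fun i =>
      fderiv ℝ (fun z => τ ((chartAt (Cm d) x).symm z)) (chartAt (Cm d) x x) (v i) := rfl
  rw [e1, e2, h2, h1.fderiv, lam_apply, symm_self]
  simp only [ContinuousLinearMap.smul_apply, ContinuousLinearMap.comp_apply,
    ContinuousLinearMap.coe_restrictScalars', map_smul, innerSL_apply_apply, Complex.inner,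
    smul_eq_mul, Complex.mul_re, Complex.mul_im, Complex.I_re, Complex.I_im, Complex.conj_re,
    Complex.conj_im, nsmul_eq_mul, mul_inv]
  push_cast
  ring

variable [IsManifold 𝓘(ℂ, Cm d) ω M]

theorem ddc_nsq {τ : M → ℂ} {x : M} (h : HolF d τ x) :
    ddc d (fun y => ‖τ y‖ ^ 2) x = pb (Cm d) τ (fun _ => ar) x := by
  have h1 : dc d (fun y => ‖τ y‖ ^ 2) =ᶠ[𝓝 x] pb (Cm d) τ fun z => lam z :=
    (holF_ev h).mono fun y hy => dc_nsq hy
  rw [ddc, dF_congr h1, dF_pb ((holF_ev h).mono fun y hy => smM_of hy)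
    (smAt_self lam.contDiff.contDiffAt), funext dF_lam]

variable {Y : CSp} (B : Bas Y) {f : M → Y.pt} (hf : HolY d Y f)

include hf in
theorem hol_t {i : Fin B.n} {x : M} (h : B.ρ i (f x) ≠ 0) : HolF d (fun y => B.t i (f y)) x :=
  hf.2 x _ (B.hol i _ (subset_tsupport _ h))

include hf in
theorem form_pb (x : M) : B.form d f x =
    ∑ i, B.ρ i (f x) • pb (Cm d) (fun y => B.t i (f y)) (fun _ => ar) x := by
  refine Finset.sum_congr rfl fun i _ => ?_
  by_cases h : B.ρ i (f x) = 0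
  · rw [h, zero_smul, zero_smul]
  · rw [ddc_nsq (hol_t B hf h)]

include hf in
theorem form_apply (x : M) (v : Fin 2 → Cm d) : B.form d f x v =
    ∑ i, B.ρ i (f x) * ar fun k => dv (fun y => B.t i (f y)) x (v k) := by
  rw [form_pb B hf, ContinuousAlternatingMap.sum_apply]
  refine Finset.sum_congr rfl fun i _ => ?_
  by_cases h : B.ρ i (f x) = 0
  · rw [h, zero_smul, zero_mul]
    rfl
  · rw [pb_ar (hol_t B hf h)]
    rfl

include hf in
theorem form_I (x : M) (v : Cm d) : B.form d f x ![v, Complex.I • v] =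
    ∑ i, B.ρ i (f x) * (Real.pi⁻¹ * Complex.normSq (dv (fun y => B.t i (f y)) x v)) := by
  rw [form_apply B hf]
  refine Finset.sum_congr rfl fun i _ => ?_
  rw [ar_apply, Complex.normSq_apply]
  simp

include hf in
theorem form_zero_iff (x : M) (v : Cm d) : B.form d f x ![v, Complex.I • v] = 0 ↔
    ∀ h, Y.Hol h (f x) → dv (fun y => h (f y)) x v = 0 := by
  rw [form_I B hf, Finset.sum_eq_zero_iff_of_nonneg fun i _ =>
    mul_nonneg (B.nn _ _) (mul_nonneg (by positivity) (Complex.normSq_nonneg _))]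
  constructor
  · intro h0 h hh
    obtain ⟨G, hG, hGe⟩ := B.gen _ h hh
    have h1 : ∀ i, ∃ L : Cm d →L[ℂ] ℂ, L v = 0 ∧ HasFDerivAt
        (fun z => if 0 < B.ρ i (f x) then B.t i (f ((chartAt (Cm d) x).symm z)) else 0) L
        (chartAt (Cm d) x x) := by
      intro i
      by_cases hi : 0 < B.ρ i (f x)
      · simp only [if_pos hi]
        refine ⟨_, ?_, (hol_t B hf hi.ne' _ (at_chartAt x)).differentiableAt.hasFDerivAt⟩
        have h2 := (mul_eq_zero.1 (h0 i (Finset.mem_univ _))).resolve_left hi.ne'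
        exact Complex.normSq_eq_zero.1 ((mul_eq_zero.1 h2).resolve_left (by positivity))
      · simp only [if_neg hi]
        exact ⟨0, rfl, hasFDerivAt_const _ _⟩
    choose L hL hL' using h1
    have h2 := hasFDerivAt_pi.2 hL'
    have h3 : HasFDerivAt G (fderiv ℂ G fun i => if 0 < B.ρ i (f x) then B.t i (f x) else 0)
        ((fun z i => if 0 < B.ρ i (f x) then B.t i (f ((chartAt (Cm d) x).symm z)) else 0)
          (chartAt (Cm d) x x)) := by
      simp only [symm_self]
      exact hG.differentiableAt.hasFDerivAt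
    have h4 := (h3.comp _ h2).congr_of_eventuallyEq (f₁ := fun z => h (f ((chartAt (Cm d) x).symm z)))
      (ev_symm (mem_chart_source (Cm d) x) (hf.1.continuousAt.eventually hGe))
    rw [dv, h4.fderiv, ContinuousLinearMap.comp_apply]
    have h5 : ContinuousLinearMap.pi L v = 0 := funext hL
    rw [h5, _root_.map_zero]
  · intro h0 i _
    by_cases hi : B.ρ i (f x) = 0
    · rw [hi, zero_mul]
    · rw [h0 _ (B.hol i _ (subset_tsupport _ hi)), _root_.map_zero, mul_zero, mul_zero]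

theorem crd_hol {V : Set Y.pt} {N k : ℕ} {Ω : Set (Cm N)} {h : Fin k → Cm N → ℂ}
    {φ : Y.pt → Cm N} (hM : IsModel Y.Hol V Ω h φ) {y : Y.pt} (hy : y ∈ V) (a : Fin N) :
    Y.Hol (fun y => φ y a) y :=
  (hM.hol y hy _).2 ⟨fun z => z a,
    (ContinuousLinearMap.proj (R := ℂ) (φ := fun _ : Fin N => ℂ) a).analyticAt _, .rfl⟩

include hf in
theorem crd_an {V : Set Y.pt} {N k : ℕ} {Ω : Set (Cm N)} {h : Fin k → Cm N → ℂ}
    {φ : Y.pt → Cm N} (hM : IsModel Y.Hol V Ω h φ) {x : M} (hx : f x ∈ V) {e : Chart d M}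
    (he : At e x) : AnalyticAt ℂ (fun z => φ (f (e.symm z))) (e x) :=
  analyticAt_pi_iff.2 fun a => hf.2 x _ (crd_hol hM hx a) e he

include hf in
/-- near every point the form comes from the ambient space of a local model -/
theorem exists_loc {V : Set Y.pt} {N k : ℕ} {Ω : Set (Cm N)} {h : Fin k → Cm N → ℂ}
    {φ : Y.pt → Cm N} (hM : IsModel Y.Hol V Ω h φ) {x : M} (hx : f x ∈ V) :
    (∀ᶠ y in 𝓝 x, SmM (Cm d) (Cm N) (fun y => φ (f y)) y) ∧
    ∃ θ : Fr N 2 (Cm N), SmAt θ (φ (f x)) ∧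
      B.form d f =ᶠ[𝓝 x] pb (Cm d) (fun y => φ (f y)) θ := by
  have hV : ∀ᶠ y in 𝓝 x, f y ∈ V := hf.1.continuousAt.eventually (hM.isOpen.mem_nhds hx)
  have hF : ∀ᶠ y in 𝓝 x, SmM (Cm d) (Cm N) (fun y => φ (f y)) y := hV.mono fun y hy =>
    ⟨continuousAt_pi.2 fun a => holF_cont (hf.2 y _ (crd_hol hM hy a)),
      ((crd_an hf hM hy (at_chartAt y)).contDiffAt.restrict_scalars ℝ).of_le le_top⟩
  refine ⟨hF, ?_⟩
  have h1 : ∀ i, ∃ (r : Cm N → ℝ) (g : Cm N → ℂ), ContDiffAt ℝ ∞ r (φ (f x)) ∧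
      AnalyticAt ℂ g (φ (f x)) ∧ ∀ᶠ y in 𝓝 (f x), B.ρ i y = r (φ y) ∧
        (B.ρ i y = 0 ∨ B.t i =ᶠ[𝓝 y] g ∘ φ) := by
    intro i
    by_cases hi : f x ∈ tsupport (B.ρ i)
    · obtain ⟨g, hg, hge⟩ := (hM.hol _ hx _).1 (B.hol i _ hi)
      obtain ⟨n, ψ, b, hψ, hb, hbe⟩ := B.sm i (f x)
      choose G hG hGe using fun a => (hM.hol _ hx _).1 (hψ a)
      refine ⟨fun z => b fun a => G a z, g, hb.contDiffAt.comp _ (contDiffAt_pi.2 fun a =>
        ((hG a).contDiffAt.restrict_scalars ℝ).of_le le_top), hg, ?_⟩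
      filter_upwards [hbe, hge.eventually_nhds, eventually_all.2 hGe] with y e1 e2 e3
      exact ⟨e1.trans (congrArg b (funext e3)), Or.inr e2⟩
    · refine ⟨fun _ => 0, fun _ => 0, contDiffAt_const, analyticAt_const, ?_⟩
      filter_upwards [notMem_tsupport_iff_eventuallyEq.1 hi] with y e1
      exact ⟨e1, Or.inl e1⟩
  choose r g hr hg he using h1
  refine ⟨fun z => ∑ i, r i z • ar.compContinuousLinearMap (fderiv ℝ (g i) z),
    smAt_self (ContDiffAt.sum fun i _ => (hr i).smul (contDiffAt_pullback (α := fun _ => ar)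
      (((hg i).contDiffAt.restrict_scalars ℝ).of_le le_top) contDiffAt_const)), ?_⟩
  filter_upwards [hF, hf.1.continuousAt.eventually (eventually_all.2 he),
    hF.self_of_nhds.1.eventually (eventually_all.2 fun i => (hg i).eventually_analyticAt)]
    with y e1 e2 e3
  rw [form_pb B hf]
  ext v
  rw [pb, compContinuousLinearMap_apply, ContinuousAlternatingMap.sum_apply,
    ContinuousAlternatingMap.sum_apply]
  refine Finset.sum_congr rfl fun i _ => ?_
  rw [← (e2 i).1]
  rcases (e2 i).2 with e4 | e4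
  · rw [e4, zero_smul, zero_smul]
    rfl
  · have e5 : HasFDerivAt (g i) (fderiv ℝ (g i) (φ (f y)))
        ((fun z => φ (f ((chartAt (Cm d) y).symm z))) (chartAt (Cm d) y y)) := by
      simp only [symm_self]
      exact ((e3 i).differentiableAt.restrictScalars ℝ).hasFDerivAt
    have e6 := ((HasFDerivAt.comp (f := fun z => φ (f ((chartAt (Cm d) y).symm z))) _ e5
      (e1.2.differentiableAt (by simp)).hasFDerivAt).congr_of_eventuallyEq
      (f₁ := fun z => B.t i (f ((chartAt (Cm d) y).symm z)))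
      (ev_symm (mem_chart_source (Cm d) y) (hf.1.continuousAt.eventually e4))).fderiv
    exact congrArg (fun L : Cm d →L[ℝ] ℂ => B.ρ i (f y) * ar fun k => L (v k)) e6

include hf in
theorem pb_zero (hd : DimLe Y 1 (range f)) {V : Set Y.pt} {N k : ℕ} {Ω : Set (Cm N)}
    {h : Fin k → Cm N → ℂ} {φ : Y.pt → Cm N} (hM : IsModel Y.Hol V Ω h φ) {x : M} (hx : f x ∈ V)
    {p : ℕ} (hp : 2 < p) (θ : Fr N p (Cm N)) : pb (Cm d) (fun y => φ (f y)) θ x = 0 := by
  have h1 := crd_an hf hM hx (at_chartAt x)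
  obtain ⟨O, g, hO, hg, hc⟩ := hd
  have h2 : H762.Cv 1 (φ '' (range f ∩ V)) := by
    refine ⟨fun l => {q | q ∈ O l ∧ g l q ∈ V}, fun l q => φ (g l q), fun l => ?_,
      fun l q hq => analyticAt_pi_iff.2 fun a => (hg l q hq.1).2 _ (crd_hol hM hq.2 a), ?_⟩
    · rw [isOpen_iff_mem_nhds]
      intro q hq
      filter_upwards [(hO l).mem_nhds hq.1,
        (hg l q hq.1).1.eventually (hM.isOpen.mem_nhds hq.2)] with q' e1 e2 using ⟨e1, e2⟩
    · rintro _ ⟨y, ⟨hy, hy'⟩, rfl⟩
      obtain ⟨l, q, hq, rfl⟩ := mem_iUnion.1 (hc hy)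
      exact mem_iUnion.2 ⟨l, q, ⟨hq, hy'⟩, rfl⟩
  have h3 := Val.rank_lt_of_nul h1 (Val.nul_of_cv h2) ((ev_symm (mem_chart_source (Cm d) x)
    (hf.1.continuousAt.eventually (hM.isOpen.mem_nhds hx))).mono fun z hz =>
      mem_image_of_mem φ ⟨mem_range_self _, hz⟩)
  rw [Val.rank_Jm] at h3
  exact (congrArg (θ (φ (f x))).compContinuousLinearMap
    (h1.differentiableAt.hasFDerivAt.restrictScalars ℝ).fderiv).trans (comp_eq_zero _ h3 hp _)

include hf in
theorem locConst (h0 : ∀ x h, Y.Hol h (f x) → dv (d := d) (fun y => h (f y)) x = 0) :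
    IsLocallyConstant f := by
  refine (IsLocallyConstant.iff_eventually_eq f).2 fun x => ?_
  obtain ⟨N, k, V, Ω, h, φ, hx, hM⟩ := Y.model (f x)
  have he := at_chartAt (n := d) x
  set e := chartAt (Cm d) x
  have hV : ∀ᶠ y in 𝓝 x, f y ∈ V := hf.1.continuousAt.eventually (hM.isOpen.mem_nhds hx)
  have h1 : ∀ᶠ z in 𝓝 (e x), HasFDerivAt (fun z => φ (f (e.symm z))) (0 : Cm d →L[ℂ] Cm N) z := by
    filter_upwards [ev_symm he.2 hV, e.open_target.mem_nhds (e.map_source he.2)] with z e1 e2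
    have hy := at_chartAt (n := d) (e.symm z)
    have e3 : At e (e.symm z) := ⟨he.1, e.map_target e2⟩
    have e4 : HasFDerivAt (fun w => φ (f ((chartAt (Cm d) (e.symm z)).symm w)))
        (0 : Cm d →L[ℂ] Cm N) ((fun w => chartAt (Cm d) (e.symm z) (e.symm w)) z) := by
      refine hasFDerivAt_pi'.2 fun a => ?_
      have e5 := (hf.2 _ _ (crd_hol hM e1 a) _ hy).differentiableAt.hasFDerivAt
      rw [show fderiv ℂ _ _ = 0 from h0 _ _ (crd_hol hM e1 a)] at e5
      rw [ContinuousLinearMap.comp_zero]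
      exact e5
    have e6 := (chg_analyticAt hy e3).differentiableAt.hasFDerivAt
    rw [e.right_inv e2] at e6
    have e7 := e4.comp z e6
    rw [ContinuousLinearMap.zero_comp] at e7
    refine e7.congr_of_eventuallyEq ?_
    filter_upwards [(e.continuousAt_symm e2).eventually
      ((chartAt (Cm d) (e.symm z)).open_source.mem_nhds hy.2)] with w hw
    exact congrArg (fun y => φ (f y)) ((chartAt (Cm d) (e.symm z)).left_inv hw).symm
  obtain ⟨ε, hε, h2⟩ := Metric.eventually_nhds_iff_ball.1 h1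
  filter_upwards [hV, e.open_source.mem_nhds he.2,
    (e.continuousAt he.2).eventually (Metric.ball_mem_nhds _ hε)] with y e1 e2 e3
  have h3 := Metric.isOpen_ball.is_const_of_fderiv_eq_zero (𝕜 := ℂ)
    (convex_ball (e x) ε).isPreconnected
    (fun z hz => (h2 z hz).differentiableAt.differentiableWithinAt)
    (fun z hz => (h2 z hz).fderiv) e3 (Metric.mem_ball_self hε)
  simp only [e.left_inv e2, e.left_inv he.2] at h3
  exact congrArg Subtype.val (hM.emb.injective (a₁ := ⟨f y, e1⟩) (a₂ := ⟨f x, hx⟩) h3)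

end man

end Form

open Form in
/-- **FORM** -/
theorem stForm : StForm := by
  intro Y B d X f hf
  have hsm : Sm (B.form d f) := fun x => by
    obtain ⟨N, k, V, Ω, h, φ, hx, hM⟩ := Y.model (f x)
    obtain ⟨h1, θ, h2, h3⟩ := exists_loc B hf hM hx
    exact (smAt_pb h1 h2).congr h3
  refine ⟨hsm, fun x v w => ?_, fun x v => ?_, form_zero_iff B hf, fun hd => ⟨fun x => ⟨hsm x, ?_⟩,
    funext fun x => ?_⟩, fun hs => ?_, fun hc hs h0 => hs ?_, fun d' X' j hj => ?_⟩
  · rw [form_apply B hf, form_apply B hf]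
    refine Finset.sum_congr rfl fun i _ => ?_
    rw [ar_apply, ar_apply]
    simp only [Matrix.cons_val_zero, Matrix.cons_val_one, map_smul, smul_eq_mul, Complex.mul_re,
      Complex.mul_im, Complex.I_re, Complex.I_im]
    ring
  · rw [form_I B hf]
    exact Finset.sum_nonneg fun i _ =>
      mul_nonneg (B.nn _ _) (mul_nonneg (by positivity) (Complex.normSq_nonneg _))
  · obtain ⟨N, k, V, Ω, h, φ, hx, hM⟩ := Y.model (f x)
    obtain ⟨h1, θ, h2, h3⟩ := exists_loc B hf hM hx
    rw [dF_congr h3, dF_pb h1 h2]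
    exact pb_zero hf hd hM hx (by norm_num) _
  · obtain ⟨N, k, V, Ω, h, φ, hx, hM⟩ := Y.model (f x)
    obtain ⟨h1, θ, h2, h3⟩ := exists_loc B hf hM hx
    rw [wd, h3.self_of_nhds]
    exact (H619.wdg_comp _ _ _ _).symm.trans (pb_zero hf hd hM hx (by norm_num) (wd θ θ))
  · funext x
    ext v
    rw [form_apply B hf]
    refine Finset.sum_eq_zero fun i _ => ?_
    have h1 : (fun z => B.t i (f ((chartAt (Cm d) x).symm z))) = fun _ => B.t i (f x) :=
      funext fun z => congrArg _ (hs (mem_range_self _) (mem_range_self _))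
    rw [ar_apply, dv, h1, fderiv_fun_const]
    simp
  · have h1 := locConst hf fun x h hh => ContinuousLinearMap.ext fun v =>
      (form_zero_iff B hf x v).1 (by rw [h0]; rfl) h hh
    rintro _ ⟨x, rfl⟩ _ ⟨y, rfl⟩
    exact h1.apply_eq_of_preconnectedSpace x y
  · have hf' : HolY d' Y fun x => f (j x) := by
      refine ⟨hf.1.comp hj.1, fun x g hg e he => ?_⟩
      have hc := at_chartAt (n := d) (j x)
      have h1 : AnalyticAt ℂ (fun z => g (f ((chartAt (Cm d) (j x)).symm z)))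
          ((fun z => chartAt (Cm d) (j x) (j (e.symm z))) (e x)) := by
        simp only [e.left_inv he.2]
        exact hf.2 _ g hg _ hc
      refine (AnalyticAt.comp (f := fun z => chartAt (Cm d) (j x) (j (e.symm z))) h1
        (hj.2 x e _ he hc)).congr ?_
      filter_upwards [ev_symm he.2 (hj.1.continuousAt.eventually
        ((chartAt (Cm d) (j x)).open_source.mem_nhds hc.2))] with z hz
      exact congrArg (fun y => g (f y)) ((chartAt (Cm d) (j x)).left_inv hz)
    funext x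
    ext v
    rw [form_pb B hf', pb, form_pb B hf, compContinuousLinearMap_apply,
      ContinuousAlternatingMap.sum_apply, ContinuousAlternatingMap.sum_apply]
    refine Finset.sum_congr rfl fun i _ => ?_
    by_cases hi : B.ρ i (f (j x)) = 0
    · rw [hi, zero_smul, zero_smul]
      rfl
    · rw [← pb_comp (fun _ => ar) (hj.smM x) (smM_of (hol_t B hf hi))]
      rfl

end Vale.Agent.P277Z.Top
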