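import Vale.Agent.P277Z.Top.Eqd
import Vale.Agent.P277Z.Top.FbLoc
import Vale.Agent.P277Z.Top.FbEx
import Vale.Agent.P277Z.Top.FbConn
import Vale.Agent.P277Z.Top.FbLim
import Vale.Agent.P277Z.Top.FbOne
import Vale.Agent.P277Z.Top.FbOm
import Vale.Agent.P277Z.Top.FbCrit
import Vale.Agent.P277Z.Top.FbBox
import Vale.Agent.P277Z.Top.Irr
import Vale.Agent.P277Z.Top.Form
import Vale.Agent.P277Z.Top.Grn
import Vale.Agent.P277Z.Top.Grx

/-!
# P277, block TOP: the rows about fibres, without hypotheses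
-/

namespace Vale.Agent.P277Z.Top

theorem Fb.loc : Fb.StLoc := Fb.stLoc PL.pl Fb.stOne

theorem fib : StFib :=
  stFib stIrr stForm Fb.stEx Fb.stConn Fb.stLim Fb.stOne Fb.stOm Fb.stCrit Fb.loc

theorem eqd : StEqd := stEqd stIrr Fb.stEx Fb.stConn Fb.stOne Fb.stCrit Fb.stBox Fb.loc

theorem rat_of (hT : StInt) : StRat := stRat stIrr stForm fib hT stLam Fb.stCrit

end Vale.Agent.P277Z.Top
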