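import Vale.Agent.P277Z.Top.Sk

/-!
# P277, block TOP: fibrations over curves, the rows
-/

set_option linter.all false
set_option maxSynthPendingDepth 3

open scoped Manifold ContDiff Topology
open Vale.Agent.P272.K Vale.Agent.P277 Set Filter Module
open Vale.Agent.P277.PH (HolF SmR)
open Vale.Agent.P277Z.Tr (pb Null)
open Vale.Agent.P277Z.Val (Sb)
open Vale.Agent.P277Z.Slc (LEq)

noncomputable section

namespace Vale.Agent.P277Z.Top.Fb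

/-- `T` is holomorphic on `W` and proper over the disc `Δ`. -/
structure Prp {d : ℕ} (X : Mf d) (W : Set X.M) (T : X.M → ℂ) (Δ : Set ℂ) : Prop where
  isOpen : IsOpen W
  isOpen' : IsOpen Δ
  conv : Convex ℝ Δ
  hol : ∀ x ∈ W, HolF d T x
  prp : ∀ K ⊆ Δ, IsCompact K → IsClosed (W ∩ T ⁻¹' K)

/-- The manifolds `N i` are the pieces of `Z`. -/
structure Pcs {d : ℕ} {X : Mf (d + 1)} (Z : Set X.M) {J : Type} (N : J → Mf d)
    (j : ∀ i, (N i).M → X.M) : Prop where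
  emb : ∀ i, Sb d (d + 1) (j i)
  conn : ∀ i, ConnectedSpace (N i).M
  disj : ∀ i i', i ≠ i' → Disjoint (range (j i)) (range (j i'))
  rng : ⋃ i, range (j i) = Z

/-- ROW EX: the components of a smooth compact hypersurface -/
def StEx : Prop :=
  ∀ (d : ℕ) (X : Mf (d + 1)) (Z : Set X.M), IsClosed Z → (∀ x ∈ Z, ∃ ζ, LEq (d + 1) Z x ζ) →
    ∃ (J : Type) (_ : Fintype J) (N : J → Mf d) (j : ∀ i, (N i).M → X.M), Pcs Z N j

/-- ROW CONN: countable unions of fibres are small -/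
def StConn : Prop :=
  ∀ (Y : CSp) (d : ℕ) (X : Mf d) (f : X.M → Y.pt), ConnectedSpace X.M → HolY d Y f →
    ¬ (range f).Subsingleton → ∀ B : Set Y.pt, B.Countable →
    Null d (f ⁻¹' B) ∧ (IsClosed (f ⁻¹' B) → IsPreconnected (f ⁻¹' B)ᶜ)

/-- ROW LIM: dominated convergence -/
def StLim : Prop :=
  ∀ (d : ℕ) (X : Mf d) (a : Fr d (2 * d) X.M) (r : ℕ → X.M → ℝ) (A : Set X.M), Sm a →
    (∀ k x, SmR d (r k) x) → (∀ k x, |r k x| ≤ 1) → Null d A →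
    (∀ x ∉ A, Tendsto (fun k => r k x) atTop (𝓝 1)) →
    Tendsto (fun k => X.int fun x => r k x • a x) atTop (𝓝 (X.int a))

/-- ROW ONE: the total mass of `d d^c log |z - s|²` -/
def StOne : Prop :=
  ∀ (s : ℂ) (χ : ℂ → ℝ), ContDiff ℝ ∞ χ → HasCompactSupport χ → (∀ᶠ z in 𝓝 s, χ z = 1) →
    ∫ z : Cm 1, ddc 1 (fun z : Cm 1 => (1 - χ (z 0)) * Real.log (‖z 0 - s‖ ^ 2)) z (tb 1) = 1

/-- ROW OM: the positive form of the base on a disc -/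
def StOm : Prop :=
  ∀ (Y : CSp) (B : Bas Y) (σ O : Set Y.pt) (t : Y.pt → ℂ) (g : ℂ → Y.pt) (Δ : Set ℂ),
    IsDisc Y σ O t g Δ →
    (∀ z : Cm 1, z 0 ∈ Δ → ContDiffAt ℝ ∞ (B.form 1 fun z : Cm 1 => g (z 0)) z ∧
      0 < B.form 1 (fun z : Cm 1 => g (z 0)) z (tb 1)) ∧
    ∀ (d : ℕ) (X : Mf d) (f : X.M → Y.pt), HolY d Y f → range f ⊆ σ → ∀ x, f x ∈ O →
      B.form d f x = pb (Cm d) (fun x (_ : Fin 1) => t (f x)) (B.form 1 fun z : Cm 1 => g (z 0)) x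

/-- ROW CRIT: there are countably many critical values -/
def StCrit : Prop :=
  ∀ (d : ℕ) (X : Mf d) (W : Set X.M) (T : X.M → ℂ), IsOpen W → (∀ x ∈ W, HolF d T x) →
    (T '' {x ∈ W | ¬ Sub d T x}).Countable

/-- ROW BOX: near a component of a smooth fibre the fibres are connected -/
def StBox : Prop :=
  ∀ (d : ℕ) (X : Mf (d + 1)) (W : Set X.M) (T : X.M → ℂ) (Δ : Set ℂ), Prp X W T Δ →
    ∀ x₀ ∈ W, T x₀ ∈ Δ → (∀ x ∈ W, T x = T x₀ → Sub (d + 1) T x) →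
    ∃ (W' : Set X.M) (Δ' : Set ℂ), W' ⊆ W ∧ x₀ ∈ W' ∧ T x₀ ∈ Δ' ∧ Δ' ⊆ Δ ∧ Prp X W' T Δ' ∧
      ∀ s ∈ Δ', IsPreconnected (W' ∩ T ⁻¹' {s}) ∧ ∀ x ∈ W, T x = s → Sub (d + 1) T x

/-- ROW LOC: integration over the fibres, over a disc -/
def StLoc : Prop :=
  ∀ (d : ℕ) (X : Mf (d + 1)) (W : Set X.M) (T : X.M → ℂ) (Δ : Set ℂ), Prp X W T Δ →
    ∀ s ∈ Δ, (∀ x ∈ W, T x = s → Sub (d + 1) T x) →
    ∀ (J : Type) [Fintype J] (N : J → Mf d) (j : ∀ i, (N i).M → X.M),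
    Pcs (W ∩ T ⁻¹' {s}) N j → ∀ φ : Fr (d + 1) (2 * d) X.M, Cl φ →
    ∀ (η : Fr 1 2 (Cm 1)) (K : Set ℂ), ContDiff ℝ ∞ η → IsCompact K → K ⊆ Δ →
    (∀ z, z 0 ∉ K → η z = 0) →
      X.int (wd (W.indicator (pb (Cm (d + 1)) (fun x (_ : Fin 1) => T x) η)) φ) =
        (∫ z, η z (tb 1)) * ∑ i, (N i).int (pb (Cm d) (j i) φ)

end Vale.Agent.P277Z.Top.Fb
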