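import Vale.Agent.P277Z.Top.RD
import Vale.Agent.P277Z.Top.Irr
import Vale.Agent.P277Z.Top.Form
import Vale.Agent.P277Z.Top.FbSk

/-!
# P277, block TOP: general points of a curve
-/

set_option linter.all false
set_option maxSynthPendingDepth 3

open scoped Manifold ContDiff Topology
open Vale.Agent.P272.K Vale.Agent.P285.H281.FD Vale.Agent.P277 Set Filter Module
open Vale.Agent.P277.PH (HolF SmR)
open Vale.Agent.P277Z.Tr (pb HolM)
open Vale.Agent.P277Z.Val (Sb Lg IsCC)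
open Vale.Agent.P277Z.Ln (RData)
open Vale.Agent.P277Z.Gd

noncomputable section

namespace Vale.Agent.P277Z.Top.H98

/-- `y` is a general point of the curve `σ` -/
structure Gen {U : Lg} (Q : Par U) {Y : CSp} (p : U.W → Y.pt) (σ : Set Y.pt) (t : Y.pt → ℂ)
    (y : Y.pt) : Prop where
  thr : ∀ k, y ∈ p '' U.G k → p '' U.G k = σ ∧
    ∀ x, p (Q.ι k x) = y → Sub 3 (fun x => t (p (Q.ι k x))) x
  srf : ∀ c ∈ U.cmp, y ∈ p '' c.2 → p '' c.2 = σ ∧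
    ∀ x, p (Q.ι₂ c.2 x) = y → Sub 2 (fun x => t (p (Q.ι₂ c.2 x))) x
  tri : ∀ k m j, k ≠ m → m ≠ j → k ≠ j → (p ⁻¹' {y} ∩ U.G k ∩ U.G m ∩ U.G j).Finite

variable {U : Lg} {Q : Par U} {Y : CSp} {p : U.W → Y.pt} {σ O : Set Y.pt} {t : Y.pt → ℂ}
  {g : ℂ → Y.pt} {Δ : Set ℂ} {y : Y.pt}

theorem near_of (hp : Continuous p) (h : ∀ k, y ∈ p '' U.G k → p '' U.G k = σ) :
    ∀ᶠ y' in 𝓝 y, y' ∈ p '' U.E → y' ∈ σ := by
  have h1 : ∀ k, ∀ᶠ y' in 𝓝 y, y' ∈ p '' U.G k → y' ∈ σ := fun k => by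
    by_cases hk : y ∈ p '' U.G k
    · exact .of_forall fun _ a => h k hk ▸ a
    · filter_upwards [((U.closed k).isCompact.image hp).isClosed.isOpen_compl.mem_nhds hk]
        with y' a b using absurd b a
  filter_upwards [eventually_all.2 h1]
  rintro _ a ⟨w, b, rfl⟩
  obtain ⟨k, c⟩ := mem_iUnion.1 b
  exact a k ⟨w, c, rfl⟩

theorem Gen.near (h : Gen Q p σ t y) (hp : Continuous p) :
    ∀ᶠ y' in 𝓝 y, y' ∈ p '' U.E → y' ∈ σ := near_of hp fun k a => (h.thr k a).1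

theorem gen_one (hC : Fb.StCrit) {d₀ d : ℕ} {X₀ : Mf d₀} {X : Mf d} {f₀ : X₀.M → Y.pt}
    {f : X.M → Y.pt} (c₀ : ConnectedSpace X₀.M) (c : ConnectedSpace X.M) (h₀ : HolY d₀ Y f₀)
    (h : HolY d Y f) (e₀ : DimLe Y 1 (range f₀)) (e : DimLe Y 1 (range f))
    (hD : IsDisc Y (range f₀) O t g Δ) : {s ∈ Δ | ¬ (g s ∈ range f → range f = range f₀ ∧
      ∀ x, f x = g s → Sub d (fun x => t (f x)) x)}.Countable := by
  by_cases hr : range f = range f₀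
  · refine (hC d X (f ⁻¹' O) (fun x => t (f x)) (hD.isOpen.preimage h.1)
      fun x hx => h.2 x t (hD.hol _ hx)).mono fun s ⟨a, b⟩ => ?_
    by_contra k
    refine b fun _ => ⟨hr, fun x hx => by_contra fun k' => k ⟨x, ⟨?_, k'⟩, ?_⟩⟩
    · exact (hD.img.ge ⟨s, a, hx.symm⟩).2
    · exact (congrArg t hx).trans (hD.par s a).2.1
  · have h1 : (range f ∩ range f₀).Countable := by_contra fun k => hr
      (((stIrr Y d X f c h e).2.1 d₀ X₀ f₀ h₀ e₀ k).antisymm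
        ((stIrr Y d₀ X₀ f₀ c₀ h₀ e₀).2.1 d X f h e (by rwa [inter_comm])))
    refine (h1.image t).mono ?_
    rintro s ⟨a, b⟩
    exact ⟨g s, ⟨by_contra fun k => b fun k' => absurd k' k,
      (hD.img.ge ⟨s, a, rfl⟩).1⟩, (hD.par s a).2.1⟩

theorem tri_loc {k m j : Fin U.r} (h1 : k ≠ m) (h2 : m ≠ j) (h3 : k ≠ j) {x : U.W}
    (hx : x ∈ U.G k ∩ U.G m ∩ U.G j) {f : U.W → ℂ} (hf : HolF 4 f x) :
    (∀ᶠ w in 𝓝 x, w ∈ U.G k ∩ U.G m ∩ U.G j → f w = 0) ∨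
      ∀ᶠ w in 𝓝 x, w ∈ U.G k ∩ U.G m ∩ U.G j → f w = 0 → w = x := by
  obtain ⟨Φ, ρ, lab, h, -⟩ := U.snc.nch x (Eventually.of_forall fun _ => trivial)
  obtain ⟨a, ha⟩ := h.mem.1 hx.1.1
  obtain ⟨b, hb⟩ := h.mem.1 hx.1.2
  obtain ⟨c, hc⟩ := h.mem.1 hx.2
  obtain ⟨e, he⟩ := (by decide : ∀ a b c : Fin 4, a ≠ b → b ≠ c → a ≠ c →
    ∃ e, ∀ i, i ≠ e → i = a ∨ i = b ∨ i = c) a b c (fun k => h1 (h.inj _ _ a ha (k ▸ hb)))
    (fun k => h2 (h.inj _ _ b hb (k ▸ hc))) fun k => h3 (h.inj _ _ a ha (k ▸ hc))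
  have k0 := h.crd x h.src
  have k1 : ∀ w ∈ Φ.source, w ∈ U.G k ∩ U.G m ∩ U.G j → Φ.symm (Pi.single e (Φ w e)) = w :=
    fun w a1 a2 => by
      refine (congrArg Φ.symm (funext fun i => ?_)).trans (Φ.left_inv a1)
      by_cases hi : i = e
      · rw [hi, Pi.single_eq_same]
      · rw [Pi.single_eq_of_ne hi]
        rcases he i hi with rfl | rfl | rfl
        exacts [((h.iff1 ha a1).1 a2.1.1).symm, ((h.iff1 hb a1).1 a2.1.2).symm,
          ((h.iff1 hc a1).1 a2.2).symm]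
  have k2 : AnalyticAt ℂ (fun τ : ℂ => f (Φ.symm (Pi.single e τ))) (Φ x e) := by
    refine AnalyticAt.comp_of_eq (g := fun w => f (Φ.symm w)) (f := fun τ : ℂ => Pi.single e τ)
      (k0.an.hol (f := f) (by rwa [k0.inv]))
      ((ContinuousLinearMap.single ℂ (fun _ : Fin 4 => ℂ) e).analyticAt _) ?_
    simp [h.zero]
  have k3 : Tendsto (fun w => Φ w e) (𝓝 x) (𝓝 (Φ x e)) := Val.holF_cont (k0.hol e)
  rcases k2.eventually_eq_zero_or_eventually_ne_zero with k4 | k4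
  · left
    filter_upwards [k3.eventually k4, h.nhds] with w a1 a2 a3
    rwa [k1 w a2 a3] at a1
  · right
    filter_upwards [k3.eventually (eventually_nhdsWithin_iff.1 k4), h.nhds] with w a1 a2 a3 a4
    rw [k1 w a2 a3] at a1
    have a5 : Φ w e = Φ x e := by_contra fun k => a1 k a4
    rw [← k1 w a2 a3, a5, k1 x h.src hx]

theorem lc_count {W β : Type} [TopologicalSpace W] [SecondCountableTopology W] (C : Set W)
    (p : W → β) : {y | ∃ x ∈ C, p x = y ∧ ∀ᶠ w in 𝓝 x, w ∈ C → p w = y}.Countable := by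
  refine Set.PairwiseDisjoint.countable_of_isOpen
    (s := fun y => interior {w : C | p w = y}) (fun y _ y' _ h => ?_) (fun _ _ => isOpen_interior)
    fun y ⟨x, a, _, b⟩ => ⟨⟨x, a⟩, mem_interior_iff_mem_nhds.2 ?_⟩
  · refine disjoint_left.2 fun w a b => h ?_
    have a' : p w = y := interior_subset (s := {w : C | p w = y}) a
    have b' : p w = y' := interior_subset (s := {w : C | p w = y'}) b
    exact a'.symm.trans b'
  · exact (continuous_subtype_val.continuousAt.eventually b).mono fun w h => h w.2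

/-- all but countably many points are general -/
theorem gen_count (hC : Fb.StCrit) (Q : Par U) (hp : HolY 4 Y p) (hd : DimLe Y 1 (p '' U.E))
    {k₀ : Fin U.r} (hD : IsDisc Y (p '' U.G k₀) O t g Δ) :
    {s ∈ Δ | ¬ Gen Q p (p '' U.G k₀) t (g s)}.Countable := by
  have := ChartedSpace.secondCountable_of_sigmaCompact (Cm 4) U.W
  have r1 : ∀ k, range (fun x => p (Q.ι k x)) = p '' U.G k := fun k => by
    rw [← Q.rng, ← range_comp]; rfl
  have r2 : ∀ c ∈ U.cmp, range (fun x => p (Q.ι₂ c.2 x)) = p '' c.2 := fun c hc => by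
    conv_rhs => rw [← Q.rng₂ c hc, ← range_comp]
    rfl
  have d1 : ∀ k, DimLe Y 1 (range fun x => p (Q.ι k x)) := fun k =>
    r1 k ▸ hd.mono (image_mono (subset_iUnion U.G k))
  have y1 := fun k => holY_comp hp (par_hol Q k)
  have a1 := fun k => gen_one hC (Q.conn k₀) (Q.conn k) (y1 k₀) (y1 k) (d1 k₀) (d1 k)
    (r1 k₀ ▸ hD)
  have a2 := fun c : U.cmp => gen_one hC (Q.conn k₀) (Q.conn₂ c c.2) (y1 k₀)
    (holY_comp hp (par_hol₄ Q c.2)) (d1 k₀) (r2 c c.2 ▸ hd.mono (image_mono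
      (((Val.Lg.cmp_iff.1 c.2).choose_spec.sub.trans inter_subset_left).trans
        (subset_iUnion U.G _)))) (r1 k₀ ▸ hD)
  have a3 := fun q : Fin U.r × Fin U.r × Fin U.r =>
    (lc_count (U.G q.1 ∩ U.G q.2.1 ∩ U.G q.2.2) p).image t
  refine (((countable_iUnion a1).union (countable_iUnion a2)).union (countable_iUnion a3)).mono
    fun s ⟨hs, hn⟩ => by_contra fun k => hn ?_
  simp only [mem_union, mem_iUnion, not_or, not_exists, mem_setOf_eq, hs, true_and, not_not,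
    r1] at k
  obtain ⟨⟨b1, b2⟩, b3⟩ := k
  refine ⟨b1, fun c hc => r2 c hc ▸ b2 ⟨c, hc⟩, fun k m j h1 h2 h3 => ?_⟩
  have hO := (hD.img.ge ⟨s, hs, rfl⟩).2
  have hc : IsClosed (p ⁻¹' {g s} ∩ U.G k ∩ U.G m ∩ U.G j) :=
    (((isClosed_singleton.preimage hp.1).inter (U.closed k)).inter (U.closed m)).inter (U.closed j)
  refine hc.isCompact.finite (isDiscrete_iff_forall_exists_isOpen.2 fun x hx => ?_)
  have hx' : p x = g s := hx.1.1.1
  rcases tri_loc h1 h2 h3 ⟨⟨hx.1.1.2, hx.1.2⟩, hx.2⟩ (f := fun w => t (p w) - s) (fun e he =>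
    (hp.2 x t (hD.hol _ (hx' ▸ hO)) e he).sub analyticAt_const) with h | h
  · refine absurd ⟨g s, ⟨x, ⟨⟨hx.1.1.2, hx.1.2⟩, hx.2⟩, hx', ?_⟩, (hD.par s hs).2.1⟩ (b3 (k, m, j))
    filter_upwards [h, hp.1.continuousAt.eventually (hD.isOpen.mem_nhds (hx' ▸ hO))] with w a b c
    obtain ⟨s', e1, e2⟩ := hD.img.le ⟨(b1 k ⟨x, hx.1.1.2, hx'⟩).1 ▸ ⟨w, c.1.1, rfl⟩, b⟩
    have e3 := a c
    rw [← e2, (hD.par s' e1).2.1, sub_eq_zero] at e3
    exact (e3 ▸ e2).symm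
  · obtain ⟨V, a, b, c⟩ := eventually_nhds_iff.1 h
    refine ⟨V, b, (subset_singleton_iff.2 fun w e => a w e.1 ⟨⟨e.2.1.1.2, e.2.1.2⟩, e.2.2⟩ ?_
      ).antisymm (singleton_subset_iff.2 ⟨c, hx⟩)⟩
    rw [show p w = g s from e.2.1.1.1, (hD.par s hs).2.1, sub_self]

theorem fib_sub (hr : Val.Res U Y p Finset.univ) (hy : y ∈ p '' U.E) : p ⁻¹' {y} ⊆ U.E := by
  obtain ⟨w, a, rfl⟩ := hy
  intro w' b
  by_contra c
  exact c (hr.inj w' w (by simpa [Lg.E] using c) (Eq.symm b) ▸ a)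

/-- **Step 6a** for the intersection data -/
theorem six_cls (hR : R2.StR2') (hL : StLam) (hFib : StFib) (hEqd : StEqd) {R : Pol U Y p}
    {C : Cf Q} (hC : IsCfg Q R C) (hr : Val.Res U Y p Finset.univ) (hd : DimLe Y 1 (p '' U.E))
    (hV : Vol U Y p) {k₀ : Fin U.r} (hn : ¬ (p '' U.G k₀).Subsingleton)
    (hD : IsDisc Y (p '' U.G k₀) O t g Δ) {s : ℂ} (hs : s ∈ Δ)
    (hG : Gen Q p (p '' U.G k₀) t (g s)) {N : ℕ} [SecondCountableTopology U.W]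
    {cpt conn π hol fib} (x : ∀ k, C11 (Q.H k)) (hx : ∀ k, x k ∈ Lam (Q.H k))
    (he : ∀ e, ¬ C.P e → C.B e (C.rs e (x _)) (C.rs e (C.o _)) =
      C.B e (C.rt e (x _)) (C.rs e (C.o _))) :
    ∃ (n : ℕ) (L : Bd U.W), 1 ≤ n ∧
      (⟨U.W, p ⁻¹' {g s}, cpt, conn, π, hol, fib⟩ : Geo 4 N).LB L ∧
      ∀ k (d : ℕ) (X : Mf d) (j : X.M → (Q.H k).M), HolM d 3 j → (∀ z, p (Q.ι k (j z)) = g s) →
        IsLB d (HD.pull (fun z => Q.ι k (j z)) L) ∧
        ∀ ψ α, IsCv (d := d) (HD.pull (fun z => Q.ι k (j z)) L) ψ α →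
          ∃ θ : Fr d 1 X.M, Sm θ ∧ α - (n : ℝ) • pb (Cm d) j (x k).1 = P267.H175.dF θ := by
  have hp : HolY 4 Y p := ⟨hr.cont, hr.hol⟩
  obtain ⟨D, hE⟩ := rdata (cpt := cpt) (conn := conn) (π := π) (hol := hol) (fib := fib) hp R hV
    hD hs (hG.near hp.1)
  have hF := fib_sub hr (image_mono (subset_iUnion U.G k₀) (hD.img.ge ⟨s, hs, rfl⟩).1)
  refine six hR hL _ D (hE ▸ hF) Q.H Q.ι Q.emb (fun w hw => ?_) (fun k m j a b c => ?_) x hx
    (dc_par Q p (g s) (fun k => (x k).1) fun e => ?_)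
  · simpa only [Q.rng] using mem_iUnion.1 (hF hw)
  · simpa only [Q.rng] using hG.tri k m j a b c
  have r2 : range (fun z => p (Q.ι₂ e.1.2.2 z)) = p '' e.1.2.2 := by
    exact (range_comp p _).trans (congrArg (p '' ·) (Q.rng₂ (e.1.1, e.1.2.2) (ed_s e)))
  by_cases hy : g s ∈ p '' e.1.2.2
  swap
  · exact deg_empty (d := 1) (r2 ▸ hy) fun N j => N.int (pb (Cm 1) j (pb (Cm 2) (Q.j e.1.1 e.1.2.2)
      (x _).1)) = N.int (pb (Cm 1) j (pb (Cm 2) (Q.j e.1.2.1 e.1.2.2) (x _).1))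
  obtain ⟨a1, a2⟩ := hG.srf _ (ed_s e) hy
  have a3 : p '' e.1.2.2 = p '' U.G k₀ := a1
  have k1 : HolM 2 3 (Q.j e.1.1 e.1.2.2) := par_hol₂ Q (ed_s e)
  have k2 : HolM 2 3 (Q.j e.1.2.1 e.1.2.2) := par_hol₂ Q (ed_t e)
  have k3 := he e (by rw [hC.P, a3]; exact hn)
  have k4 : (C.rs e (C.o _)).1 = R.B.form 2 fun z => p (Q.ι₂ e.1.2.2 z) := by
    rw [hC.rs, hC.o]
    refine (congrArg (fun k => pb (Cm 2) (Q.j k e.1.2.2) (R.B.form 3 fun x => p (Q.ι k x)))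
      (hC.s e)).trans ?_
    have y1 := holY_comp hp (par_hol Q e.1.1)
    exact ((stForm Y R.B 3 _ _ y1).2.2.2.2.2.2.2 2 _ _ k1).trans
      (congrArg (R.B.form 2) (funext fun z => congrArg p (Q.fac _ (ed_s e) z)))
  rw [hC.B, hC.B, k4, hC.rs, hC.rt] at k3
  have k5 := congrArg (fun k => pb (Cm 2) (Q.j k e.1.2.2) (x k).1) (hC.s e)
  have k6 := congrArg (fun k => pb (Cm 2) (Q.j k e.1.2.2) (x k).1) (hC.t e)
  beta_reduce at k5 k6
  rw [k5, k6] at k3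
  exact deg_fib hFib hEqd R.B _ _ (Q.conn₂ _ (ed_s e)) (holY_comp hp (par_hol₄ Q (ed_s e)))
    (r2 ▸ hd.mono (image_mono (((ed_cc e).2.sub.trans inter_subset_left).trans
      (subset_iUnion U.G _)))) (by rw [r2, a3]; exact hn) (by rw [r2, a3]; exact hD) hs a2
    (cl_pb k1 (c_cl _)) (cl_pb k2 (c_cl _)) k3

end Vale.Agent.P277Z.Top.H98
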