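import Vale.Agent.P277Z.Slc.Basic
import Vale.Agent.P277Z.Luf.Hol

/-!
# P277, block TOP: immersions, local retractions and local inverses
-/

open scoped Manifold ContDiff Topology
open Set Filter Function
open Vale.Agent.P272.K Vale.Agent.P285.H281.FD
open Vale.Agent.P277Z (Hol Nz gen at_chart trans_an hol_const)
open Vale.Agent.P277Z.Slc (Ind LEq Snc dd tr)

set_option linter.all false

noncomputable section

namespace Vale.Agent.P277Z.Top.Tb

section two

variable (n p : ℕ) {X Y : Type} [TopologicalSpace X] [ChartedSpace (Cm n) X] [TopologicalSpace Y]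
  [ChartedSpace (Cm p) Y]

/-- `f` is holomorphic -/
def HolM (f : X → Y) : Prop := ContMDiff 𝓘(ℂ, Cm n) 𝓘(ℂ, Cm p) ω f

variable {n p} in
/-- the differential of `f` at `x` in the charts `e`, `e'` -/
def df (f : X → Y) (e : Chart n X) (e' : Chart p Y) (x : X) : Cm n →L[ℂ] Cm p :=
  fderiv ℂ (fun z => e' (f (e.symm z))) (e x)

/-- `f` is a submersion at `x` -/
def Sbm (f : X → Y) (x : X) : Prop :=
  ∀ (e : Chart n X) (e' : Chart p Y), At e x → At e' (f x) → Function.Surjective (df f e e' x)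

/-- `f` is an immersion at `x` -/
def Imm (f : X → Y) (x : X) : Prop :=
  ∀ (e : Chart n X) (e' : Chart p Y), At e x → At e' (f x) → Function.Injective (df f e e' x)

end two

section api

variable {n p q : ℕ} {X Y Z : Type} [TopologicalSpace X] [ChartedSpace (Cm n) X]
  [TopologicalSpace Y] [ChartedSpace (Cm p) Y] [TopologicalSpace Z] [ChartedSpace (Cm q) Z]
  {f f' : X → Y} {g : Y → Z} {x : X} {e e₁ : Chart n X} {e' e₁' : Chart p Y} {e'' : Chart q Z}

variable (n p) in
/-- `f` is holomorphic at `x` -/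
abbrev HolA (f : X → Y) (x : X) : Prop := ContMDiffAt 𝓘(ℂ, Cm n) 𝓘(ℂ, Cm p) ω f x

theorem HolM.at (h : HolM n p f) (x : X) : HolA n p f x := h x

theorem HolM.cont (h : HolM n p f) : Continuous f := ContMDiff.continuous h

theorem HolA.cont (h : HolA n p f x) : ContinuousAt f x := h.continuousAt

theorem HolM.comp (hg : HolM p q g) (hf : HolM n p f) : HolM n q fun x => g (f x) :=
  ContMDiff.comp hg hf

theorem HolA.cmp (hg : HolA p q g (f x)) (hf : HolA n p f x) : HolA n q (fun x => g (f x)) x :=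
  ContMDiffAt.comp x hg hf

theorem HolA.cng (h : HolA n p f x) (k : ∀ᶠ y in 𝓝 x, f y = f' y) : HolA n p f' x :=
  h.congr_of_eventuallyEq (k.mono fun _ => Eq.symm)

theorem holM_id : HolM n n (fun x : X => x) := contMDiff_id

theorem holM_const (y : Y) : HolM n p (fun _ : X => y) := contMDiff_const

theorem at_near (he : At e x) : ∀ᶠ y in 𝓝 x, At e y := P277Z.At.near he

theorem at_ev (he : At e x) {P : X → Prop} (h : ∀ᶠ y in 𝓝 x, P y) :
    ∀ᶠ z in 𝓝 (e x), P (e.symm z) := (P277Z.At.ev he).2 h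

theorem at_map (hf : ContinuousAt f x) (he : At e x) (he' : At e' (f x)) :
    ∀ᶠ z in 𝓝 (e x), At e' (f (e.symm z)) := at_ev he (hf.eventually (at_near he'))

theorem df_congr (k : ∀ᶠ y in 𝓝 x, f y = f' y) (he : At e x) : df f e e' x = df f' e e' x :=
  EventuallyEq.fderiv_eq ((at_ev he k).mono fun _ h => congrArg e' h)

theorem df_id (e e₁ : Chart n X) (x : X) : df (fun x : X => x) e e₁ x = tr e₁ e x := rfl

theorem df_id_self (he : At e x) : df (fun x : X => x) e e x = ContinuousLinearMap.id ℂ _ := by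
  have h : (fun z => e (e.symm z)) =ᶠ[𝓝 (e x)] id := P277Z.At.right he
  exact h.fderiv_eq.trans fderiv_id

theorem Imm.cng (h : Imm n p f x) (k : ∀ᶠ y in 𝓝 x, f y = f' y) : Imm n p f' x :=
  fun e e' he he' => by
    rw [← df_congr k he]
    exact h e e' he (by rw [k.self_of_nhds]; exact he')

theorem Sbm.cng (h : Sbm n p f x) (k : ∀ᶠ y in 𝓝 x, f y = f' y) : Sbm n p f' x :=
  fun e e' he he' => by
    rw [← df_congr k he]
    exact h e e' he (by rw [k.self_of_nhds]; exact he')

theorem Imm.le (h : Imm n p f x) : n ≤ p := by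
  simpa using LinearMap.finrank_le_finrank_of_injective
    (f := (df f (chartAt (Cm n) x) (chartAt (Cm p) (f x)) x).toLinearMap)
    (h _ _ (at_chart x) (at_chart (f x)))

theorem Sbm.le (h : Sbm n p f x) : p ≤ n := by
  simpa using LinearMap.finrank_le_finrank_of_surjective
    (f := (df f (chartAt (Cm n) x) (chartAt (Cm p) (f x)) x).toLinearMap)
    (h _ _ (at_chart x) (at_chart (f x)))

theorem imm_iff_sbm {Y : Type} [TopologicalSpace Y] [ChartedSpace (Cm n) Y] {f : X → Y} :
    Imm n n f x ↔ Sbm n n f x :=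
  forall₄_congr fun e e' _ _ =>
    LinearMap.injective_iff_surjective (f := (df f e e' x : Cm n →ₗ[ℂ] Cm n))

variable [IsManifold 𝓘(ℂ, Cm n) ω X] [IsManifold 𝓘(ℂ, Cm p) ω Y] [IsManifold 𝓘(ℂ, Cm q) ω Z]

theorem HolA.an (h : HolA n p f x) (he : At e x) (he' : At e' (f x)) :
    AnalyticAt ℂ (fun z => e' (f (e.symm z))) (e x) := by
  have h1 : ContMDiffAt 𝓘(ℂ, Cm n) 𝓘(ℂ, Cm p) ω (fun z => f (e.symm z)) (e x) :=
    ContMDiffAt.comp (e x) (g := f) (by rw [he.left_inv]; exact h)
      (chart_symm_contMDiffAt he.1 he.mem_target)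
  exact (contMDiffAt_iff_contDiffAt.1 (ContMDiffAt.comp (e x) (g := e')
    (by rw [he.left_inv]; exact chart_contMDiffAt he') h1)).analyticAt

theorem HolA.of_an (hc : ContinuousAt f x) (he : At e x) (he' : At e' (f x))
    (h : AnalyticAt ℂ (fun z => e' (f (e.symm z))) (e x)) : HolA n p f x := by
  have h1 : ContMDiffAt 𝓘(ℂ, Cm n) 𝓘(ℂ, Cm p) ω (fun y => e' (f (e.symm (e y)))) x :=
    ContMDiffAt.comp x (g := fun z => e' (f (e.symm z)))
      (contMDiffAt_iff_contDiffAt.2 h.contDiffAt) (chart_contMDiffAt he)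
  have h2 : ContMDiffAt 𝓘(ℂ, Cm n) 𝓘(ℂ, Cm p) ω (fun y => e'.symm (e' (f (e.symm (e y))))) x :=
    ContMDiffAt.comp x (g := e'.symm)
      (by rw [he.left_inv]; exact chart_symm_contMDiffAt he'.1 he'.mem_target) h1
  refine HolA.cng h2 ?_
  filter_upwards [at_near he, hc.eventually (at_near he')] with y k1 k2
  rw [k1.left_inv, k2.left_inv]

theorem hol_chart (he : At e x) (a : Fin n) : Hol n (fun y => e y a) x := fun _ he' =>
  analyticAt_pi_iff.1 (trans_an he he') a

theorem HolA.hol (h : HolA n p f x) {a : Y → ℂ} (ha : Hol p a (f x)) :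
    Hol n (fun y => a (f y)) x := fun e he => by
  have he' := at_chart (n := p) (f x)
  have h1 : AnalyticAt ℂ (fun z => a ((chartAt (Cm p) (f x)).symm z))
      (chartAt (Cm p) (f x) (f (e.symm (e x)))) := by
    rw [he.left_inv]
    exact ha _ he'
  refine (h1.fun_comp (f := fun z => chartAt (Cm p) (f x) (f (e.symm z))) (h.an he he')).congr ?_
  filter_upwards [at_map h.cont he he'] with z hz
  rw [hz.left_inv]

theorem HolM.hol (h : HolM n p f) {a : Y → ℂ} (ha : Hol p a (f x)) : Hol n (fun y => a (f y)) x :=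
  (h.at x).hol ha

theorem HolA.of_hol (hc : ContinuousAt f x) (he' : At e' (f x))
    (h : ∀ a, Hol n (fun y => e' (f y) a) x) : HolA n p f x :=
  .of_an hc (at_chart x) he' (AnalyticAt.pi fun a => h a _ (at_chart x))

theorem HolA.near (h : HolA n p f x) : ∀ᶠ y in 𝓝 x, HolA n p f y := by
  have he' := at_chart (n := p) (f x)
  have h1 : ∀ᶠ y in 𝓝 x, ∀ a, Hol n (fun y => chartAt (Cm p) (f x) (f y) a) y :=
    eventually_all.2 fun a => (h.hol (hol_chart he' a)).near
  have h2 : ∀ᶠ y in 𝓝 x, At (chartAt (Cm p) (f x)) (f y) := h.cont.eventually (at_near he')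
  filter_upwards [h1, h2, h2.eventually_nhds] with y k1 k2 k3
  refine .of_hol ?_ k2 k1
  refine (((chartAt (Cm p) (f x)).continuousAt_symm k2.mem_target).comp
    (f := fun y => chartAt (Cm p) (f x) (f y)) (continuousAt_pi.2 fun a => (k1 a).cont)).congr ?_
  filter_upwards [k3] with z hz using hz.left_inv

/-- a map given in a chart of the target -/
theorem holA_symm {F : X → Cm p} (h : ∀ a, Hol n (fun y => F y a) x) (he' : e' ∈ atlas (Cm p) Y)
    (hx : F x ∈ e'.target) : HolA n p (fun y => e'.symm (F y)) x := by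
  have hF : ContinuousAt F x := continuousAt_pi.2 fun a => (h a).cont
  refine .of_hol ((e'.continuousAt_symm hx).comp hF) (At.of_target he' hx) fun a => (h a).congr ?_
  filter_upwards [hF.eventually (e'.open_target.mem_nhds hx)] with y hy
  rw [e'.right_inv hy]

theorem df_comp (hg : HolA p q g (f x)) (hf : HolA n p f x) (he : At e x) (he' : At e' (f x))
    (he'' : At e'' (g (f x))) :
    df (fun x => g (f x)) e e'' x = (df g e' e'' (f x)).comp (df f e e' x) := by
  unfold df
  have h0 : (fun z => e'' (g (f (e.symm z)))) =ᶠ[𝓝 (e x)]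
      fun z => e'' (g (e'.symm (e' (f (e.symm z))))) := by
    filter_upwards [at_map hf.cont he he'] with z hz
    rw [hz.left_inv]
  have h1 : DifferentiableAt ℂ (fun z => e'' (g (e'.symm z))) (e' (f (e.symm (e x)))) := by
    rw [he.left_inv]
    exact (hg.an he' he'').differentiableAt
  rw [h0.fderiv_eq, fderiv_fun_comp (e x) h1 (hf.an he he').differentiableAt, he.left_inv]

theorem dd_comp {a : Y → ℂ} (ha : Hol p a (f x)) (hf : HolA n p f x) (he : At e x)
    (he' : At e' (f x)) : dd (fun x => a (f x)) e x = (dd a e' (f x)).comp (df f e e' x) := by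
  unfold dd df
  have h0 : (fun z => a (f (e.symm z))) =ᶠ[𝓝 (e x)]
      fun z => a (e'.symm (e' (f (e.symm z)))) := by
    filter_upwards [at_map hf.cont he he'] with z hz
    rw [hz.left_inv]
  have h1 : DifferentiableAt ℂ (fun z => a (e'.symm z)) (e' (f (e.symm (e x)))) := by
    rw [he.left_inv]
    exact (ha e' he').differentiableAt
  rw [h0.fderiv_eq, fderiv_fun_comp (e x) h1 (hf.an he he').differentiableAt, he.left_inv]

theorem df_apply (hf : HolA n p f x) (he : At e x) (he' : At e' (f x)) (v : Cm n) (a : Fin p) :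
    df f e e' x v a = dd (fun y => e' (f y) a) e x v := by
  unfold df dd
  rw [fderiv_pi fun a => (hf.hol (hol_chart he' a) e he).differentiableAt]
  rfl

theorem df_eq_pi (hf : HolA n p f x) (he : At e x) (he' : At e' (f x)) :
    df f e e' x = ContinuousLinearMap.pi fun a => dd (fun y => e' (f y) a) e x :=
  ContinuousLinearMap.ext fun v => funext fun a => df_apply hf he he' v a

theorem df_chart (hf : HolA n p f x) (he : At e x) (he₁ : At e₁ x) (he' : At e' (f x))
    (he₁' : At e₁' (f x)) :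
    df f e₁ e₁' x = (tr e₁' e' (f x)).comp ((df f e e' x).comp (tr e e₁ x)) := by
  rw [← df_id, ← df_id, ← df_comp (f := fun x => x) hf (holM_id.at x) he₁ he he',
    ← df_comp (g := fun y => y) (holM_id.at _) hf he₁ he' he₁']

theorem tr_inj (he : At e x) (he₁ : At e₁ x) : Injective (tr e e₁ x) :=
  (LinearMap.injective_iff_surjective (f := (tr e e₁ x : Cm n →ₗ[ℂ] Cm n))).2
    (P277Z.Slc.tr_surj he he₁)

theorem imm_id (x : X) : Imm n n (fun x : X => x) x := fun _ _ he he' => tr_inj he' he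

theorem sbm_id (x : X) : Sbm n n (fun x : X => x) x := imm_iff_sbm.1 (imm_id x)

theorem Imm.of_chart (hf : HolA n p f x) (he : At e x) (he' : At e' (f x))
    (h : Injective (df f e e' x)) : Imm n p f x := fun _ _ k k' => by
  rw [df_chart hf he k he' k']
  exact (tr_inj k' he').comp (h.comp (tr_inj he k))

theorem Sbm.of_chart (hf : HolA n p f x) (he : At e x) (he' : At e' (f x))
    (h : Surjective (df f e e' x)) : Sbm n p f x := fun _ _ k k' => by
  rw [df_chart hf he k he' k']
  exact (P277Z.Slc.tr_surj k' he').comp (h.comp (P277Z.Slc.tr_surj he k))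

theorem Imm.comp (hg : HolA p q g (f x)) (hf : HolA n p f x) (h1 : Imm p q g (f x))
    (h2 : Imm n p f x) : Imm n q (fun x => g (f x)) x := fun e e'' he he'' => by
  rw [df_comp hg hf he (at_chart _) he'']
  exact (h1 _ _ (at_chart _) he'').comp (h2 _ _ he (at_chart _))

theorem Sbm.comp (hg : HolA p q g (f x)) (hf : HolA n p f x) (h1 : Sbm p q g (f x))
    (h2 : Sbm n p f x) : Sbm n q (fun x => g (f x)) x := fun e e'' he he'' => by
  rw [df_comp hg hf he (at_chart _) he'']
  exact (h1 _ _ (at_chart _) he'').comp (h2 _ _ he (at_chart _))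

theorem Imm.of_comp (hg : HolA p q g (f x)) (hf : HolA n p f x)
    (h : Imm n q (fun x => g (f x)) x) : Imm n p f x := fun e e' he he' => by
  have h1 := h e _ he (at_chart (g (f x)))
  rw [df_comp hg hf he he' (at_chart _)] at h1
  exact Injective.of_comp h1

theorem Sbm.of_comp (hg : HolA p q g (f x)) (hf : HolA n p f x)
    (h : Sbm n q (fun x => g (f x)) x) : Sbm p q g (f x) := fun e' e'' he' he'' => by
  have h1 := h _ e'' (at_chart x) he''
  rw [df_comp hg hf (at_chart x) he' he''] at h1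
  exact Surjective.of_comp h1

theorem sbm_iff_ind (hf : HolA n p f x) (he' : At e' (f x)) :
    Sbm n p f x ↔ Ind n (fun a y => e' (f y) a) x :=
  ⟨fun h => ⟨fun a => hf.hol (hol_chart he' a), fun e he =>
      (P277Z.Slc.ind_iff_surj _).2 (df_eq_pi hf he he' ▸ h e e' he he')⟩,
    fun h => .of_chart hf (at_chart x) he' (by
      rw [df_eq_pi hf (at_chart x) he']
      exact (P277Z.Slc.ind_iff_surj _).1 (h.2 _ (at_chart x)))⟩

theorem ind_chart (he : At e x) : Ind n (fun a y => e y a) x :=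
  (sbm_iff_ind (f := fun x => x) (holM_id.at x) he).1 (sbm_id x)

theorem Sbm.near (h : Sbm n p f x) (hf : HolA n p f x) : ∀ᶠ y in 𝓝 x, Sbm n p f y := by
  have he' := at_chart (n := p) (f x)
  filter_upwards [((sbm_iff_ind hf he').1 h).near, hf.near, hf.cont.eventually (at_near he')]
    with y k1 k2 k3 using (sbm_iff_ind k2 k3).2 k1

theorem df_cont (hf : HolA n p f x) (he : At e x) (he' : At e' (f x)) :
    ContinuousAt (fun y => df f e e' y) x :=
  ContinuousAt.comp (g := fderiv ℂ fun z => e' (f (e.symm z))) (hf.an he he').fderiv.continuousAt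
    (e.continuousAt he.2)

theorem Imm.near (h : Imm n p f x) (hf : HolA n p f x) : ∀ᶠ y in 𝓝 x, Imm n p f y := by
  have he := at_chart (n := n) x
  have he' := at_chart (n := p) (f x)
  filter_upwards [(df_cont hf he he').eventually
    (ContinuousLinearMap.isOpen_injective.mem_nhds (h _ _ he he')), hf.near, at_near he,
    hf.cont.eventually (at_near he')] with y k1 k2 k3 k4 using .of_chart k2 k3 k4 k1

end api

section loc

variable {n p q : ℕ} {X Y Z : Type} [TopologicalSpace X] [ChartedSpace (Cm n) X]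
  [TopologicalSpace Y] [ChartedSpace (Cm p) Y] [TopologicalSpace Z] [ChartedSpace (Cm q) Z]
  {E : Type} [NormedAddCommGroup E] [NormedSpace ℂ E]
  {f : X → Y} {x : X} {e : Chart n X} {e' : Chart p Y}

variable (n) in
/-- the vector valued function `F` is holomorphic at `x` -/
def AnV (F : X → E) (x : X) : Prop :=
  ∀ e : Chart n X, At e x → AnalyticAt ℂ (fun z => F (e.symm z)) (e x)

theorem AnV.cont {F : X → E} (h : AnV n F x) : ContinuousAt F x := by
  have he := at_chart (n := n) x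
  exact ((h _ he).continuousAt.comp ((chartAt (Cm n) x).continuousAt he.2)).congr
    ((P277Z.At.left he).mono fun y hy => congrArg F hy)

theorem AnV.pi {α : Type} [Fintype α] {F : X → α → ℂ} (h : ∀ a, Hol n (fun y => F y a) x) :
    AnV n F x := fun e he => AnalyticAt.pi fun a => h a e he

theorem AnV.hol {α : Type} [Fintype α] {F : X → α → ℂ} (h : AnV n F x) (a : α) :
    Hol n (fun y => F y a) x := fun e he => analyticAt_pi_iff.1 (h e he) a

theorem AnV.cmp {E' : Type} [NormedAddCommGroup E'] [NormedSpace ℂ E'] {F : X → E} {G : E → E'}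
    (h : AnV n F x) (hG : AnalyticAt ℂ G (F x)) : AnV n (fun y => G (F y)) x := fun e he =>
  AnalyticAt.fun_comp (g := G) (f := fun z => F (e.symm z)) (by rw [he.left_inv]; exact hG) (h e he)

theorem AnV.prod {E' : Type} [NormedAddCommGroup E'] [NormedSpace ℂ E'] {F : X → E} {G : X → E'}
    (h : AnV n F x) (hG : AnV n G x) : AnV n (fun y => (F y, G y)) x := fun e he =>
  (h e he).prod (hG e he)

theorem anV_const (c : E) (x : X) : AnV n (fun _ => c) x := fun _ _ => analyticAt_const

variable (n) in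
/-- `Θ` is a system of holomorphic coordinates with values in `E` -/
structure Co (Θ : OpenPartialHomeomorph X E) : Prop where
  an : ∀ y ∈ Θ.source, AnV n Θ y
  inv : ∀ v ∈ Θ.target, ∀ e : Chart n X, At e (Θ.symm v) → AnalyticAt ℂ (fun v => e (Θ.symm v)) v

variable [IsManifold 𝓘(ℂ, Cm n) ω X] [IsManifold 𝓘(ℂ, Cm p) ω Y] [IsManifold 𝓘(ℂ, Cm q) ω Z]

theorem anV_chart (he : At e x) : AnV n e x := fun _ he' => trans_an he he'

theorem HolA.anV (h : HolA n p f x) (he' : At e' (f x)) : AnV n (fun y => e' (f y)) x :=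
  fun _ he => h.an he he'

theorem co_chart (he : e ∈ atlas (Cm n) X) : Co n e :=
  ⟨fun _ hy => anV_chart ⟨he, hy⟩, fun v hv _ h => by
    simpa only [e.right_inv hv] using trans_an h (At.of_target he hv)⟩

theorem Co.holA {Θ : OpenPartialHomeomorph X E} (h : Co n Θ) {F : Y → E} {y : Y} (hF : AnV p F y)
    (hy : F y ∈ Θ.target) : HolA p n (fun y => Θ.symm (F y)) y :=
  .of_an ((Θ.continuousAt_symm hy).comp hF.cont) (at_chart y) (at_chart _)
    (hF.cmp (h.inv _ hy _ (at_chart _)) _ (at_chart y))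

/-- a holomorphic function in the coordinates `Θ` -/
theorem Co.an_hol {Θ : OpenPartialHomeomorph X E} (h : Co n Θ) {v : E} (hv : v ∈ Θ.target)
    {a : X → ℂ} (ha : Hol n a (Θ.symm v)) : AnalyticAt ℂ (fun v => a (Θ.symm v)) v := by
  have he := at_chart (n := n) (Θ.symm v)
  refine ((ha _ he).fun_comp (f := fun w => chartAt (Cm n) (Θ.symm v) (Θ.symm w))
    (h.inv v hv _ he)).congr ?_
  filter_upwards [(Θ.continuousAt_symm hv).eventually (at_near he)] with w hw
  rw [hw.left_inv]

/-- coordinates whose first part is a given independent family -/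
theorem exists_co {α : Type} [Fintype α] {h : α → X → ℂ} (hi : Ind n h x) {d : ℕ}
    (hd : Fintype.card α + d = n) {U : Set X} (hU : U ∈ 𝓝 x) :
    ∃ Θ : OpenPartialHomeomorph X ((α → ℂ) × Cm d), Co n Θ ∧ x ∈ Θ.source ∧ Θ.source ⊆ U ∧
      ∀ y ∈ Θ.source, (Θ y).1 = fun a => h a y := by
  have he := at_chart (n := n) x
  obtain ⟨Φ, P, h1, h2, h3, h4⟩ := hi.par hd he
  refine ⟨(chartAt (Cm n) x ≫ₕ Φ).restrOpen (interior U) isOpen_interior, ⟨fun y hy => ?_,
    fun v hv e' he' => ?_⟩, ⟨⟨he.2, h1⟩, mem_interior_iff_mem_nhds.2 hU⟩,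
    fun y hy => interior_subset hy.2, fun y hy => ?_⟩
  · have k : AnalyticAt ℂ Φ (chartAt (Cm n) x y) := by
      rw [show (Φ : Cm n → _) = _ from funext h2]
      exact (h3 _ hy.1.2).prod (P.analyticAt _)
    exact (anV_chart ⟨he.1, hy.1.1⟩).cmp k
  · have k : Φ.symm v ∈ (chartAt (Cm n) x).target := hv.1.2
    exact ((co_chart he.1).inv _ k e' he').fun_comp (h4 v hv.1.1)
  · change (Φ (chartAt (Cm n) x y)).1 = _
    rw [h2, (chartAt (Cm n) x).left_inv hy.1.1]

/-- a submersion has local sections -/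
theorem Sbm.sec (hs : Sbm n p f x) (hf : HolA n p f x) :
    ∃ g : Y → X, g (f x) = x ∧ HolA p n g (f x) ∧ ∀ᶠ z in 𝓝 (f x), f (g z) = z := by
  have he' := at_chart (n := p) (f x)
  set c := chartAt (Cm p) (f x)
  obtain ⟨Θ, h1, h2, h3, h4⟩ := exists_co ((sbm_iff_ind hf he').1 hs) (d := n - p)
    (by simpa using Nat.add_sub_cancel' hs.le) (hf.cont.eventually (at_near he'))
  have h5 : (c (f x), (Θ x).2) = Θ x := Prod.ext (h4 x h2).symm rfl
  have h6 : AnV p (fun z => (c z, (Θ x).2)) (f x) := (anV_chart he').prod (anV_const _ _)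
  have h7 : (c (f x), (Θ x).2) ∈ Θ.target := h5 ▸ Θ.map_source h2
  refine ⟨fun z => Θ.symm (c z, (Θ x).2), (congrArg Θ.symm h5).trans (Θ.left_inv h2), h1.holA h6 h7, ?_⟩
  filter_upwards [h6.cont.eventually (Θ.open_target.mem_nhds h7), at_near he'] with z k1 k2
  have k3 := Θ.map_target k1
  refine c.injOn (h3 k3).2 k2.2 ?_
  exact (h4 _ k3).symm.trans (congrArg Prod.fst (Θ.right_inv k1))

/-- an immersion has local retractions -/
theorem Imm.ret (hi : Imm n p f x) (hf : HolA n p f x) :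
    ∃ g : Y → X, g (f x) = x ∧ HolA p n g (f x) ∧ ∀ᶠ y in 𝓝 x, g (f y) = y := by
  have he := at_chart (n := n) x
  have he' := at_chart (n := p) (f x)
  set c := chartAt (Cm p) (f x)
  obtain ⟨L, hL⟩ := (df f (chartAt (Cm n) x) c x).toLinearMap.exists_leftInverse_of_injective
    (LinearMap.ker_eq_bot.2 (hi _ _ he he'))
  let L' : Cm p →L[ℂ] Cm n := LinearMap.toContinuousLinearMap L
  have h0 : AnV n (fun y => L' (c (f y))) x := (hf.anV he').cmp (L'.analyticAt _)
  have h8 : Ind n (fun a y => L' (c (f y)) a) x := by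
    refine Ind.of_chart h0.hol he ((P277Z.Slc.ind_iff_surj _).2 fun v => ⟨v, ?_⟩)
    have k := (L'.hasFDerivAt.comp _ (hf.an he he').differentiableAt.hasFDerivAt).fderiv
    have k' := fderiv_pi fun a => (h0.hol a _ he).differentiableAt
    exact (DFunLike.congr_fun (k'.symm.trans k) v).trans (LinearMap.congr_fun hL v)
  obtain ⟨Θ, h1, h2, -, h4⟩ := exists_co h8 (d := 0) (by simp) univ_mem
  have h5 : ∀ y ∈ Θ.source, (L' (c (f y)), 0) = Θ y := fun y hy =>
    Prod.ext (h4 y hy).symm (Subsingleton.elim _ _)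
  refine ⟨fun z => Θ.symm (L' (c z), 0), (congrArg Θ.symm (h5 x h2)).trans (Θ.left_inv h2), h1.holA
    (((anV_chart he').cmp (L'.analyticAt _)).prod (anV_const _ _)) (h5 x h2 ▸ Θ.map_source h2), ?_⟩
  filter_upwards [Θ.open_source.mem_nhds h2] with y hy
  rw [h5 y hy, Θ.left_inv hy]

theorem Imm.inj (hi : Imm n p f x) (hf : HolA n p f x) : ∃ U ∈ 𝓝 x, InjOn f U :=
  let ⟨g, _, _, h⟩ := hi.ret hf
  ⟨_, h, fun y hy z hz k => by rw [← show g (f y) = y from hy, k]; exact hz⟩

theorem Sbm.map_nhds (hs : Sbm n p f x) (hf : HolA n p f x) : map f (𝓝 x) = 𝓝 (f x) := by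
  obtain ⟨g, h1, h2, h3⟩ := hs.sec hf
  refine le_antisymm hf.cont fun U hU => ?_
  have h4 : Tendsto g (𝓝 (f x)) (𝓝 x) := by simpa only [ContinuousAt, h1] using h2.cont
  filter_upwards [h3, h4.eventually (mem_map.1 hU)] with z k1 k2 using k1 ▸ k2

theorem Sbm.ev (hs : Sbm n p f x) (hf : HolA n p f x) {P : X → Prop} (h : ∀ᶠ y in 𝓝 x, P y) :
    ∀ᶠ z in 𝓝 (f x), ∃ y, P y ∧ f y = z :=
  hs.map_nhds hf ▸ image_mem_map h

theorem Sbm.freq (hs : Sbm n p f x) (hf : HolA n p f x) {P : Y → Prop} (h : ∃ᶠ z in 𝓝 (f x), P z) :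
    ∃ᶠ y in 𝓝 x, P (f y) := by
  rwa [← hs.map_nhds hf, frequently_map] at h

/-- the local inverse -/
theorem Imm.inv {Y : Type} [TopologicalSpace Y] [ChartedSpace (Cm n) Y]
    [IsManifold 𝓘(ℂ, Cm n) ω Y] {f : X → Y} (hi : Imm n n f x) (hf : HolA n n f x) :
    ∃ g : Y → X, g (f x) = x ∧ HolA n n g (f x) ∧ Imm n n g (f x) ∧ (∀ᶠ y in 𝓝 x, g (f y) = y) ∧
      ∀ᶠ z in 𝓝 (f x), f (g z) = z := by
  obtain ⟨g, h1, h2, h3⟩ := (imm_iff_sbm.1 hi).sec hf
  obtain ⟨U, k1, k2⟩ := hi.inj hf
  refine ⟨g, h1, h2, Imm.of_comp (g := f) (h1.symm ▸ hf) h2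
    ((imm_id _).cng (h3.mono fun _ => Eq.symm)), ?_, h3⟩
  have h4 : Tendsto (fun y => g (f y)) (𝓝 x) (𝓝 x) := by
    simpa only [ContinuousAt, h1] using (h2.cmp hf).cont
  filter_upwards [hf.cont.eventually h3, k1, h4.eventually k1] with y l1 l2 l3 using k2 l3 l2 l1

end loc

end Vale.Agent.P277Z.Top.Tb
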