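import Vale.Agent.P277Z.Top.Tb

/-!
# P277, block TOP, row DEG: branches of immersions
-/

open scoped Manifold ContDiff Topology
open Set Filter Function
open Vale.Agent.P272.K
open Vale.Agent.P277Z (Hol Nz gen at_chart gen_near gen_le_nhds)
open Vale.Agent.P277Z.Top.Tb

set_option linter.all false

noncomputable section

namespace Vale.Agent.P277Z.Top.Dg

variable {d n : ℕ} {X Y Z : Type} [TopologicalSpace X] [ChartedSpace (Cm d) X]
  [IsManifold 𝓘(ℂ, Cm d) ω X] [TopologicalSpace Y] [ChartedSpace (Cm d) Y]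
  [IsManifold 𝓘(ℂ, Cm d) ω Y] [TopologicalSpace Z] [ChartedSpace (Cm n) Z]
  [IsManifold 𝓘(ℂ, Cm n) ω Z] [T2Space Z] {f : X → Z} {g : Y → Z} {x : X} {y : Y} {a : Z}

/-- the identity theorem -/
theorem idt {u v : Y → Z} (hu : HolA d n u y) (hv : HolA d n v y)
    (h : ¬ ∀ᶠ w in 𝓝 y, u w = v w) : ∀ᶠ w in gen {y}, u w ≠ v w := by
  by_cases k : u y = v y
  · have he := at_chart (n := n) (v y)
    set e := chartAt (Cm n) (v y)
    have he' : At e (u y) := k ▸ he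
    have h1 : ¬ ∀ i, ∀ᶠ w in 𝓝 y, e (u w) i - e (v w) i = 0 := fun c => h (by
      filter_upwards [eventually_all.2 c, hu.cont.eventually (at_near he'),
        hv.cont.eventually (at_near he)] with w w1 w2 w3
      exact e.injOn w2.2 w3.2 (funext fun i => sub_eq_zero.1 (w1 i)))
    obtain ⟨i, hi⟩ := not_forall.1 h1
    exact (Nz.gen hi ((hu.hol (hol_chart he' i)).sub (hv.hol (hol_chart he i)))).mono
      fun w w1 w2 => w1 (by rw [w2, sub_self])
  · exact gen_le_nhds y ((hu.cont.prodMk hv.cont).eventually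
      (isClosed_diagonal.isOpen_compl.mem_nhds k))

theorem idt' {u v : Y → Z} (hu : HolA d n u y) (hv : HolA d n v y)
    (h : ¬ ∀ᶠ w in 𝓝 y, u w = v w) : ∀ᶠ w in 𝓝 y, ¬ ∀ᶠ z in 𝓝 w, u z = v z :=
  (gen_near (idt hu hv h)).mono fun w w1 w2 =>
    let ⟨_, a, b⟩ := (w1.and (gen_le_nhds w w2)).exists
    a b

theorem br_val (hf : ContinuousAt f x) (hg : ContinuousAt g y) (h : map g (𝓝 y) = map f (𝓝 x)) :
    g y = f x :=
  pure_le_nhds_iff.1 ((map_mono (m := g) (pure_le_nhds y)).trans (h.le.trans hf))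

theorem br_ev {r : Z → X} (hr : ∀ᶠ w in 𝓝 x, r (f w) = w) (h : map g (𝓝 y) = map f (𝓝 x)) :
    ∀ᶠ w in 𝓝 y, f (r (g w)) = g w :=
  h.le (show {b | f (r b) = b} ∈ map f (𝓝 x) from hr.mono fun _ => congrArg f)

theorem br_eq {r : Z → X} (hf : HolA d n f (r (g y))) (hg : HolA d n g y) (hi : Imm d n g y)
    (hr : HolA n d r (g y)) (h : ∀ᶠ w in 𝓝 y, f (r (g w)) = g w) :
    map g (𝓝 y) = map f (𝓝 (r (g y))) := by
  have h1 := hr.cmp hg
  have h2 : Imm d d (fun w => r (g w)) y := .of_comp hf h1 (hi.cng (h.mono fun _ => Eq.symm))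
  rw [← (imm_iff_sbm.1 h2).map_nhds h1, map_map]
  exact map_congr (h.mono fun _ => Eq.symm)

variable (d n) in
/-- the sheets of `g` over `a` -/
structure Sh (g : Y → Z) (a : Z) (W : Y → Set Y) (r : Y → Z → Y) : Prop where
  fin : (g ⁻¹' {a}).Finite
  op : ∀ y, IsOpen (W y)
  mem : ∀ y, g y = a → y ∈ W y
  disj : (g ⁻¹' {a}).PairwiseDisjoint W
  ret : ∀ y, g y = a → ∀ w ∈ W y, r y (g w) = w ∧ HolA n d (r y) (g w) ∧ Imm d n g w
  cov : ∀ᶠ b in 𝓝 a, ∀ w, g w = b → ∃ y, g y = a ∧ w ∈ W y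

theorem exists_sh [T2Space Y] [CompactSpace Y] (hg : ∀ y, HolA d n g y)
    (h : ∀ y, g y = a → Imm d n g y) : ∃ W r, Sh d n g a W r := by
  have hc : Continuous g := continuous_iff_continuousAt.2 fun y => (hg y).cont
  have h1 : ∀ y, ∃ (r : Z → Y) (N : Set Y), IsOpen N ∧ (g y = a → y ∈ N ∧
      ∀ w ∈ N, r (g w) = w ∧ HolA n d r (g w) ∧ Imm d n g w) := fun y => by
    by_cases k : g y = a
    · obtain ⟨r, -, r2, r3⟩ := (h y k).ret (hg y)
      obtain ⟨N, n1, n2, n3⟩ := _root_.eventually_nhds_iff.1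
        (r3.and (((hg y).cont.eventually r2.near).and ((h y k).near (hg y))))
      exact ⟨r, N, n2, fun _ => ⟨n3, n1⟩⟩
    · exact ⟨fun _ => y, ∅, isOpen_empty, fun c => absurd c k⟩
  choose r N n1 n2 using h1
  have h2 : (g ⁻¹' {a}).Finite := by
    obtain ⟨t, t1, t2⟩ := (isClosed_singleton.preimage hc).isCompact.elim_nhds_subcover N
      fun y hy => (n1 y).mem_nhds (n2 y hy).1
    refine t.finite_toSet.subset fun w hw => ?_
    obtain ⟨y, y1, y2⟩ := mem_iUnion₂.1 (t2 hw)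
    have k := n2 y (t1 y y1)
    have k1 : g w = g y := (show g w = a from hw).trans (t1 y y1).symm
    rwa [← (k.2 w y2).1, k1, (k.2 y k.1).1]
  obtain ⟨U, u1, u2⟩ := h2.t2_separation
  refine ⟨fun y => U y ∩ N y, r, h2, fun y => (u1 y).2.inter (n1 y),
    fun y hy => ⟨(u1 y).1, (n2 y hy).1⟩, u2.mono fun _ => inter_subset_left,
    fun y hy w hw => (n2 y hy).2 w hw.2, ?_⟩
  have h3 : IsClosed (g '' (⋃ y ∈ g ⁻¹' {a}, U y ∩ N y)ᶜ) := ((isOpen_biUnion fun y _ =>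
    (u1 y).2.inter (n1 y)).isClosed_compl.isCompact.image hc).isClosed
  filter_upwards [h3.isOpen_compl.mem_nhds (show a ∉ _ from fun ⟨w, w1, w2⟩ =>
    w1 (mem_biUnion w2 ⟨(u1 w).1, (n2 w w2).1⟩))] with b hb w hw
  obtain ⟨y, y1, y2⟩ := mem_iUnion₂.1 (not_not.1 fun c => hb ⟨w, c, hw⟩)
  exact ⟨y, y1, y2⟩

variable {W : Y → Set Y} {r : Y → Z → Y}

theorem Sh.ev (h : Sh d n g a W r) (hy : g y = a) {w : Y} (hw : w ∈ W y) :
    ∀ᶠ z in 𝓝 w, r y (g z) = z :=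
  ((h.op y).eventually_mem hw).mono fun z hz => (h.ret y hy z hz).1

theorem Sh.val (h : Sh d n g a W r) (hy : g y = a) : r y a = y :=
  hy ▸ (h.ret y hy y (h.mem y hy)).1

theorem Sh.hol (h : Sh d n g a W r) (hy : g y = a) : HolA n d (r y) a :=
  hy ▸ (h.ret y hy y (h.mem y hy)).2.1

theorem Sh.tend (h : Sh d n g a W r) (hy : g y = a) : Tendsto (r y) (𝓝 a) (𝓝 y) := by
  simpa only [ContinuousAt, h.val hy] using (h.hol hy).cont

/-- the number of points with a given branch -/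
def cnt (g : Y → Z) (F : Filter Z) : ℕ := {y | map g (𝓝 y) = F}.ncard

theorem cnt_loc (hg : ∀ y, HolA d n g y) (h : Sh d n g (f x) W r) (hf : HolA d n f x)
    (hi : Imm d n f x) : ∀ᶠ w in 𝓝 x, cnt g (map f (𝓝 w)) = cnt g (map f (𝓝 x)) := by
  have h1 : ∀ y ∈ g ⁻¹' {f x}, ∀ᶠ w in 𝓝 x, r y (f w) ∈ W y ∧
      (map g (𝓝 y) = map f (𝓝 x) ↔ ∀ᶠ z in 𝓝 w, g (r y (f z)) = f z) := fun y hy => by
    refine (((h.tend hy).comp hf.cont).eventually ((h.op y).mem_nhds (h.mem y hy))).and ?_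
    by_cases k : map g (𝓝 y) = map f (𝓝 x)
    · exact (br_ev (h.ev hy (h.mem y hy)) k.symm).eventually_nhds.mono fun _ => iff_of_true k
    · refine (idt' ((hg _).cmp ((h.hol hy).cmp hf)) hf fun c => k ?_).mono fun _ => iff_of_false k
      rw [br_eq (hg _) hf hi (h.hol hy) c, h.val hy]
  filter_upwards [(eventually_all_finite h.fin).2 h1, hf.cont.eventually h.cov, hf.near,
    hi.near hf] with w w1 w2 w3 w4
  have h2 : ∀ y, map g (𝓝 y) = map f (𝓝 x) → g y = f x := fun y => br_val hf.cont (hg y).cont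
  unfold cnt
  rw [← ncard_image_of_injOn (s := {y | map g (𝓝 y) = map f (𝓝 x)}) (f := fun y => r y (f w))
    fun y hy y' hy' k => h.disj.elim_set (h2 y hy) (h2 y' hy') _ (w1 y (h2 y hy)).1
      ((show r y (f w) = r y' (f w) from k) ▸ (w1 y' (h2 y' hy')).1)]
  refine congrArg _ (Set.ext fun z => ⟨fun hz => ?_, ?_⟩)
  · have k := br_val w3.cont (hg z).cont hz
    obtain ⟨y, y1, y2⟩ := w2 z k
    exact ⟨y, (w1 y y1).2.2 (br_ev (h.ev y1 y2) (Eq.symm hz)), by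
      rw [← k]; exact (h.ret y y1 z y2).1⟩
  · rintro ⟨y, hy, rfl⟩
    have k := (w1 y (h2 y hy)).2.1 hy
    exact (br_eq (hg _) w3 w4 (k.self_of_nhds ▸ (h.ret y (h2 y hy) _ (w1 y (h2 y hy)).1).2.1)
      k).symm

theorem ex_br (hg : ∀ y, HolA d n g y) (h : Sh d n g (f x) W r) (hf : HolA d n f x)
    (hi : Imm d n f x) (hs : range f ⊆ range g) : ∃ y, map g (𝓝 y) = map f (𝓝 x) := by
  by_contra k
  have h1 : ∀ y ∈ g ⁻¹' {f x}, ∀ᶠ w in gen {x}, g (r y (f w)) ≠ f w := fun y hy =>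
    idt ((hg _).cmp ((h.hol hy).cmp hf)) hf fun c => k ⟨_, (br_eq (hg _) hf hi (h.hol hy) c).symm⟩
  obtain ⟨w, w1, w2⟩ := (((eventually_all_finite h.fin).2 h1).and
    (gen_le_nhds x (hf.cont.eventually h.cov))).exists
  obtain ⟨z, hz⟩ := hs (mem_range_self w)
  obtain ⟨y, y1, y2⟩ := w2 z hz
  exact w1 y y1 (by rw [← hz, (h.ret y y1 z y2).1])

theorem Sh.img (h : Sh d n g a W r) (hy : g y = a) (k : map g (𝓝 y) = map f (𝓝 x)) {V : Set X}
    (hV : V ∈ 𝓝 x) : ∀ᶠ b in 𝓝 a, b ∈ g '' W y → b ∈ f '' V := by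
  filter_upwards [(h.tend hy).eventually (k.le (image_mem_map hV))]
  rintro _ b1 ⟨w, w1, rfl⟩
  rwa [(h.ret y hy w w1).1] at b1

end Vale.Agent.P277Z.Top.Dg
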