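import Vale.Agent.P277Z.Top.Img
import Vale.Agent.P277Z.Top.DegA
import Vale.Agent.P277Z.Tr.Deg1

/-!
# P277, block TOP, row DEG: surfaces with the same image
-/

set_option linter.all false
set_option maxSynthPendingDepth 3

open scoped Manifold ContDiff Topology
open Vale.Agent.P272.K Vale.Agent.P277 Set Filter Function MeasureTheory Module
open Vale.Agent.P267.H175 (SmAt loc)
open Vale.Agent.P267.H928.Int
open Vale.Agent.P277.T3 (ThinM)
open Vale.Agent.P277Z (at_chart)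
open Vale.Agent.P277Z.Tr (pb HolM Ctr dM SmM Fm pull_eq_loc loc_pb pb_comp smAt_pb cForm_of_sm)
open Vale.Agent.P277Z.Top.Tb (HolA Imm)

noncomputable section

namespace Vale.Agent.P277Z.Top

namespace Dg

theorem dbl {α β : Type} (F : Finset α) (G : Finset β) (R : β → α → Prop)
    [∀ y x, Decidable (R y x)] {I : α → ℝ} {J : β → ℝ} {m m' : ℕ}
    (h1 : ∀ y ∈ G, (F.filter (R y)).card = m) (h2 : ∀ x ∈ F, (G.filter (R · x)).card = m')
    (h3 : ∀ x ∈ F, ∀ y ∈ G, R y x → J y = I x) : m * ∑ y ∈ G, J y = m' * ∑ x ∈ F, I x := by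
  rw [Finset.mul_sum, Finset.mul_sum]
  calc ∑ y ∈ G, (m : ℝ) * J y = ∑ y ∈ G, ∑ x ∈ F.filter (R y), I x :=
        Finset.sum_congr rfl fun y hy => by
          rw [Finset.sum_congr rfl fun x hx => (h3 x (Finset.mem_filter.1 hx).1 y hy
            (Finset.mem_filter.1 hx).2).symm, Finset.sum_const, h1 y hy, nsmul_eq_mul]
    _ = ∑ x ∈ F, ∑ y ∈ G.filter (R · x), I x := Finset.sum_comm' fun y x => by
          simp only [Finset.mem_filter]
          exact ⟨fun h => ⟨⟨h.1, h.2.2⟩, h.2.1⟩, fun h => ⟨h.1.1, h.2, h.1.2⟩⟩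
    _ = _ := Finset.sum_congr rfl fun x hx => by rw [Finset.sum_const, h2 x hx, nsmul_eq_mul]

theorem glob {X Y Z : Type} [MeasurableSpace X] [MeasurableSpace Y] [MeasurableSpace Z]
    [TopologicalSpace Z] [SecondCountableTopology Z] [OpensMeasurableSpace Z] {μ : Measure X}
    {ν : Measure Y} {f : X → Z} {g : Y → Z} (hf : Measurable f) (hg : Measurable g) {q : X → ℝ}
    {q' : Y → ℝ} (hq : Integrable q μ) (hq' : Integrable q' ν) {T : Set Z} (hT : IsOpen T)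
    (hne : T.Nonempty) {c c' : ℝ} (h : ∀ a ∈ T, ∃ U ∈ 𝓝 a, ∀ B ⊆ U, MeasurableSet B →
      c * ∫ y in g ⁻¹' B, q' y ∂ν = c' * ∫ x in f ⁻¹' B, q x ∂μ) :
    c * ∫ y in g ⁻¹' T, q' y ∂ν = c' * ∫ x in f ⁻¹' T, q x ∂μ := by
  choose! U h1 h2 using h
  obtain ⟨s, s1, s2, s3⟩ := TopologicalSpace.countable_cover_nhdsWithin
    (f := fun a => interior (U a) ∩ T) (s := T) fun a ha =>
      inter_mem (mem_nhdsWithin_of_mem_nhds (interior_mem_nhds.2 (h1 a ha))) self_mem_nhdsWithin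
  obtain ⟨e, rfl⟩ := s2.exists_eq_range (by
    obtain ⟨a, ha⟩ := hne
    obtain ⟨b, hb, -⟩ := mem_iUnion₂.1 (s3 ha)
    exact ⟨b, hb⟩)
  set B := disjointed fun k => interior (U (e k)) ∩ T
  have b1 : ∀ k, MeasurableSet (B k) :=
    MeasurableSet.disjointed fun k => (isOpen_interior.inter hT).measurableSet
  have b2 : Pairwise (Disjoint on B) := disjoint_disjointed _
  have b3 : T = ⋃ k, B k := by
    rw [iUnion_disjointed]
    exact (s3.trans (biUnion_range).le).antisymm (iUnion_subset fun _ => inter_subset_right)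
  have k1 := hasSum_integral_iUnion (fun k => hf (b1 k)) (fun _ _ h => (b2 h).preimage f)
    hq.integrableOn
  have k2 := hasSum_integral_iUnion (fun k => hg (b1 k)) (fun _ _ h => (b2 h).preimage g)
    hq'.integrableOn
  rw [← preimage_iUnion, ← b3] at k1 k2
  refine (k2.mul_left c).unique ?_
  rw [funext fun k => h2 (e k) (s1 (mem_range_self k)) (B k)
    ((disjointed_subset _ k).trans (inter_subset_left.trans interior_subset)) (b1 k)]
  exact k1.mul_left c'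

section one

variable {d n : ℕ} {X Z : Type} [TopologicalSpace X] [ChartedSpace (Cm d) X]
  [IsManifold 𝓘(ℂ, Cm d) ω X] [TopologicalSpace Z] [ChartedSpace (Cm n) Z]
  [IsManifold 𝓘(ℂ, Cm n) ω Z] {f : X → Z} {x : X}

theorem holA (hf : HolM d n f) (x : X) : HolA d n f x :=
  .of_an hf.1.continuousAt (at_chart x) (at_chart _) (hf.2 x _ _ (at_chart x) (at_chart _))

theorem smM (h : HolA d n f x) : SmM (Cm d) (Cm n) f x :=
  ⟨h.cont, ((h.an (at_chart x) (at_chart _)).contDiffAt.restrict_scalars ℝ).of_le le_top⟩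

theorem pb_cng {k : ℕ} {f' : X → Z} (h : ∀ᶠ w in 𝓝 x, f w = f' w) (θ : Fm n k Z) :
    pb (Cm d) f θ x = pb (Cm d) f' θ x := by
  unfold pb
  rw [h.self_of_nhds, EventuallyEq.fderiv_eq
    ((Tb.at_ev (at_chart (n := d) x) h).mono fun _ k => congrArg _ k)]

/-- the density of the pull back -/
def qq {k : ℕ} (b : Basis (Fin k) ℝ (Cm d)) (P : Pou (Cm d) X) (f : X → Z) (θ : Fm n k Z) :
    X → ℝ := P.quo fun e z => cf b e (show Form (Cm d) ℝ k X from pb (Cm d) f θ) z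

theorem intg [T2Space X] [CompactSpace X] [MeasurableSpace X] [BorelSpace X] {k : ℕ}
    (b : Basis (Fin k) ℝ (Cm d)) (P : Pou (Cm d) X) (hf : HolM d n f) {θ : Fm n k Z}
    (hθ : ∀ z, SmAt θ z) : Integrable (qq b P f θ) (P.meas volume) :=
  P.integrable_quo volume (isDens_cf b _) ((cForm_of_sm fun x =>
    smAt_pb (.of_forall hf.smM) (hθ _)).contForm.dcont b) isCompact_univ
    fun e he z hz h => absurd (mem_univ _) h

end one

section two

variable {d n k : ℕ} {X Y Z : Type} [TopologicalSpace X] [ChartedSpace (Cm d) X]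
  [IsManifold 𝓘(ℂ, Cm d) ω X] [TopologicalSpace Y] [ChartedSpace (Cm d) Y]
  [IsManifold 𝓘(ℂ, Cm d) ω Y] [TopologicalSpace Z] [ChartedSpace (Cm n) Z]
  [IsManifold 𝓘(ℂ, Cm n) ω Z] {f : X → Z} {g : Y → Z} (b : Basis (Fin k) ℝ (Cm d))
  {θ : Fm n k Z}

theorem dens {φ : Y → X} {y : Y} (hf : HolM d n f) (hφ : HolA d d φ y)
    (h : ∀ᶠ w in 𝓝 y, f (φ w) = g w) {e : Chart d Y} {e' : Chart d X} (he : At e y)
    (he' : At e' (φ y)) : cf b e (show Form (Cm d) ℝ k Y from pb (Cm d) g θ) (e y) =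
      |(fderiv ℝ (fun z => e' (φ (e.symm z))) (e y)).det| •
        cf b e' (show Form (Cm d) ℝ k X from pb (Cm d) f θ) (e' (φ y)) := by
  have h1 := (hφ.an he he').differentiableAt.fderiv_restrictScalars ℝ
  have h2 : 0 ≤ (fderiv ℝ (fun z => e' (φ (e.symm z))) (e y)).det := by
    rw [h1, det_real]
    exact Complex.normSq_nonneg _
  have h3 : loc e (pb (Cm d) g θ) (e y) = loc e (pb (Cm d) φ (pb (Cm d) f θ)) (e y) := by
    rw [loc, loc, e.left_inv he.2, pb_comp θ (smM hφ) (hf.smM _), pb_cng h]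
  rw [cf, cf, pull_eq_loc he.1 _ (e.map_source he.2), pull_eq_loc he'.1 _ (e'.map_source he'.2),
    h3, loc_pb he.1 he'.1 _ (smM hφ) he.2 he'.2, top_comp, abs_of_nonneg h2]

variable [T2Space X] [CompactSpace X] [MeasurableSpace X] [BorelSpace X] [T2Space Y]
  [CompactSpace Y] [MeasurableSpace Y] [BorelSpace Y] [MeasurableSpace Z] [BorelSpace Z]
  (P : Pou (Cm d) X) (P' : Pou (Cm d) Y)

theorem nat (hf : HolM d n f) (hg : HolM d n g) (hθ : ∀ z, SmAt θ z) {U : Set Y} {U' : Set X}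
    (hU : IsOpen U) (hU' : IsOpen U') {φ : Y → X} {ψ : X → Y}
    (h1 : ∀ y ∈ U, HolA d d φ y ∧ φ y ∈ U' ∧ f (φ y) = g y ∧ ψ (φ y) = y)
    (h2 : ∀ x ∈ U', ContinuousAt ψ x ∧ ψ x ∈ U ∧ φ (ψ x) = x) {B : Set Z} (hB : MeasurableSet B) :
    ∫ y in U ∩ g ⁻¹' B, qq b P' g θ y ∂(P'.meas volume) =
      ∫ x in U' ∩ f ⁻¹' B, qq b P f θ x ∂(P.meas volume) := by
  have := ChartedSpace.secondCountable_of_sigmaCompact (Cm d) X
  have := ChartedSpace.secondCountable_of_sigmaCompact (Cm d) Y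
  have m1 := hf.1.measurable hB
  have m2 := hg.1.measurable hB
  have q1 : P.quo (dmul ((f ⁻¹' B).indicator 1) fun e z =>
      cf b e (show Form (Cm d) ℝ k X from pb (Cm d) f θ) z) = (f ⁻¹' B).indicator (qq b P f θ) :=
    funext fun x => by
      rw [P.quo_dmul]
      by_cases c : x ∈ f ⁻¹' B <;> simp [c, qq]
  have q2 : P'.quo (dmul ((g ⁻¹' B).indicator 1) fun e z =>
      cf b e (show Form (Cm d) ℝ k Y from pb (Cm d) g θ) z) = (g ⁻¹' B).indicator (qq b P' g θ) :=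
    funext fun x => by
      rw [P'.quo_dmul]
      by_cases c : x ∈ g ⁻¹' B <;> simp [c, qq]
  have key := H19.nat_dens volume P' P ((isDens_cf b _).dmul _) ((isDens_cf b _).dmul _)
    (q2 ▸ (intg b P' hg hθ).indicator m2) (q1 ▸ (intg b P hf hθ).indicator m1) hU hU'
    (fun y hy => (h1 y hy).1.cont.continuousWithinAt)
    (fun x hx => (h2 x hx).1.continuousWithinAt) (fun y hy => (h1 y hy).2.1)
    (fun x hx => (h2 x hx).2.1) (fun y hy => (h1 y hy).2.2.2) (fun x hx => (h2 x hx).2.2)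
    fun y hy e he e' he' a a' => ⟨((smM (h1 y hy).1).chart he he' a a').differentiableAt
      (by simp), by
        have c : (g ⁻¹' B).indicator (1 : Y → ℝ) y = (f ⁻¹' B).indicator 1 (φ y) := by
          by_cases c : g y ∈ B <;> simp [c, (h1 y hy).2.2.1, indicator]
        simp only [dmul]
        rw [e.left_inv a, e'.left_inv a', dens b hf (h1 y hy).1
          ((hU.eventually_mem hy).mono fun w hw => (h1 w hw).2.2.1) ⟨he, a⟩ ⟨he', a'⟩, c,
          smul_comm]⟩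
  rwa [q1, q2, setIntegral_indicator m1, setIntegral_indicator m2] at key

theorem Sh.sum {a : Z} {W : Y → Set Y} {s : Y → Z → Y} (h : Sh d n g a W s) (hg : Continuous g)
    {μ : Measure Y} {q : Y → ℝ} (hq : Integrable q μ) {B : Set Z} (hB : MeasurableSet B)
    (hc : ∀ z ∈ B, ∀ w, g w = z → ∃ y, g y = a ∧ w ∈ W y) :
    ∫ y in g ⁻¹' B, q y ∂μ = ∑ y ∈ h.fin.toFinset, ∫ w in W y ∩ g ⁻¹' B, q w ∂μ := by
  rw [← integral_biUnion_finset _ (fun y _ => (h.op y).measurableSet.inter (hg.measurable hB))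
    (fun y hy y' hy' c => (h.disj (h.fin.mem_toFinset.1 hy) (h.fin.mem_toFinset.1 hy') c).mono
      inter_subset_left inter_subset_left) fun _ _ => hq.integrableOn]
  refine congrArg (fun A => ∫ y in A, q y ∂μ) (Subset.antisymm (fun w hw => ?_)
    (iUnion₂_subset fun _ _ => inter_subset_right))
  obtain ⟨y, y1, y2⟩ := hc _ hw w rfl
  exact mem_iUnion₂.2 ⟨y, h.fin.mem_toFinset.2 y1, y2, hw⟩

variable [T2Space Z]

theorem loc_int (hf : HolM d n f) (hg : HolM d n g) (hθ : ∀ z, SmAt θ z) {a : Z}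
    (i1 : ∀ x, f x = a → Imm d n f x) (i2 : ∀ y, g y = a → Imm d n g y) {m m' : ℕ}
    (hm : ∀ y, g y = a → cnt f (map g (𝓝 y)) = m) (hm' : ∀ x, f x = a → cnt g (map f (𝓝 x)) = m') :
    ∃ U ∈ 𝓝 a, ∀ B ⊆ U, MeasurableSet B → m * ∫ y in g ⁻¹' B, qq b P' g θ y ∂(P'.meas volume) =
      m' * ∫ x in f ⁻¹' B, qq b P f θ x ∂(P.meas volume) := by
  classical
  obtain ⟨V, r, h⟩ := exists_sh (holA hf) i1
  obtain ⟨W, s, h'⟩ := exists_sh (holA hg) i2
  have h1 : ∀ x ∈ f ⁻¹' {a}, ∀ᶠ z in 𝓝 a, ∀ y ∈ g ⁻¹' {a}, map g (𝓝 y) = map f (𝓝 x) →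
      (z ∈ g '' W y ↔ z ∈ f '' V x) := fun x hx => (eventually_all_finite h'.fin).2 fun y hy => by
    by_cases c : map g (𝓝 y) = map f (𝓝 x)
    · filter_upwards [h'.img hy c ((h.op x).mem_nhds (h.mem x hx)),
        h.img hx c.symm ((h'.op y).mem_nhds (h'.mem y hy))] with z z1 z2 _ using ⟨z1, z2⟩
    · exact .of_forall fun _ c' => absurd c' c
  obtain ⟨U, u1, u2, u3⟩ := _root_.eventually_nhds_iff.1
    (((eventually_all_finite h.fin).2 h1).and (h.cov.and h'.cov))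
  refine ⟨U, u2.mem_nhds u3, fun B b1 b2 => ?_⟩
  rw [h.sum hf.1 (intg b P hf hθ) b2 fun z hz => (u1 z (b1 hz)).2.1,
    h'.sum hg.1 (intg b P' hg hθ) b2 fun z hz => (u1 z (b1 hz)).2.2]
  refine dbl _ _ (fun y x => map g (𝓝 y) = map f (𝓝 x)) (fun y hy => ?_) (fun x hx => ?_)
    fun x hx y hy c => ?_
  · rw [← hm y (h'.fin.mem_toFinset.1 hy), cnt, ← ncard_coe_finset]
    refine congrArg _ (Set.ext fun x => ?_)
    simp only [Finset.coe_filter, h.fin.mem_toFinset, mem_setOf_eq]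
    exact ⟨fun c => c.2.symm, fun c => ⟨(br_val hg.1.continuousAt hf.1.continuousAt c).trans
      (h'.fin.mem_toFinset.1 hy), c.symm⟩⟩
  · rw [← hm' x (h.fin.mem_toFinset.1 hx), cnt, ← ncard_coe_finset]
    refine congrArg _ (Set.ext fun y => ?_)
    simp only [Finset.coe_filter, h'.fin.mem_toFinset, mem_setOf_eq]
    exact ⟨fun c => c.2, fun c => ⟨(br_val hf.1.continuousAt hg.1.continuousAt c).trans
      (h.fin.mem_toFinset.1 hx), c⟩⟩
  · have hx := h.fin.mem_toFinset.1 hx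
    have hy := h'.fin.mem_toFinset.1 hy
    have key := nat b P P' hf hg hθ ((h'.op y).inter (u2.preimage hg.1))
      ((h.op x).inter (u2.preimage hf.1)) (φ := fun w => r x (g w)) (ψ := fun w => s y (f w))
      (fun w hw => ?_) (fun w hw => ?_) b2
    · rwa [inter_assoc, inter_assoc, ← preimage_inter, ← preimage_inter,
        inter_eq_right.2 b1] at key
    · obtain ⟨v, v1, v2⟩ := ((u1 _ hw.2).1 x hx y hy c).1 ⟨w, hw.1, rfl⟩
      obtain ⟨r1, r2, -⟩ := h.ret x hx v v1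
      rw [v2] at r1 r2
      refine ⟨r2.cmp (holA hg w), ?_⟩
      simp only [r1, v2]
      exact ⟨⟨v1, show f v ∈ U from v2 ▸ hw.2⟩, trivial, (h'.ret y hy w hw.1).1⟩
    · obtain ⟨v, v1, v2⟩ := ((u1 _ hw.2).1 x hx y hy c).2 ⟨w, hw.1, rfl⟩
      obtain ⟨r1, r2, -⟩ := h'.ret y hy v v1
      rw [v2] at r1 r2
      refine ⟨r2.cont.comp hf.1.continuousAt, ?_⟩
      simp only [r1, v2]
      exact ⟨⟨v1, show g v ∈ U from v2 ▸ hw.2⟩, (h.ret x hx w hw.1).1⟩

end two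

section three

variable {d n : ℕ} {X Z : Type} [TopologicalSpace X] [ChartedSpace (Cm (d + 1)) X]
  [IsManifold 𝓘(ℂ, Cm (d + 1)) ω X] [TopologicalSpace Z] [ChartedSpace (Cm n) Z]
  [IsManifold 𝓘(ℂ, Cm n) ω Z] {f : X → Z} {x : X}

theorem imm_of (hf : HolM (d + 1) n f) (hx : x ∉ Cr d n f) : Imm (d + 1) n f x :=
  .of_chart (holA hf x) (at_chart x) (at_chart _) (not_not.1 hx)

theorem cr_closed (hf : HolM (d + 1) n f) : IsClosed (Cr d n f) :=
  isOpen_compl_iff.1 (isOpen_iff_mem_nhds.2 fun x hx =>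
    ((imm_of hf hx).near (holA hf x)).mono fun y hy c => c (hy _ _ (at_chart y) (at_chart _)))

theorem int_off [T2Space X] [CompactSpace X] [MeasurableSpace X] [BorelSpace X] {k : ℕ}
    (hk : 2 * d < k) (b : Basis (Fin k) ℝ (Cm (d + 1))) (P : Pou (Cm (d + 1)) X)
    (hf : HolM (d + 1) n f) (θ : Fm n k Z) {Θ : Set Z} (h1 : IsClosed Θ) (h2 : ThinM n d Θ) :
    ∫ x in f ⁻¹' Θᶜ, qq b P f θ x ∂(P.meas volume) = ∫ x, qq b P f θ x ∂(P.meas volume) := by
  refine setIntegral_eq_integral_of_ae_compl_eq_zero ?_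
  filter_upwards [measure_eq_zero_iff_ae_notMem.1 (Tr.Deg1.meas_null P
    ((h1.preimage hf.1).measurableSet.diff (cr_closed hf).measurableSet)
    (Lt.null_of_thin rfl fun ⟨x, _⟩ => haveI := Nonempty.intro x; thin_off hf h2))] with x a c
  have h3 : pb (Cm (d + 1)) f θ x = 0 := by
    unfold pb
    rw [(hf.2 x _ _ (at_chart x) (at_chart (f x))).differentiableAt.fderiv_restrictScalars ℝ]
    exact RkA.alt_zero (not_not.1 fun c' => a ⟨not_not.1 c, c'⟩) hk _
  have he := at_chart (n := d + 1) x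
  rw [qq, Pou.quo, cf, pull_eq_loc he.1 _ ((chartAt _ x).map_source he.2), loc,
    (chartAt _ x).left_inv he.2, h3]
  exact smul_zero _

end three

end Dg

open Dg in
theorem stDeg : StDeg := by
  intro n X Y Z f g _ hf hg hs
  by_cases hc' : Ctr 2 n g
  · refine ⟨0, fun c => absurd hc' c, fun θ _ => ?_⟩
    rw [RkA.pb_zero (d := 1) hg hc' (by omega), zero_mul]
    exact Tr.intG_zero volume _
  have : Nonempty Z.M := Nonempty.map f inferInstance
  have h0 : ∀ Θ, ThinM n 1 Θ → ∃ y, g y ∉ Θ := fun Θ h => by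
    by_contra c
    exact hc' fun y => RkA.ninj_of_thin (d := 1) hg isOpen_univ
      (h.mono fun _ ⟨w, _, e⟩ => e ▸ not_not.1 fun c' => c ⟨w, c'⟩) (mem_univ y)
  have hc : ¬ Ctr 2 n f := fun c =>
    (h0 _ (RkA.thin (d := 1) hf c)).elim fun y hy => hy (hs (mem_range_self y))
  set Θ := f '' Cr 1 n f ∪ g '' Cr 1 n g
  have t1 : IsClosed Θ := (((cr_closed hf).isCompact.image hf.1).union
    ((cr_closed hg).isCompact.image hg.1)).isClosed
  have t2 : ThinM n 1 Θ := thin_union (thin_cr hf) (thin_cr hg)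
  have i1 : ∀ x, f x ∉ Θ → Imm 2 n f x := fun x a => imm_of hf fun c => a (.inl ⟨x, c, rfl⟩)
  have i2 : ∀ y, g y ∉ Θ → Imm 2 n g y := fun y a => imm_of hg fun c => a (.inr ⟨y, c, rfl⟩)
  have s1 := fun a (ha : a ∉ Θ) => exists_sh (a := a) (holA hf) fun x e => i1 x (e ▸ ha)
  have s2 := fun a (ha : a ∉ Θ) => exists_sh (a := a) (holA hg) fun y e => i2 y (e ▸ ha)
  have e1 : ∀ y, g y ∉ Θ → ∃ x, f x ∉ Θ ∧ map f (𝓝 x) = map g (𝓝 y) := fun y hy => by
    obtain ⟨V, r, h⟩ := s1 _ hy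
    obtain ⟨x, hx⟩ := ex_br (holA hf) h (holA hg y) (i2 y hy) hs
    exact ⟨x, br_val hg.1.continuousAt hf.1.continuousAt hx ▸ hy, hx⟩
  obtain ⟨y₀, y1⟩ := h0 Θ t2
  obtain ⟨x₀, x1, x2⟩ := e1 y₀ y1
  have hp := conn_thin (thin_pre hf hc t2)
  have c1 : ∀ x, f x ∉ Θ → cnt f (map f (𝓝 x)) = cnt f (map f (𝓝 x₀)) := fun x hx =>
    hp.constant (f := fun x => cnt f (map f (𝓝 x))) (fun w hw => by
      obtain ⟨V, r, h⟩ := s1 _ hw
      exact (continuousAt_const.congr ((cnt_loc (holA hf) h (holA hf w) (i1 w hw)).mono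
        fun _ => Eq.symm)).continuousWithinAt) hx x1
  have c2 : ∀ x, f x ∉ Θ → cnt g (map f (𝓝 x)) = cnt g (map f (𝓝 x₀)) := fun x hx =>
    hp.constant (f := fun x => cnt g (map f (𝓝 x))) (fun w hw => by
      obtain ⟨V, r, h⟩ := s2 _ hw
      exact (continuousAt_const.congr ((cnt_loc (holA hg) h (holA hf w) (i1 w hw)).mono
        fun _ => Eq.symm)).continuousWithinAt) hx x1
  have p1 : (0 : ℝ) < cnt f (map f (𝓝 x₀)) := by
    obtain ⟨V, r, h⟩ := s1 _ x1
    exact Nat.cast_pos.2 ((ncard_pos (h.fin.subset fun x hx =>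
      br_val hf.1.continuousAt hf.1.continuousAt hx)).2 ⟨x₀, rfl⟩)
  have p2 : (0 : ℝ) < cnt g (map f (𝓝 x₀)) := by
    obtain ⟨V, r, h⟩ := s2 _ x1
    exact Nat.cast_pos.2 ((ncard_pos (h.fin.subset fun x hx =>
      br_val hf.1.continuousAt hg.1.continuousAt hx)).2 ⟨y₀, x2.symm⟩)
  refine ⟨cnt g (map f (𝓝 x₀)) / cnt f (map f (𝓝 x₀)), fun _ => div_pos p2 p1, fun θ hθ => ?_⟩
  let _ : MeasurableSpace X.M := borel X.M
  have : BorelSpace X.M := ⟨rfl⟩
  let _ : MeasurableSpace Y.M := borel Y.M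
  have : BorelSpace Y.M := ⟨rfl⟩
  let _ : MeasurableSpace Z.M := borel Z.M
  have : BorelSpace Z.M := ⟨rfl⟩
  have := ChartedSpace.secondCountable_of_sigmaCompact (Cm n) Z.M
  set P : Pou (Cm 2) X.M := (exists_pou (E := Cm 2) (M := X.M)).some
  set P' : Pou (Cm 2) Y.M := (exists_pou (E := Cm 2) (M := Y.M)).some
  have key := glob hf.1.measurable hg.1.measurable (intg (tb 2) P hf hθ) (intg (tb 2) P' hg hθ)
    t1.isOpen_compl ⟨_, x1⟩ fun a ha => loc_int (tb 2) P P' hf hg hθ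
      (fun x e => i1 x (e ▸ ha)) (fun y e => i2 y (e ▸ ha))
      (fun y e => by
        obtain ⟨x, a1, a2⟩ := e1 y (e ▸ ha)
        exact a2 ▸ c1 x a1) fun x e => c2 x (e ▸ ha)
  rw [int_off (by omega) _ P hf θ t1 t2, int_off (by omega) _ P' hg θ t1 t2] at key
  rw [div_mul_eq_mul_div, eq_div_iff p1.ne', mul_comm]
  exact key

end Vale.Agent.P277Z.Top
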