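import Vale.Agent.P277Z.Top.Sk
import Vale.Agent.P277Z.Val.Jz
import Vale.Agent.P277Z.Val.LiftsB

/-!
# P277, block TOP: strict transforms
-/

open scoped Manifold ContDiff Topology
open Vale.Agent.P272.K Vale.Agent.P277 Set Filter
open Vale.Agent.P277.T2 (IsLEq)
open Vale.Agent.P277Z.Val Vale.Agent.P277Z.Val.U

noncomputable section

namespace Vale.Agent.P277Z.Top.Dm

/-- the model with the components in `X` -/
abbrev sub (V : Lg) (X : Finset (Fin V.r)) : Lg where
  W := V.W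
  r := X.card
  G i := V.G (X.equivFin.symm i)
  conn _ := V.conn _
  snc y := by
    obtain ⟨t, lab, h1, h2, h3⟩ := V.snc y
    exact ⟨t, fun i => lab (X.equivFin.symm i), h1, fun l l' i a b =>
      X.equivFin.symm.injective (Subtype.ext (h2 _ _ i a b)), h3.mono fun _ h _ => h _⟩

variable {V : Lg} {X : Finset (Fin V.r)}

theorem sub_E : (sub V X).E = ⋃ l ∈ X, V.G l := Lf.union_eq V X

theorem sub_U : (⋃ l ∈ (Finset.univ : Finset (Fin (sub V X).r)), (sub V X).G l) =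
    ⋃ l ∈ X, V.G l := by
  simpa using Lf.union_eq V X

theorem res_sub {Y : CSp} {ψ : V.W → Y.pt} (h : Res V Y ψ X) :
    Res (sub V X) Y ψ Finset.univ := by
  classical
  obtain ⟨P, c, τ, h1, h2, h3, h4⟩ := h.amp
  have e := sub_U (V := V) (X := X)
  refine ⟨h.cont, h.hol, h.surj, e ▸ h.emb, e ▸ h.inj, e ▸ h.an, e ▸ h.dim, P,
    fun i => c (X.equivFin.symm i), τ, h1, h2, fun i => by simp [h3], h4.sec, fun y i ζ hi hζ => ?_⟩
  obtain ⟨ζ', h5⟩ := V.exEq y
  obtain ⟨u, k1, k2, k3⟩ := h4.div y i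
    (fun l => if hl : l ∈ X then ζ (X.equivFin ⟨l, hl⟩) else ζ' l) hi fun l => by
      by_cases hl : l ∈ X
      · have := hζ (X.equivFin ⟨l, hl⟩)
        simpa [hl] using this
      · simpa [hl] using h5 l
  refine ⟨u, k1, k2, k3.mono fun x hx => hx.trans (congrArg _ ?_)⟩
  rw [← Finset.prod_subset X.subset_univ fun l _ hl => by
    rw [Nat.eq_zero_of_not_pos fun e => hl ((h3 l).1 e), pow_zero], ← Finset.prod_coe_sort,
    ← X.equivFin.symm.prod_comp]
  exact Finset.prod_congr rfl fun j _ => by simp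

end Vale.Agent.P277Z.Top.Dm

namespace Vale.Agent.P277Z.Top

open Dm in
/-- **DOM** -/
theorem stDom : StDom := by
  intro V U Y ψ X μ p hY hV hU hμ hf
  obtain rfl : ψ = fun y => p (μ y) := funext fun y => (hf y).symm
  have e0 : (⋃ l ∈ (Finset.univ : Finset (Fin U.r)), U.G l) = U.E := by simp [Lg.E]
  have hs : Function.Surjective μ := by
    rw [← range_eq_univ, ← (isCompact_range hμ.1).isClosed.closure_eq]
    refine Dense.closure_eq (U.dense.mono fun y hy => ?_)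
    obtain ⟨y', hy'⟩ := hV.surj (p y)
    exact ⟨y', hU.inj y _ (e0 ▸ hy) hy'⟩
  have hp : ∀ y, μ y ∈ U.E → y ∈ ⋃ l ∈ X, V.G l := by
    intro y hy
    by_contra h0
    have : Nonempty V.W := ⟨y⟩
    obtain ⟨k, hk⟩ := mem_iUnion.1 hy
    obtain ⟨z, ⟨a, b⟩, w, c, d⟩ := ((not_thin hk (thinM_image (H60.Z.thinM_of_emb hV.emb hU.dim)
      fun x => ⟨hμ.1.continuousAt, fun _ => Lf.holF_comp hμ.1 hμ.2 x⟩)).and_eventually
        (hU.cont.continuousAt.eventually (hV.emb.isOpen_image.mem_nhds ⟨y, h0, rfl⟩))).exists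
    obtain ⟨x, rfl⟩ := hs z
    obtain rfl := hV.inj w x c d.symm
    exact b ⟨x, ⟨c, μ x, e0 ▸ mem_iUnion.2 ⟨k, a⟩, rfl⟩, rfl⟩
  have h : Hom (sub V X) U μ := stHom (sub V X) U Y p μ _ _ hY hU (res_sub hV) hμ.1 hμ.2
    (fun y hy => sub_E ▸ hp y hy) fun k hk => absurd (Finset.mem_univ k) hk
  obtain ⟨s, h1⟩ := stStr _ _ _ h
  have h2 : ∀ y, Rg (fun k => (X.equivFin.symm (s k)).1) X y → LI (V' := sub V X) μ y := by
    intro y hy
    by_cases h3 : y ∈ (sub V X).E
    · obtain ⟨i, hi⟩ := mem_iUnion.1 h3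
      obtain ⟨⟨k, hk⟩, h4⟩ := hy _ (X.equivFin.symm i).2 hi
      obtain rfl := X.equivFin.symm.injective (Subtype.ext hk)
      exact li_str h h1 ⟨hi, fun j hj e => hj (X.equivFin.symm.injective
        (Subtype.ext (h4 _ (X.equivFin.symm j).2 e)))⟩
    · exact li_of_notE h h3
  refine ⟨fun k => X.equivFin.symm (s k), hμ, hs, fun y hy => by simpa using hp y hy,
    fun y y' a b => (h2 y a).inj h b, h2, h1.img, fun k => (X.equivFin.symm (s k)).2,
    fun k l e => Lg.not_sub ?_, fun k a b => ?_⟩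
  · rw [← h1.img k, ← h1.img l, X.equivFin.symm.injective (Subtype.ext e)]
  · have := h1.exc (X.equivFin ⟨k, a⟩) fun ⟨l, e⟩ => b ⟨l, by simp [e]⟩
    simpa using this

end Vale.Agent.P277Z.Top
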