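import Vale.Agent.P277Z.Top.Sk
import Vale.Agent.P277Z.Top.Api
import Vale.Agent.P277Z.Glc.Adj2
import Vale.Agent.P277Z.Val.Mon

/-!
# P277, block TOP: the pull back of a double surface
-/

set_option linter.all false
set_option maxSynthPendingDepth 3

open scoped Manifold ContDiff Topology
open Vale.Agent.P272.K Vale.Agent.P285.H281.FD Vale.Agent.P277 Set Filter
open Vale.Agent.P277.PH (HolF SmR)
open Vale.Agent.P277Z.Tr (pb HolM)
open Vale.Agent.P277Z.Val (Lg Sb IsCC Mon Hom0 holF_ev holF_cont)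
open Vale.Agent.P277Z.Slc (LEq)
open Vale.Agent.P277Z.Glc.Ad (leq_res leq_congr leq_one)
open Vale.Agent.P277Z.Gd

noncomputable section

namespace Vale.Agent.P277Z.Top

namespace Eg

theorem hcomp {d d' : ℕ} {X : Mf d} {X' : Mf d'} {ν : X'.M → X.M} (hν : HolM d' d ν) {y : X'.M}
    {ξ : X.M → ℂ} (hξ : HolF d ξ (ν y)) : HolF d' (fun z => ξ (ν z)) y := fun c hc => by
  refine ((hξ _ (at_ch _)).comp_of_eq (hν.2 y c _ hc (at_ch _)) (by rw [c.left_inv hc.2])).congr ?_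
  filter_upwards [PH.ev_symm hc.2 (hν.1.continuousAt.eventually
    ((chartAt (Cm d) (ν y)).open_source.mem_nhds (mem_chart_source _ _)))] with z hz
  exact congrArg ξ ((chartAt (Cm d) (ν y)).left_inv hz)

/-- the pull back of a Green function -/
theorem gr_pb {d d' : ℕ} {X : Mf d} {X' : Mf d'} {ν : X'.M → X.M} (hν : HolM d' d ν) {D : Set X.M}
    {β : Fr d 2 X.M} {g : X.M → ℝ} (hg : IsGr1 D β g) {ι : Type} {T : Finset ι}
    {D' : ι → Set X'.M} {m : ι → ℝ} (H : ∀ y ξ, LEq d D (ν y) ξ → ∃ (ζ : ι → X'.M → ℂ)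
      (w : X'.M → ℂ), (∀ i ∈ T, LEq d' (D' i) y (ζ i)) ∧ HolF d' w y ∧ w y ≠ 0 ∧
      ∀ᶠ z in 𝓝 y, (∀ i ∈ T, z ∉ D' i) → ν z ∉ D ∧ Real.log (‖ξ (ν z)‖ ^ 2) =
        Real.log (‖w z‖ ^ 2) + ∑ i ∈ T, m i * Real.log (‖ζ i z‖ ^ 2)) :
    IsGr T D' m (pb (Cm d') ν β) fun z => g (ν z) := by
  intro y
  obtain ⟨ξ, u, h1, h2⟩ := hg (ν y)
  obtain ⟨ζ, w, k1, k2, k3, k4⟩ := H y _ (h1 () (Finset.mem_univ _))
  refine ⟨ζ, fun z => u (ν z) - Real.log (‖w z‖ ^ 2), k1, ?_⟩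
  filter_upwards [hν.1.continuousAt.eventually h2.eventually_nhds, holF_ev k2,
    (holF_cont k2).eventually_ne k3, k4] with z a1 a2 a3 a4
  have a5 := a1.self_of_nhds
  refine ⟨smR_sub (smR_comp hν a5.1) (smR_log a2 a3), ?_, fun h => ?_⟩
  · rw [ddc_sub ((hν.1.continuousAt.eventually a1).mono fun _ h => smR_comp hν h.1)
      (ev_smR_log a2 a3), ddc_log a2 a3, sub_zero, ← pb_ddc hν (a1.mono fun _ h => h.1), pb, pb,
      a5.2.1]
  · show g (ν z) = _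
    rw [a5.2.2 fun _ _ => (a4 h).1]
    simp only [Finset.univ_unique, Finset.sum_singleton, one_mul, (a4 h).2]
    ring

variable {V U : Lg} (P : Par V)

theorem cc {l k : Fin V.r} {T : Set V.W} (h : IsCC V l k T) : (l, T) ∈ V.cmp :=
  Lg.cmp_iff.2 ⟨k, h⟩

theorem mem_G (l : Fin V.r) (y : (P.H l).M) : P.ι l y ∈ V.G l := P.rng l ▸ mem_range_self y

theorem res {l k : Fin V.r} {T : Set V.W} (h : IsCC V l k T) {y : (P.H l).M} (hy : P.ι l y ∈ T)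
    {ζ : V.W → ℂ} (hζ : LEq 4 (V.G k) (P.ι l y) ζ) :
    LEq 3 (range (P.j l T)) y fun x => ζ (P.ι l x) := by
  refine leq_congr (@leq_res 3 _ V.W _ _ _ _ V.ch V.mf _ _ _ _ _ _ V.snc (P.emb l) (mem_G P l) _
    h.ne _ (h.sub hy).2 _ hζ) ?_
  filter_upwards [(P.emb l).cont.continuousAt.eventually (h.loc _ hy)] with x hx
  rw [par_mem P (cc h), hx]
  exact ⟨fun a => a.2, fun a => ⟨mem_G P l x, a⟩⟩

theorem one {l k : Fin V.r} {T : Set V.W} (h : IsCC V l k T) {y : (P.H l).M} (hy : P.ι l y ∉ T) :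
    LEq 3 (range (P.j l T)) y fun _ => 1 :=
  leq_congr (leq_one (h.closed.preimage (P.emb l).cont) hy)
    (.of_forall (par_mem P (cc h)))

variable {P} {Q : Par U} {μ : V.W → U.W} {s : Fin U.r → Fin V.r} {X : Finset (Fin V.r)}
  {ν : ∀ k, (P.H (s k)).M → (Q.H k).M}

theorem hom0 (h : Dom V U μ s X) : Hom0 V U μ :=
  ⟨h.hol.1, h.hol.2, fun y hy => (h.pre y hy).elim fun k a => mem_iUnion.2 ⟨k, a.2⟩,
    fun y hy => h.det y fun k _ a => absurd (mem_iUnion.2 ⟨k, a⟩) hy⟩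

theorem cls (h : Dom V U μ s X) (hν : IsLift P Q μ s ν) {k k' : Fin U.r} {e : Set U.W}
    (he : IsCC U k k' e) {β : Fr 3 2 (Q.H k).M} {g : (Q.H k).M → ℝ}
    (hg : IsGr1 (range (Q.j k e)) β g) : ∃ m : Set V.W → ℝ,
      P.Cls (s k) m (pb (Cm 3) (ν k) β) ∧ ∀ T, m T ≠ 0 → μ '' T ⊆ e := by
  classical
  obtain ⟨n, hn⟩ := (hom0 h).exists_tot
  have n1 : ∀ l, n k' l ≠ 0 → μ '' V.G l ⊆ U.G k' := by
    rintro l hl _ ⟨x, hx, rfl⟩
    obtain ⟨η, hη⟩ := U.exEq (μ x)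
    obtain ⟨ζ, hζ⟩ := V.exEq x
    obtain ⟨w, -, -, a⟩ := hn x η hη k' ζ hζ
    refine (hη.iff.self_of_nhds k').1 (a.self_of_nhds.trans ?_)
    rw [Finset.prod_eq_zero (Finset.mem_univ l), mul_zero]
    rw [(hζ.iff.self_of_nhds l).2 hx, zero_pow hl]
  have n2 : n k' (s k) = 0 := by_contra fun a => he.ne (Lg.not_sub (h.img k ▸ n1 _ a)).symm
  have : Nonempty (Fin V.r) := ⟨s k⟩
  choose! κ hκ using fun T (hT : T ∈ cl V (s k)) =>
    show ∃ l, IsCC V (s k) l T from Lg.cmp_iff.1 (mem_cl.1 hT)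
  have mD := par_mem Q (cc he)
  refine ⟨fun T => if μ '' T ⊆ e then n k' (κ T) else 0, ⟨_, gr_pb (hν.hol k) hg fun y ξ hξ => ?_⟩,
    fun T hT => by_contra fun a => hT (if_neg a)⟩
  set x := P.ι (s k) y
  obtain ⟨ζ₀, h₀⟩ := V.exEq x
  let ζ : Fin V.r → V.W → ℂ := fun l => if x ∈ V.G l then ζ₀ l else fun _ => 1
  have hζ : V.Eq x ζ := fun l => by
    by_cases a : x ∈ V.G l
    · simpa only [ζ, if_pos a] using h₀ l
    · simp only [ζ, if_neg a]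
      exact leq_one (d := 4) (V.closed l) a
  have hι := (P.emb (s k)).cont.continuousAt (x := y)
  have hw := fun w (a : HolF 4 w x) => (P.emb (s k)).holF a
  have hc := (hν.hol k).1.continuousAt (x := y)
  have hξ' := hcomp (hν.hol k) hξ.hol
  suffices H : ∃ w, HolF 3 w y ∧ w y ≠ 0 ∧ ∀ᶠ z in 𝓝 y, (∀ l, l ≠ s k → P.ι _ z ∉ V.G l) →
      ν k z ∉ range (Q.j k e) ∧ Real.log (‖ξ (ν k z)‖ ^ 2) = Real.log (‖w z‖ ^ 2) +
        ∑ T ∈ cl V (s k) with x ∈ T, (if μ '' T ⊆ e then n k' (κ T) else 0 : ℝ) *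
          Real.log (‖ζ (κ T) (P.ι _ z)‖ ^ 2) by
    obtain ⟨w, w1, w2, w3⟩ := H
    refine ⟨fun T => if x ∈ T then fun z => ζ (κ T) (P.ι _ z) else fun _ => 1, w, fun T hT => ?_,
      w1, w2, w3.mono fun z a b => ?_⟩
    · by_cases a : x ∈ T
      · simpa only [if_pos a] using res P (hκ T hT) a (hζ _)
      · simpa only [if_neg a] using one P (hκ T hT) a
    · have c := a fun l hl hz => by
        have c := cc (Val.isCC_cc hl ⟨mem_G P _ z, hz⟩)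
        exact b _ (mem_cl.2 c) ((par_mem P c z).2 (mem_connectedComponentIn ⟨mem_G P _ z, hz⟩))
      refine ⟨c.1, c.2.trans ?_⟩
      rw [Finset.sum_filter]
      refine congrArg _ (Finset.sum_congr rfl fun T _ => ?_)
      by_cases a : x ∈ T <;> simp [a]
  by_cases hx : μ x ∈ e
  swap
  · have a : ξ (ν k y) ≠ 0 := fun a => hx (hν.fac k y ▸ (mD _).1 (hξ.mem.1 a))
    refine ⟨_, hξ', a, ?_⟩
    filter_upwards [(holF_cont hξ').eventually_ne a, hc.eventually hξ.1] with z a1 a2 _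
    refine ⟨mt a2.2 a1, ?_⟩
    rw [Finset.sum_eq_zero fun T hT => by
      rw [if_neg fun b => hx (b ⟨x, (Finset.mem_filter.1 hT).2, rfl⟩), zero_mul], add_zero]
  obtain ⟨η, hη⟩ := U.exEq (μ x)
  obtain ⟨w, w1, w2, w3⟩ := hn x η hη k' ζ hζ
  obtain ⟨v, v1, v2, v3⟩ := leq_unit (res Q he (y := ν k y) (hν.fac k y ▸ hx)
    (ζ := η k') (hν.fac k y ▸ hη k')) hξ
  refine ⟨fun z => v (ν k z) * w (P.ι _ z), (hcomp (hν.hol k) v1).mul (hw w w1),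
    mul_ne_zero v2 w2, ?_⟩
  filter_upwards [hc.eventually v3, hι.eventually w3, hι.eventually hζ.iff, hc.eventually hξ.1,
    hc.eventually ((holF_cont v1).eventually_ne v2),
    hι.eventually ((holF_cont w1).eventually_ne w2)] with z a1 a2 a3 a4 a5 a6 a7
  have b1 : ∀ l, ζ l (P.ι _ z) ^ n k' l ≠ 0 := fun l => by
    by_cases b : l = s k
    · rw [b, n2, pow_zero]; exact one_ne_zero
    · exact pow_ne_zero _ (mt (a3 l).1 (a7 l b))
  have b2 : ξ (ν k z) = v (ν k z) * w (P.ι _ z) * ∏ l, ζ l (P.ι _ z) ^ n k' l := by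
    rw [a1, hν.fac, mul_assoc, ← a2]
  have b3 := Finset.prod_ne_zero_iff.2 fun l (_ : l ∈ Finset.univ) => b1 l
  refine ⟨mt a4.2 (b2 ▸ mul_ne_zero (mul_ne_zero a5 a6) b3), ?_⟩
  rw [b2, norm_mul, mul_pow, Real.log_mul (pow_ne_zero 2 (norm_ne_zero_iff.2 (mul_ne_zero a5 a6)))
    (pow_ne_zero 2 (norm_ne_zero_iff.2 b3)), norm_prod,
    ← Finset.prod_pow, Real.log_prod fun l _ => pow_ne_zero 2 (norm_ne_zero_iff.2 (b1 l))]
  refine congrArg _ (Finset.sum_of_injOn κ (fun T hT T' hT' b => ?_) (fun _ _ => Finset.mem_univ _)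
    (fun l _ hl => ?_) fun T hT => ?_).symm
  · obtain ⟨c1, c2⟩ := Finset.mem_filter.1 hT
    obtain ⟨c3, c4⟩ := Finset.mem_filter.1 hT'
    rw [(hκ T c1).eq x c2, (hκ T' c3).eq x c4, b]
  · by_cases b : l = s k
    · simp [b, n2]
    by_cases c : x ∈ V.G l
    · have c1 := Val.isCC_cc b ⟨mem_G P _ y, c⟩
      have c2 := mem_cl.2 (cc c1)
      exact absurd ⟨_, Finset.mem_filter.2 ⟨c2, mem_connectedComponentIn ⟨mem_G P _ y, c⟩⟩,
        (hκ _ c2).unique c1⟩ hl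
    · simp [ζ, c]
  · obtain ⟨c1, c2⟩ := Finset.mem_filter.1 hT
    rw [norm_pow, pow_right_comm, Real.log_pow (_ ^ 2)]
    split_ifs with c
    · rfl
    rw [by_contra fun b : n k' (κ T) ≠ 0 => c ?_, Nat.cast_zero]
    rw [he.eq _ hx]
    refine ((hκ T c1).conn.2.image μ h.hol.1.continuousOn).subset_connectedComponentIn
      ⟨x, c2, rfl⟩ (subset_inter ?_ ((image_mono fun z a => ((hκ T c1).sub a).2).trans (n1 _ b)))
    exact h.img k ▸ image_mono fun z a => ((hκ T c1).sub a).1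

end Eg

open Eg in
theorem stEdge (hD : StDeg) (hP : StPL) (hS : StPos) (hF : StForm) (hL : StLam) : StEdge := by
  rintro V U P Q μ s X ν h hν ⟨k, e⟩ hc Y p R hp hd β g hg
  obtain ⟨k', he⟩ := Lg.cmp_iff.1 hc
  obtain ⟨m, ⟨g', h1⟩, h2⟩ := cls h hν he hg
  refine ⟨m, ⟨g', h1⟩, ?_⟩
  have hj := fun T (hT : T ∈ cl V (s k)) => par_hol₂ P (mem_cl.1 hT)
  have E : ∀ T ∈ cl V (s k), ∃ l : ℝ, ∀ θ : Fr 3 4 (Q.H k).M, Sm θ →
      m T * (P.S T).int (pb (Cm 2) (P.j _ T) (pb (Cm 3) (ν k) θ)) =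
        l * (Q.S e).int (pb (Cm 2) (Q.j k e) θ) := fun T hT => by
    by_cases h0 : m T = 0
    · exact ⟨0, fun _ _ => by rw [h0, zero_mul, zero_mul]⟩
    obtain ⟨l, -, a⟩ := hD 3 (Q.S e) (P.S T) (Q.H k) _ _ (Q.conn₂ _ hc) (par_hol₂ Q hc)
      (holM_comp (hν.hol k) (hj T hT)) (by
        rintro _ ⟨z, rfl⟩
        refine (par_mem Q hc _).2 (h2 T h0 ⟨_, ?_, (hν.fac k _).symm⟩)
        exact (par_mem P (mem_cl.1 hT) _).1 ⟨z, rfl⟩)
    exact ⟨m T * l, fun θ hθ => by rw [pb_pb (hj T hT) (hν.hol k), a θ hθ, mul_assoc]⟩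
  choose! l hl using E
  obtain ⟨L, ψ, hA⟩ := R.cv
  have a1 := (hL 4 (lgM U)).1 L ψ _ hA
  obtain ⟨f1, f2, -, -, -, -, -, f3⟩ := hF Y R.B 4 (lgM U) p hp
  have hι := par_hol Q k
  have f4 := ((hF Y R.B 3 (Q.H k) (fun x => p (Q.ι k x)) ⟨hp.1.comp hι.1, fun x g a =>
    (Q.emb k).holF (hp.2 _ g a)⟩).2.2.2.2.1 (hd.mono (by
      rintro _ ⟨x, rfl⟩
      exact ⟨_, mem_iUnion.2 ⟨k, mem_G Q k x⟩, rfl⟩))).1
  rw [← f3 3 (Q.H k) _ hι] at f4
  set w := pb (Cm 3) (Q.ι k) (R.A + R.τ • R.B.form 4 p)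
  have w1 : w ∈ C11 (Q.H k) := (C11 (Q.H k)).add_mem (x := pb (Cm 3) (Q.ι k) R.A)
    ⟨cl_pb hι a1.1, is11_pb hι a1.2⟩ ((C11 (Q.H k)).smul_mem R.τ ⟨f4, is11_pb hι f2⟩)
  have w2 : Pd (pb (Cm 2) (Q.j k e) w) := pd_pb (Q.emb₂ _ hc) (pd_pb (Q.emb k) R.pos)
  have w3 := cl_wd w1.1 w1.1
  have w4 := cl_pb (hν.hol k) w3
  have w5 := sm_pb (par_hol₂ Q hc) (cl_sm w1.1)
  have w6 := is11_pb (par_hol₂ Q hc) w1.2
  have w7 : Psd (pb (Cm 2) (Q.j k e) w) := fun x v => by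
    by_cases a : v = 0
    · rw [a, ContinuousAlternatingMap.map_coord_zero _ 0 rfl]
    · exact (w2 x v a).le
  have := Q.conn₂ _ hc
  obtain ⟨x⟩ : Nonempty (Q.S e).M := inferInstance
  have i0 := (hS.2.1 _ _ _ w5 w6 w7 w5 w6 w7).2 x
    (fun a => (w2 x 1 one_ne_zero).ne' (by rw [a]; rfl)) (w2 x)
  have i1 := hP 2 (P.H (s k)) _ _ P.S (P.j (s k)) m _ g' univ univ _
    (fun T hT => P.emb₂ _ (mem_cl.1 hT)) h1 isClosed_univ isOpen_univ subset_rfl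
    (fun _ _ => subset_univ _) (fun _ a => absurd trivial a) (cl_sm w4) fun x _ => (w4 x).2
  have i2 := hP 2 (Q.H k) _ _ (fun _ => Q.S e) (fun _ => Q.j k e) _ _ g univ univ _
    (fun _ _ => Q.emb₂ _ hc) hg isClosed_univ isOpen_univ subset_rfl
    (fun _ _ => subset_univ _) (fun _ a => absurd trivial a) (cl_sm w3) fun x _ => (w3 x).2
  have i3 := hν.int k _ (sm_wd (cl_sm (gr_cl hg).1) (cl_sm w3))
  rw [pb_wd] at i3
  have i4 := i1.symm.trans (i3.trans i2)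
  rw [Finset.sum_congr rfl fun T hT => hl T hT _ (cl_sm w3), ← Finset.sum_mul, Fintype.sum_unique,
    pb_wd] at i4
  intro θ hθ
  rw [← par_pb Q hc, ← one_mul ((Q.S e).int _), ← mul_right_cancel₀ i0.ne' i4, Finset.sum_mul]
  refine Finset.sum_congr rfl fun T hT => ?_
  rw [← hl T hT _ (sm_pb hι hθ), ← par_pb P (mem_cl.1 hT), pb_pb (par_hol P _) h.hol,
    pb_pb (hν.hol k) hι, funext (hν.fac k)]

end Vale.Agent.P277Z.Top
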