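import Vale.Agent.P277Z.Top.Sk

/-!
# P277, block TOP: the image of a surface in a threefold (statement)
-/

set_option linter.all false

open scoped Manifold ContDiff Topology
open Vale.Agent.P272.K Vale.Agent.P285.H281.FD Set Filter
open Vale.Agent.P277Z.Tr (HolM Ctr)

noncomputable section

namespace Vale.Agent.P277Z.Top

/-- **IMG**: the image of a surface in a threefold is the zero set of a section -/
def StImg : Prop :=
  ∀ (S : Mf 2) (H : Mf 3) (f : S.M → H.M), ConnectedSpace S.M → HolM 2 3 f → ¬ Ctr 2 3 f →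
    ∃ (L : Bd H.M) (σ : L.ι → H.M → ℂ), IsLB 3 L ∧ IsSec 3 L σ ∧
      ∀ i, ∀ y ∈ L.U i, σ i y = 0 ↔ y ∈ range f

end Vale.Agent.P277Z.Top
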