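import Vale.Agent.P277Z.Top.Sk
import Vale.Agent.P277Z.Tr.Deg1
import Vale.Agent.P277Z.Val.RkB
import Vale.Agent.P277Z.Val.LiftsB

/-!
# P277, block TOP: the maps of the strict transforms
-/

set_option linter.unusedSectionVars false
set_option maxSynthPendingDepth 3

open scoped Manifold ContDiff Topology
open Vale.Agent.P272.K Vale.Agent.P277 Set Filter
open Vale.Agent.P277.PH (HolF at_chartAt ev_symm)
open Vale.Agent.P277.T3 (ThinM thinM_iUnion)
open Vale.Agent.P277Z.Val Vale.Agent.P277Z.Val.U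
open Vale.Agent.P277Z.Tr (Null Bim)

noncomputable section

namespace Vale.Agent.P277Z.Top.Lt

section man
variable {m n : ℕ} {X Y : Type} [TopologicalSpace X] [ChartedSpace (Cm m) X]
  [IsManifold 𝓘(ℂ, Cm m) ω X] [TopologicalSpace Y] [ChartedSpace (Cm n) Y]
  [IsManifold 𝓘(ℂ, Cm n) ω Y] {f : X → Y}

theorem holM_of (h : Tr.HolM m n f) (x : X) : Val.HolM m n f x :=
  ⟨h.1.continuousAt, fun g hg e he => AnM.hol (n := n) (γ := fun z => f (e.symm z))
    ⟨h.1.continuousAt.comp (e.continuousAt_symm he.mem_target), fun e' he' =>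
      h.2 x e e' he (by simpa only [he.left_inv] using he')⟩ (by rwa [he.left_inv])⟩

theorem of_holM (h : ∀ x, Val.HolM m n f x) : Tr.HolM m n f :=
  ⟨continuous_iff_continuousAt.2 fun x => (h x).1, fun x e _ he he' =>
    analyticAt_pi_iff.2 fun i => (h x).2 _ (holF_chart he' i) e he⟩

theorem thin_range [CompactSpace X] [Nonempty Y] (h : ∀ x, Val.HolM m n f x) :
    ThinM n m (range f) := by
  have : SecondCountableTopology X := ChartedSpace.secondCountable_of_sigmaCompact (Cm m) X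
  rw [← image_univ]
  refine Rk.thinM_image_local fun x _ => ?_
  have he := at_chartAt (n := m) x
  set e := chartAt (Cm m) x
  refine ⟨_, e.open_source.mem_nhds he.2, thinM_mono (thinM_single (g := fun w => f (e.symm w))
    e.open_target fun w hw => ?_) ?_⟩
  · have := (crd_chart (⟨he.1, e.map_target hw⟩ : At e _)).an
    rw [e.right_inv hw] at this
    exact this.map (h _)
  · rintro _ ⟨z, hz, rfl⟩
    exact ⟨e z, e.map_source hz.1, by simp only [e.left_inv hz.1]⟩

end man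

section bim
variable {n d : ℕ} {X Y : Type} [TopologicalSpace X] [ChartedSpace (Cm n) X]
  [IsManifold 𝓘(ℂ, Cm n) ω X] [TopologicalSpace Y] [ChartedSpace (Cm n) Y]
  [IsManifold 𝓘(ℂ, Cm n) ω Y] {f : X → Y} {B : Set X}

theorem null_of_thin (hn : n = d + 1) (h : B.Nonempty → ThinM n d B) : Null n B := fun e he => by
  subst hn
  rcases B.eq_empty_or_nonempty with rfl | h0
  · simp
  refine ((nul_of_cv (H762.cv_chart (h h0) he)).mono ?_).volume_eq_zero
  rintro _ ⟨x, hx, rfl⟩
  exact ⟨e.map_source hx.2, by simpa only [mem_preimage, e.left_inv hx.2] using hx.1⟩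

/-- maps which are isomorphisms outside a thin closed set -/
theorem bim_of [CompactSpace X] [T2Space Y] (hn : n = d + 1) (h : Tr.HolM n n f)
    (hs : Function.Surjective f) (hB : IsClosed B) (ht : Nonempty X → ThinM n d B)
    (hi : ∀ x ∉ B, ∀ x', f x' = f x → x' = x)
    (hl : ∀ x ∉ B, LocIso (fun z => chartAt (Cm n) (f x)
      (f ((chartAt (Cm n) x).symm z))) (chartAt (Cm n) x x)) :
    Bim n f (f '' B)ᶜ (Function.surjInv hs) := by
  have h1 : IsOpen (f '' B)ᶜ := (h.1.isClosedMap _ hB).isOpen_compl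
  have h2 : ∀ x, f x ∈ (f '' B)ᶜ → Function.surjInv hs (f x) = x := fun x hx =>
    hi x (fun e => hx ⟨x, e, rfl⟩) _ (Function.surjInv_eq hs _)
  refine ⟨h, h1, fun y hy => ?_, h2, fun y _ => Function.surjInv_eq hs y, ?_,
    null_of_thin hn fun ⟨x, _⟩ => thinM_mono (ht ⟨x⟩) fun x hx => ?_⟩
  · obtain ⟨x, rfl⟩ := hs y
    have he := at_chartAt (n := n) x
    have he' := at_chartAt (n := n) (f x)
    have hc := crd_chart he'
    obtain ⟨ξ, h3⟩ := crd_pull (holM_of h x) (crd_chart he) hc (hl x fun e => hy ⟨x, e, rfl⟩)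
    have h4 := h3.tend.comp hc.cont
    have h5 : ∀ᶠ z in 𝓝 (f x), ξ (chartAt (Cm n) (f x) z) = Function.surjInv hs z := by
      filter_upwards [hc.cont.eventually h3.right, hc.left,
        (h.1.continuousAt.tendsto.comp h4).eventually hc.left, h1.mem_nhds hy] with z a b c e
      have g := c.symm.trans ((congrArg _ a).trans b)
      simp only [Function.comp_apply] at g
      exact (h2 _ (by rwa [g])).symm.trans (congrArg _ g)
    have h6 : AnM n (fun w => Function.surjInv hs ((chartAt (Cm n) (f x)).symm w))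
        (chartAt (Cm n) (f x) (f x)) := h3.an.congr (by
      filter_upwards [hc.tend.eventually h5, hc.right] with w a b
      rw [← a, b])
    refine ⟨(h3.an.1.comp hc.cont).congr h5,
      ((h6.2 _ ?_).contDiffAt.restrict_scalars ℝ).of_le le_top⟩
    simpa only [he'.left_inv] using at_chartAt _
  · rw [compl_compl]
    exact null_of_thin hn fun ⟨_, x, _⟩ => thinM_image (ht ⟨x⟩) (holM_of h)
  · obtain ⟨b, hb, e⟩ := not_not.1 hx
    exact by_contra fun c => c (hi x c b e ▸ hb)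

end bim

section lift
variable {m n : ℕ} {X Y X' Y' : Type} [TopologicalSpace X] [ChartedSpace (Cm m) X]
  [IsManifold 𝓘(ℂ, Cm m) ω X] [TopologicalSpace Y] [ChartedSpace (Cm m) Y]
  [IsManifold 𝓘(ℂ, Cm m) ω Y] [TopologicalSpace X'] [ChartedSpace (Cm n) X']
  [IsManifold 𝓘(ℂ, Cm n) ω X'] [TopologicalSpace Y'] [ChartedSpace (Cm n) Y']
  [IsManifold 𝓘(ℂ, Cm n) ω Y'] {i : X → X'} {j : Y → Y'} {f : X → Y} {g : X' → Y'}

theorem hol_lift [CompactSpace Y] [T2Space Y'] (hi : Sb m n i) (hj : Sb m n j)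
    (hg : Tr.HolM n n g) (e : ∀ x, j (f x) = g (i x)) : Tr.HolM m m f := by
  have h1 : Continuous f := (hj.cont.isClosedEmbedding hj.inj).isInducing.continuous_iff.2
    ((hg.1.comp hi.cont).congr fun x => (e x).symm)
  refine of_holM fun x => ⟨h1.continuousAt, fun u hu => ?_⟩
  obtain ⟨F, h2, h3⟩ := hj.ext hu
  refine (hi.holF ((holM_of hg _).2 F (e x ▸ h2))).congr ?_
  filter_upwards [h1.continuousAt.eventually h3] with z hz
  rw [hz, e]

theorem locIso_lift (hi : Sb m n i) (hj : Sb m n j) (hf : Tr.HolM m m f)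
    (e : ∀ x, j (f x) = g (i x)) {x : X} {a : Chart m X} {b : Chart m Y} {a' : Chart n X'}
    {b' : Chart n Y'} (ha : At a x) (hb : At b (f x)) (ha' : At a' (i x)) (hb' : At b' (j (f x)))
    (h : LocIso (fun z => b' (g (a'.symm z))) (a' (i x))) :
    LocIso (fun z => b (f (a.symm z))) (a x) := by
  have h1 := hf.2 x a b ha hb
  obtain ⟨h2, h3⟩ := hi.holo x a a' ha ha'
  have h4 := (hj.holo _ b b' hb hb').1
  rw [← ha.left_inv] at h h4
  have h5 := (HasFDerivAt.comp (f := fun z => b (f (a.symm z))) (a x)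
    h4.differentiableAt.hasFDerivAt h1.differentiableAt.hasFDerivAt).unique
    ((HasFDerivAt.comp (f := fun z => a' (i (a.symm z))) (a x) h.1.differentiableAt.hasFDerivAt
      h2.differentiableAt.hasFDerivAt).congr_of_eventuallyEq (by
      filter_upwards [ev_symm ha.2 ((hf.1.continuousAt.eventually (b.eventually_left_inverse
        hb.2)).and (hi.cont.continuousAt.eventually (a'.eventually_left_inverse ha'.2)))] with w c
      simp only [Function.comp_apply, c.1, c.2, e]))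
  have h6 := h.inj.comp h3
  rw [← ContinuousLinearMap.coe_comp, ← h5] at h6
  exact locIso_of_inj h1 (Function.Injective.of_comp h6)

end lift

variable {V U : Lg} {μ : V.W → U.W} {s : Fin U.r → Fin V.r} {X : Finset (Fin V.r)}

theorem locIso (h : Dom V U μ s X) {y : V.W} (hy : Rg s X y) :
    LocIso (fun z => chartAt (Cm 4) (μ y) (μ ((chartAt (Cm 4) y).symm z))) (chartAt (Cm 4) y y) :=
  ⟨h.hol.2 y _ _ (at_chartAt y) (at_chartAt _), h.det y hy _ _ (at_chartAt y) (at_chartAt _)⟩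

theorem rg_gen {k : Fin U.r} {y : V.W} (h : Gen V (s k) y) : Rg s X y := fun l _ a =>
  have e : ∀ j, y ∈ V.G j → j = s k := fun j b => by_contra fun c => h.2 j c b
  ⟨⟨k, (e l a).symm⟩, fun j _ b => (e j b).trans (e l a).symm⟩

theorem thin_par (P : Par V) (l : Fin V.r) : ThinM 3 2 {x | ¬ Gen V l (P.ι l x)} := by
  have := P.conn l
  have : Finite {T // (l, T) ∈ V.cmp} :=
    (V.cmp.finite_toSet.preimage (Prod.mk_right_injective l).injOn).to_subtype
  refine thinM_mono (thinM_iUnion fun c : {T // (l, T) ∈ V.cmp} =>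
    thin_range (P.emb₂ _ c.2).holM) fun x hx => ?_
  have h1 : P.ι l x ∈ V.G l := P.rng l ▸ mem_range_self x
  obtain ⟨k, a, b⟩ : ∃ k, k ≠ l ∧ P.ι l x ∈ V.G k := by
    by_contra! c
    exact hx ⟨h1, c⟩
  have h2 : (l, connectedComponentIn (V.G l ∩ V.G k) (P.ι l x)) ∈ V.cmp :=
    Lg.mem_cmp.2 ⟨k, a, _, ⟨h1, b⟩, rfl⟩
  obtain ⟨t, ht⟩ := (P.rng₂ _ h2).ge (mem_connectedComponentIn ⟨h1, b⟩)
  exact mem_iUnion.2 ⟨⟨_, h2⟩, t, (P.emb l).inj ((P.fac _ h2 t).trans ht)⟩

end Vale.Agent.P277Z.Top.Lt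

namespace Vale.Agent.P277Z.Top

open Lt in
/-- **LIFT** -/
theorem stLift : StLift := by
  intro V U P Q μ s X h
  have h1 : ∀ k x, μ (P.ι (s k) x) ∈ range (Q.ι k) := fun k x => by
    rw [Q.rng, ← h.img, ← P.rng]
    exact ⟨_, mem_range_self x, rfl⟩
  choose ν hν using h1
  have h2 : ∀ k, Tr.HolM 3 3 (ν k) := fun k => hol_lift (P.emb _) (Q.emb k) h.hol (hν k)
  refine ⟨⟨ν, h2, hν, fun k θ hθ => Tr.deg1 3 _ _ _ _ _ _ _ (bim_of (n := 3) rfl (h2 k) (fun z => ?_)
    ?_ (fun _ => thin_par P (s k)) (fun x a x' b => ?_) fun x a => ?_) θ hθ⟩, fun θ hθ => ?_⟩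
  · have : Q.ι k z ∈ μ '' range (P.ι (s k)) := by
      rw [P.rng, h.img, ← Q.rng]
      exact mem_range_self z
    obtain ⟨_, ⟨x, rfl⟩, e⟩ := this
    exact ⟨x, (Q.emb k).inj ((hν k x).trans e)⟩
  · convert (closed_notGen V (s k)).preimage (P.emb (s k)).cont using 1
    exact Set.ext fun x => (and_iff_right (P.rng _ ▸ mem_range_self x)).symm
  · exact (P.emb _).inj (h.inj _ _ (rg_gen (not_not.1 a)) (by rw [← hν, ← hν, b]))
  · exact locIso_lift (P.emb _) (Q.emb k) (h2 k) (hν k) (at_chartAt x) (at_chartAt _)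
      (at_chartAt _) (hν k x ▸ at_chartAt _) (locIso h (rg_gen (not_not.1 a)))
  · have h3 : ∀ y ∉ V.E, Rg s X y := fun y a l _ b => absurd (mem_iUnion.2 ⟨l, b⟩) a
    exact Tr.deg1 4 _ _ _ _ _ _ _ (bim_of (n := 4) (d := 3) rfl h.hol h.surj V.closedE
      (fun _ => thinM_iUnion fun l => P.rng l ▸ thin_range (P.emb l).holM)
      (fun y a y' => h.inj y y' (h3 y a)) fun y a => locIso h (h3 y a)) θ hθ

end Vale.Agent.P277Z.Top
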