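import Vale.Agent.P277Z.Top.Rk
import Vale.Agent.P277Z.Top.DgSk
import Vale.Agent.P277Z.Top.Lift
import Vale.Agent.P277Z.Pj.Rem
import Vale.Agent.P277Z.Pj.Nrm
import Vale.Agent.P277Z.Val.Ident
import Vale.Agent.P277.H762.CL5
import Vale.Agent.P277.H335.Hyp

/-!
# P277, block TOP, row IMG: the image of a surface in a threefold
-/

set_option linter.all false
set_option maxSynthPendingDepth 3

open scoped Manifold ContDiff Topology
open Vale.Agent.P272.K Vale.Agent.P277 Set Filter Metric Function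
open Vale.Agent.P277.PH (at_chartAt ev_symm chg_analyticAt)
open Vale.Agent.P277.T3 (ThinM thinM_iUnion thinM_of_local IsHypAt IsAnAt)
open Vale.Agent.P277.H762 (Cv)
open Vale.Agent.P277Z.Tr (pb HolM Ctr dM)

noncomputable section

namespace Vale.Agent.P277Z.Top

namespace Dg

variable {d n : ℕ} {X Z : Type} [TopologicalSpace X] [ChartedSpace (Cm (d + 1)) X]
  [IsManifold 𝓘(ℂ, Cm (d + 1)) ω X] [TopologicalSpace Z] [ChartedSpace (Cm n) Z]
  [IsManifold 𝓘(ℂ, Cm n) ω Z] {f : X → Z}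

variable (d n) in
/-- the points where `f` is not an immersion -/
def Cr (f : X → Z) : Set X := {x | ¬ Injective (dM (d + 1) n f x)}

theorem thin_cr [CompactSpace X] [Nonempty Z] (hf : HolM (d + 1) n f) :
    ThinM n d (f '' Cr d n f) := by
  have : SecondCountableTopology X :=
    ChartedSpace.secondCountable_of_sigmaCompact (Cm (d + 1)) X
  refine Val.Rk.thinM_image_local fun x _ => ?_
  obtain ⟨c, e, r, a, b, hr, h⟩ := RkA.exists_ball hf x
  have h1 := Pj.Bdd.cv_conn isOpen_ball (convex_ball (c x) r).isPreconnected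
    ⟨_, mem_ball_self hr⟩ fun z hz => (h z hz).2.2.1
  refine ⟨c.source ∩ c ⁻¹' ball (c x) r, inter_mem (c.open_source.mem_nhds a.2)
    ((c.continuousAt a.2).preimage_mem_nhds (ball_mem_nhds _ hr)),
    (H335.HY.thinM_of_cv b h1 ?_).mono ?_⟩
  · rintro _ ⟨z, hz, rfl⟩
    exact e.map_source (h z hz.1).2.1
  · rintro _ ⟨y, ⟨⟨h2, h3⟩, h7⟩, rfl⟩
    obtain ⟨-, h4, -, h5⟩ := h _ h3
    refine ⟨_, ⟨c y, ⟨h3, fun h6 => h7 (c.left_inv h2 ▸ h5.1 h6)⟩, rfl⟩, ?_⟩
    rw [e.left_inv h4, c.left_inv h2]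

theorem dense_pre [PreconnectedSpace X] (hf : HolM (d + 1) n f) (hc : ¬ Ctr (d + 1) n f)
    {Θ : Set Z} (h : ThinM n d Θ) : Dense (f ⁻¹' Θ)ᶜ := by
  rw [← interior_eq_empty_iff_dense_compl]
  by_contra k
  exact hc (RkA.ctr_of hf isOpen_interior (nonempty_iff_ne_empty.2 k)
    (h.mono (image_subset_iff.2 interior_subset)))

theorem dense_cr [CompactSpace X] [ConnectedSpace X] (hf : HolM (d + 1) n f)
    (hc : ¬ Ctr (d + 1) n f) : Dense (Cr d n f)ᶜ := by
  have : Nonempty Z := Nonempty.map f inferInstance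
  exact (dense_pre hf hc (thin_cr hf)).mono (compl_subset_compl.2 (subset_preimage_image f _))

/-- thin sets are nowhere dense and do not disconnect -/
theorem loc_thin {B : Set X} (h : ThinM (d + 1) d B) (x : X) :
    ∃ O, IsOpen O ∧ x ∈ O ∧ IsPreconnected (O \ B) ∧ O ⊆ closure (O \ B) := by
  have he := at_chartAt (n := d + 1) x
  set e := chartAt (Cm (d + 1)) x
  obtain ⟨r, hr, hb⟩ := Metric.isOpen_iff.1 e.open_target _ (e.map_source he.2)
  obtain ⟨k1, k2⟩ := Val.conn_cv (isOpen_ball (x := e x) (ε := r)) (convex_ball _ _)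
    (H762.cv_chart h he.1)
  have h1 : e.symm '' ball (e x) r \ B =
      e.symm '' (ball (e x) r \ (e.target ∩ e.symm ⁻¹' B)) := by
    ext y
    constructor
    · rintro ⟨⟨z, hz, rfl⟩, k⟩
      exact ⟨z, ⟨hz, fun c => k c.2⟩, rfl⟩
    · rintro ⟨z, ⟨hz, k⟩, rfl⟩
      exact ⟨⟨z, hz, rfl⟩, fun c => k ⟨hb hz, c⟩⟩
  refine ⟨e.symm '' ball (e x) r, e.symm.isOpen_image_of_subset_source isOpen_ball hb,
    ⟨e x, mem_ball_self hr, e.left_inv he.2⟩, ?_, ?_⟩
  · rw [h1]
    exact k1.image _ (e.continuousOn_symm.mono fun z hz => hb hz.1)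
  · rintro _ ⟨z, hz, rfl⟩
    rw [h1]
    exact (e.continuousAt_symm (hb hz)).continuousWithinAt.mem_closure_image (k2 hz)

theorem dense_thin {B : Set X} (h : ThinM (d + 1) d B) : Dense Bᶜ := fun x =>
  let ⟨_, _, a, _, b⟩ := loc_thin h x
  closure_mono (fun _ k => k.2) (b a)

theorem conn_thin [PreconnectedSpace X] {S : Set X} (h : ThinM (d + 1) d S) :
    IsPreconnected Sᶜ := by
  rintro U V hU hV hUV ⟨a, haS, haU⟩ ⟨b, hbS, hbV⟩
  have h1 : closure (Sᶜ ∩ U) ∪ closure (Sᶜ ∩ V) = univ := by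
    rw [← closure_union, ← inter_union_distrib_left, inter_eq_left.2 hUV]
    exact (dense_thin h).closure_eq
  obtain ⟨x, -, hx1, hx2⟩ := isPreconnected_closed_iff.1 (isPreconnected_univ (α := X))
    (closure (Sᶜ ∩ U)) (closure (Sᶜ ∩ V)) isClosed_closure isClosed_closure
    h1.ge ⟨a, mem_univ a, subset_closure ⟨haS, haU⟩⟩ ⟨b, mem_univ b, subset_closure ⟨hbS, hbV⟩⟩
  obtain ⟨O, hO, hxO, hpre, -⟩ := loc_thin h x
  obtain ⟨u, huO, huS, huU⟩ := mem_closure_iff.1 hx1 O hO hxO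
  obtain ⟨v, hvO, hvS, hvV⟩ := mem_closure_iff.1 hx2 O hO hxO
  obtain ⟨z, ⟨hzO, hzS⟩, hz⟩ := hpre U V hU hV (fun y hy => hUV hy.2) ⟨u, ⟨huO, huS⟩, huU⟩
    ⟨v, ⟨hvO, hvS⟩, hvV⟩
  exact ⟨z, hzS, hz⟩

theorem an_e (hf : HolM (d + 1) n f) {e : Chart n Z} {x : X} (he : At e (f x)) :
    Pj.HolV (d + 1) (fun w => e (f w)) x := fun c hc => hf.2 x c e hc he

theorem imm_e (hf : HolM (d + 1) n f) {e : Chart n Z} {x : X} (he : At e (f x))
    (hx : x ∉ Cr d n f) : Pj.Imm (d + 1) (fun w => e (f w)) x := fun _ hc =>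
  RkA.inj_chg hf (at_chartAt x) hc (at_chartAt _) he (not_not.1 hx)

theorem thin_off [CompactSpace X] [Nonempty X] (hf : HolM (d + 1) n f) {Θ : Set Z}
    (h : ThinM n d Θ) : ThinM (d + 1) d (f ⁻¹' Θ \ Cr d n f) := by
  have : SecondCountableTopology X :=
    ChartedSpace.secondCountable_of_sigmaCompact (Cm (d + 1)) X
  refine thinM_of_local fun x hx => ?_
  have a := at_chartAt (n := d + 1) x
  have b := at_chartAt (n := n) (f x)
  set c := chartAt (Cm (d + 1)) x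
  set e := chartAt (Cm n) (f x)
  obtain ⟨G, g1, g2⟩ := (imm_e hf b hx.2).chart_eq (an_e hf b) a
  have g3 : ∀ᶠ z in 𝓝 (e (f x)), G z ∈ c.target := g1.continuousAt.eventually
    (c.open_target.mem_nhds (g2.self_of_nhds ▸ c.map_source a.2))
  obtain ⟨U, u1, u2, u3⟩ := _root_.eventually_nhds_iff.1 (g1.eventually_analyticAt.and g3)
  have t : Cv d (G '' (U ∩ (e.target ∩ e.symm ⁻¹' Θ))) :=
    ((H762.cv_chart h b.1).mono inter_subset_right).image u2 inter_subset_left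
      fun z hz => (u1 z hz).1
  refine ⟨_, (g2.and (c.open_source.mem_nhds a.2)).and (hf.1.continuousAt.eventually
    ((e.open_source.eventually_mem b.2).and ((e.continuousAt b.2).eventually (u2.mem_nhds u3)))),
    (H335.HY.thinM_of_cv a.1 t ?_).mono ?_⟩
  · rintro _ ⟨z, hz, rfl⟩
    exact (u1 z hz.1).2
  · rintro w ⟨⟨⟨w1, w2⟩, w3, w4⟩, w5, -⟩
    refine ⟨c w, ⟨e (f w), ⟨w4, e.map_source w3, ?_⟩, w1.symm⟩, c.left_inv w2⟩
    rw [mem_preimage, e.left_inv w3]
    exact w5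

theorem thin_union {m k : ℕ} {M : Type} [TopologicalSpace M] [ChartedSpace (Cm m) M] [Nonempty M]
    {A B : Set M} (hA : ThinM m k A) (hB : ThinM m k B) : ThinM m k (A ∪ B) := by
  rw [union_eq_iUnion]
  exact thinM_iUnion fun i => by cases i <;> assumption

/-- preimages of thin sets are thin -/
theorem thin_pre [CompactSpace X] [ConnectedSpace X] (hf : HolM (d + 1) n f)
    (hc : ¬ Ctr (d + 1) n f) {Θ : Set Z} (h : ThinM n d Θ) : ThinM (d + 1) d (f ⁻¹' Θ) := by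
  have : SecondCountableTopology X :=
    ChartedSpace.secondCountable_of_sigmaCompact (Cm (d + 1)) X
  have h1 : ThinM (d + 1) d (Cr d n f) := by
    refine thinM_of_local fun x _ => ?_
    obtain ⟨c, e, r, a, b, hr, h⟩ := RkA.exists_ball hf x
    have k : c.source ∩ c ⁻¹' ball (c x) r ∈ 𝓝 x := inter_mem (c.open_source.mem_nhds a.2)
      ((c.continuousAt a.2).preimage_mem_nhds (ball_mem_nhds _ hr))
    obtain ⟨y, ⟨y1, y2⟩, y3⟩ := mem_closure_iff_nhds.1 (dense_cr hf hc x) _ k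
    obtain ⟨D, γ, a1, a2, a3⟩ := Pj.Nrm.cv_crit isOpen_ball (convex_ball _ r).isPreconnected
      (fun z hz => (h z hz).2.2.1) y2 ((h _ y2).2.2.2.2 (by
        rw [c.left_inv y1]; exact not_not.1 y3))
    refine ⟨_, k, (H335.HY.thinM_of_cv a.1 ⟨D, γ, a1, fun l q hq => (a2 l q hq).1, a3⟩
      fun z hz => (h z hz.1).1).mono ?_⟩
    rintro w ⟨⟨w1, w2⟩, w3⟩
    exact ⟨c w, ⟨w2, fun h6 => w3 (c.left_inv w1 ▸ (h _ w2).2.2.2.1 h6)⟩, c.left_inv w1⟩
  exact (thin_union h1 (thin_off hf h)).mono fun x hx =>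
    (em (x ∈ Cr d n f)).imp_right fun k => ⟨hx, k⟩

/-- the image is analytic -/
theorem an_range [CompactSpace X] [T2Space X] [ConnectedSpace X] [T2Space Z]
    (hf : HolM (d + 1) n f) (hc : ¬ Ctr (d + 1) n f) (y : Z) : IsAnAt n (range f) y := by
  have : SecondCountableTopology X :=
    ChartedSpace.secondCountable_of_sigmaCompact (Cm (d + 1)) X
  have b := at_chartAt (n := n) y
  set e := chartAt (Cm n) y
  have hO := e.open_source.preimage hf.1
  have hG : Pj.Gfin (d + 1) (f ⁻¹' e.source) (fun w => e (f w)) e.target := by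
    refine ⟨⟨hO, e.open_target, fun w hw => Pj.holV_pi.1 (an_e hf ⟨b.1, hw⟩),
      fun w hw => e.map_source hw, fun K k1 k2 => ?_⟩, fun w hw => ?_⟩
    · have h1 : f ⁻¹' e.source ∩ (fun w => e (f w)) ⁻¹' K = f ⁻¹' (e.symm '' K) := by
        ext w
        constructor
        · rintro ⟨a1, a2⟩
          exact ⟨_, a2, e.left_inv a1⟩
        · rintro ⟨z, a1, a2⟩
          refine ⟨show f w ∈ e.source from a2 ▸ e.map_target (k1 a1), ?_⟩
          rw [mem_preimage, ← a2, e.right_inv (k1 a1)]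
          exact a1
      rw [h1]
      exact ((k2.image_of_continuousOn (e.continuousOn_symm.mono k1)).isClosed.preimage
        hf.1).isCompact
    · refine closure_mono ?_ (hO.inter_closure ⟨hw, dense_cr hf hc w⟩)
      exact fun v hv => ⟨hv.1, imm_e hf ⟨b.1, hv.1⟩ hv.2⟩
  obtain ⟨m, h, h1, h2⟩ := Pj.rem_of Pj.br Pj.prj d X n _ _ _ hG _ (e.map_source b.2)
  refine ⟨m, fun i z => h i (e z), fun i c hc => AnalyticAt.fun_comp (g := h i)
    (f := fun z => e (c.symm z)) (by rw [c.left_inv hc.2]; exact h1 i) (chg_analyticAt b hc), ?_⟩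
  filter_upwards [(e.continuousAt b.2).eventually h2, e.open_source.mem_nhds b.2] with z z1 z2
  refine Iff.trans ⟨?_, fun ⟨w, a1, a2⟩ => ⟨w, e.injOn a1 z2 a2⟩⟩ z1
  rintro ⟨w, rfl⟩
  exact ⟨w, z2, rfl⟩

theorem hyp_near {H : Type} [TopologicalSpace H] [ChartedSpace (Cm 3) H] {E : Set H} {y : H}
    (h : IsHypAt 3 E y) : ∀ᶠ y' in 𝓝 y, y' ∈ E → IsHypAt 3 E y' := by
  obtain ⟨e, he, g, hg, hg0, hd, hE⟩ := h
  have c1 : ContinuousAt e y := e.continuousAt he.2
  have h1 : ∀ᶠ z in 𝓝 (e y), fderiv ℂ g z ≠ 0 := hg.fderiv.continuousAt.eventually_ne hd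
  filter_upwards [e.open_source.mem_nhds he.2, c1.eventually hg.eventually_analyticAt,
    c1.eventually h1, hE.eventually_nhds] with y' h2 h3 h4 h5 hy'
  exact ⟨e, ⟨he.1, h2⟩, g, h3, h5.self_of_nhds.1 hy', h4, h5⟩

end Dg

open Dg in
theorem stImg : StImg := by
  intro S H f _ hf hc
  have : Nonempty H.M := Nonempty.map f inferInstance
  have := ChartedSpace.secondCountable_of_sigmaCompact (Cm 3) H.M
  have hA : IsClosed (range f) := (isCompact_range hf.1).isClosed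
  set Θ : Set H.M := {y | y ∈ univ ∧ y ∈ range f ∧ ¬ IsHypAt 3 (range f) y} with hΘ
  have h1 : ThinM 3 1 Θ := H335.HY.stHyp H.M univ _ isOpen_univ
    (fun y _ => an_range (d := 1) hf hc y)
    fun y _ => dense_thin (d := 2) (Lt.thin_range (Lt.holM_of hf)) y
  have h2 : IsClosed Θ := by
    refine isOpen_compl_iff.1 (isOpen_iff_mem_nhds.2 fun y hy => ?_)
    by_cases k : y ∈ range f
    · filter_upwards [hyp_near (not_not.1 fun c => hy ⟨trivial, k, c⟩)] with z a b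
        using b.2.2 (a b.2.1)
    · filter_upwards [hA.isOpen_compl.mem_nhds k] with z a b using a b.2.1
  obtain ⟨L, s, a1, a2, a3⟩ := H762.stCl H.M Θ (range f \ Θ) h2 h1 disjoint_sdiff_left
    (by rwa [diff_union_of_subset fun y hy => hy.2.1]) fun y hy => by
      obtain ⟨e, he, g, hg, hg0, hd, hE⟩ : IsHypAt 3 (range f) y :=
        not_not.1 fun c => hy.2 ⟨trivial, hy.1, c⟩
      refine ⟨e, he, g, hg, hg0, hd, ?_⟩
      filter_upwards [hE, h2.isOpen_compl.mem_nhds hy.2] with z z1 z2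
        using ⟨fun a => z1.1 a.1, fun a => ⟨z1.2 a, z2⟩⟩
  refine ⟨L, s, a1, a2, fun i y hy => (a3 i y hy).1.trans ⟨fun k =>
    hA.closure_subset (closure_mono diff_subset k), ?_⟩⟩
  rintro ⟨x, rfl⟩
  refine closure_mono ?_
    (hf.1.continuousAt.continuousWithinAt.mem_closure_image (dense_pre (d := 1) hf hc h1 x))
  exact image_subset_iff.2 fun w hw => ⟨mem_range_self w, hw⟩

end Vale.Agent.P277Z.Top
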