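import Vale.Agent.P277Z.Top.HiPos
import Vale.Agent.P277Z.Top.Grx

/-!
# P277, block TOP, row INT: the degree is the integral of the curvature
-/

set_option maxSynthPendingDepth 3

open scoped Manifold ContDiff Topology
open Vale.Agent.P272.K Vale.Agent.P277 Filter Set MeasureTheory
open Vale.Agent.P267.H175 (loc loc_self)
open Vale.Agent.P277Z.Slc

noncomputable section

namespace Vale.Agent.P277Z.Top

namespace IntAux

theorem int_et : ∫ y in Ioi (0 : ℝ), y * et (y ^ 2) = 2⁻¹ := by
  have h1 : ∀ y ∈ Ici (0 : ℝ),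
      HasDerivAt (fun y : ℝ => 2⁻¹ * (ka (y ^ 2) * y ^ 2)) (y * et (y ^ 2)) y := fun y _ => by
    have k := hasDerivAt_pow 2 y
    refine ((((ka_deriv (y ^ 2)).comp y k).mul k).const_mul 2⁻¹).congr_deriv ?_
    simp only [et, Function.comp]
    push_cast
    ring
  rw [integral_Ioi_of_hasDerivAt_of_nonneg' h1 (fun y hy => mul_nonneg (le_of_lt hy) (et_nonneg _))
    (l := 2⁻¹) (tendsto_const_nhds.congr' ?_)]
  · simp
  · filter_upwards [eventually_ge_atTop 1] with y hy
    rw [ka_high (one_le_pow₀ hy), inv_mul_cancel₀ (by positivity), mul_one]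

/-- the normalisation of the degree -/
theorem c₀_eq : c₀ = Real.pi := by
  have h1 : c₀ = ∫ z : ℂ, (fun y => et (y ^ 2)) ‖z‖ := by
    rw [c₀, ← (volume_preserving_funUnique (Fin 1) ℂ).integral_comp']
    refine integral_congr_ae (Eventually.of_forall fun z => ?_)
    simp [ns_one, Pi.norm_def]
  rw [h1, integral_fun_norm_addHaar volume fun y => et (y ^ 2), Complex.finrank_real_complex]
  simp only [Nat.add_one_sub_one, pow_one, smul_eq_mul, int_et, Measure.real, Complex.volume_ball]
  simp [mul_left_comm]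

end IntAux

open H38 in
theorem stInt : StInt := by
  intro R L ψ α h
  obtain ⟨D, hD, hI, hE⟩ := deg_dens h.lb h.met
  have hs : Sm α := fun y => ((Gx.cv_cl h).1 y).1
  have h1 : ∀ (e : Chart 1 R.C) x, At e x → loc e α (e x) (tb 1) = Real.pi⁻¹ * D e (e x) := by
    intro e x he
    obtain ⟨i, hi⟩ := h.lb.cover x
    have k := (ddc_at (Eventually.of_forall (isDc_dc (ψ i)))
      ((Gx.met_sm h.lb h.met hi).mono fun y hy => hy _ (at_c y))).2.2
    rw [(dens_top (tb 1) hs).change e _ x he (at_c x), hD.change e _ x he (at_c x), ← mul_assoc, hE i _ x (at_c x) hi, loc_self, tb1,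
      ← single_I, bl_xy, h.eq i x hi, ddc, k, Matrix.smul_apply, smul_eq_mul, Complex.re_ofReal_mul]
    congr 1
    field_simp
  refine (int_eq ⟨R.C⟩ hs).trans ((INT.intX_congr (D' := fun e z => Real.pi⁻¹ * D e z) h1).trans ?_)
  rw [INT.intX_const_mul, hI, IntAux.c₀_eq,
    inv_mul_cancel_left₀ Real.pi_ne_zero, dZ, degZ_cast h.lb]

end Vale.Agent.P277Z.Top
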