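import Vale.Agent.P277.A.Basic
import Mathlib.Analysis.Calculus.BumpFunction.FiniteDimension

/-!
# P277, block TOP: cut off functions on a complex space
-/

open scoped ContDiff Topology
open Vale.Agent.P272.K Vale.Agent.P277 Set Filter

noncomputable section

namespace Vale.Agent.P277Z.Top.Bs

variable {Y : CSp}

/-- `ρ` is a smooth function of holomorphic functions near `y` -/
def SmY (Y : CSp) (ρ : Y.pt → ℝ) (y : Y.pt) : Prop :=
  ∃ (N : ℕ) (φ : Fin N → Y.pt → ℂ) (b : Cm N → ℝ), (∀ a, Y.Hol (φ a) y) ∧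
    ContDiff ℝ ∞ b ∧ ∀ᶠ y' in 𝓝 y, ρ y' = b fun a => φ a y'

theorem hol_cont {f : Y.pt → ℂ} {y : Y.pt} (h : Y.Hol f y) : ContinuousAt f y := by
  obtain ⟨N, k, V, Ω, h', φ, hy, hM⟩ := Y.model y
  obtain ⟨g, h1, h2⟩ := (hM.hol y hy f).1 h
  exact (h1.continuousAt.comp (hM.continuousAt hy)).congr h2.symm

theorem SmY.cont {ρ : Y.pt → ℝ} {y : Y.pt} (h : SmY Y ρ y) : ContinuousAt ρ y := by
  obtain ⟨N, φ, b, h1, h2, h3⟩ := h
  exact (h2.continuous.continuousAt.comp (continuousAt_pi.2 fun a => hol_cont (h1 a))).congr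
    (EventuallyEq.symm h3)

theorem bump (y : Y.pt) {O : Set Y.pt} (hO : O ∈ 𝓝 y) : ∃ ρ : Y.pt → ℝ, (∀ x, 0 ≤ ρ x) ∧
    0 < ρ y ∧ tsupport ρ ⊆ O ∧ ∀ x, SmY Y ρ x := by
  obtain ⟨N, k, V, Ω, h, φ, hy, hM⟩ := Y.model y
  obtain ⟨C, hC, hCc, hCO⟩ :=
    exists_mem_nhds_isClosed_subset (inter_mem hO (hM.isOpen.mem_nhds hy))
  have h1 : ∀ᶠ x : V in 𝓝 ⟨y, hy⟩, (x : Y.pt) ∈ C := continuousAt_subtype_val.eventually hC
  rw [hM.emb.isInducing.nhds_eq_comap, eventually_comap] at h1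
  obtain ⟨b, b1, -, b2, b3, b4⟩ := exists_contDiff_tsupport_subset (n := ⊤) h1
  have h2 : ∀ x ∉ C, V.indicator (fun x => b (φ x)) x = 0 := fun x hx =>
    indicator_apply_eq_zero.2 fun hV => by_contra fun h3 =>
      hx (b1 (subset_tsupport b h3) ⟨x, hV⟩ rfl)
  refine ⟨V.indicator fun x => b (φ x), fun x => indicator_nonneg (fun x _ => (b3 ⟨_, rfl⟩).1) x,
    ?_, (closure_minimal (Function.support_subset_iff'.2 h2) hCc).trans
      (hCO.trans inter_subset_left), fun x => ?_⟩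
  · rw [indicator_of_mem hy, show b (φ y) = 1 from b4]
    exact one_pos
  · by_cases hx : x ∈ V
    · exact ⟨N, fun a x => φ x a, b, fun a => hM.isCoord.hol a x hx, b2,
        mem_of_superset (hM.isOpen.mem_nhds hx) fun x' hx' => indicator_of_mem hx' _⟩
    · exact ⟨0, Fin.elim0, fun _ => 0, fun a => a.elim0, contDiff_const, mem_of_superset
        (hCc.isOpen_compl.mem_nhds fun h3 => hx (hCO h3).2) h2⟩

/-- finitely many cut off functions -/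
theorem bumps (O : Y.pt → Set Y.pt) (hO : ∀ y, O y ∈ 𝓝 y) : ∃ (s : Finset Y.pt)
    (ρ : Y.pt → Y.pt → ℝ), (∀ y x, 0 ≤ ρ y x) ∧ (∀ y, tsupport (ρ y) ⊆ O y) ∧
      (∀ y x, SmY Y (ρ y) x) ∧ ∀ x, ∃ y ∈ s, 0 < ρ y x := by
  choose ρ h1 h2 h3 h4 using fun y => bump y (hO y)
  obtain ⟨s, -, hs⟩ := isCompact_univ.elim_nhds_subcover (fun y => {x | 0 < ρ y x})
    fun y _ => (h4 y y).cont.eventually (lt_mem_nhds (h2 y))
  exact ⟨s, ρ, h1, h3, h4, fun x => by simpa using hs (mem_univ x)⟩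

end Vale.Agent.P277Z.Top.Bs
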