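import Vale.Agent.P277Z.Top.Sk
import Vale.Agent.P277Z.Top.BasA

/-!
# P277, block TOP: row BAS
-/

open scoped ContDiff Topology
open Vale.Agent.P272.K Vale.Agent.P277 Set Filter

noncomputable section

namespace Vale.Agent.P277Z.Top

/-- **BAS** -/
theorem stBas : StBas := by
  intro Y
  choose N V u hV hu using exists_isCoord Y
  obtain ⟨s, ρ, h1, h2, h3, h4⟩ := Bs.bumps V fun y => (hu y).isOpen.mem_nhds (hV y)
  let e := (Fintype.equivFin (Σ y : s, Fin (N y))).symm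
  refine ⟨⟨_, fun i => ρ (e i).1, fun i => u (e i).1 (e i).2, fun i => h1 _,
    fun i y hy => (hu _).hol _ y (h2 _ hy), fun i => h3 _, fun y g hg => ?_⟩⟩
  obtain ⟨z, hz, h5⟩ := h4 y
  obtain ⟨G, G1, G2⟩ := ((hu z).iff y (h2 z (subset_tsupport _ h5.ne')) g).1 hg
  have h6 : ∀ y' a, (fun i => if 0 < ρ (e i).1 y then u (e i).1 (e i).2 y' else 0)
      (e.symm ⟨⟨z, hz⟩, a⟩) = u z a y' := fun y' a => by
    beta_reduce
    rw [Equiv.apply_symm_apply, if_pos h5]
  refine ⟨fun w => G fun a => w (e.symm ⟨⟨z, hz⟩, a⟩), AnalyticAt.fun_comp (g := G)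
    (by simpa only [h6] using G1)
    (analyticAt_pi_iff.2 fun a => analyticAt_pi_iff.1 analyticAt_id _),
    G2.mono fun y' hy' => hy'.trans (congrArg G (funext fun a => (h6 y' a).symm))⟩

end Vale.Agent.P277Z.Top
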