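import Vale.Agent.P277Z.Top.BasA
import Vale.Agent.P277Z.Pj.Api
import Vale.Agent.P277Z.Coh.Vap
import Vale.Agent.P284Y.Lib.Dg

/-!
# P277, block TOP: a relatively ample line bundle has a metric which is positive along the fibres
-/

open scoped Manifold ContDiff Topology ComplexOrder
open Vale.Agent.P272.K Vale.Agent.P285.H281.FD Vale.Agent.P277 Set Filter
open Vale.Agent.P277.PH
open Vale.Agent.P277.H60.Z (XH)
open Vale.Agent.P277Z.Pj Vale.Agent.P277Z.Coh
open Vale.Agent.P284Z (levi cHess_quad)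
open Vale.Agent.P284Y.Lib (levi_hol levi_mul levi_sum levi_congr levi_const levi_const_mul)

noncomputable section

namespace Vale.Agent.P277Z.Top.Bs

section flat

variable {n : ℕ} {u f : Cm n → ℝ} {z v : Cm n}

theorem two : (2 : WithTop ℕ∞) ≤ ∞ := by norm_cast

theorem levi_pos (hu : ContDiffAt ℝ 2 u z) (h : (cHess u z).PosDef) (hv : v ≠ 0) :
    0 < levi u z v := by
  have := h.dotProduct_mulVec_pos (star_ne_zero.2 hv)
  rw [cHess_quad hu, star_star, Complex.zero_lt_real] at this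
  linarith

/-- `u` is flat along the complex line of `v` -/
structure Fl (u : Cm n → ℝ) (z v : Cm n) : Prop where
  d1 : fderiv ℝ u z v = 0
  d2 : fderiv ℝ u z (Complex.I • v) = 0
  lv : levi u z v = 0

theorem fl_comp {N : ℕ} {Φ : Cm n → Cm N} (hΦ : AnalyticAt ℂ Φ z) (h0 : fderiv ℂ Φ z v = 0)
    {b : Cm N → ℝ} (hb : ContDiff ℝ ∞ b) (hu : u =ᶠ[𝓝 z] fun y => b (Φ y)) : Fl u z v := by
  have h1 : ∀ w, fderiv ℝ u z w = fderiv ℝ b (Φ z) (fderiv ℂ Φ z w) := fun w => by
    rw [hu.fderiv_eq, fderiv_fun_comp z (hb.differentiable (by simp) _)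
      (hΦ.differentiableAt.restrictScalars ℝ), hΦ.differentiableAt.fderiv_restrictScalars ℝ]
    rfl
  refine ⟨by rw [h1, h0, map_zero], by rw [h1, map_smul, h0, smul_zero, map_zero], ?_⟩
  rw [levi_congr hu, levi_hol hΦ (hb.contDiffAt.of_le two), h0]
  simp [levi]

theorem Fl.sum {ι : Type} (s : Finset ι) {u : ι → Cm n → ℝ} (h : ∀ i, Fl (u i) z v)
    (hu : ∀ i, ContDiffAt ℝ 2 (u i) z) : Fl (fun y => ∑ i ∈ s, u i y) z v := by
  have h1 := fderiv_fun_sum (u := s) fun i _ => (hu i).differentiableAt two_ne_zero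
  exact ⟨by simp [h1, fun i => (h i).d1], by simp [h1, fun i => (h i).d2],
    by simp [levi_sum s fun i _ => hu i, fun i => (h i).lv]⟩

theorem Fl.mul (h : Fl u z v) (hu : ContDiffAt ℝ 2 u z) (hf : ContDiffAt ℝ 2 f z) :
    levi (fun y => u y * f y) z v = u z * levi f z v := by
  simp [levi_mul hu hf, h.d1, h.d2, h.lv]

end flat

variable {n : ℕ} {W : Type} [TopologicalSpace W] [T2Space W] [CompactSpace W]
  [ChartedSpace (Cm n) W] [IsManifold 𝓘(ℂ, Cm n) ω W] {Y : CSp} {p : W → Y.pt} {P : Bd W}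

theorem loc_met (hp : HolTo n Y p) (hP : IsLB n P) (hA : RelAmple (XH n W) Y p P) (z : Y.pt) :
    ∃ O : Set Y.pt, IsOpen O ∧ z ∈ O ∧ ∃ ψ : P.ι → W → ℝ,
      (∀ i x, p x ∈ O → x ∈ P.U i → ∀ e : Chart n W, At e x →
        ContDiffAt ℝ ∞ (fun y => ψ i (e.symm y)) (e x) ∧
          ∀ v, v ≠ 0 → 0 < levi (fun y => ψ i (e.symm y)) (e x) v) ∧
      ∀ i j x, p x ∈ O → x ∈ P.U i → x ∈ P.U j → ψ i x = ψ j x + Real.log (‖P.g i j x‖ ^ 2) := by
  obtain ⟨V, k, r, s, hV, hz, hk, h1, h2, -, h4⟩ := hA z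
  obtain ⟨N, k', V', Ω, h, φ, hz', hs, hM⟩ := model_small Y z hV hz
  have hpr := hp.prp hM
  obtain ⟨ψ, hψ⟩ := vap n W N (p ⁻¹' V') (fun w => φ (p w)) (P.pow k) _ s hpr.isOpen hpr.hol
    (lbOn_pow (lbOn_of_isLB hP _) k) ⟨fun l w hw i hi => ⟨(h1 l).holo i w (hs hw) hi,
      fun j => (h1 l).change i j w (hs hw) hi⟩, fun w hw => by
      obtain ⟨i, hi⟩ := hP.cover w
      obtain ⟨m, hm⟩ := h2 w i (hs hw) hi
      have he := at_chartAt (n := n) w
      have H : ∀ a : Fin n, ∃ G : Cm N × Cm (r + 1) → ℂ,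
          AnalyticAt ℂ G (φ (p w), fun l => s l i w / s m i w) ∧ ∀ᶠ v in 𝓝 w,
            chartAt (Cm n) w v a = G (φ (p v), fun l => s l i v / s m i v) := fun a => by
        obtain ⟨M, g, G, b1, b2, b3⟩ := h4 w i m (hs hw) hi hm
          (fun v : W => chartAt (Cm n) w v a) (holV_pi.1 (holV_chart he) a :)
        obtain ⟨G', c1, c2⟩ := model_vec hM hw (g := fun y a => g a y) b1
        refine ⟨fun q => G (G' q.1, q.2), AnalyticAt.fun_comp (g := G)
          (f := fun q : Cm N × Cm (r + 1) => (G' q.1, q.2)) ?_ ((AnalyticAt.fun_comp (g := G')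
            (f := Prod.fst) (x := (φ (p w), fun l => s l i w / s m i w)) c1
            analyticAt_fst).prod analyticAt_snd), ?_⟩
        · rw [← c2.self_of_nhds]
          exact b2
        · filter_upwards [b3, hp.cont.continuousAt.eventually c2] with v d1 d3
          rw [← d3]
          exact d1
      choose G G1 G2 using H
      exact ⟨i, m, hi, hm, imm_of_left_inv he ((holV_pi.2 (hpr.hol w hw)).prod (holV_pi.2
        fun l e he => ((h1 l).holo i w (hs hw) hi e he).fun_div ((h1 m).holo i w (hs hw) hi e he)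
          (by rwa [e.left_inv he.2]))) (G := fun q a => G a q) (analyticAt_pi_iff.2 G1)
        ((eventually_all.2 G2).mono fun v hv => funext hv)⟩⟩
  have hk' : (0 : ℝ) < k := by exact_mod_cast hk
  refine ⟨V', hM.isOpen, hz', fun i x => (k : ℝ)⁻¹ * ψ i x, fun i x hx hi e he => ?_,
    fun i j x hx hi hj => ?_⟩
  · have h5 := hψ.pos i x hx hi e he
    refine ⟨contDiffAt_const.mul h5.1, fun v hv => ?_⟩
    rw [levi_const_mul (h5.1.of_le two)]
    exact mul_pos (inv_pos.2 hk') (levi_pos (h5.1.of_le two) h5.2 hv)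
  · have h5 : ψ i x = ψ j x + Real.log (‖P.g i j x ^ k‖ ^ 2) := hψ.change i j x hx hi hj
    beta_reduce
    rw [h5, norm_pow, ← pow_mul, mul_comm k 2, pow_mul, Real.log_pow]
    field_simp

theorem rel_met (hp : HolTo n Y p) (hP : IsLB n P) (hA : RelAmple (XH n W) Y p P) :
    ∃ ψ, IsMet n P ψ ∧ ∀ i x (e : Chart n W), At e x → x ∈ P.U i → ∀ v, v ≠ 0 →
      (∀ h, Y.Hol h (p x) → fderiv ℂ (fun z => h (p (e.symm z))) (e x) v = 0) →
      0 < levi (fun z => ψ i (e.symm z)) (e x) v := by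
  choose O hO hz ψ h1 h2 using loc_met hp hP hA
  obtain ⟨s, ρ, r1, r2, r3, r4⟩ := bumps O fun y => (hO y).mem_nhds (hz y)
  have hS : ∀ x, 0 < ∑ y ∈ s, ρ y (p x) := fun x =>
    Finset.sum_pos' (fun y _ => r1 y _) (r4 (p x))
  have k1 : ∀ y x (e : Chart n W), At e x → ContDiffAt ℝ ∞ (fun z => ρ y (p (e.symm z))) (e x) ∧
      ∀ v, (∀ h, Y.Hol h (p x) → fderiv ℂ (fun z => h (p (e.symm z))) (e x) v = 0) →
        Fl (fun z => ρ y (p (e.symm z))) (e x) v := fun y x e he => by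
    obtain ⟨N, φ, b, b1, b2, b3⟩ := r3 y (p x)
    have c1 := fun a => hp.hol x _ (b1 a) e he
    have c2 : AnalyticAt ℂ (fun z a => φ a (p (e.symm z))) (e x) := analyticAt_pi_iff.2 c1
    have c3 := ev_symm he.2 (hp.cont.continuousAt.eventually b3)
    refine ⟨(b2.contDiffAt.comp _ (c2.contDiffAt.restrict_scalars ℝ)).congr_of_eventuallyEq c3,
      fun v hv => fl_comp c2 (funext fun a => ?_) b2 c3⟩
    rw [fderiv_pi fun a => (c1 a).differentiableAt]
    exact hv _ (b1 a)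
  have k2 : ∀ y x (e : Chart n W) i, At e x → p x ∉ O y →
      (fun z => ρ y (p (e.symm z)) * ψ y i (e.symm z)) =ᶠ[𝓝 (e x)] fun _ => 0 :=
    fun y x e i he hx => (ev_symm he.2 (hp.cont.continuousAt.eventually
      (notMem_tsupport_iff_eventuallyEq.1 fun h => hx (r2 y h)))).mono fun z hz => by
        simp only [hz, Pi.zero_apply, zero_mul]
  have k3 : ∀ y x (e : Chart n W) i, At e x → x ∈ P.U i →
      ContDiffAt ℝ ∞ (fun z => ρ y (p (e.symm z)) * ψ y i (e.symm z)) (e x) :=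
    fun y x e i he hi => by
      by_cases hx : p x ∈ O y
      · exact (k1 y x e he).1.mul (h1 y i x hx hi e he).1
      · exact contDiffAt_const.congr_of_eventuallyEq (k2 y x e i he hx)
  have k4 : ∀ i (e : Chart n W) x, At e x → x ∈ P.U i → ContDiffAt ℝ ∞ (fun z =>
      (∑ y ∈ s, ρ y (p (e.symm z)) * ψ y i (e.symm z)) / ∑ y ∈ s, ρ y (p (e.symm z))) (e x) :=
    fun i e x he hi => (ContDiffAt.sum fun y _ => k3 y x e i he hi).div
      (ContDiffAt.sum fun y _ => (k1 y x e he).1) (hS _).ne'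
  refine ⟨fun i x => (∑ y ∈ s, ρ y (p x) * ψ y i x) / ∑ y ∈ s, ρ y (p x),
    ⟨k4, fun i j x hi hj => ?_⟩, fun i x e he hi v hv h0 => ?_⟩
  · rw [div_add' _ _ _ (hS x).ne', Finset.mul_sum, ← Finset.sum_add_distrib]
    refine congrArg (· / _) (Finset.sum_congr rfl fun y _ => ?_)
    by_cases hy : ρ y (p x) = 0
    · simp [hy]
    · rw [h2 y i j x (r2 y (subset_tsupport _ hy)) hi hj]
      ring
  · have c1 := (Fl.sum s (fun y => (k1 y x e he).2 v h0) fun y => (k1 y x e he).1.of_le two).mul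
      ((ContDiffAt.sum fun y _ => (k1 y x e he).1).of_le two) ((k4 i e x he hi).of_le two)
    simp only [mul_div_cancel₀ _ (hS _).ne'] at c1
    rw [levi_sum s fun y _ => (k3 y x e i he hi).of_le two] at c1
    refine (mul_pos_iff_of_pos_left (hS _)).1 (lt_of_lt_of_eq ?_ c1)
    have c2 : ∀ y, p x ∈ O y → levi (fun z => ρ y (p (e.symm z)) * ψ y i (e.symm z)) (e x) v =
        ρ y (p x) * levi (fun z => ψ y i (e.symm z)) (e x) v := fun y hy => by
      rw [((k1 y x e he).2 v h0).mul ((k1 y x e he).1.of_le two)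
        ((h1 y i x hy hi e he).1.of_le two), e.left_inv he.2]
    obtain ⟨y, hy, c3⟩ := r4 (p x)
    have c4 := r2 y (subset_tsupport _ c3.ne')
    refine Finset.sum_pos' (fun y _ => ?_) ⟨y, hy, ?_⟩
    · by_cases hx : p x ∈ O y
      · rw [c2 y hx]
        exact mul_nonneg (r1 _ _) ((h1 y i x hx hi e he).2 v hv).le
      · rw [levi_congr (k2 y x e i he hx), levi_const]
    · rw [c2 y c4]
      exact mul_pos c3 ((h1 y i x c4 hi e he).2 v hv)

end Vale.Agent.P277Z.Top.Bs
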