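import Vale.Agent.P277Z.Top.Api
import Vale.Agent.P277Z.Top.Bas
import Vale.Agent.P277Z.Top.PolA

/-!
# P277, block TOP: row POL
-/

open scoped Manifold ContDiff Topology Matrix
open Vale.Agent.P272.K Vale.Agent.P285.H281.FD Vale.Agent.P277 Set Filter Complex
open Vale.Agent.P267.H175 (SmAt loc smAt_iff)
open Vale.Agent.P277.PH (HolF SmR)
open Vale.Agent.P277Z.Gd Vale.Agent.P277Z.Top.H38
open Vale.Agent.P284Z (levi cHess_quad)

noncomputable section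

namespace Vale.Agent.P277Z.Top

namespace Bs

variable {d : ℕ}

theorem q_smul (a : Cm d [⋀^Fin 2]→L[ℝ] ℝ) (c : ℝ) (v : Cm d) :
    bl a (c • v) (I • c • v) = c ^ 2 * bl a v (I • v) := by
  rw [smul_comm I c v, bl_smul_left, bl_smul_right]
  ring

theorem pos_gen {Z : Type} [TopologicalSpace Z] {z : Z} {a b : Z → Cm d [⋀^Fin 2]→L[ℝ] ℝ}
    (ha : ContinuousAt a z) (hb : ContinuousAt b z) (h0 : ∀ v, 0 ≤ bl (b z) v (I • v))
    (h : ∀ v, v ≠ 0 → bl (b z) v (I • v) = 0 → 0 < bl (a z) v (I • v)) :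
    ∃ t : ℝ, ∀ᶠ w in 𝓝 z, ∀ v, v ≠ 0 → 0 < bl (a w) v (I • v) + t * bl (b w) v (I • v) := by
  have hc : ∀ (t : ℝ) ξ, ContinuousAt (fun q : Z × Cm d =>
      bl (a q.1) q.2 (I • q.2) + t * bl (b q.1) q.2 (I • q.2)) (z, ξ) := fun t ξ => by
    have k : ContinuousAt (fun q : Z × Cm d => ![q.2, I • q.2]) (z, ξ) := by fun_prop
    exact ((ContinuousAt.comp (f := Prod.fst) ha continuousAt_fst).eval k).add
      (continuousAt_const.mul ((ContinuousAt.comp (f := Prod.fst) hb continuousAt_fst).eval k))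
  obtain ⟨t, ht⟩ : ∃ t : ℝ, ∀ v ∈ Metric.sphere (0 : Cm d) 1,
      0 < bl (a z) v (I • v) + t * bl (b z) v (I • v) := by
    refine (isCompact_sphere (0 : Cm d) 1).induction_on
      (p := fun S => ∃ t : ℝ, ∀ v ∈ S, 0 < bl (a z) v (I • v) + t * bl (b z) v (I • v))
      ⟨0, fun _ h => h.elim⟩ (fun S T hST ⟨t, ht⟩ => ⟨t, fun ξ hξ => ht ξ (hST hξ)⟩)
      (fun S T ⟨t, ht⟩ ⟨t', ht'⟩ => ⟨max t t', fun ξ hξ => ?_⟩) fun ξ hξ => ?_
    · rcases hξ with hξ | hξ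
      · linarith [ht ξ hξ, mul_le_mul_of_nonneg_right (le_max_left t t') (h0 ξ)]
      · linarith [ht' ξ hξ, mul_le_mul_of_nonneg_right (le_max_right t t') (h0 ξ)]
    · obtain ⟨t, ht⟩ : ∃ t : ℝ, 0 < bl (a z) ξ (I • ξ) + t * bl (b z) ξ (I • ξ) := by
        rcases (h0 ξ).eq_or_lt with k | k
        · exact ⟨0, by simpa using h ξ (ne_zero_of_mem_unit_sphere ⟨ξ, hξ⟩) k.symm⟩
        · refine ⟨(1 - bl (a z) ξ (I • ξ)) / bl (b z) ξ (I • ξ), ?_⟩
          rw [div_mul_cancel₀ _ k.ne']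
          linarith
      have k1 : ContinuousAt (fun ξ => bl (a z) ξ (I • ξ) + t * bl (b z) ξ (I • ξ)) ξ :=
        ContinuousAt.comp (f := fun ξ : Cm d => (z, ξ)) (hc t ξ) (by fun_prop)
      exact ⟨_, nhdsWithin_le_nhds (k1.eventually (lt_mem_nhds ht)), t, fun _ h => h⟩
  refine ⟨t, ((isCompact_sphere (0 : Cm d) 1).eventually_forall_of_forall_eventually
    (P := fun w v => 0 < bl (a w) v (I • v) + t * bl (b w) v (I • v))
    fun ξ hξ => (hc t ξ).eventually (lt_mem_nhds (ht ξ hξ))).mono fun w hw ξ hξ => ?_⟩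
  have hn := norm_pos_iff.2 hξ
  have h2 := hw (‖ξ‖⁻¹ • ξ) (by simp [norm_smul, inv_mul_cancel₀ hn.ne'])
  simp only [q_smul] at h2
  exact pos_of_mul_pos_left (by linarith) (pow_pos (inv_pos.2 hn) 2).le

variable {M : Type} [TopologicalSpace M] [ChartedSpace (Cm d) M] [IsManifold 𝓘(ℂ, Cm d) ω M]

theorem q_loc (a : Fr d 2 M) {e : Chart d M} {x : M} (h : At e x) (u : Cm d) :
    bl (loc e a (e x)) u (I • u) = bl (a x) (jacM e (chartAt (Cm d) x) x *ᵥ u)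
      (I • jacM e (chartAt (Cm d) x) x *ᵥ u) := by
  rw [loc_eq a h, ← Matrix.mulVec_smul, ← fderiv_chg h (at_ch x), ← fderiv_chg h (at_ch x),
    H38.bl, H38.bl, ContinuousAlternatingMap.compContinuousLinearMap_apply]
  congr 1
  funext i
  fin_cases i <;> rfl

theorem pd_large [CompactSpace M] {a b : Fr d 2 M} (ha : Sm a) (hb : Sm b) (h0 : Psd b)
    (h : ∀ x v, v ≠ 0 → b x ![v, I • v] = 0 → 0 < a x ![v, I • v]) :
    ∃ τ : ℝ, 0 < τ ∧ Pd (a + τ • b) := by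
  obtain ⟨t, ht⟩ : ∃ t : ℝ, ∀ x ∈ univ, ∀ v, v ≠ 0 →
      0 < a x ![v, I • v] + t * b x ![v, I • v] := by
    refine isCompact_univ.induction_on (p := fun S => ∃ t : ℝ, ∀ x ∈ S, ∀ v, v ≠ 0 →
      0 < a x ![v, I • v] + t * b x ![v, I • v])
      ⟨0, fun _ h => h.elim⟩ (fun S T hST ⟨t, ht⟩ => ⟨t, fun x hx => ht x (hST hx)⟩)
      (fun S T ⟨t, ht⟩ ⟨t', ht'⟩ => ⟨max t t', fun x hx v hv => ?_⟩) fun x _ => ?_
    · rcases hx with hx | hx
      · linarith [ht x hx v hv, mul_le_mul_of_nonneg_right (le_max_left t t') (h0 x v)]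
      · linarith [ht' x hx v hv, mul_le_mul_of_nonneg_right (le_max_right t t') (h0 x v)]
    · have hc := (chartAt (Cm d) x).continuousAt (mem_chart_source _ x)
      obtain ⟨t, ht⟩ := pos_gen ((ha x).continuousAt.comp hc) ((hb x).continuousAt.comp hc)
        (fun v => (q_loc b (at_ch x) v).symm ▸ h0 x _) fun v hv k =>
          (q_loc a (at_ch x) v).symm ▸ h x _ (fun k' => hv (Matrix.eq_zero_of_mulVec_eq_zero
            (jacM_isUnit (at_ch x) (at_ch x)).ne_zero k')) ((q_loc b (at_ch x) v).symm.trans k)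
      refine ⟨_, nhdsWithin_le_nhds (ht.and (chart_source_mem_nhds (Cm d) x)), t,
        fun y hy v hv => ?_⟩
      have k : At (chartAt (Cm d) x) y := ⟨chart_mem_atlas _ _, hy.2⟩
      have k1 := congrArg (· *ᵥ v) (Matrix.mul_nonsing_inv _ (jacM_isUnit k (at_ch y)))
      simp only [← Matrix.mulVec_mulVec, Matrix.one_mulVec] at k1
      have k2 := hy.1 _ fun k2 => hv (k1.symm.trans ((congrArg _ k2).trans (Matrix.mulVec_zero _)))
      simp only [Function.comp_apply, q_loc _ k, k1] at k2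
      exact k2
  refine ⟨max t 1, lt_max_of_lt_right one_pos, fun x v hv => ?_⟩
  show 0 < a x ![v, I • v] + max t 1 * b x ![v, I • v]
  linarith [ht x trivial v hv, mul_le_mul_of_nonneg_right (le_max_left t 1) (h0 x v)]

theorem ddc_levi {u : M → ℝ} {x : M} (hu : ∀ᶠ y in 𝓝 x, SmR d u y) (v : Cm d) :
    ddc d u x ![v, I • v] = Real.pi⁻¹ *
      (levi (fun z => u ((chartAt (Cm d) x).symm z)) (chartAt (Cm d) x x) v / 4) := by
  have h := congrArg re (cHess_quad ((smR_chart hu.self_of_nhds).of_le two) (star v))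
  rw [star_star, ofReal_re] at h
  rw [ddc_apply hu, ← h]
  simp only [dotProduct, Matrix.mulVec, Finset.mul_sum, mul_assoc, Pi.star_apply, RCLike.star_def]

omit [IsManifold 𝓘(ℂ, Cm d) ω M] in
theorem met_sm {P : Bd M} {ψ : P.ι → M → ℝ} (hP : IsLB d P) (hψ : IsMet d P ψ) {i : P.ι} {x : M}
    (hi : x ∈ P.U i) : ∀ᶠ y in 𝓝 x, SmR d (ψ i) y :=
  mem_of_superset ((hP.isOpen i).mem_nhds hi) fun y hy e he => hψ.smooth i e y he hy

theorem exCv {P : Bd M} {ψ : P.ι → M → ℝ} (hP : IsLB d P) (hψ : IsMet d P ψ) :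
    ∃ A, IsCv (d := d) P ψ A := by
  choose j hj using hP.cover
  refine ⟨fun x => ddc d (ψ (j x)) x, hP, hψ, fun i x hi => ?_⟩
  have h1 : HolF d (P.g (j x) i) x := fun e he => (hP.holo _ _ e x he (hj x) hi).analyticAt
  have h2 := hP.ne_zero _ _ x (hj x) hi
  have h3 : ψ (j x) =ᶠ[𝓝 x] fun y => ψ i y + Real.log (‖P.g (j x) i y‖ ^ 2) := by
    filter_upwards [(hP.isOpen _).mem_nhds (hj x), (hP.isOpen i).mem_nhds hi] with y a b
    exact hψ.change _ _ y a b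
  show ddc d (ψ (j x)) x = _
  rw [ddc_congr h3, ddc_add (met_sm hP hψ hi) (ev_smR_log h1 h2), ddc_log h1 h2, add_zero]

end Bs

open Bs in
/-- **POL** -/
theorem stPol (hF : StForm) : StPol := by
  intro U Y p hR
  obtain ⟨B⟩ := stBas Y
  obtain ⟨P, c, σ, hP, hA, hc, hD⟩ := hR.amp
  obtain ⟨ψ, hψ, hpos⟩ := rel_met ⟨hR.cont, hR.hol⟩ hP hA
  obtain ⟨A, hcv⟩ := exCv hP hψ
  obtain ⟨f1, -, f2, f3, -⟩ := hF Y B 4 (lgM U) p ⟨hR.cont, hR.hol⟩
  choose j hj using hP.cover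
  have hl : ∀ x, ∀ᶠ y in 𝓝 x, y ∈ P.U (j x) := fun x => (hP.isOpen _).mem_nhds (hj x)
  obtain ⟨τ, t1, t2⟩ := pd_large (a := A) (cl_sm (of_loc fun x => ⟨ψ (j x),
      (met_sm hP hψ (hj x)).and ((hl x).mono (hcv.eq _))⟩).1) f1 f2 fun x v hv h => by
    rw [hcv.eq _ x (hj x), ddc_levi (met_sm hP hψ (hj x))]
    have := hpos _ x _ (at_ch x) (hj x) v hv ((f3 x v).1 h)
    positivity
  refine ⟨⟨B, c, A, τ, fun k => (hc k).2 (Finset.mem_univ k), t1, ⟨P, ψ, hcv⟩,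
    ⟨fun y => Real.log (‖σ (j y) y‖ ^ 2) + ψ (j y) y, fun x => ?_⟩, t2⟩⟩
  obtain ⟨ζ, hζ⟩ := U.exEq x
  obtain ⟨u, u1, u2, u3⟩ := hD.div x (j x) ζ (hj x) hζ
  refine ⟨ζ, fun y => -(ψ (j x) y + Real.log (‖u y‖ ^ 2)), fun l _ => hζ l, ?_⟩
  filter_upwards [hl x, Val.holF_ev u1, (Val.holF_cont u1).eventually_ne u2, u3,
    eventually_all.2 fun l => (hζ l).1] with y a1 a2 a3 a4 a5
  have b1 := met_sm hP hψ a1
  have b2 := ev_smR_log a2 a3
  have b3 := (b1.and b2).mono fun _ h => smR_add h.1 h.2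
  refine ⟨smR_neg b3.self_of_nhds, ?_, fun h => ?_⟩
  · rw [ddc_neg b3, ddc_add b1 b2, ddc_log a2 a3, add_zero, ← hcv.eq _ y a1]
    rfl
  · have c1 : ∀ l, ‖ζ l y‖ ≠ 0 := fun l => norm_ne_zero_iff.2 (mt (a5 l).1 (h l (by simp)))
    have c2 := norm_ne_zero_iff.2 (hP.ne_zero _ _ y (hj y) a1)
    have c3 : σ (j y) y = (P.g (j y) (j x) y)⁻¹ * σ (j x) y := hD.sec.change _ _ y (hj y) a1
    have c4 := norm_ne_zero_iff.2 a3
    rw [c3, a4, hψ.change _ _ y (hj y) a1]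
    simp only [norm_mul, norm_inv, norm_prod, norm_pow, Real.log_pow, Nat.cast_ofNat]
    rw [Real.log_mul (inv_ne_zero c2) (mul_ne_zero c4 (Finset.prod_ne_zero_iff.2 fun l _ =>
      pow_ne_zero _ (c1 l))), Real.log_mul c4 (Finset.prod_ne_zero_iff.2 fun l _ =>
      pow_ne_zero _ (c1 l)), Real.log_prod fun l _ => pow_ne_zero _ (c1 l), Real.log_inv]
    simp only [Real.log_pow, mul_left_comm _ (2 : ℝ), ← Finset.mul_sum]
    ring

end Vale.Agent.P277Z.Top
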