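import Vale.Agent.P277Z.Top.Sk
import Vale.Agent.P277Z.Top.Api
import Vale.Agent.P277Z.Val.ResF
import Vale.Agent.P277Z.Luf.Hol

/-!
# P277, block TOP: the classes of the relations
-/

set_option linter.all false
set_option maxSynthPendingDepth 3

open scoped Manifold ContDiff Topology
open Vale.Agent.P272.K Vale.Agent.P285.H281.FD Vale.Agent.P277 Set Filter Module
open Vale.Agent.P277.PH (HolF SmR)
open Vale.Agent.P277.T3 (ThinM)
open Vale.Agent.P277Z.Tr (pb HolM)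
open Vale.Agent.P277Z.Val (Lg Sb IsCC Tp Sf holF_ev holF_cont)
open Vale.Agent.P277Z.Slc (LEq)
open Vale.Agent.P277Z.Gd

noncomputable section

namespace Vale.Agent.P277Z.Top

namespace Rp

theorem rank_le {E F : Type*} [AddCommGroup E] [Module ℝ E] [AddCommGroup F] [Module ℝ F]
    [FiniteDimensional ℝ F] (M : Submodule ℝ E) (Φ : E →ₗ[ℝ] F) :
    finrank ℝ M ≤ finrank ℝ (M ⊓ LinearMap.ker Φ : Submodule ℝ E) + finrank ℝ F := by
  by_cases h : FiniteDimensional ℝ M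
  · rw [← (Φ.domRestrict M).finrank_range_add_finrank_ker, LinearMap.ker_domRestrict,
      ← Submodule.map_comap_subtype, Submodule.finrank_map_subtype_eq, add_comm]
    exact Nat.add_le_add_left (Submodule.finrank_le _) _
  · rw [finrank_of_infinite_dimensional h]
    exact Nat.zero_le _

/-- the preimage of the divisor has no interior points -/
theorem dense {U : Lg} {S : Mf 2} [ConnectedSpace S.M] {f : S.M → U.W} (hf : HolM 2 4 f)
    (h : ¬ range f ⊆ U.E) : Dense (f ⁻¹' U.E)ᶜ := by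
  rw [← interior_eq_empty_iff_dense_compl]
  refine (isClopen_iff.1 ⟨isClosed_of_closure_subset fun x hx => ?_, isOpen_interior⟩).resolve_right
    fun a => h (range_subset_iff.2 fun x => interior_subset (s := f ⁻¹' U.E) (a.ge (mem_univ x)))
  obtain ⟨η, hη⟩ := U.exEq (f x)
  have a : Hol 2 (fun y => ∏ l, η l (f y)) x := Hol.prod _ fun l _ c hc => by
    refine ((hη.hol l _ (at_ch _)).comp_of_eq (hf.2 x c _ hc (at_ch _))
      (by rw [c.left_inv hc.2])).congr ?_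
    filter_upwards [PH.ev_symm hc.2 (hf.1.continuousAt.eventually
      ((chartAt (Cm 4) (f x)).open_source.mem_nhds (mem_chart_source _ _)))] with z hz
    exact congrArg (η l) ((chartAt (Cm 4) (f x)).left_inv hz)
  have b : ∀ᶠ y in 𝓝 x, ∏ l, η l (f y) = 0 ↔ y ∈ f ⁻¹' U.E := by
    filter_upwards [hf.1.continuousAt.eventually hη.iff] with y hy
    simp [Finset.prod_eq_zero_iff, hy, Lg.E]
  refine mem_interior_iff_mem_nhds.2 (by_contra fun c => ?_)
  obtain ⟨y, y1, y2, y3⟩ := ((mem_closure_iff_frequently.1 hx).and_eventually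
    ((Nz.near (fun d => c (mem_of_superset (d.and b) fun y e => e.2.1 e.1)) a).and
      b.eventually_nhds)).exists
  exact y2 ((y3.and (mem_interior_iff_mem_nhds.1 y1)).mono fun z e => e.1.2 e.2)

variable {V : Lg} (P : Par V)

theorem cls_sum {l : Fin V.r} {κ : Type*} (s : Finset κ) (r : κ → ℝ) {m : κ → Set V.W → ℝ}
    {α : κ → Fr 3 2 (P.H l).M} (h : ∀ k ∈ s, P.Cls l (m k) (α k)) :
    P.Cls l (fun T => ∑ k ∈ s, r k * m k T) (∑ k ∈ s, r k • α k) := by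
  choose! g hg using h
  exact ⟨_, gr_sum (D := fun T => range (P.j l T)) (fun T hT => par_leq P (mem_cl.1 hT)) s
    fun k hk => gr_smul (r k) (hg k hk)⟩

theorem cls_zero (l : Fin V.r) : P.Cls l (fun _ => 0) 0 :=
  ⟨_, gr_zero (D := fun T => range (P.j l T)) fun T hT => par_leq P (mem_cl.1 hT)⟩

open Classical in
theorem Z_single (l : Fin V.r) (m : Set V.W → ℝ) (θ : Fr 4 4 V.W) :
    P.Z (fun c => if c.1 = l ∧ c ∈ V.cmp then m c.2 else 0) θ =
      ∑ T ∈ cl V l, m T * (P.S T).int (pb (Cm 2) (P.ι₂ T) θ) := by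
  rw [cl, Finset.sum_image fun c hc c' hc' e => Prod.ext
    ((Finset.mem_filter.1 hc).2.trans (Finset.mem_filter.1 hc').2.symm) e, Finset.sum_filter]
  refine Finset.sum_congr rfl fun c hc => ?_
  by_cases a : c.1 = l <;> simp [a, hc]

theorem Z_sum {κ : Type*} (s : Finset κ) (r : κ → ℝ) (m : κ → Fin V.r × Set V.W → ℝ)
    (θ : Fr 4 4 V.W) : P.Z (∑ k ∈ s, r k • m k) θ = ∑ k ∈ s, r k * P.Z (m k) θ := by
  simp only [Par.Z, Finset.sum_apply, Pi.smul_apply, smul_eq_mul, Finset.sum_mul, Finset.mul_sum,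
    mul_assoc]
  exact Finset.sum_comm

variable {U : Lg} (μ : V.W → U.W)

/-- the integral over the image of a surface -/
def I (T : Set V.W) (θ : Fr 4 4 U.W) : ℝ := (P.S T).int (pb (Cm 2) (P.ι₂ T) (pb (Cm 4) μ θ))

theorem rf {c : Fin V.r × Set V.W} (hc : c ∈ V.cmp) :
    range (fun x => μ (P.ι₂ c.2 x)) = μ '' c.2 :=
  (range_comp μ _).trans (congrArg _ (P.rng₂ c hc))

variable {μ} {a : Fin V.r → ℝ} {Y : CSp} {ψ : V.W → Y.pt} {α : ℝ} {s : Fin U.r → Fin V.r}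
  {p : U.W → Y.pt} {c : Fin V.r × Set V.W}

theorem hI (h : HolM 4 4 μ) (hc : c ∈ V.cmp) (θ : Fr 4 4 U.W) :
    I P μ c.2 θ = (P.S c.2).int (pb (Cm 2) (fun x => μ (P.ι₂ c.2 x)) θ) := by
  rw [I, pb_pb (par_hol₄ P hc) h]

theorem hE : (⋃ l ∈ (Finset.univ : Finset (Fin U.r)), U.G l) = U.E := by simp [Lg.E]

variable (H : Hyp V a Y ψ α U μ s p)
include H

theorem hψ (A : Set V.W) : ψ '' A = p '' (μ '' A) := by simp only [image_image, H.fac]

theorem sub {c₀ : Fin V.r × Set V.W} (hc : c ∈ V.cmp) (h₀ : c₀ ∈ V.cmp) (e : ψ '' c.2 = ψ '' c₀.2)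
    (hC : ¬ DimLe Y 1 (ψ '' c.2)) :
    range (fun x => μ (P.ι₂ c.2 x)) ⊆ range fun x => μ (P.ι₂ c₀.2 x) := by
  have := P.conn₂ c hc
  have f := holM_comp H.hol (par_hol₄ P hc)
  have k : IsClosed (range fun x => μ (P.ι₂ c₀.2 x)) :=
    (isCompact_range (holM_comp H.hol (par_hol₄ P h₀)).1).isClosed
  refine range_subset_iff.2 fun x => closure_minimal (fun z hz => ?_) (k.preimage f.1)
    (dense f (fun b => hC ?_) x)
  · obtain ⟨_, ⟨y, rfl⟩, b⟩ : p (μ (P.ι₂ c.2 z)) ∈ p '' range fun x => μ (P.ι₂ c₀.2 x) := by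
      rw [rf P μ h₀, ← hψ H, ← e, hψ H, ← rf P μ hc]
      exact ⟨_, ⟨z, rfl⟩, rfl⟩
    exact ⟨y, H.resU.inj _ _ (by rwa [hE]) b⟩
  · rw [hψ H, ← rf P μ hc]
    exact H.dimU.mono (image_mono b)

theorem exJ (hD : StDeg) (C : Set Y.pt) : ∃ J : Fr 4 4 U.W → ℝ, ∀ c ∈ V.cmp, ψ '' c.2 = C →
    ¬ DimLe Y 1 C → ∃ l : ℝ, ∀ θ, Sm θ → I P μ c.2 θ = l * J θ := by
  by_cases e : ∃ c₀ ∈ V.cmp, ψ '' c₀.2 = C
  swap
  · exact ⟨0, fun c hc b => absurd ⟨c, hc, b⟩ e⟩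
  obtain ⟨c₀, h₀, rfl⟩ := e
  refine ⟨I P μ c₀.2, fun c hc e hC => ?_⟩
  obtain ⟨l, -, b⟩ := hD 4 _ _ (lgM U) _ _ (P.conn₂ c₀ h₀) (holM_comp H.hol (par_hol₄ P h₀))
    (holM_comp H.hol (par_hol₄ P hc)) (sub P H hc h₀ e (e ▸ hC))
  exact ⟨l, fun θ hθ => (hI P H.hol hc θ).trans ((b θ hθ).trans (by rw [hI P H.hol h₀]))⟩

theorem ctr (hR : StRk) (hc : c ∈ V.cmp) (d : DimLe Y 1 (ψ '' c.2)) (e : ¬ μ '' c.2 ⊆ U.E)
    (θ : Fr 4 4 U.W) : I P μ c.2 θ = 0 := by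
  have f := holM_comp H.hol (par_hol₄ P hc)
  obtain ⟨r1, r2⟩ := hR 1 4 (P.S c.2) (lgM U) _ f
  rw [← rf P μ hc, range_subset_iff, not_forall] at e
  obtain ⟨x, hx⟩ := e
  have k := (r1 (r2 (P.conn₂ c hc) _ (U.closedE.isOpen_compl.preimage f.1) ⟨x, hx⟩
    (Val.U.thinM_mono (Val.RF.thin_preimage H.resU.emb (μ (P.ι₂ c.2 x)) d) ?_))).1 θ
  · exact (hI P H.hol hc θ).trans ((congrArg _ k).trans (int_zero _))
  · rintro _ ⟨y, hy, rfl⟩
    exact ⟨by rwa [hE], _, (P.rng₂ c hc).le ⟨y, rfl⟩, (H.fac _).symm⟩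

variable {Q : Par U} {ν : ∀ k, (P.H (s k)).M → (Q.H k).M}

open Classical in
theorem dat (h1 : StRep1) (hν : IsLift P Q μ s ν) (hc : c ∈ Tp V a α) :
    ∃ (M : Fin V.r × Set V.W → ℝ) (B : ∀ k, C11 (Q.H k)),
      (∀ k, B k ∈ Submodule.span ℝ (Lam (Q.H k) : Set (C11 (Q.H k)))) ∧
      (∀ k, P.Cls (s k) (fun T => M (s k, T)) (pb (Cm 3) (ν k) (B k).1)) ∧
      (∀ c', M c' ≠ 0 → c' ∈ V.cmp ∧ c'.1 ∈ range s ∧ ψ '' c'.2 ⊆ ψ '' V.G c.1) ∧
      ∀ θ, Sm θ → P.Z M (pb (Cm 4) μ θ) = if μ '' c.2 ⊆ U.E then I P μ c.2 θ else 0 := by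
  by_cases e : μ '' c.2 ⊆ U.E
  swap
  · exact ⟨0, 0, fun _ => zero_mem _, fun k => cls_zero P _, fun _ b => absurd rfl b,
      fun θ _ => by simp [e, Par.Z]⟩
  obtain ⟨c1, c2, -⟩ := Finset.mem_filter.1 hc
  obtain ⟨k, m, β, b1, b2, b3, b4⟩ := h1 V U P Q μ s _ ν H.dom hν c c1 e fun b => by
    linarith [(Finset.mem_filter.1 b).2, H.αle]
  refine ⟨fun c => if c.1 = s k ∧ c ∈ V.cmp then m c.2 else 0, Pi.single k β, fun j => ?_,
    fun j => ?_, fun c' b => ?_, fun θ hθ => ?_⟩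
  · by_cases b : j = k
    · rwa [b, Pi.single_eq_same]
    · rw [Pi.single_eq_of_ne b]
      exact zero_mem _
  · by_cases b : j = k
    · subst b
      rw [Pi.single_eq_same]
      exact b2.imp fun g hg => gr_congr hg (fun T hT => if_pos ⟨rfl, mem_cl.1 hT⟩) rfl
        fun _ _ => rfl
    · rw [Pi.single_eq_of_ne b]
      exact (cls_zero P (s j)).imp fun g hg => gr_congr hg (fun T _ => if_neg fun b' =>
        b (H.dom.sinj b'.1)) (pb_zero _) fun _ _ => rfl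
  · obtain ⟨⟨e1, e2⟩, e3⟩ := ite_ne_right_iff.1 b
    obtain ⟨j, hj⟩ := Lg.cmp_iff.1 c1
    refine ⟨e2, ⟨k, e1.symm⟩, ?_⟩
    rw [hψ H, hψ H]
    exact image_mono ((b3 _ e3).trans (image_mono fun z hz => (hj.sub hz).1))
  · rw [if_pos e]
    exact (Z_single P _ _ _).trans (b4 θ hθ)

end Rp

open Rp in
theorem stRep (h1 : StRep1) (hD : StDeg) (hR : StRk) : StRep := by
  classical
  intro V U a Y ψ α μ s p P Q ν H hν
  choose J hJ using exJ P H hD
  choose! M B e1 e2 e3 e4 using fun c => dat P H (c := c) h1 hν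
  have E : ∀ c ∈ Tp V a α, ∃ l : ℝ, (ψ '' c.2 ∉ Sf V a Y ψ α → l = 0) ∧
      ∀ θ, Sm θ → I P μ c.2 θ = P.Z (M c) (pb (Cm 4) μ θ) + l * J (ψ '' c.2) θ := fun c hc => by
    have c1 := (Finset.mem_filter.1 hc).1
    by_cases d : DimLe Y 1 (ψ '' c.2)
    · refine ⟨0, fun _ => rfl, fun θ hθ => ?_⟩
      rw [e4 c hc θ hθ, zero_mul, add_zero]
      split_ifs with e
      exacts [rfl, ctr P H hR c1 d e θ]
    · obtain ⟨l, b⟩ := hJ _ c c1 rfl d
      refine ⟨l, fun b => absurd (Finset.mem_image_of_mem _ (Finset.mem_filter.2 ⟨hc, d⟩)) b,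
        fun θ hθ => ?_⟩
      rw [e4 c hc θ hθ, if_neg fun e => d (hψ H _ ▸ H.dimU.mono (image_mono e)), zero_add, b θ hθ]
  choose! l e5 e6 using E
  let Φ : (Fin V.r × Set V.W → ℝ) →ₗ[ℝ] (Sf V a Y ψ α → ℝ) := LinearMap.pi fun C =>
    ∑ c ∈ Tp V a α with ψ '' c.2 = C.1, l c • LinearMap.proj c
  refine ⟨V.RG (Tp V a α) ⊓ LinearMap.ker Φ,
    (∑ c ∈ Tp V a α, (LinearMap.proj c).smulRight (M c)).comp (Submodule.subtype _),
    (∑ c ∈ Tp V a α, (LinearMap.proj c).smulRight (B c)).comp (Submodule.subtype _), inf_le_left,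
    by simpa using rank_le (V.RG (Tp V a α)) Φ, fun ⟨ρ, r1, r2⟩ => ?_⟩
  simp only [LinearMap.comp_apply, LinearMap.sum_apply, LinearMap.smulRight_apply,
    LinearMap.proj_apply, Submodule.subtype_apply]
  refine ⟨fun k => ?_, fun k => ?_, fun c' b => ?_, fun θ hθ => ?_⟩
  · rw [Finset.sum_apply]
    exact sum_mem fun c hc => Submodule.smul_mem _ _ (e1 c hc k)
  · refine (cls_sum P _ ρ fun c hc => e2 c hc k).imp fun g hg =>
      gr_congr hg (fun T _ => Finset.sum_apply _ _ _) ?_ fun _ _ => rfl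
    have := congrArg Subtype.val (map_sum (res (hν.hol k)) (fun c => ρ c • B c k) (Tp V a α))
    rw [Finset.sum_apply]
    exact this.trans (Submodule.coe_sum _ _ _)
  · rw [Finset.sum_apply] at b
    obtain ⟨c, hc, b⟩ := Finset.exists_ne_zero_of_sum_ne_zero b
    obtain ⟨b1, b2, b3⟩ := e3 c hc c' (right_ne_zero_of_mul b)
    exact ⟨b1, b2, c.1, (Finset.mem_filter.1 hc).2.1, b3⟩
  · have k : ∑ c ∈ Tp V a α, ρ c * (l c * J (ψ '' c.2) θ) = 0 := by
      rw [← Finset.sum_subset (Finset.filter_subset (fun c => ψ '' c.2 ∈ Sf V a Y ψ α) _)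
        fun c hc b => by simp [e5 c hc fun b' => b (Finset.mem_filter.2 ⟨hc, b'⟩)],
        ← Finset.sum_fiberwise_eq_sum_filter]
      refine Finset.sum_eq_zero fun C hC => ?_
      have := congrFun (LinearMap.mem_ker.1 r2) ⟨C, hC⟩
      simp only [Φ, LinearMap.pi_apply, LinearMap.sum_apply, LinearMap.smul_apply,
        LinearMap.proj_apply, smul_eq_mul, Pi.zero_apply] at this
      rw [← zero_mul (J C θ), ← this, Finset.sum_mul]
      exact Finset.sum_congr rfl fun c hc => by rw [(Finset.mem_filter.1 hc).2]; ring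
    rw [Z_sum, ← add_zero (Finset.sum _ _), ← k, ← Finset.sum_add_distrib]
    refine (Finset.sum_congr rfl fun c hc => ?_).trans (Finset.sum_subset (Finset.filter_subset _ _)
      fun c _ hc => by rw [r1.1 c hc, zero_mul])
    rw [← mul_add, ← e6 c hc θ hθ, I]

end Vale.Agent.P277Z.Top
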