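import Vale.Agent.P277Z.Top.Rep1A
import Vale.Agent.P277Z.Top.Rep
import Vale.Agent.P277Z.Top.Lift
import Vale.Agent.P277Z.Top.DgSk

/-!
# P277, block TOP: the class of the image of a surface
-/

set_option linter.all false
set_option maxSynthPendingDepth 3

open scoped Manifold ContDiff Topology
open Vale.Agent.P272.K Vale.Agent.P285.H281.FD Vale.Agent.P277 Set Filter
open Vale.Agent.P277.PH (HolF SmR)
open Vale.Agent.P277.T3 (ThinM thinM_iUnion)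
open Vale.Agent.P277Z.Tr (pb HolM Ctr)
open Vale.Agent.P277Z.Val (Lg Sb IsCC IsSnc)
open Vale.Agent.P277Z.Val.U (thinM_mono thinM_image)
open Vale.Agent.P277Z.Glc.Ad (snc_res)
open Vale.Agent.P277Z.Gd

noncomputable section

namespace Vale.Agent.P277Z.Top

namespace R1

open Eg

theorem gr_coe {d : ℕ} {X : Mf d} {ι : Type} {T : Finset ι} {D : ι → Set X.M} {m : ι → ℝ}
    {α : Fr d 2 X.M} {g : X.M → ℝ}
    (h : IsGr Finset.univ (fun i : T => D i) (fun i => m i) α g) : IsGr T D m α g := by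
  classical
  intro x
  obtain ⟨ζ, u, h1, h2⟩ := h x
  refine ⟨fun i => if a : i ∈ T then ζ ⟨i, a⟩ else 1, u,
    fun i a => by simpa only [dif_pos a] using h1 ⟨i, a⟩ (Finset.mem_univ _),
    h2.mono fun y a => ⟨a.1, a.2.1, fun b => ?_⟩⟩
  rw [a.2.2 fun i _ => b i i.2, ← Finset.sum_coe_sort T]
  simp

theorem sub_one {U : Lg} {S : Mf 2} [ConnectedSpace S.M] {f : S.M → U.W} (hf : HolM 2 4 f)
    (h : ∀ x, f x ∈ U.E) : ∃ k, ∀ x, f x ∈ U.G k := by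
  obtain ⟨k, hk⟩ := nonempty_interior_of_iUnion_of_closed (f := fun k => f ⁻¹' U.G k)
    (fun k => (U.closed k).preimage hf.1) (eq_univ_of_forall fun x => by
      simpa [Lg.E] using h x)
  refine ⟨k, fun x => interior_subset (s := f ⁻¹' U.G k) (((isClopen_iff.1
    ⟨isClosed_of_closure_subset fun x hx => ?_, isOpen_interior⟩).resolve_left hk.ne_empty).ge
      (mem_univ x))⟩
  obtain ⟨η, hη⟩ := U.exEq (f x)
  have a : Hol 2 (fun y => η k (f y)) x := hcomp (X := lgM U) hf (hη.hol k)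
  have b : ∀ᶠ y in 𝓝 x, η k (f y) = 0 ↔ y ∈ f ⁻¹' U.G k :=
    hf.1.continuousAt.eventually (hη k).1
  refine mem_interior_iff_mem_nhds.2 (by_contra fun c => ?_)
  obtain ⟨y, y1, y2, y3⟩ := ((mem_closure_iff_frequently.1 hx).and_eventually
    ((Nz.near (fun d => c (mem_of_superset (d.and b) fun y e => e.2.1 e.1)) a).and
      b.eventually_nhds)).exists
  exact y2 ((y3.and (mem_interior_iff_mem_nhds.1 y1)).mono fun z e => e.1.2 e.2)

variable {V U : Lg} (P : Par V)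

theorem snc (l : Fin V.r) : IsSnc 3 fun T : cl V l => range (P.j l T) := by
  classical
  choose κ hκ using fun T : cl V l => show ∃ k, IsCC V l k T from Lg.cmp_iff.1 (mem_cl.1 T.2)
  intro y
  obtain ⟨t, lab, h1, h2, h3⟩ := @snc_res 3 _ V.W _ _ _ _ V.ch V.mf _ _ _ _ V.snc (P.emb l)
    (mem_G P l) y
  refine ⟨t, fun T => if P.ι l y ∈ T.1 then lab ⟨κ T, (hκ T).ne⟩ else none, h1,
    fun T T' i a b => ?_, ?_⟩
  · obtain ⟨a1, a2⟩ := Option.ite_none_right_eq_some.1 a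
    obtain ⟨b1, b2⟩ := Option.ite_none_right_eq_some.1 b
    have e : κ T = κ T' := congrArg Subtype.val (h2 _ _ i a2 b2)
    exact Subtype.ext (((hκ T).eq _ a1).trans (e ▸ ((hκ T').eq _ b1).symm))
  · refine eventually_all.2 fun T => ?_
    have m := par_mem P (mem_cl.1 T.2)
    by_cases a : P.ι l y ∈ T.1
    · filter_upwards [h3, (P.emb l).cont.continuousAt.eventually ((hκ T).loc _ a)] with x b c
      rw [if_pos a, ← b ⟨κ T, (hκ T).ne⟩]
      exact (m x).trans (c.trans ⟨fun e => e.2, fun e => ⟨mem_G P l x, e⟩⟩)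
    · filter_upwards [(P.emb l).cont.continuousAt.eventually
        ((hκ T).closed.isOpen_compl.mem_nhds a)] with x b
      rw [if_neg a]
      exact ⟨fun e => absurd ((m x).1 e) b, fun ⟨_, e, _⟩ => absurd e (by simp)⟩

end R1

open R1 Eg in
theorem stRep1 (hI : StImg) (hD : StDeg) (hR : StRk) (hL : StLam) : StRep1 := by
  classical
  intro V U P Q μ s X ν h hν c hc hE hX
  have hF := fun T (hT : T ∈ V.cmp) => holM_comp h.hol (par_hol₄ P hT)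
  have hr := fun T (hT : T ∈ V.cmp) => Rp.rf P μ hT
  have hS := P.conn₂ c hc
  have rk := fun T (hT : T ∈ V.cmp) => hR 1 4 (P.S T.2) (lgM U) _ (hF T hT)
  have r0 : ∀ T ∈ V.cmp, Ctr 2 4 (fun x => μ (P.ι₂ T.2 x)) → ∀ θ : Fr 4 4 U.W,
      (P.S T.2).int (pb (Cm 2) (fun x => μ (P.ι₂ T.2 x)) θ) = 0 := fun T hT a θ =>
    (congrArg _ (((rk T hT).1 a).1 θ)).trans (int_zero _)
  have r1 : ThinM 4 1 (μ '' c.2) → Ctr 2 4 fun x => μ (P.ι₂ c.2 x) := fun a =>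
    (rk c hc).2 hS univ isOpen_univ univ_nonempty (by rwa [image_univ, hr c hc])
  obtain ⟨k, hk⟩ := sub_one (hF c hc) fun x => hE (hr c hc ▸ mem_range_self x)
  by_cases h0 : Ctr 2 4 fun x => μ (P.ι₂ c.2 x)
  · refine ⟨k, fun _ => 0, 0, zero_mem _, Rp.cls_zero P _, fun _ a => absurd rfl a, fun θ _ => ?_⟩
    rw [pb_pb (par_hol₄ P hc) h.hol, r0 c hc h0]
    simp
  choose f hf using fun x => (Q.rng k).ge (hk x)
  have f1 : Continuous f :=
    ((Q.emb k).cont.isClosedEmbedding (Q.emb k).inj).isInducing.continuous_iff.2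
      ((hF c hc).1.congr fun x => (hf x).symm)
  have f2 : HolM 2 3 f := Lt.of_holM fun x => ⟨f1.continuousAt, fun u hu => by
    obtain ⟨F, a, b⟩ := (Q.emb k).ext hu
    refine ((Lt.holM_of (hF c hc) x).2 F (by rwa [hf] at a)).congr ?_
    filter_upwards [f1.continuousAt.eventually b] with z hz
    rw [hz, hf]⟩
  have f3 : ∀ z, z ∈ range f ↔ Q.ι k z ∈ μ '' c.2 := fun z => by
    rw [← hr c hc]
    exact exists_congr fun x => (Q.emb k).inj.eq_iff.symm.trans (by rw [hf])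
  have := Q.conn k
  obtain ⟨L, σ, l1, l2, l3⟩ := hI _ _ f hS f2 fun a => h0 (r1 (thinM_mono (thinM_image
    (((hR 1 3 _ _ f f2).1 a).2.2 inferInstance) (Q.emb k).holM) fun z hz => by
      obtain ⟨x, rfl⟩ := (hr c hc).ge hz
      exact ⟨_, ⟨x, rfl⟩, hf x⟩))
  obtain ⟨ψ, α, hα⟩ := (hL 3 (Q.H k)).2.1 L l1
  obtain ⟨n, g, n1, n2⟩ := gr_sec (d := 2) (snc P (s k))
    (fun T => have := P.conn₂ _ (mem_cl.1 T.2); isConnected_range (P.emb₂ _ (mem_cl.1 T.2)).cont)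
    ((hL 3 (Q.H k)).2.2.2.2 3 _ _ L ψ α (hν.hol k) hα) (σ := fun i y => σ i (ν k y))
    (fun i y a => hcomp (hν.hol k) fun e he => (l2.holo i e _ he a).analyticAt)
    (fun i j y => l2.change i j _) fun i y a b e => by
      obtain ⟨x, x1, x2⟩ := (f3 _).1 ((l3 i _ a).1 e)
      have g : Val.U.Gen V (s k) (P.ι (s k) y) := ⟨mem_G P _ y, fun l hl e => by
        have c := cc (Val.isCC_cc hl ⟨mem_G P _ y, e⟩)
        exact b ⟨_, mem_cl.2 c⟩ ((par_mem P c y).2 (mem_connectedComponentIn ⟨mem_G P _ y, e⟩))⟩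
      obtain ⟨j, hj⟩ := Lg.cmp_iff.1 hc
      rw [h.inj _ _ (Lt.rg_gen g) (x2.trans (hν.fac k y))] at x1
      exact g.2 c.1 (fun e => hX (e ▸ h.mem k)) (hj.sub x1).1
  have n3 : ∀ y, μ (P.ι (s k) y) ∈ μ '' c.2 ↔
      ∃ T : cl V (s k), P.ι (s k) y ∈ T.1 ∧ n T ≠ 0 := fun y => by
    obtain ⟨i, hi⟩ := l1.cover (ν k y)
    rw [← hν.fac, ← f3, ← l3 i _ hi]
    exact (n2 i y hi).trans (exists_congr fun T => and_congr_left' (par_mem P (mem_cl.1 T.2) y))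
  have n4 : ∀ T : cl V (s k), n T ≠ 0 → μ '' T ⊆ μ '' c.2 := by
    rintro T a _ ⟨x, b, rfl⟩
    obtain ⟨j, hj⟩ := Lg.cmp_iff.1 (mem_cl.1 T.2)
    obtain ⟨y, rfl⟩ := (P.rng (s k)).ge (hj.sub b).1
    exact (n3 y).2 ⟨T, b, a⟩
  have E : ∀ T : cl V (s k), ∃ l : ℝ, 0 ≤ l ∧
      (n T ≠ 0 → ¬ ThinM 4 1 (μ '' T) → 0 < l) ∧ ∀ θ : Fr 4 4 U.W, Sm θ →
        n T * (P.S T).int (pb (Cm 2) (P.ι₂ T) (pb (Cm 4) μ θ)) =
          l * (P.S c.2).int (pb (Cm 2) (P.ι₂ c.2) (pb (Cm 4) μ θ)) := fun T => by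
    have hT := mem_cl.1 T.2
    simp only [pb_pb (par_hol₄ P hc) h.hol, pb_pb (par_hol₄ P hT) h.hol]
    by_cases a : n T = 0
    · exact ⟨0, le_rfl, fun b => absurd a b, fun θ _ => by simp [a]⟩
    by_cases b : Ctr 2 4 fun x => μ (P.ι₂ T x)
    · exact ⟨0, le_rfl, fun _ e => absurd (hr _ hT ▸ ((rk _ hT).1 b).2.2 ⟨μ (P.ι₂ _
        (Classical.arbitrary (P.S c.2).M))⟩) e, fun θ _ => by rw [r0 _ hT b, mul_zero, zero_mul]⟩
    obtain ⟨l, l1, l2⟩ := hD 4 _ _ (lgM U) _ _ hS (hF c hc) (hF _ hT)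
      (by rw [hr c hc, hr _ hT]; exact n4 T a)
    have p := mul_pos (Nat.cast_pos.2 (Nat.pos_of_ne_zero a)) (l1 b)
    exact ⟨n T * l, p.le, fun _ _ => p, fun θ hθ => by rw [l2 θ hθ, mul_assoc]⟩
  choose l e1 e2 e3 using E
  have p : 0 < ∑ T, l T := by
    refine Finset.sum_pos' (fun T _ => e1 T) (by_contra fun a => h0 (r1 ?_))
    have : Nonempty U.W := ⟨μ (P.ι₂ _ (Classical.arbitrary (P.S c.2).M))⟩
    refine thinM_mono (thinM_iUnion fun T : {T // n T ≠ 0} => show ThinM 4 1 (μ '' T.1) from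
      by_contra fun b => a ⟨T.1, Finset.mem_univ _, e2 _ T.2 b⟩) fun z hz => ?_
    obtain ⟨x, rfl⟩ := (hr c hc).ge hz
    obtain ⟨_, ⟨y, rfl⟩, b⟩ : μ (P.ι₂ c.2 x) ∈ μ '' range (P.ι (s k)) := by
      rw [P.rng, h.img]
      exact hk x
    obtain ⟨T, t1, t2⟩ := (n3 y).1 (b ▸ hz)
    exact mem_iUnion.2 ⟨⟨T, t2⟩, _, t1, b⟩
  let α' : C11 (Q.H k) := ⟨α, (hL 3 (Q.H k)).1 L ψ α hα⟩
  have n5 := gr_smul (∑ T, l T)⁻¹ (gr_coe (D := fun T => range (P.j (s k) T))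
    (m := fun T => if a : T ∈ cl V (s k) then (n ⟨T, a⟩ : ℝ) else 0)
    (gr_congr n1 (fun T _ => dif_pos T.2) rfl fun _ _ => rfl))
  refine ⟨k, _, (∑ T, l T)⁻¹ • α',
    Submodule.smul_mem _ _ (Submodule.subset_span (((hL 3 _).2.2.1 α').2 ⟨L, ψ, hα⟩)),
    ⟨_, n5⟩, fun T a => ?_, fun θ hθ => ?_⟩
  · obtain ⟨b, e⟩ := dite_ne_right_iff.1 (right_ne_zero_of_mul a)
    exact n4 ⟨T, b⟩ (Nat.cast_ne_zero.1 e)
  · rw [← Finset.sum_coe_sort, Finset.sum_congr rfl fun T _ => by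
      rw [dif_pos T.2, mul_assoc, e3 T θ hθ], ← Finset.mul_sum, ← Finset.sum_mul,
      inv_mul_cancel_left₀ p.ne']

end Vale.Agent.P277Z.Top
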