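import Vale.Agent.P277Z.Top.Sk
import Vale.Agent.P277Z.Val.Jz0
import Vale.Agent.P277Z.Val.Rank
import Vale.Agent.P277Z.Pj.Bdd

/-!
# P277, block TOP, row RK: maps of small rank
-/

set_option linter.all false
set_option maxSynthPendingDepth 3

open scoped Manifold ContDiff Topology
open Vale.Agent.P272.K Vale.Agent.P277 Set Filter Module Metric Function
open Vale.Agent.P277.PH (at_chartAt ev_symm chg_analyticAt)
open Vale.Agent.P277.T3 (ThinM thinM_biUnion)
open Vale.Agent.P277.H762 (Cv)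
open Vale.Agent.P277Z.Tr (pb HolM Ctr dM)
open Vale.Agent.P277Z.Val (crd_chart nul_of_cv rank_lt_of_nul rank_Jm)
open Vale.Agent.P277Z.Val.U (cv_of_thinM conn_prop)

noncomputable section

namespace Vale.Agent.P277Z.Top

namespace RkA

theorem alt_zero {m n k : ℕ} {L : Cm (m + 1) →L[ℂ] Cm n} (hL : ¬ Injective L) (hk : 2 * m < k)
    (θ : Cm n [⋀^Fin k]→L[ℝ] ℝ) : θ.compContinuousLinearMap (L.restrictScalars ℝ) = 0 := by
  ext v
  refine θ.toAlternatingMap.map_linearDependent (fun i => L (v i)) fun h => ?_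
  set R := LinearMap.range (L : Cm (m + 1) →ₗ[ℂ] Cm n) with hR
  have h1 : finrank ℂ R ≤ m := by
    have h2 := LinearMap.finrank_range_add_finrank_ker (L : Cm (m + 1) →ₗ[ℂ] Cm n)
    have h3 : finrank ℂ (LinearMap.ker (L : Cm (m + 1) →ₗ[ℂ] Cm n)) ≠ 0 := fun h3 =>
      hL (LinearMap.ker_eq_bot.1 (Submodule.finrank_eq_zero.1 h3))
    rw [Module.finrank_fin_fun, ← hR] at h2
    omega
  have h4 : LinearIndependent ℝ fun i => (⟨L (v i), v i, rfl⟩ : R) :=
    LinearIndependent.of_comp (R.subtype.restrictScalars ℝ) h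
  have h5 := h4.fintype_card_le_finrank
  rw [Fintype.card_fin, ← Module.finrank_mul_finrank ℝ ℂ R, Complex.finrank_real_complex] at h5
  omega

/-- the identity theorem for the rank -/
theorem ninj_of {m n : ℕ} {B : Set (Cm m)} (hc : IsPreconnected B) {g : Cm m → Cm n}
    (hg : ∀ z ∈ B, AnalyticAt ℂ g z) {p : Cm m} (hp : p ∈ B)
    (h : ∀ᶠ z in 𝓝 p, ¬ Injective (fderiv ℂ g z)) {q : Cm m} (hq : q ∈ B) :
    ¬ Injective (fderiv ℂ g q) := by
  intro hi
  obtain ⟨P₀, hP⟩ := (fderiv ℂ g q : Cm m →ₗ[ℂ] Cm n).exists_leftInverse_of_injective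
    (LinearMap.ker_eq_bot.2 hi)
  let P : Cm n →L[ℂ] Cm m := LinearMap.toContinuousLinearMap P₀
  have hJ : ∀ z ∈ B, AnalyticAt ℂ
      (fun w => LinearMap.det (P.comp (fderiv ℂ g w) : Cm m →ₗ[ℂ] Cm m)) z := fun z hz =>
    Pj.Bdd.an_det (M := fun w => P.comp (fderiv ℂ g w)) fun v => (P.analyticAt _).comp
      (((ContinuousLinearMap.apply ℂ (Cm n) v).analyticAt _).comp (hg z hz).fderiv)
  have h1 := AnalyticOnNhd.eqOn_zero_of_preconnected_of_eventuallyEq_zero hJ hc hp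
    (h.mono fun z hz => by
      by_contra h0
      exact hz (Injective.of_comp (f := P) (LinearMap.equivOfDetNeZero _ h0).injective)) hq
  have h2 : (P.comp (fderiv ℂ g q) : Cm m →ₗ[ℂ] Cm m) = LinearMap.id := hP
  simp only [h2, LinearMap.det_id] at h1
  exact one_ne_zero h1

variable {m n : ℕ} {X Z : Type} [TopologicalSpace X] [ChartedSpace (Cm m) X]
  [IsManifold 𝓘(ℂ, Cm m) ω X] [TopologicalSpace Z] [ChartedSpace (Cm n) Z]
  [IsManifold 𝓘(ℂ, Cm n) ω Z] {f : X → Z}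

theorem inj_chg (hf : HolM m n f) {p : X} {c c' : Chart m X} {e e' : Chart n Z} (a : At c p)
    (a' : At c' p) (b : At e (f p)) (b' : At e' (f p))
    (h : Injective (fderiv ℂ (fun z => e (f (c.symm z))) (c p))) :
    Injective (fderiv ℂ (fun z => e' (f (c'.symm z))) (c' p)) := by
  have l1 : c'.symm (c' p) = p := c'.left_inv a'.2
  have t := (crd_chart a').chg (crd_chart a)
  have d1 := t.1.differentiableAt.hasFDerivAt
  have d3 : HasFDerivAt (fun z => e (f (c.symm z))) (fderiv ℂ (fun z => e (f (c.symm z))) (c p))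
      (c (c'.symm (c' p))) := by
    rw [l1]; exact (hf.2 p c e a b).differentiableAt.hasFDerivAt
  have d4 := (hf.2 p c' e' a' b').differentiableAt.hasFDerivAt
  have d5 : HasFDerivAt (fun z => e (e'.symm z)) (fderiv ℂ (fun z => e (e'.symm z)) (e' (f p)))
      (e' (f (c'.symm (c' p)))) := by
    rw [l1]; exact (chg_analyticAt b b').differentiableAt.hasFDerivAt
  have e2 : (fun z => e (f (c.symm z))) ∘ (fun z => c (c'.symm z)) =ᶠ[𝓝 (c' p)]
      (fun z => e (e'.symm z)) ∘ fun z => e' (f (c'.symm z)) := by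
    filter_upwards [ev_symm a'.2 (c.open_source.eventually_mem a.2),
      ev_symm a'.2 (hf.1.continuousAt.eventually (e'.open_source.eventually_mem b'.2))]
      with z h1 h2
    simp only [comp_apply]
    rw [c.left_inv h1, e'.left_inv h2]
  have k2 := (d3.comp (c' p) d1).unique ((d5.comp (c' p) d4).congr_of_eventuallyEq e2)
  refine Injective.of_comp (f := fderiv ℂ (fun z => e (e'.symm z)) (e' (f p))) ?_
  rw [← ContinuousLinearMap.coe_comp', ← k2]
  exact h.comp t.inj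

/-- a ball in a chart -/
theorem exists_ball (hf : HolM m n f) (x : X) : ∃ (c : Chart m X) (e : Chart n Z) (r : ℝ),
    At c x ∧ e ∈ atlas (Cm n) Z ∧ 0 < r ∧ ∀ z ∈ ball (c x) r, z ∈ c.target ∧
      f (c.symm z) ∈ e.source ∧ AnalyticAt ℂ (fun z => e (f (c.symm z))) z ∧
      (Injective (fderiv ℂ (fun z => e (f (c.symm z))) z) ↔ Injective (dM m n f (c.symm z))) := by
  have a := at_chartAt (n := m) x
  have b := at_chartAt (n := n) (f x)
  generalize chartAt (Cm m) x = c at a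
  generalize chartAt (Cm n) (f x) = e at b
  obtain ⟨r, hr, h⟩ := Metric.eventually_nhds_iff_ball.1
    ((c.open_target.eventually_mem (c.map_source a.2)).and
      (ev_symm a.2 (hf.1.continuousAt.eventually (e.open_source.eventually_mem b.2))))
  refine ⟨c, e, r, a, b.1, hr, fun z hz => ?_⟩
  obtain ⟨h1, h2⟩ := h z hz
  have a1 : At c (c.symm z) := ⟨a.1, c.map_target h1⟩
  have b1 : At e (f (c.symm z)) := ⟨b.1, h2⟩
  have h3 := hf.2 _ c e a1 b1
  have h4 := inj_chg hf a1 (at_chartAt _) b1 (at_chartAt _)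
  have h5 := inj_chg hf (at_chartAt _) a1 (at_chartAt _) b1
  rw [c.right_inv h1] at h3 h4 h5
  exact ⟨h1, h2, h3, h4, h5⟩

end RkA

namespace RkA

variable {d n : ℕ} {X Z : Type} [TopologicalSpace X] [ChartedSpace (Cm (d + 1)) X]
  [IsManifold 𝓘(ℂ, Cm (d + 1)) ω X] [TopologicalSpace Z] [ChartedSpace (Cm n) Z]
  [IsManifold 𝓘(ℂ, Cm n) ω Z] {f : X → Z}

theorem pb_zero (hf : HolM (d + 1) n f) (hc : Ctr (d + 1) n f) {k : ℕ} (hk : 2 * d < k)
    (θ : Fr n k Z) : pb (Cm (d + 1)) f θ = 0 := by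
  funext x
  unfold pb
  rw [(hf.2 x _ _ (at_chartAt x) (at_chartAt (f x))).differentiableAt.fderiv_restrictScalars ℝ]
  exact alt_zero (hc x) hk _

theorem thin [CompactSpace X] [Nonempty Z] (hf : HolM (d + 1) n f) (hc : Ctr (d + 1) n f) :
    ThinM n d (range f) := by
  have h : ∀ x, ∃ N ∈ 𝓝 x, ThinM n d (f '' N) := by
    intro x
    obtain ⟨c, e, r, a, b, hr, h⟩ := exists_ball hf x
    have h1 := Pj.Bdd.cv_conn isOpen_ball (convex_ball (c x) r).isPreconnected
      ⟨_, mem_ball_self hr⟩ fun z hz => (h z hz).2.2.1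
    refine ⟨c.source ∩ c ⁻¹' ball (c x) r, inter_mem (c.open_source.mem_nhds a.2)
      ((c.continuousAt a.2).preimage_mem_nhds (ball_mem_nhds _ hr)),
      (H335.HY.thinM_of_cv b h1 ?_).mono ?_⟩
    · rintro _ ⟨z, hz, rfl⟩
      exact e.map_source (h z hz.1).2.1
    · rintro _ ⟨y, ⟨h2, h3⟩, rfl⟩
      obtain ⟨-, h4, -, h5⟩ := h _ h3
      refine ⟨_, ⟨c y, ⟨h3, fun h6 => hc _ (h5.1 h6)⟩, rfl⟩, ?_⟩
      rw [e.left_inv h4, c.left_inv h2]
  choose N hN hd using h
  obtain ⟨t, -, ht⟩ := isCompact_univ.elim_nhds_subcover N fun x _ => hN x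
  refine (thinM_biUnion t.countable_toSet fun x _ => hd x).mono ?_
  rintro _ ⟨x, rfl⟩
  obtain ⟨p, hp, hx⟩ := mem_iUnion₂.1 (ht (mem_univ x))
  exact mem_iUnion₂.2 ⟨p, hp, x, hx, rfl⟩

theorem ninj_of_thin (hf : HolM (d + 1) n f) {O : Set X} (hO : IsOpen O) (h : ThinM n d (f '' O))
    {x : X} (hx : x ∈ O) : ¬ Injective (dM (d + 1) n f x) := by
  intro hi
  unfold dM at hi
  have a := at_chartAt (n := d + 1) x
  have b := at_chartAt (n := n) (f x)
  obtain ⟨T, t1, t2⟩ := cv_of_thinM h (crd_chart b)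
  have h1 := rank_lt_of_nul (hf.2 x _ _ a b) (nul_of_cv t1) (ev_symm a.2
    (((hf.1.continuousAt.eventually t2).and (hO.eventually_mem hx)).mono fun y hy =>
      hy.1 (mem_image_of_mem f hy.2)))
  rw [rank_Jm, LinearMap.finrank_range_of_inj hi, Module.finrank_fin_fun] at h1
  exact lt_irrefl _ h1

theorem ctr_of [PreconnectedSpace X] (hf : HolM (d + 1) n f) {O : Set X} (hO : IsOpen O)
    (hne : O.Nonempty) (h : ThinM n d (f '' O)) : Ctr (d + 1) n f := by
  obtain ⟨x₀, h0⟩ := hne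
  have key := conn_prop isPreconnected_univ
    (p := fun x => ∀ᶠ y in 𝓝 x, ¬ Injective (dM (d + 1) n f y))
    (fun x _ hp => hp.eventually_nhds.mono fun _ h _ => h) (fun x _ hp => ?_) (mem_univ x₀)
    ((hO.eventually_mem h0).mono fun y hy => ninj_of_thin hf hO h hy)
  · exact fun x => (key x (mem_univ x)).self_of_nhds
  obtain ⟨c, e, r, a, -, hr, hb⟩ := exists_ball hf x
  have hN : ∀ᶠ y in 𝓝 x, y ∈ c.source ∧ c y ∈ ball (c x) r :=
    (c.open_source.eventually_mem a.2).and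
      ((c.continuousAt a.2).eventually (ball_mem_nhds _ hr))
  obtain ⟨y, ⟨-, y1⟩, y2, y3⟩ := (hp.and_eventually hN).exists
  have h1 : ∀ᶠ z in 𝓝 (c y), ¬ Injective (fderiv ℂ (fun z => e (f (c.symm z))) z) := by
    filter_upwards [ev_symm y2 y1, isOpen_ball.mem_nhds y3] with z z1 z2
    exact fun h2 => z1 ((hb z z2).2.2.2.1 h2)
  filter_upwards [hN] with y' ⟨z1, z2⟩ h2
  refine ninj_of (convex_ball (c x) r).isPreconnected (fun z hz => (hb z hz).2.2.1) y3 h1 z2
    ((hb _ z2).2.2.2.2 ?_)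
  rwa [c.left_inv z1]

end RkA

theorem stRk : StRk := fun _ _ _ _ _ hf =>
  ⟨fun hc => ⟨RkA.pb_zero hf hc (by omega), RkA.pb_zero hf hc (by omega), fun _ => RkA.thin hf hc⟩,
    fun _ _ hO hne h => RkA.ctr_of hf hO hne h⟩

end Vale.Agent.P277Z.Top
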