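import Vale.Agent.P277Z.Top.TrSk
import Vale.Agent.P277Z.Top.Ddc
import Vale.Agent.P277Z.Val.Rank
import Mathlib.Analysis.Complex.Harmonic.MeanValue

/-!
# P277, block TOP, row TR: pluriharmonic functions are bounded near thin sets of codimension two
-/

set_option maxSynthPendingDepth 3

open scoped Manifold ContDiff Topology Real
open Set Filter Metric InnerProductSpace
open Vale.Agent.P272.K (Cm Chart At)
open Vale.Agent.P277.H762 (Cv)
open Vale.Agent.P277.PH (SmR)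
open Vale.Agent.P277.T3 (ThinM)
open Vale.Agent.P267.H175 (loc)
open Vale.Agent.P277Z.Slc (at_chartAt)

noncomputable section

namespace Vale.Agent.P277Z.Top

namespace Bdd

/-- most complex lines through `q` meet a thin set of dimension one at most in `q` -/
theorem good {T : Set (Cm 3)} (hT : Cv 1 T) (q w₀ : Cm 3) {ε : ℝ} (hε : 0 < ε) :
    ∃ w ∈ ball w₀ ε, ∀ s : ℂ, s ≠ 0 → q + s • w ∉ T := by
  obtain ⟨Ω, g, h1, h2, h3⟩ := hT
  let P : Cm 2 →L[ℂ] Cm 1 := ContinuousLinearMap.pi fun i => ContinuousLinearMap.proj i.succ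
  have hB : Cv 2 (⋃ l, (fun p : Cm 2 => p 0 • (g l (P p) - q)) '' (P ⁻¹' Ω l)) :=
    ⟨fun l => P ⁻¹' Ω l, fun l p => p 0 • (g l (P p) - q), fun l => (h1 l).preimage P.continuous,
      fun l p hp => ((ContinuousLinearMap.proj (R := ℂ) (φ := fun _ : Fin 2 => ℂ) 0).analyticAt
        p).smul (((h2 l _ hp).comp (P.analyticAt p)).sub analyticAt_const), Subset.rfl⟩
  have h4 := (Val.nul_of_cv hB).not_nhds w₀
  by_contra hcon
  refine h4 (mem_of_superset (ball_mem_nhds w₀ hε) fun w hw => ?_)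
  by_contra hw'
  refine hcon ⟨w, hw, fun s hs hsT => hw' ?_⟩
  obtain ⟨l, p, hp, hpx⟩ := mem_iUnion.1 (h3 hsT)
  have e : P (Fin.cons s⁻¹ p) = p := by
    ext i
    simp [P]
  refine mem_iUnion.2 ⟨l, Fin.cons s⁻¹ p, by show P _ ∈ Ω l; rwa [e], ?_⟩
  show (Fin.cons s⁻¹ p : Cm 2) 0 • (g l (P _) - q) = w
  rw [e, hpx, Fin.cons_zero, add_sub_cancel_left, smul_smul, inv_mul_cancel₀ hs, one_smul]

variable {n : ℕ} {u : Cm n → ℝ} {q w : Cm n}

theorem d2_line {z : ℂ} (hu : ContDiffAt ℝ ∞ u (q + z • w)) (a b : ℂ) :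
    fderiv ℝ (fderiv ℝ fun s : ℂ => u (q + s • w)) z a b =
      fderiv ℝ (fderiv ℝ u) (q + z • w) (a • w) (b • w) := by
  let L : ℂ →L[ℝ] Cm n := (ContinuousLinearMap.toSpanSingleton ℂ w).restrictScalars ℝ
  have hL : ∀ s : ℂ, HasFDerivAt (fun s : ℂ => q + s • w) L s := fun s =>
    L.hasFDerivAt.const_add q
  have h1 : (fderiv ℝ fun s : ℂ => u (q + s • w)) =ᶠ[𝓝 z]
      fun s => (fderiv ℝ u (q + s • w)).comp L := by
    filter_upwards [(hL z).continuousAt.eventually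
      ((hu.of_le (m := 1) (by simp)).eventually (by simp))] with s hs
    exact ((hs.differentiableAt (by simp)).hasFDerivAt.comp s (hL s)).fderiv
  have h2 : DifferentiableAt ℝ (fderiv ℝ u) (q + z • w) :=
    (hu.fderiv_right (m := ∞) (by simp)).differentiableAt (by simp)
  have h3 := (h2.hasFDerivAt.comp z (hL z)).clm_comp (hasFDerivAt_const L z)
  rw [h1.fderiv_eq]
  refine (congrArg (fun t : ℂ →L[ℝ] ℂ →L[ℝ] ℝ => t a b) h3.fderiv).trans ?_
  simp [L]

/-- smooth with vanishing Levi form -/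
def Ph (u : Cm n → ℝ) (y : Cm n) : Prop :=
  ContDiffAt ℝ ∞ u y ∧ ∀ w : Cm n, fderiv ℝ (fderiv ℝ u) y w w +
    fderiv ℝ (fderiv ℝ u) y (Complex.I • w) (Complex.I • w) = 0

theorem harm {z : ℂ} (h : ∀ᶠ y in 𝓝 (q + z • w), Ph u y) :
    HarmonicAt (fun s : ℂ => u (q + s • w)) z := by
  have hc : ContDiff ℝ ∞ fun s : ℂ => q + s • w := by fun_prop
  refine ⟨((h.self_of_nhds.1.comp z hc.contDiffAt)).of_le (by norm_cast), ?_⟩
  filter_upwards [hc.continuous.continuousAt.eventually h] with s hs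
  rw [laplacian_eq_iteratedFDeriv_complexPlane]
  simp only [iteratedFDeriv_two_apply, Matrix.cons_val_zero, Matrix.cons_val_one, Pi.zero_apply]
  rw [d2_line hs.1, d2_line hs.1, one_smul]
  exact hs.2 w

theorem mean {W : Set (Cm n)} (hW : IsOpen W) (h : ∀ y ∈ W, Ph u y)
    (hq : ∀ s : ℂ, ‖s‖ ≤ 1 → q + s • w ∈ W) {C : ℝ}
    (hC : ∀ s : ℂ, ‖s‖ = 1 → |u (q + s • w)| ≤ C) : |u q| ≤ C := by
  have h1 : HarmonicOnNhd (fun s : ℂ => u (q + s • w)) (closedBall 0 |1|) := fun s hs =>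
    harm (mem_of_superset (hW.mem_nhds (hq s (by simpa using hs))) h)
  have h2 := h1.circleAverage_eq
  simp only [zero_smul, add_zero] at h2
  rw [← h2]
  refine Real.abs_circleAverage_le_circleAverage_abs.trans
    (Real.circleAverage_mono_on_of_le_circle ?_ fun s hs => hC s (by simpa using hs))
  exact (h1.continuousOn.mono sphere_subset_closedBall).abs.circleIntegrable'

theorem flat {U T : Set (Cm 3)} {u : Cm 3 → ℝ} (hU : IsOpen U) (hT : Cv 1 T)
    (hW : IsOpen (U \ T)) (h : ∀ y ∈ U \ T, Ph u y) {p : Cm 3} (hp : p ∈ U) :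
    ∃ C : ℝ, ∀ᶠ q in 𝓝 p, q ∉ T → |u q| ≤ C := by
  obtain ⟨r, hr, hrU⟩ := Metric.isOpen_iff.1 hU p hp
  obtain ⟨w₀, hw₀, h0⟩ := good hT p 0 (ε := r / 3) (by positivity)
  rw [mem_ball_zero_iff] at hw₀
  have hin : ∀ (q w : Cm 3) (s : ℂ), dist q p < r / 3 → ‖w‖ < 2 * r / 3 → ‖s‖ ≤ 1 →
      q + s • w ∈ U := by
    intro q w s h1 h2 h3
    refine hrU ?_
    rw [mem_ball, dist_eq_norm, add_sub_right_comm]
    rw [dist_eq_norm] at h1
    have h4 : ‖s • w‖ ≤ ‖w‖ := by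
      rw [norm_smul]
      exact mul_le_of_le_one_left (norm_nonneg _) h3
    linarith [norm_add_le (q - p) (s • w)]
  have hS : IsCompact ((fun s : ℂ => p + s • w₀) '' sphere 0 1) :=
    (isCompact_sphere 0 1).image (by fun_prop)
  obtain ⟨δ, hδ, hδW⟩ := hS.exists_cthickening_subset_open hW (by
    rintro _ ⟨s, hs, rfl⟩
    rw [mem_sphere_zero_iff_norm] at hs
    refine ⟨hin p w₀ s (by simpa using hr) (by linarith) hs.le, h0 s fun h1 => ?_⟩
    simp [h1] at hs)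
  obtain ⟨C, hC⟩ := (hS.cthickening (r := δ)).exists_bound_of_continuousOn (f := u)
    fun y hy => (h y (hδW hy)).1.continuousAt.continuousWithinAt
  refine ⟨C, ?_⟩
  filter_upwards [ball_mem_nhds p (ε := min (r / 3) (δ / 2)) (by positivity)] with q hq hqT
  rw [mem_ball, lt_min_iff] at hq
  obtain ⟨w, hw, h1⟩ := good hT q w₀ (ε := min (r / 3) (δ / 2)) (by positivity)
  rw [mem_ball, lt_min_iff, dist_eq_norm] at hw
  have h2 : ‖w‖ < 2 * r / 3 := by
    have := norm_add_le (w - w₀) w₀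
    rw [sub_add_cancel] at this
    linarith [hw.1]
  refine mean (w := w) hW h (fun s hs => ⟨hin q w s hq.1 h2 hs, ?_⟩) fun s hs => ?_
  · rcases eq_or_ne s 0 with rfl | h3
    · simpa using hqT
    · exact h1 s h3
  · refine hC _ (mem_cthickening_of_dist_le _ (p + s • w₀) _ _
      ⟨s, mem_sphere_zero_iff_norm.2 hs, rfl⟩ ?_)
    have h3 : dist (s • w) (s • w₀) = ‖w - w₀‖ := by
      rw [dist_eq_norm, ← smul_sub, norm_smul, hs, one_mul]
    linarith [dist_add_add_le q (s • w) p (s • w₀), hq.2, hw.2]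

variable {M : Type} [TopologicalSpace M] [ChartedSpace (Cm n) M] [IsManifold 𝓘(ℂ, Cm n) ω M]

theorem ph_of {e : Chart n M} {x : M} (he : At e x) {h : M → ℝ} (hu : ∀ᶠ y in 𝓝 x, SmR n h y)
    (h0 : ddc n h x = 0) : Ph (fun z => h (e.symm z)) (e x) := by
  have h1 := hu.self_of_nhds e he
  refine ⟨h1, fun w => ?_⟩
  have h2 := PL.loc_ddc he hu
  have h3 : loc e (ddc n h) (e x) ![w, Complex.I • w] = 0 := by
    rw [loc, e.left_inv he.2, h0]
    rfl
  rw [h2] at h3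
  have h4 : (-(4 * π)⁻¹) *
      extDeriv (PL.dcf fun z => h (e.symm z)) (e x) ![w, Complex.I • w] = 0 := h3
  rw [PL.ddcf_apply h1, smul_smul, Complex.I_mul_I, neg_smul, one_smul, map_neg] at h4
  have h5 : (-(4 * π)⁻¹ : ℝ) ≠ 0 := neg_ne_zero.2 (by positivity)
  have h6 := (mul_eq_zero.1 h4).resolve_left h5
  linarith

omit [IsManifold 𝓘(ℂ, Cm n) ω M] in
theorem cv_chart {d : ℕ} {S : Set M} (h : ThinM n d S) {e : Chart n M} {x : M} (he : At e x) :
    Cv d (e '' (S ∩ e.source)) := by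
  obtain ⟨Ω, g, h1, h2, h3⟩ := h
  refine ⟨fun l => {p | p ∈ Ω l ∧ g l p ∈ e.source}, fun l p => e (g l p), fun l => ?_,
    fun l p hp => (h2 l p hp.1).2 e ⟨he.1, hp.2⟩, ?_⟩
  · rw [isOpen_iff_mem_nhds]
    intro p hp
    filter_upwards [(h1 l).mem_nhds hp.1,
      (h2 l p hp.1).1.eventually (e.open_source.mem_nhds hp.2)] with q hq hq' using ⟨hq, hq'⟩
  · rintro _ ⟨y, hy, rfl⟩
    obtain ⟨l, p, hp, rfl⟩ := mem_iUnion.1 (h3 hy.1)
    exact mem_iUnion.2 ⟨l, p, ⟨hp, hy.2⟩, rfl⟩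

end Bdd

/-- **BDD** -/
theorem trBdd : StTrBdd := by
  intro X Θ h hΘ hT hh x
  have he := at_chartAt (n := 3) x
  set e := chartAt (Cm 3) x
  have h1 : e.target \ e '' (Θ ∩ e.source) = e.target ∩ e.symm ⁻¹' Θᶜ := by
    ext z
    refine and_congr_right fun hz => not_congr ⟨?_, fun h2 => ?_⟩
    · rintro ⟨y, hy, rfl⟩
      rw [e.left_inv hy.2]
      exact hy.1
    · exact ⟨e.symm z, ⟨h2, e.map_target hz⟩, e.right_inv hz⟩
  obtain ⟨C, hC⟩ := Bdd.flat (u := fun z => h (e.symm z)) e.open_target (Bdd.cv_chart hT he)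
    (by rw [h1]; exact e.isOpen_inter_preimage_symm hΘ.isOpen_compl) (by
      rw [h1]
      intro z hz
      have h2 := Bdd.ph_of (x := e.symm z) (e := e) ⟨he.1, e.map_target hz.1⟩
        (mem_of_superset (hΘ.isOpen_compl.mem_nhds hz.2) fun y hy => (hh y hy).1) (hh _ hz.2).2
      rwa [e.right_inv hz.1] at h2) (e.map_source he.2)
  refine ⟨C, ?_⟩
  filter_upwards [(e.continuousAt he.2).eventually hC, e.open_source.mem_nhds he.2] with y h2 h3 h4
  rw [e.left_inv h3] at h2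
  refine h2 ?_
  rintro ⟨y', hy', h5⟩
  exact h4 (e.injOn hy'.2 h3 h5 ▸ hy'.1)

end Vale.Agent.P277Z.Top
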