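import Vale.Agent.P277Z.Top.TrSk
import Vale.Agent.P277Z.Val.RkB
import Vale.Agent.P277Z.Val.Up

/-!
# P277, block TOP, row TR: the surfaces over the double surfaces
-/

set_option linter.all false

open scoped Manifold ContDiff Topology
open Vale.Agent.P272.K Vale.Agent.P285.H281.FD Vale.Agent.P277 Set Filter Metric
open Vale.Agent.P277.PH (HolF at_chartAt)
open Vale.Agent.P277.T3 (ThinM IsSub)
open Vale.Agent.P277Z.Val Vale.Agent.P277Z.Val.U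

noncomputable section

namespace Vale.Agent.P277Z.Top

namespace Cnt

/-- connectedness of a surface outside a thin set -/
theorem conn_sf {V : Lg} {S A B : Set V.W} (hS : IsSf S) (hc : IsPreconnected S)
    (hB : ThinM 4 1 B) (hA : IsClosed A)
    (h : ∀ z ∈ S, z ∈ A → z ∉ B → ∀ᶠ z' in 𝓝 z, z' ∈ S → z' ∈ A) {z₀ : V.W}
    (h0 : z₀ ∈ S) (h0' : ∀ᶠ z' in 𝓝 z₀, z' ∈ S → z' ∈ A) : S ⊆ A := by
  have h1 := conn_prop hc (p := fun y => ∀ᶠ y' in 𝓝 y, y' ∈ S → y' ∈ A)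
    (fun x _ hp => hp.eventually_nhds.mono fun _ h _ => h) (fun x hx hp => ?_) h0 h0'
  · exact fun y hy => (h1 y hy).self_of_nhds hy
  obtain ⟨c, ξ, hs⟩ := hS x hx
  obtain ⟨T, t1, t2⟩ := cv_of_thinM hB hs.crd
  have hp' : Tendsto pl (𝓝 (pr (c x))) (𝓝 (c x)) := pl.continuous.tendsto' _ _ (hs.pl hx)
  have h2 : ∀ᶠ u in 𝓝 (pr (c x)), ContinuousAt (fun u => ξ (pl u)) u ∧ ξ (pl u) ∈ S ∧
      (ξ (pl u) ∈ B → pl u ∈ T) := by
    filter_upwards [(hs.an hx).eventually, hs.par hx, hp'.eventually hs.crd.right,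
      (hs.tend hx).eventually t2] with u e1 e2 e3 e4
    exact ⟨e1.1, e2.1, fun e5 => e3 ▸ e4 e5⟩
  obtain ⟨r, hr, hb⟩ := Metric.eventually_nhds_iff_ball.1 h2
  obtain ⟨k1, k2⟩ := conn_cv (m := 1) (isOpen_ball (x := pr (c x)) (ε := r)) (convex_ball _ _)
    (t1.image isOpen_univ (subset_univ _) fun z _ => pr.analyticAt z)
  have hcl : ∀ u ∈ ball (pr (c x)) r, (∃ᶠ u' in 𝓝 u, ξ (pl u') ∈ A) → ξ (pl u) ∈ A :=
    fun u hu h' => hA.mem_of_frequently_of_tendsto h' (hb u hu).1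
  have ht := ((pr.continuous.tendsto _).comp hs.crd.cont).eventually (ball_mem_nhds _ hr)
  obtain ⟨y, ⟨e1, e2⟩, e3, e4⟩ := (hp.and_eventually (hs.eventually.and ht)).exists
  have e5 : ∀ᶠ u in 𝓝 (pr (c y)), ξ (pl u) ∈ A := by
    filter_upwards [(e3.tend e1).eventually e2, e3.par e1] with u f1 f2 using f1 f2.1
  obtain ⟨u₀, f1, f2⟩ := mem_closure_iff_nhds.1 (k2 e4) _ e5
  have h3 := conn_prop k1 (p := fun u => ξ (pl u) ∈ A) (fun u hu hp => ?_)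
    (fun u hu hp => hcl u hu.1 (hp.mono fun _ h => h.2)) f2 f1
  · filter_upwards [ht, hs.eventually] with z g1 g2 g3
    rw [← g2.inv g3]
    exact hcl _ g1 ((mem_closure_iff_frequently.1 (k2 g1)).mono h3)
  · have g1 := h _ (hb u hu.1).2.1 hp fun e => hu.2 ⟨_, (hb u hu.1).2.2 e, pr_pl u⟩
    filter_upwards [(hb u hu.1).1.eventually g1] with u' g2 g3
    exact g2 (hb u' g3.1).2.1

variable {V V' : Lg} {π : V'.W → V.W} {k : Fin V'.r} {H : Type} [TopologicalSpace H] [T2Space H]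
  [CompactSpace H] [ChartedSpace (Cm 3) H] [IsManifold 𝓘(ℂ, Cm 3) ω H] {ι : H → V.W}
  {σ : V'.W → H}

theorem anM_inv (h : IsSub ι) {τ : V.W → H} (hτ : ∀ x, τ (ι x) = x) {m : ℕ} {γ : Cm m → V.W}
    {w : Cm m} (hγ : AnM 4 γ w) (hG : ∀ᶠ w' in 𝓝 w, γ w' ∈ range ι) :
    AnM 3 (fun w => τ (γ w)) w := by
  obtain ⟨x, hx⟩ := hG.self_of_nhds
  have h0 : τ (γ w) = x := by rw [← hx, hτ]
  have h1 : ∀ P : H → Prop, (∀ᶠ x' in 𝓝 x, P x') → ∀ᶠ w' in 𝓝 w, ∀ x', ι x' = γ w' → P x' :=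
    fun P hP => hγ.1.eventually (hx ▸ h.eventually hP)
  refine ⟨tendsto_def.2 fun N hN => ?_, fun e he => analyticAt_pi_iff.2 fun i => ?_⟩
  · filter_upwards [h1 (fun x => x ∈ N) (h0 ▸ hN), hG] with w' e1 ⟨x', e2⟩
    show τ (γ w') ∈ N
    rw [← e2, hτ]
    exact e1 x' e2
  · obtain ⟨F, h2, h3⟩ := (sb_iff.2 h).ext (holF_chart (h0 ▸ he : At e x) i)
    refine (hγ.hol (hx ▸ h2)).congr ?_
    filter_upwards [h1 _ h3, hG] with w' e1 ⟨x', e2⟩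
    rw [← e2, hτ]
    exact (e1 x' e2).symm

/-- over the points with a section the image of a surface is open -/
theorem open_img (h : Rk.St π k ι σ) {T : Set V'.W} {S : Set V.W} (hT : IsSf T)
    (hk : T ⊆ V'.G k) (hS : IsSf S) (hr : S ⊆ range ι) (hs : π '' T ⊆ S) {y : V'.W} (hy : y ∈ T)
    (h0 : σ y ∉ Rk.Th k σ) : ∀ᶠ z in 𝓝 (π y), z ∈ S → z ∈ π '' T := by
  obtain ⟨e, δ, hδ⟩ := not_not.1 h0
  have : Nonempty H := ⟨σ y⟩
  obtain ⟨τ, hτ⟩ : ∃ τ : V.W → H, ∀ x, τ (ι x) = x := ⟨_, Function.leftInverse_invFun h.sub.inj⟩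
  have hz : π y ∈ S := hs ⟨y, hy, rfl⟩
  obtain ⟨c', ξ', h'⟩ := hT y hy
  obtain ⟨c, ξ, hc⟩ := hS _ hz
  have hτσ : ∀ x ∈ V'.G k, τ (π x) = σ x := fun x hx => by rw [← h.eq x hx, hτ]
  have h1 : AnM 3 (fun q => τ (ξ (pl q))) (pr (c (π y))) :=
    anM_inv h.sub hτ (hc.an hz) ((hc.par hz).mono fun _ e => hr e.1)
  have h2 : τ (ξ (pl (pr (c (π y))))) = σ y := by rw [hc.inv hz, hτσ y (hk hy)]
  have h3 : AnM 4 (fun q => δ (e (τ (ξ (pl q))))) (pr (c (π y))) :=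
    AnM.comp (γ := δ) (by rw [h2]; exact hδ.an)
      (h1.2 e (h2.symm ▸ hδ.at_ : At e (τ (ξ (pl (pr (c (π y))))))))
  have h4 : LocIso (fun p => pr (c (π (ξ' (pl p))))) (pr (c' y)) := by
    refine locIso_of_inv (θ := fun q => pr (c' (δ (e (τ (ξ (pl q)))))))
      ((pr.analyticAt _).comp (h'.loc hy (holM h.hom y) hc.crd)) ?_ ?_
    · show AnalyticAt ℂ _ (pr (c (π (ξ' (pl (pr (c' y)))))))
      rw [h'.inv hy]
      exact (pr.analyticAt _).comp (Crd.an_comp (ξ := ξ')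
        (by rw [h2, h.uniq hδ (hk hy)]; exact h'.crd) h3)
    · filter_upwards [h'.par hy, (h'.tend hy).eventually ((h.tend (hk hy) hδ.eventually).and
        (h.hom.cont.continuousAt.eventually hc.eventually))] with p e1 e2
      rw [e2.2.inv (hs ⟨_, e1.1, rfl⟩), hτσ _ (hk e1.1), h.uniq (e2.1 (hk e1.1)) (hk e1.1), e1.2]
  obtain ⟨θ, t1, t2, -, t4⟩ := h4.exists_inv
  rw [h'.inv hy] at t1 t2 t4
  have ht : Tendsto θ (𝓝 (pr (c (π y)))) (𝓝 (pr (c' y))) := t2 ▸ t1.1.continuousAt.tendsto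
  filter_upwards [hc.eventually, ((pr.continuous.tendsto _).comp hc.crd.cont).eventually (t4.and
    (ht.eventually ((h'.par hy).and ((h'.tend hy).eventually
      (h.hom.cont.continuousAt.eventually hc.eventually)))))] with z e1 e2 e3
  refine ⟨_, e2.2.1.1, ?_⟩
  rw [← e2.2.2.inv (hs ⟨_, e2.2.1.1, rfl⟩), e2.1]
  exact e1.inv e3

theorem exists_gen (h : Rk.St π k ι σ) {j : Fin V'.r} {S : Set V'.W} (hS : IsCC V' k j S)
    (hn : ¬ ThinM 4 1 (π '' S)) :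
    ∃ y ∈ S, σ y ∉ Rk.Th k σ ∧ ∀ m, m ≠ k → m ≠ j → y ∉ V'.G m := by
  obtain ⟨y, hy, h1⟩ : ∃ y ∈ S, σ y ∉ Rk.Th k σ := by
    by_contra hcon
    push Not at hcon
    refine hn (thinM_mono (thinM_image h.thin (sb_iff.2 h.sub).holM) ?_)
    rintro _ ⟨y, hy, rfl⟩
    exact ⟨σ y, hcon y hy, h.eq y (hS.sub hy).1⟩
  obtain ⟨z, ⟨e1, e2⟩, e3, e4⟩ := ((Lg.freq2 (hS.sub hy)).and_eventually ((hS.loc y hy).and
    (h.tend (hS.sub hy).1 (P := fun x => x ∉ Rk.Th k σ)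
      (Rk.closed_th.isOpen_compl.mem_nhds h1)))).exists
  exact ⟨z, e3.2 e1, e4 e1.1, e2⟩

/-- two surfaces of a strict transform over the same double surface are equal -/
theorem eq_of (hπ : Hom V' V π) {l l' : Fin V.r} (hk : π '' V'.G k = V.G l) {S : Set V.W}
    (hS : IsCC V l l' S) {j j' : Fin V'.r} {T T' : Set V'.W} (hT : IsCC V' k j T)
    (hT' : IsCC V' k j' T') (hn : ¬ ThinM 4 1 (π '' T)) (hn' : ¬ ThinM 4 1 (π '' T'))
    (hs : π '' T ⊆ S) (hs' : π '' T' ⊆ S) : T = T' := by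
  obtain ⟨H, _, _, _, _, _, _, ι, hι, hr⟩ := stSub V l
  have h : Rk.St π k ι fun y => Function.invFun ι (π y) :=
    ⟨hπ, hι, fun y hy => Function.invFun_eq (show π y ∈ range ι from
      hr ▸ hk ▸ mem_image_of_mem π hy), fun y => jz hπ (hk ▸ not_thin_G V l), fun x => by
        obtain ⟨y, e1, e2⟩ : ι x ∈ π '' V'.G k := hk ▸ hr ▸ mem_range_self x
        exact ⟨y, e1, e2 ▸ Function.leftInverse_invFun hι.inj x⟩⟩
  generalize (fun y => Function.invFun ι (π y)) = σ at h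
  have h1 : ∀ y ∈ T', σ y ∉ Rk.Th k σ → ∀ᶠ z in 𝓝 (π y), z ∈ S → z ∈ π '' T' := fun y =>
    open_img h (sf_of_cc hT') (fun _ e => (hT'.sub e).1) (sf_of_cc hS)
      (fun _ e => hr ▸ (hS.sub e).1) hs'
  obtain ⟨y₀, e1, e2, -⟩ := exists_gen h hT' hn'
  have h2 : S ⊆ π '' T' := by
    refine conn_sf (sf_of_cc hS) hS.conn.2 (thinM_image h.thin (sb_iff.2 h.sub).holM)
      (closed_image hπ hT'.closed) ?_ (hs' ⟨y₀, e1, rfl⟩) (h1 y₀ e1 e2)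
    rintro _ - ⟨y, f1, rfl⟩ f2
    exact h1 y f1 fun f3 => f2 ⟨_, f3, h.eq y (hT'.sub f1).1⟩
  obtain ⟨y, f1, f2, f3⟩ := exists_gen h hT hn
  obtain ⟨y', f4, f5⟩ := h2 (hs ⟨y, f1, rfl⟩)
  obtain ⟨e, δ, hδ⟩ := not_not.1 f2
  have f6 : σ y = σ y' :=
    hι.inj (by rw [h.eq y (hT.sub f1).1, h.eq y' (hT'.sub f4).1, f5])
  have f7 := h.uniq hδ (hT.sub f1).1
  rw [f6] at hδ f7
  obtain rfl : y' = y := (h.uniq hδ (hT'.sub f4).1).symm.trans f7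
  obtain rfl : j' = j := by_contra fun e => f3 _ hT'.ne e (hT'.sub f4).2
  exact (hT.eq _ f1).trans (hT'.eq _ f4).symm

end Cnt

/-- **CNT** -/
theorem trCnt : StTrCnt := by
  classical
  intro V V₀ π h
  refine Finset.card_le_card_of_forall_subsingleton
    (fun c d => c.1 = (exists_nx h d.1).choose ∧ π '' c.2 ⊆ d.2) (fun c hc => ?_) fun d hd => ?_
  · obtain ⟨h1, h2, -, k₁, k₂, h3, h4⟩ := Finset.mem_filter.1 hc
    obtain ⟨j, hj⟩ := Lg.cmp_iff.1 h1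
    obtain ⟨l, hl⟩ : ∃ l, c.1 = (exists_nx h l).choose :=
      by_contra fun e => h2 (thin_of_ne h fun l e' => e ⟨l, e'⟩)
    obtain ⟨l', h5, h6⟩ : ∃ l', l' ≠ l ∧ π '' c.2 ⊆ V₀.G l' := by
      by_cases e : k₁ = l
      · exact ⟨k₂, fun e' => h3 (e.trans e'.symm), fun _ hx => (h4 hx).2⟩
      · exact ⟨k₁, e, fun _ hx => (h4 hx).1⟩
    have h7 : π '' c.2 ⊆ V₀.G l ∩ V₀.G l' := by
      refine subset_inter ?_ h6
      rw [← (exists_nx h l).choose_spec.1, ← hl]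
      exact image_mono fun _ hx => (hj.sub hx).1
    obtain ⟨y, hy⟩ := hj.conn.nonempty
    exact ⟨(l, connectedComponentIn (V₀.G l ∩ V₀.G l') (π y)),
      Lg.cmp_iff.2 ⟨l', isCC_cc h5 (h7 ⟨y, hy, rfl⟩)⟩, hl,
      (hj.conn.2.image π h.cont.continuousOn).subset_connectedComponentIn ⟨y, hy, rfl⟩ h7⟩
  · rintro ⟨k, T⟩ ⟨hc, rfl, e1⟩ ⟨k', T'⟩ ⟨hc', rfl, e2⟩
    obtain ⟨h1, -, h2, -⟩ := Finset.mem_filter.1 hc
    obtain ⟨h1', -, h2', -⟩ := Finset.mem_filter.1 hc'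
    obtain ⟨j, hj⟩ := Lg.cmp_iff.1 h1
    obtain ⟨j', hj'⟩ := Lg.cmp_iff.1 h1'
    obtain ⟨l', hl⟩ := Lg.cmp_iff.1 hd
    exact congrArg _ (Cnt.eq_of h (exists_nx h d.1).choose_spec.1 hl hj hj' h2 h2' e1 e2)

end Vale.Agent.P277Z.Top
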