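import Vale.Agent.P277Z.Top.TrSk
import Vale.Agent.P277Z.Val.RkC
import Vale.Agent.P277Z.Pj.Imm

/-!
# P277, block TOP, row TR: general points of the surfaces
-/

open scoped Manifold ContDiff Topology
open Vale.Agent.P272.K Vale.Agent.P285.H281.FD Vale.Agent.P277 Set Filter
open Vale.Agent.P277.PH (HolF at_chartAt)
open Vale.Agent.P277.T3 (ThinM IsAnAt)
open Vale.Agent.P277Z.Val Vale.Agent.P277Z.Val.U Vale.Agent.P277Z.Val.Rk

noncomputable section

namespace Vale.Agent.P277Z.Top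

namespace TrGen

/-- identity theorem on a connected manifold -/
theorem dense_compl {n : ℕ} {M : Type} [TopologicalSpace M] [ChartedSpace (Cm n) M]
    [IsManifold 𝓘(ℂ, Cm n) ω M] [ConnectedSpace M] {Z : Set M} (hZ : ∀ x, IsAnAt n Z x) {x₀ : M}
    (h0 : x₀ ∉ Z) : Dense Zᶜ := by
  rw [← interior_eq_empty_iff_dense_compl]
  refine eq_empty_of_forall_notMem fun x hx => h0 (mem_of_mem_nhds (conn_prop isPreconnected_univ
    (p := fun x => Z ∈ 𝓝 x) (fun x _ h => (eventually_mem_nhds_iff.2 h).mono fun _ h _ => h)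
    (fun x _ h => ?_) (mem_univ x) (mem_interior_iff_mem_nhds.1 hx) x₀ (mem_univ _)))
  have hc := crd_chart (at_chartAt (n := n) x)
  have h1 := (anAt_comp hc.an (by rw [hc.inv]; exact hZ x)).mem_nhds
    (hc.cont.tendsto.frequently ((h.and_eventually hc.eventually).mono fun y e => e.2.tend e.1.2))
  filter_upwards [hc.cont h1, hc.left] with y e1 e2 using e2 ▸ e1

end TrGen

open TrGen in
theorem trGen : StTrGen := by
  classical
  rintro V V₀ π P hπ ⟨l, T⟩ hc h1 h2 h3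
  obtain ⟨j, hS⟩ := Lg.cmp_iff.1 hc
  have key : ∀ m, ¬ ThinM 4 2 (π '' V.G m) → ∃ k, m = (exists_nx hπ k).choose := fun m hm =>
    by_contra fun e => hm (thin_of_ne hπ fun k e' => e ⟨k, e'⟩)
  obtain ⟨k, hk⟩ := key l h1
  have hk' : π '' V.G l = V₀.G k := hk ▸ (exists_nx hπ k).choose_spec.1
  obtain ⟨H, _, _, _, _, _, _, ι, hι, hr⟩ := stSub V₀ k
  have h : St π l ι fun y => Function.invFun ι (π y) :=
    ⟨hπ, hι, fun y hy => Function.invFun_eq (show π y ∈ range ι from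
      hr ▸ hk' ▸ mem_image_of_mem π hy), fun y => jz hπ h1, fun x => by
        obtain ⟨y, e1, e2⟩ : ι x ∈ π '' V.G l := hk' ▸ hr ▸ mem_range_self x
        exact ⟨y, e1, e2 ▸ Function.leftInverse_invFun hι.inj x⟩⟩
  generalize (fun y => Function.invFun ι (π y)) = σ at h
  have hf : P.ι₂ T = fun x => P.ι l (P.j l T x) := funext fun x => (P.fac _ hc x).symm
  have hm : ∀ x, Val.HolM 2 4 (P.ι₂ T) x := fun x => hf ▸
    ⟨((P.emb l).cont.comp (P.emb₂ _ hc).cont).continuousAt,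
      fun f hf => (P.emb₂ _ hc).holF ((P.emb l).holF hf)⟩
  have hT : ∀ x, P.ι₂ T x ∈ T := fun x => (P.rng₂ _ hc).subset (mem_range_self x)
  have hl : ∀ x, P.ι₂ T x ∈ V.G l := fun x => (hS.sub (hT x)).1
  have := P.conn₂ _ hc
  have hd : Dense (⋂ k', (fun x => π (P.ι₂ T x)) ⁻¹' (⋃ _ : k' ≠ k, V₀.G k')ᶜ) := by
    refine dense_iInter_of_isOpen (fun k' => (isClosed_iUnion_of_finite fun _ =>
      V₀.closed k').isOpen_compl.preimage (hπ.cont.comp
        (continuous_iff_continuousAt.2 fun x => (hm x).1))) fun k' => ?_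
    by_cases e : k' = k
    · simp [e]
    obtain ⟨x₀, e1⟩ : ∃ x, π (P.ι₂ T x) ∉ V₀.G k' := by
      by_contra! e1
      refine h3 ⟨k', k, e, ?_⟩
      rintro _ ⟨y, e2, rfl⟩
      obtain ⟨x, rfl⟩ := (P.rng₂ _ hc).superset e2
      exact ⟨e1 x, hk' ▸ mem_image_of_mem π (hl x)⟩
    rw [iUnion_eq_if, if_pos e]
    exact dense_compl (Z := P.ι₂ T ⁻¹' (π ⁻¹' V₀.G k')) (fun x => isAnAt_preimage (hm x)
      (isAnAt_preimage (holM hπ _) (isAnAt_G V₀ k' _))) e1
  obtain ⟨y₀, e1, e2, e3⟩ := h.exists_gen hS h2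
  obtain ⟨x₀, rfl⟩ := (P.rng₂ _ hc).superset e1
  have e4 : ∀ᶠ y in 𝓝 (P.ι₂ T x₀), ∀ m, m ≠ l → m ≠ j → y ∉ V.G m := eventually_all.2 fun m => by
    by_cases e : m ≠ l ∧ m ≠ j
    · filter_upwards [(V.closed m).isOpen_compl.mem_nhds (e3 m e.1 e.2)] with y e' _ _ using e'
    · exact Eventually.of_forall fun _ a b => absurd ⟨a, b⟩ e
  obtain ⟨x, k1, k2, k3⟩ := hd.inter_nhds_nonempty ((hm x₀).1.eventually
    ((h.tend (hl x₀) (P := fun x => x ∉ Th l σ) (closed_th.isOpen_compl.mem_nhds e2)).and e4))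
  obtain ⟨e, δ, hs⟩ := not_not.1 (k2 (hl x))
  refine ⟨x, ?_, fun m a b c => ?_, fun T' a b ⟨y', c, d⟩ => b ?_⟩
  · have hb := at_chartAt (n := 4) (π (P.ι₂ T x))
    set b := chartAt (Cm 4) (π (P.ι₂ T x))
    have he := at_chartAt (n := 3) (P.j l T x)
    set e₃ := chartAt (Cm 3) (P.j l T x)
    choose G g1 g2 using fun i => (P.emb l).ext (holF_chart he i)
    choose F f1 f2 using fun i => (sb_iff.2 hι).ext (holF_chart hs.at_ i)
    rw [h.eq _ (hl x)] at f1
    have f3 : ∀ᶠ v in 𝓝 x, (fun i => F i (b.symm (b (π (P.ι₂ T v))))) = e (σ (P.ι₂ T v)) ∧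
        δ (e (σ (P.ι₂ T v))) = P.ι₂ T v := by
      filter_upwards [(hm x).1.eventually (h.tend (hl x) ((eventually_all.2 f2).and hs.eventually)),
        (hπ.cont.continuousAt.comp (hm x).1).eventually (b.open_source.mem_nhds hb.2)] with v a c
      refine ⟨funext fun i => ?_, h.uniq (a (hl v)).2 (hl v)⟩
      rw [b.left_inv (x := π (P.ι₂ T v)) c, (a (hl v)).1 i, h.eq _ (hl v)]
    refine Pj.Imm.of_comp (n := 2) (t := fun v => e₃ (P.j l T v))
      (t' := fun v => b (π (P.ι₂ T v))) (H := fun w i => G i (δ fun i => F i (b.symm w)))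
      (fun a ha => ((P.emb₂ _ hc).holo x a e₃ ha he).2)
      (Pj.holV_pi.2 fun i => (hm x).2 _ ((holM hπ _).2 _ (holF_chart hb i)))
      (analyticAt_pi_iff.2 fun i => ?_) ?_ _ (at_chartAt x)
    · refine AnM.hol (n := 4) (γ := fun w => δ fun i => F i (b.symm w))
        (AnM.comp (F := fun w i => F i (b.symm w)) ?_ (analyticAt_pi_iff.2 fun i => f1 i b hb)) ?_
      · rw [f3.self_of_nhds.1]
        exact hs.an
      · rw [f3.self_of_nhds.1, f3.self_of_nhds.2, hf]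
        exact g1 i
    · filter_upwards [f3, (P.emb₂ _ hc).cont.continuousAt.eventually (eventually_all.2 g2)]
        with v a c
      rw [a.1, a.2, hf]
      exact funext c
  · obtain ⟨k', rfl⟩ := key m b
    rw [(exists_nx hπ k').choose_spec.1] at c
    exact mem_iInter.1 k1 k' (mem_iUnion.2 ⟨fun e => a (e ▸ hk.symm), c⟩)
  · obtain ⟨⟨l', T'⟩, a', rfl⟩ := Finset.mem_image.1 a
    obtain ⟨a₁, rfl⟩ := Finset.mem_filter.1 a'
    obtain ⟨j', hS'⟩ := Lg.cmp_iff.1 a₁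
    have c1 := (hS'.sub c).1
    have c2 : σ y' = σ (P.ι₂ T x) := hι.inj (by rw [h.eq _ c1, h.eq _ (hl x), d])
    have c3 : y' = P.ι₂ T x := by rw [← h.uniq (c2 ▸ hs) c1, c2, h.uniq hs (hl x)]
    obtain rfl : j' = j := by_contra fun e => k3 j' hS'.ne e (c3 ▸ (hS'.sub c).2)
    exact (hS'.eq _ (c3 ▸ c)).trans (hS.eq _ (hT x)).symm

end Vale.Agent.P277Z.Top
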