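import Vale.Agent.P277Z.Top.TrSk
import Vale.Agent.P277Z.Top.Api
import Vale.Agent.P277Z.Top.Grn
import Vale.Agent.P277Z.Val.RkB
import Vale.Agent.P277Z.Val.Up

/-!
# P277, block TOP, row TR: a contracted divisor of class zero vanishes
-/

set_option linter.all false
set_option maxSynthPendingDepth 3

open scoped Manifold ContDiff Topology
open Vale.Agent.P272.K Set Filter
open Vale.Agent.P277.PH (HolF SmR)
open Vale.Agent.P277.T3 (ThinM IsSub)
open Vale.Agent.P277Z.Tr (pb SmM dF_pb pb_eq_zero)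
open Vale.Agent.P277Z.Val (Lg Sb Hom IsCC AnM holF_ev holF_cont holF_chart crd_chart sb_iff)
open Vale.Agent.P277Z.Val.Rk (St Th closed_th)
open Vale.Agent.P277Z.Slc (LEq isClosed_of_leq)
open Vale.Agent.P277Z.Gd

noncomputable section

namespace Vale.Agent.P277Z.Top.Neg

section loc

variable {d d' : ℕ} {M S : Type} [TopologicalSpace M] [ChartedSpace (Cm d) M]
  [TopologicalSpace S] [ChartedSpace (Cm d') S] {f : S → M} {u : M → ℝ} {x : S}

/-- `f` is holomorphic at `x` -/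
def HA (d' d : ℕ) [ChartedSpace (Cm d) M] [ChartedSpace (Cm d') S] (f : S → M) (x : S) : Prop :=
  ContinuousAt f x ∧ ∀ (e : Chart d' S) (e' : Chart d M), At e x → At e' (f x) →
    AnalyticAt ℂ (fun z => e' (f (e.symm z))) (e x)

theorem HA.ev (hf : HA d' d f x) {e : Chart d' S} (he : At e x) :
    (fun z => u (f (e.symm z))) =ᶠ[𝓝 (e x)] (fun z => u ((chartAt (Cm d) (f x)).symm z)) ∘
      fun z => chartAt (Cm d) (f x) (f (e.symm z)) := by
  filter_upwards [Tr.ev_symm he.2 (hf.1.preimage_mem_nhds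
    ((chartAt (Cm d) (f x)).open_source.mem_nhds (mem_chart_source _ _)))] with z hz
  simp only [Function.comp_apply]
  rw [(chartAt (Cm d) (f x)).left_inv hz]

theorem HA.smR (hf : HA d' d f x) (hu : SmR d u (f x)) : SmR d' (fun y => u (f y)) x :=
  fun e he => (ContDiffAt.comp (e x) (by rw [he.left_inv]; exact hu _ (at_ch _))
    (((hf.2 e _ he (at_ch _)).contDiffAt.restrict_scalars ℝ).of_le le_top)).congr_of_eventuallyEq
      (hf.ev he)

theorem HA.dc (hf : HA d' d f x) (hu : SmR d u (f x)) :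
    pb (Cm d') f (dc d u) x = dc d' (fun y => u (f y)) x := by
  have he : At (chartAt (Cm d') x) x := at_ch x
  have h := (hf.2 _ _ he (at_ch _)).differentiableAt
  ext v
  rw [dc_eq, H38.dcL_apply, (hf.ev he).fderiv_eq, fderiv_comp _ (by
    rw [he.left_inv]; exact (smR_chart hu).differentiableAt (by simp)) (h.restrictScalars ℝ),
    he.left_inv, pb, ContinuousAlternatingMap.compContinuousLinearMap_apply, dc_eq,
    H38.dcL_apply, h.fderiv_restrictScalars ℝ]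
  simp

variable [IsManifold 𝓘(ℂ, Cm d) ω M] [IsManifold 𝓘(ℂ, Cm d') ω S]

theorem ddc_comp (hf : ∀ᶠ y in 𝓝 x, HA d' d f y) (hu : ∀ᶠ y in 𝓝 (f x), SmR d u y)
    (h0 : ddc d u (f x) = 0) : ddc d' (fun y => u (f y)) x = 0 := by
  have h1 : ∀ᶠ y in 𝓝 x, SmM (Cm d') (Cm d) f y := hf.mono fun y h =>
    ⟨h.1, ((h.2 _ _ (at_ch _) (at_ch _)).contDiffAt.restrict_scalars ℝ).of_le le_top⟩
  rw [← pb_eq_zero (E' := Cm d') (F := f) h0, ddc, ddc, ← dF_pb h1 (smAt_dc hu)]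
  exact P267.H175.dF_congr ((hf.and (hf.self_of_nhds.1.eventually hu)).mono fun y hy =>
    (hy.1.dc hy.2).symm)

theorem ha_of {γ : Cm d' → M} {e : Chart d' S} (he : At e x) (h : AnM d γ (e x)) :
    HA d' d (fun y => γ (e y)) x :=
  ⟨h.1.comp (e.continuousAt he.2), fun e₁ e' h1 h2 => AnalyticAt.comp_of_eq
    (g := fun w => e' (γ w)) (f := fun z => e (e₁.symm z)) (h.2 e' h2)
    (analyticAt_pi_iff.2 fun i => holF_chart he i e₁ h1) (by rw [h1.left_inv])⟩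

end loc

section green

variable {d : ℕ} {X : Mf d} {ι : Type} {T : Finset ι} {D : ι → Set X.M} {m : ι → ℝ} {g : X.M → ℝ}

theorem gr_ext (h : IsGr T D m (0 : Fr d 2 X.M) g) : ∃ G : X.M → ℝ,
    (∀ y, (∀ i ∈ T, y ∉ D i) → G y = g y) ∧
    ∀ x, (∀ i ∈ T, m i ≠ 0 → x ∉ D i) → ∀ᶠ y in 𝓝 x, SmR d G y ∧ ddc d G y = 0 := by
  have hd := h.dense
  choose ζ u h1 h2 using h
  let F : X.M → X.M → ℝ := fun x y => ∑ i ∈ T, m i * Real.log (‖ζ x i y‖ ^ 2) - u x y
  have h3 : ∀ x, (∀ i ∈ T, m i ≠ 0 → x ∉ D i) → ∀ᶠ y in 𝓝 x, (∀ i ∈ T, m i ≠ 0 → y ∉ D i) ∧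
      SmR d (F x) y ∧ ddc d (F x) y = 0 := by
    intro x hx
    have h4 : ∀ i ∈ T, ∀ᶠ y in 𝓝 x, (m i ≠ 0 → y ∉ D i) ∧
        (∀ᶠ z in 𝓝 y, SmR d (fun z => m i * Real.log (‖ζ x i z‖ ^ 2)) z) ∧
        ddc d (fun z => m i * Real.log (‖ζ x i z‖ ^ 2)) y = 0 := by
      intro i hi
      by_cases hm : m i = 0
      · simp only [hm, zero_mul]
        exact .of_forall fun y => ⟨fun h => absurd rfl h, .of_forall fun _ => smR_const 0,
          by rw [ddc_const]; rfl⟩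
      have h5 : HolF d (ζ x i) x := fun e he => ((h1 x i hi).2 e he).1
      filter_upwards [holF_ev h5, (holF_cont h5).eventually_ne
        (mt (h1 x i hi).1.self_of_nhds.1 (hx i hi hm)), (h1 x i hi).1] with y e1 e2 e3
      exact ⟨fun _ => mt e3.2 e2, (ev_smR_log e1 e2).mono fun _ => smR_cmul _, by
        rw [ddc_smul _ (ev_smR_log e1 e2), ddc_log e1 e2, smul_zero]⟩
    filter_upwards [(eventually_all_finset T).2 h4, (h2 x).eventually_nhds] with y e1 e2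
    have e3 := ((eventually_all_finset T).2 fun i hi => (e1 i hi).2.1).mono fun _ h => smR_sum T h
    refine ⟨fun i hi => (e1 i hi).1, smR_sub e3.self_of_nhds e2.self_of_nhds.1, ?_⟩
    rw [ddc_sub e3 (e2.mono fun _ h => h.1), ddc_sum T fun i hi => (e1 i hi).2.1,
      Finset.sum_eq_zero fun i hi => (e1 i hi).2.2, ← e2.self_of_nhds.2.1]
    simp
  refine ⟨fun y => F y y, fun y hy => ((h2 y).self_of_nhds.2.2 hy).symm, fun x hx => ?_⟩
  have h4 : (fun y => F y y) =ᶠ[𝓝 x] F x := by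
    filter_upwards [h3 x hx, (h2 x).eventually_nhds] with y e1 e2
    refine tendsto_nhds_unique_of_frequently_eq (smR_cont (h3 y e1.1).self_of_nhds.2.1)
      (smR_cont e1.2.1) (((mem_closure_iff_frequently.1 (hd y)).and_eventually
        (e2.and (h2 y))).mono fun z hz => ?_)
    exact (hz.2.2.2.2 hz.1).symm.trans (hz.2.1.2.2 hz.1)
  filter_upwards [h3 x hx, h4.eventuallyEq_nhds] with y e1 e2
  exact ⟨smR_congr e1.2.1 e2, (ddc_congr e2).trans e1.2.2⟩

theorem gr_bdd {α : Fr d 2 X.M} (h : IsGr T D m α g) {i : ι} (hi : i ∈ T) {x : X.M} (hx : x ∈ D i)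
    (h0 : ∀ j ∈ T, j ≠ i → x ∉ D j) {C : ℝ}
    (hC : ∀ᶠ y in 𝓝 x, (∀ j ∈ T, y ∉ D j) → |g y| ≤ C) : m i = 0 := by
  classical
  have : NeBot (𝓝[{y | ∀ j ∈ T, y ∉ D j}] x) := mem_closure_iff_nhdsWithin_neBot.1 (h.dense x)
  obtain ⟨ζ, u, h1, h2⟩ := h x
  have h3 : ∀ j ∈ T, ContinuousAt (ζ j) x := fun j hj =>
    holF_cont (n := d) fun e he => ((h1 j hj).2 e he).1
  have h4 : ContinuousAt (fun y => u y - ∑ j ∈ T.erase i, m j * Real.log (‖ζ j y‖ ^ 2)) x :=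
    (smR_cont h2.self_of_nhds.1).sub (tendsto_finset_sum _ fun j hj => by
      have e1 := Finset.mem_erase.1 hj
      exact continuousAt_const.mul (((h3 j e1.2).norm.pow 2).log (pow_ne_zero 2
        (norm_ne_zero_iff.2 (mt (h1 j e1.2).1.self_of_nhds.1 (h0 j e1.2 e1.1))))))
  have h5 : Tendsto (fun y => Real.log (‖ζ i y‖ ^ 2)) (𝓝[{y | ∀ j ∈ T, y ∉ D j}] x) atBot := by
    refine Real.tendsto_log_nhdsNE_zero.comp (tendsto_nhdsWithin_iff.2 ⟨?_, ?_⟩)
    · have e1 := (((h3 i hi).norm.pow 2).tendsto).mono_left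
        (nhdsWithin_le_nhds (s := {y | ∀ j ∈ T, y ∉ D j}))
      rwa [Pi.pow_apply, (h1 i hi).1.self_of_nhds.2 hx, norm_zero, zero_pow two_ne_zero] at e1
    · filter_upwards [self_mem_nhdsWithin, mem_nhdsWithin_of_mem_nhds (h1 i hi).1] with y e1 e2
      exact pow_ne_zero 2 (norm_ne_zero_iff.2 (mt e2.1 (e1 i hi)))
  by_contra hm
  have hm' := abs_pos.2 hm
  set R := fun y => u y - ∑ j ∈ T.erase i, m j * Real.log (‖ζ j y‖ ^ 2)
  obtain ⟨y, e1, e2, e3, e4, e5⟩ := ((h5.eventually (eventually_lt_atBot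
    (-((C + (|R x| + 1)) / |m i|)))).and ((eventually_mem_nhdsWithin
      (s := {y | ∀ j ∈ T, y ∉ D j}) (a := x)).and (eventually_nhdsWithin_of_eventually_nhds (hC.and (h2.and
        (h4.abs.eventually (gt_mem_nhds (lt_add_one |R x|)))))))).exists
  have e6 : m i * Real.log (‖ζ i y‖ ^ 2) = g y + R y := by
    rw [e4.2.2 e2, ← Finset.add_sum_erase _ _ hi]
    simp only [R]
    ring
  have e7 : |m i| * |Real.log (‖ζ i y‖ ^ 2)| ≤ C + (|R x| + 1) := by
    rw [← abs_mul, e6]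
    exact (abs_add_le _ _).trans (add_le_add (e3 e2) e5.le)
  have e8 := (le_div_iff₀' hm').2 e7
  linarith [neg_le_abs (Real.log (‖ζ i y‖ ^ 2))]

end green

theorem anM_inv {W H : Type} [TopologicalSpace W] [T2Space W] [ChartedSpace (Cm 4) W]
    [IsManifold 𝓘(ℂ, Cm 4) ω W] [TopologicalSpace H] [CompactSpace H] [Nonempty H]
    [ChartedSpace (Cm 3) H] [IsManifold 𝓘(ℂ, Cm 3) ω H] {ι : H → W} (h : Sb 3 4 ι) {n : ℕ}
    {γ : Cm n → W} {w : Cm n} (hγ : AnM 4 γ w) (hG : ∀ᶠ w' in 𝓝 w, γ w' ∈ range ι) :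
    AnM 3 (fun w => Function.invFun ι (γ w)) w := by
  have h1 := hG.mono fun _ => Function.invFun_eq
  have h2 : ∀ {p : H → Prop}, (∀ᶠ y in 𝓝 (Function.invFun ι (γ w)), p y) →
      ∀ᶠ w' in 𝓝 w, p (Function.invFun ι (γ w')) := fun hp => by
    have h3 := (sb_iff.1 h).eventually hp
    rw [h1.self_of_nhds] at h3
    filter_upwards [hγ.1.eventually h3, h1] with w' e1 e2 using e1 _ e2
  refine ⟨tendsto_def.2 fun N hN => h2 hN, fun e he => analyticAt_pi_iff.2 fun i => ?_⟩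
  obtain ⟨F, h3, h4⟩ := h.ext (holF_chart he i)
  rw [h1.self_of_nhds] at h3
  refine (hγ.hol h3).congr ?_
  filter_upwards [h2 h4, h1] with w' e1 e2
  rw [e1, e2]

variable {V V' : Lg} {π : V'.W → V.W} {k : Fin V'.r} {H : Type} [TopologicalSpace H] [T2Space H]
  [CompactSpace H] [ChartedSpace (Cm 3) H] [IsManifold 𝓘(ℂ, Cm 3) ω H] {ι : H → V.W}
  {σ : V'.W → H}

theorem not_thin (h : St π k ι σ) {j : Fin V'.r} {S : Set V'.W} (hS : IsCC V' k j S) {y : V'.W}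
    (hy : y ∈ S) (h0 : σ y ∉ Th k σ) : ¬ ThinM 4 1 (π '' S) := by
  obtain ⟨e, δ, hs⟩ := not_not.1 h0
  obtain ⟨c', ξ', h'⟩ := Val.U.sf_of_cc hS y hy
  have hk : ∀ {x}, x ∈ S → x ∈ V'.G k := fun hx => (hS.sub hx).1
  have he' := at_ch (d := 4) (π y)
  refine Val.U.Imm.not_thin ((Val.U.imm_iff h' hy (Val.U.holM h.hom y) (crd_chart he')).2 ?_)
    (Val.U.holM h.hom y)
  set e' := chartAt (Cm 4) (π y)
  have h1 := h'.inv hy
  have h2 := (h.anM (h'.an hy) ((h'.par hy).mono fun _ h => hk h.1)).2 e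
    (by simpa only [h1] using hs.at_)
  have h3 := (h'.tend hy).eventually (h.tend (hk hy)
    (hs.eventually.and (e.eventually_left_inverse hs.at_.2)))
  have h4 : AnalyticAt ℂ (fun w => Val.U.pr (c' (δ w))) (e (σ (ξ' (Val.U.pl (Val.U.pr (c' y)))))) := by
    rw [h1]
    exact (Val.U.pr.analyticAt _).comp
      (Val.Crd.an_comp (ξ := ξ') (by rw [h.uniq hs (hk hy)]; exact h'.crd) hs.an)
  have h5 := (HasFDerivAt.comp (f := fun p => e (σ (ξ' (Val.U.pl p)))) _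
    h4.differentiableAt.hasFDerivAt h2.differentiableAt.hasFDerivAt).unique
    ((hasFDerivAt_id _).congr_of_eventuallyEq (by
      filter_upwards [h3, h'.par hy] with p e1 e2
      simp only [Function.comp_apply, h.uniq (e1 (hk e2.1)).1 (hk e2.1), e2.2, id]))
  obtain ⟨h6, h7⟩ := h.sub.holo (σ y) e e' hs.at_ (by rwa [h.eq y (hk hy)])
  rw [← h1] at h6 h7
  rw [((HasFDerivAt.comp (f := fun p => e (σ (ξ' (Val.U.pl p)))) _
    h6.differentiableAt.hasFDerivAt h2.differentiableAt.hasFDerivAt).congr_of_eventuallyEq (by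
      filter_upwards [h3, h'.par hy] with p e1 e2
      simp only [Function.comp_apply, (e1 (hk e2.1)).2, h.eq _ (hk e2.1)])).fderiv]
  refine h7.comp (Function.Injective.of_comp (f := fderiv ℂ (fun w => Val.U.pr (c' (δ w)))
    (e (σ (ξ' (Val.U.pl (Val.U.pr (c' y))))))) ?_)
  exact Function.LeftInverse.injective (g := id) fun v => DFunLike.congr_fun h5 v

end Neg

open Neg in
/-- **NEG** -/
theorem trNeg (hb : StTrBdd) : StTrNeg := by
  intro V V₀ π P l m hπ hl ⟨g, hg⟩ hm T hT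
  obtain ⟨k, hk⟩ : ∃ k, π '' V.G l = V₀.G k := by
    by_contra hcon
    exact hl (Val.U.thin_of_ne hπ fun k e =>
      hcon ⟨k, e ▸ (Val.U.exists_nx hπ k).choose_spec.1⟩)
  obtain ⟨H, _, _, _, _, _, _, ι, hι, hr⟩ := Val.stSub V₀ k
  have h : St π l ι fun y => Function.invFun ι (π y) :=
    ⟨hπ, hι, fun y hy => Function.invFun_eq (show π y ∈ range ι from
      hr ▸ hk ▸ mem_image_of_mem π hy), fun y => Val.U.jz hπ hl, fun x => by
        obtain ⟨y, e1, e2⟩ : ι x ∈ π '' V.G l := hk ▸ hr ▸ mem_range_self x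
        exact ⟨y, e1, e2 ▸ Function.leftInverse_invFun hι.inj x⟩⟩
  generalize (fun y => Function.invFun ι (π y)) = σ at h
  have := P.conn l
  obtain ⟨G, hG1, hG2⟩ := gr_ext hg
  choose s hs1 hs2 using h.surj
  have hs3 : ∀ {x e δ}, Val.Rk.Sc l σ e δ x → s x = δ (e x) := fun {x e δ} hs => by
    have e1 := h.uniq (y := s x) (by rwa [hs2]) (hs1 x)
    rw [hs2] at e1
    exact e1.symm
  have hmem : ∀ {T}, T ∈ cl V l → ∀ z, z ∈ range (P.j l T) ↔ P.ι l z ∈ T :=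
    fun hT => par_mem P (mem_cl.1 hT)
  have hGl : ∀ z, P.ι l z ∈ V.G l := fun z => P.rng l ▸ mem_range_self z
  have key := hb ⟨H⟩ (Th l σ) (fun x => G (Function.invFun (P.ι l) (s x))) closed_th h.thin
    fun x hx => by
      obtain ⟨e, δ, hs⟩ := not_not.1 hx
      have e1 : ∀ᶠ x' in 𝓝 x, HA 3 3 (fun x' => Function.invFun (P.ι l) (δ (e x'))) x' :=
        hs.eventually.mono fun x' h' => ha_of h'.at_ (anM_inv (P.emb l) h'.an
          (h'.ev.mono fun _ e => P.rng l ▸ e.1))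
      have e2 : (fun x => G (Function.invFun (P.ι l) (s x))) =ᶠ[𝓝 x]
          fun x' => G (Function.invFun (P.ι l) (δ (e x'))) :=
        hs.eventually.mono fun x' h' => by simp only [hs3 h']
      have e3 := hG2 (Function.invFun (P.ι l) (δ (e x))) fun S hS e3 e4 => by
        obtain ⟨j, hj⟩ := Lg.cmp_iff.1 (mem_cl.1 hS)
        rw [hmem hS, Function.invFun_eq (P.rng l ▸ hs.mem : _ ∈ range (P.ι l))] at e4
        exact not_thin h hj e4 (by rwa [hs.eq]) (hm S hS e3)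
      exact ⟨smR_congr (e1.self_of_nhds.smR e3.self_of_nhds.1) e2, (ddc_congr e2).trans
        (ddc_comp e1 (e3.mono fun _ h => h.1) e3.self_of_nhds.2)⟩
  obtain ⟨j, hj⟩ := Lg.cmp_iff.1 (mem_cl.1 hT)
  obtain ⟨y₀, hy₀⟩ := hj.conn.nonempty
  obtain ⟨y, ⟨e1, e2⟩, e3⟩ := ((Lg.freq2 (hj.sub hy₀)).and_eventually (hj.loc y₀ hy₀)).exists
  obtain ⟨z, rfl⟩ := (P.rng l).ge e1.1
  obtain ⟨C, hC⟩ := key (σ (P.ι l z))
  refine gr_bdd hg hT ((hmem hT z).2 (e3.2 e1)) (fun S hS e4 e5 => ?_) (C := C) ?_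
  · obtain ⟨j', hj'⟩ := Lg.cmp_iff.1 (mem_cl.1 hS)
    rw [hmem hS] at e5
    obtain rfl : j' = j := by_contra fun e => e2 j' hj'.ne e (hj'.sub e5).2
    exact e4 ((hj'.eq _ e5).trans (hj.eq _ (e3.2 e1)).symm)
  filter_upwards [(P.emb l).cont.continuousAt.eventually (h.tend (hGl z) hC)] with z' e4 e5
  have e6 := h.gen (y := P.ι l z') ⟨hGl z', fun j' e6 e7 => by
    have e8 := Val.isCC_cc e6 ⟨hGl z', e7⟩
    have e9 := mem_cl.2 (Lg.cmp_iff.2 ⟨j', e8⟩ : (l, _) ∈ V.cmp)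
    exact e5 _ e9 ((hmem e9 z').2 (mem_connectedComponentIn ⟨hGl z', e7⟩))⟩
  obtain ⟨e, δ, hs⟩ := not_not.1 e6
  have e7 := e4 (hGl z') e6
  simp only [hs3 hs, h.uniq hs (hGl z'), Function.leftInverse_invFun (P.emb l).inj z'] at e7
  rwa [hG1 z' e5] at e7

end Vale.Agent.P277Z.Top
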