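import Vale.Agent.P277Z.Top.TrC
import Vale.Agent.P277Z.Top.TrBdd
import Vale.Agent.P277Z.Top.TrNeg
import Vale.Agent.P277Z.Top.TrCnt
import Vale.Agent.P277Z.Top.TrGen

/-!
# P277, the top of the proof: the statement `StTR`
-/

namespace Vale.Agent.P277Z.Top

theorem stTR (hPL : StPL) (hP : StPar) (hL : StLift) (hRk : StRk) : StTR :=
  stTR_of hPL hP hL hRk (trNeg trBdd) trCnt trGen

end Vale.Agent.P277Z.Top
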