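import Vale.Agent.P277Z.Top.Asm
import Vale.Agent.P277Z.Top.Par
import Vale.Agent.P277Z.Top.Pol
import Vale.Agent.P277Z.Top.Good
import Vale.Agent.P277Z.Top.Gys
import Vale.Agent.P277Z.Top.Dom
import Vale.Agent.P277Z.Top.Lift
import Vale.Agent.P277Z.Top.Edge
import Vale.Agent.P277Z.Top.Rep
import Vale.Agent.P277Z.Top.Rep1
import Vale.Agent.P277Z.Top.Img
import Vale.Agent.P277Z.Top.Deg
import Vale.Agent.P277Z.Top.Grn
import Vale.Agent.P277Z.Top.Grx
import Vale.Agent.P277Z.Top.Form
import Vale.Agent.P277Z.Top.Irr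
import Vale.Agent.P277Z.Top.FbAll
import Vale.Agent.P277Z.Top.Int
import Vale.Agent.P277Z.Top.Tr
import Vale.Agent.P277Z.Top.Rk
import Vale.Agent.P277Z.Top.HiPos

/-!
# P277, block TOP: everything except for the class group step
-/

namespace Vale.Agent.P277Z.Top

theorem top_of_cls (h : StCls) : StTop :=
  top_of stPar (stPol stForm) (Gd.stEx stGrx stLam stForm)
    (Gd.stGood PL.pl stLam stHI stPos stForm stGys) stGys stDom stLift
    (stEdge stDeg PL.pl stPos stForm stLam) (stRep (stRep1 stImg stDeg stRk stLam) stDeg stRk)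
    stGrn PL.pl stLam stForm stIrr (rat_of stInt) (stTR PL.pl stPar stLift stRk) h

end Vale.Agent.P277Z.Top
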