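import Vale.Agent.P277Z.Top.All0
import Vale.Agent.P277Z.Cls.All20
import Vale.Agent.P277Z.Ex.All
import Vale.Agent.P277Z.Tool

/-!
# P277, block TOP
-/

namespace Vale.Agent.P277Z.Top

theorem stTop : StTop := top_of_cls (Cls.cls_all Ex.fgb4 (Pj.F.gen C1.fts) Tool.ggf)

end Vale.Agent.P277Z.Top
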