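import Vale.Agent.P277Z.Top.Sk
import Vale.Agent.P277Z.Top.Api

/-!
# P277, block TOP: the assembly
-/

set_option linter.all false
set_option maxSynthPendingDepth 3

open scoped Manifold ContDiff Topology
open Vale.Agent.P272.K Vale.Agent.P285.H281.FD Vale.Agent.P277 Set Filter Module
open Vale.Agent.P267.H175 (SmAt dF)
open Vale.Agent.P277.PH (HolF SmR)
open Vale.Agent.P277.T3 (ThinM)
open Vale.Agent.P277Z.Tr (pb HolM Ctr)
open Vale.Agent.P277Z.Val (Lg Sb Hom Res Good Tp Sf N3)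
open Vale.Agent.P277Z.Gd

noncomputable section

namespace Vale.Agent.P277Z.Top

namespace Asm

theorem dim_mono {Y : CSp} {d : ℕ} {A B : Set Y.pt} (h : DimLe Y d B) (hAB : A ⊆ B) :
    DimLe Y d A := by
  obtain ⟨Ω, g, h1, h2, h3⟩ := h
  exact ⟨Ω, g, h1, h2, hAB.trans h3⟩

theorem holY_comp {d d' : ℕ} {M S : Type} [TopologicalSpace M] [ChartedSpace (Cm d) M]
    [TopologicalSpace S] [ChartedSpace (Cm d') S] {Y : CSp} {f : M → Y.pt} {j : S → M}
    (hf : HolY d Y f) (hj : HolM d' d j) : HolY d' Y fun x => f (j x) := by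
  refine ⟨hf.1.comp hj.1, fun x g hg e he => ?_⟩
  have h0 : At (chartAt (Cm d) (j x)) (j x) := at_ch _
  have h1 := hf.2 (j x) g hg _ h0
  have h2 := hj.2 x e _ he h0
  have h3 : AnalyticAt ℂ (fun z => g (f ((chartAt (Cm d) (j x)).symm z)))
      (chartAt (Cm d) (j x) (j (e.symm (e x)))) := by rwa [he.left_inv]
  refine (h3.comp' (f := fun z => chartAt (Cm d) (j x) (j (e.symm z))) h2).congr ?_
  filter_upwards [Tr.ev_symm he.2 (hj.1.continuousAt.preimage_mem_nhds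
    ((chartAt (Cm d) (j x)).open_source.mem_nhds h0.2))] with z hz
  simp only [(chartAt (Cm d) (j x)).left_inv hz]

variable {V : Lg} (P : Par V)

theorem rg_fin (T : Finset (Fin V.r × Set V.W)) : FiniteDimensional ℝ (V.RG T) := by
  refine FiniteDimensional.of_injective
    ((LinearMap.funLeft ℝ ℝ (Subtype.val : T → _)).comp (V.RG T).subtype) fun ρ ρ' h => ?_
  refine Subtype.ext (funext fun c => ?_)
  by_cases hc : c ∈ T
  · exact congrFun h ⟨c, hc⟩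
  · rw [ρ.2.1 c hc, ρ'.2.1 c hc]

/-- the integral over the surface `T` -/
def I (θ : Fr 4 4 V.W) (T : Set V.W) : ℝ := (P.S T).int (pb (Cm 2) (P.ι₂ T) θ)

theorem Z_eq (ρ : Fin V.r × Set V.W → ℝ) (θ : Fr 4 4 V.W) :
    P.Z ρ θ = ∑ l, ∑ T ∈ cl V l, ρ (l, T) * I P θ T := by
  classical
  rw [Par.Z, ← Finset.sum_fiberwise V.cmp Prod.fst]
  refine Finset.sum_congr rfl fun l _ => ?_
  rw [cl, Finset.sum_image]
  · refine Finset.sum_congr rfl fun c hc => ?_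
    rw [← (Finset.mem_filter.1 hc).2]
    rfl
  · intro c hc c' hc' h
    exact Prod.ext ((Finset.mem_filter.1 hc).2.trans (Finset.mem_filter.1 hc').2.symm) h

theorem cls_int (hPL : StPL) {l : Fin V.r} {m : Set V.W → ℝ} {α : Fr 3 2 (P.H l).M}
    (h : P.Cls l m α) {φ : Fr 3 4 (P.H l).M} (hφ : Cl φ) :
    (P.H l).int (wd α φ) = ∑ T ∈ cl V l, m T * (P.S T).int (pb (Cm 2) (P.j l T) φ) := by
  obtain ⟨g, hg⟩ := h
  exact hPL 2 (P.H l) _ (cl V l) P.S (P.j l) m α g univ univ φ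
    (fun T hT => P.emb₂ (l, T) (mem_cl.1 hT)) hg isClosed_univ isOpen_univ subset_rfl
    (fun _ _ => subset_univ _) (fun x hx => absurd (mem_univ x) hx) (cl_sm hφ)
    fun x _ => (hφ x).2

theorem cls_int₄ (hPL : StPL) {l : Fin V.r} {m : Set V.W → ℝ} {α : Fr 3 2 (P.H l).M}
    (h : P.Cls l m α) {θ : Fr 4 4 V.W} (hθ : Cl θ) :
    (P.H l).int (wd α (pb (Cm 3) (P.ι l) θ)) = ∑ T ∈ cl V l, m T * I P θ T := by
  rw [cls_int P hPL h (cl_pb (par_hol P l) hθ)]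
  refine Finset.sum_congr rfl fun T hT => ?_
  rw [par_pb P (c := (l, T)) (mem_cl.1 hT)]
  rfl

theorem leq_cl (l : Fin V.r) : ∀ T ∈ cl V l, ∀ x, ∃ ζ, Slc.LEq 3 (range (P.j l T)) x ζ :=
  fun T hT x => par_leq P (c := (l, T)) (mem_cl.1 hT) x

theorem cls_zero (l : Fin V.r) : P.Cls l (fun _ => 0) 0 := ⟨_, gr_zero (leq_cl P l)⟩

theorem cls_add {l : Fin V.r} {m m' : Set V.W → ℝ} {α α' : Fr 3 2 (P.H l).M} (h : P.Cls l m α)
    (h' : P.Cls l m' α') : P.Cls l (fun T => m T + m' T) (α + α') := by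
  obtain ⟨g, hg⟩ := h
  obtain ⟨g', hg'⟩ := h'
  exact ⟨_, gr_add hg hg'⟩

theorem cls_sub {l : Fin V.r} {m m' : Set V.W → ℝ} {α α' : Fr 3 2 (P.H l).M} (h : P.Cls l m α)
    (h' : P.Cls l m' α') : P.Cls l (fun T => m T - m' T) (α - α') := by
  obtain ⟨g, hg⟩ := h
  obtain ⟨g', hg'⟩ := h'
  exact ⟨_, gr_sub hg hg'⟩

theorem cls_sum {l : Fin V.r} {κ : Type} [Fintype κ] (r : κ → ℝ) {m : κ → Set V.W → ℝ}
    {α : κ → Fr 3 2 (P.H l).M} (h : ∀ e, P.Cls l (m e) (α e)) :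
    P.Cls l (fun T => ∑ e, r e * m e T) (∑ e, r e • α e) := by
  choose g hg using h
  exact ⟨_, gr_sum (leq_cl P l) Finset.univ fun e _ => gr_smul (r e) (hg e)⟩

theorem cls_ex {l : Fin V.r} {m : Set V.W → ℝ} {α : Fr 3 2 (P.H l).M} (h : P.Cls l m α)
    (he : IsEx α) : P.Cls l m 0 := by
  obtain ⟨g, hg⟩ := h
  exact gr_ex hg (by rwa [sub_zero])

/-- the family with the divisor `m` on `G l` only -/
def dl (l : Fin V.r) (m : Set V.W → ℝ) : Fin V.r × Set V.W → ℝ :=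
  fun c => if c.1 = l then m c.2 else 0

theorem Z_dl (l : Fin V.r) (m : Set V.W → ℝ) (θ : Fr 4 4 V.W) :
    P.Z (dl l m) θ = ∑ T ∈ cl V l, m T * I P θ T := by
  rw [Z_eq, Finset.sum_eq_single l]
  · simp [dl]
  · intro k _ hk
    simp [dl, hk]
  · simp

theorem Z_comb {κ : Type} [Fintype κ] (ρ ρ' : Fin V.r × Set V.W → ℝ) (r : κ → ℝ)
    (x y : κ → Fin V.r × Set V.W → ℝ) (θ : Fr 4 4 V.W) :
    P.Z (fun c => ρ c - ρ' c + ∑ e, r e * (x e c - y e c)) θ =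
      P.Z ρ θ - P.Z ρ' θ + ∑ e, r e * (P.Z (x e) θ - P.Z (y e) θ) := by
  simp only [Par.Z, add_mul, sub_mul, Finset.sum_add_distrib, Finset.sum_sub_distrib,
    Finset.sum_mul, mul_sub, Finset.mul_sum, mul_assoc]
  rw [Finset.sum_comm, Finset.sum_comm (s := V.cmp)]

theorem Z_nul (hPL : StPL) {ρ : Fin V.r × Set V.W → ℝ} (h : P.Nul ρ) {θ : Fr 4 4 V.W}
    (hθ : Cl θ) : P.Z ρ θ = 0 := by
  rw [Z_eq]
  refine Finset.sum_eq_zero fun l _ => ?_
  rw [← cls_int₄ P hPL (h l) hθ, wd_zero_left]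
  exact int_zero _

variable {U : Lg} {Q : Par U} {μ : V.W → U.W} {s : Fin U.r → Fin V.r}
  {ν : ∀ k, (P.H (s k)).M → (Q.H k).M}

/-- integrals on `Q.H k` are computed on the strict transform -/
theorem lift_int (hPL : StPL) (hν : IsLift P Q μ s ν) {k : Fin U.r} {m : Set V.W → ℝ}
    {β : Fr 3 2 (Q.H k).M} (hβ : Sm β) (h : P.Cls (s k) m (pb (Cm 3) (ν k) β))
    {φ : Fr 3 4 (Q.H k).M} (hφ : Cl φ) : (Q.H k).int (wd β φ) = ∑ T ∈ cl V (s k),
      m T * (P.S T).int (pb (Cm 2) (P.j (s k) T) (pb (Cm 3) (ν k) φ)) := by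
  rw [← cls_int P hPL h (cl_pb (hν.hol k) hφ), ← pb_wd]
  exact (hν.int k (wd β φ) (sm_wd hβ (cl_sm hφ))).symm

theorem gys_int (hPL : StPL) (hν : IsLift P Q μ s ν) (hμ : HolM 4 4 μ)
    (hs : Function.Injective s) {m : Fin V.r × Set V.W → ℝ} {β : ∀ k, C11 (Q.H k)}
    (h : ∀ k, P.Cls (s k) (fun T => m (s k, T)) (pb (Cm 3) (ν k) (β k).1))
    (h0 : ∀ c, m c ≠ 0 → c.1 ∈ range s) {Φ : Fr 4 4 U.W} (hΦ : Cl Φ) :
    ∑ k, (Q.H k).int (wd (β k).1 (pb (Cm 3) (Q.ι k) Φ)) = P.Z m (pb (Cm 4) μ Φ) := by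
  classical
  rw [Z_eq, ← Finset.sum_subset (Finset.subset_univ (Finset.univ.image s)), Finset.sum_image
    fun _ _ _ _ h => hs h]
  · refine Finset.sum_congr rfl fun k _ => ?_
    rw [lift_int P hPL hν (c_sm _) (h k) (cl_pb (par_hol Q k) hΦ)]
    refine Finset.sum_congr rfl fun T hT => ?_
    rw [pb_pb (hν.hol k) (par_hol Q k), funext (hν.fac k), ← pb_pb (par_hol P _) hμ,
      par_pb P (c := (s k, T)) (mem_cl.1 hT)]
    rfl
  · intro l _ hl
    refine Finset.sum_eq_zero fun T _ => ?_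
    by_cases h1 : m (l, T) = 0
    · rw [h1, zero_mul]
    · obtain ⟨k, hk⟩ := h0 _ h1
      exact absurd (Finset.mem_image.2 ⟨k, Finset.mem_univ _, hk⟩) hl

theorem cls_single (hs : Function.Injective s) (j k : Fin U.r) {m : Set V.W → ℝ}
    (x : C11 (Q.H j)) (h : P.Cls (s j) m (pb (Cm 3) (ν j) x.1)) :
    P.Cls (s k) (fun T => dl (s j) m (s k, T))
      (pb (Cm 3) (ν k) (Pi.single (M := fun k => C11 (Q.H k)) j x k).1) := by
  by_cases hk : k = j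
  · subst hk
    simpa only [dl, if_pos, Pi.single_eq_same] using h
  · rw [Pi.single_eq_of_ne hk]
    simp only [dl, if_neg (hs.ne hk)]
    exact cls_zero P (s k)

end Asm

open Asm in
/-- **ASM** -/
theorem top_of (hPar : StPar) (hPol : StPol) (hEx : StEx) (hGood : StGood) (hGys : StGys)
    (hDom : StDom) (hLift : StLift) (hEdge : StEdge) (hRep : StRep) (hGrn : StGrn) (hPL : StPL)
    (hLam : StLam) (hForm : StForm) (hIrr : StIrr) (hRat : StRat) (hTR : StTR) (hCls : StCls) :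
    StTop := by
  classical
  intro V V₀ U a Y ψ α π μ p H hπ hL
  obtain ⟨s, hs⟩ := hDom V U Y ψ _ μ p H.normal H.res H.resU H.hol H.fac
  have H' : Hyp V a Y ψ α U μ s p := ⟨H, hs⟩
  obtain ⟨P⟩ := hPar V
  obtain ⟨Q⟩ := hPar U
  obtain ⟨R⟩ := hPol U Y p H.resU
  obtain ⟨C, hC⟩ := hEx U Y p Q R H.resU H.dimU
  obtain ⟨hG, hg⟩ := hGood U Y p Q R C H.resU H.dimU hC
  obtain ⟨⟨ν, hν⟩, -⟩ := hLift V U P Q μ s _ hs
  obtain ⟨Rr, m, β, hle, hrk, hρ⟩ := hRep V U a Y ψ α μ s p P Q ν H' hν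
  haveI := rg_fin (V := V) (Tp V a α)
  haveI : FiniteDimensional ℝ Rr := Submodule.finiteDimensional_of_le hle
  have hp : HolY 4 Y p := ⟨H.resU.cont, H.resU.hol⟩
  have hψ : HolY 4 Y ψ := ⟨H.res.cont, H.res.hol⟩
  have hspos : ∀ k, 0 < a (s k) := fun k => (Finset.mem_filter.1 (hs.mem k)).2
  have hdim : ∀ k, DimLe Y 1 (p '' U.G k) := fun k =>
    dim_mono H.dimU (image_mono (subset_iUnion U.G k))
  have hrg : ∀ k, range (fun x => p (Q.ι k x)) = p '' U.G k := fun k => by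
    rw [← Q.rng k, ← range_comp]; rfl
  have hrg₂ : ∀ c ∈ U.cmp, range (fun x => p (Q.ι₂ c.2 x)) = p '' c.2 := fun c hc =>
    (range_comp p (Q.ι₂ c.2)).trans (congrArg (p '' ·) (Q.rng₂ c hc))
  have hes : ∀ e : Ed U, (C.s e, e.1.2.2) ∈ U.cmp := fun e => hC.s e ▸ ed_s e
  have het : ∀ e : Ed U, (C.t e, e.1.2.2) ∈ U.cmp := fun e => hC.t e ▸ ed_t e
  have hsub : ∀ {W : Lg}, ∀ c ∈ W.cmp, c.2 ⊆ W.G c.1 := fun c hc y hy => by
    obtain ⟨k, hk⟩ := Val.Lg.cmp_iff.1 hc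
    exact (hk.sub hy).1
  have hdim₂ : ∀ c ∈ U.cmp, DimLe Y 1 (range fun x => p (Q.ι₂ c.2 x)) := fun c hc => by
    rw [hrg₂ c hc]
    exact dim_mono (hdim c.1) (image_mono (hsub c hc))
  have hnul : ∀ ρ ∈ Rr, P.Nul ρ := fun ρ h l => hGrn V P l _ ((hle h).2 l)
  have hψs : ∀ k, ψ '' V.G (s k) = p '' U.G k := fun k => by
    rw [← hs.img k, image_image]
    exact image_congr fun y _ => (H.fac y).symm
  choose κ hκ using fun e : Ed U => hRat Y R.B (Q.S e.1.2.2) (fun x => p (Q.ι₂ e.1.2.2 x))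
    (Q.conn₂ (C.s e, e.1.2.2) (hes e)) (holY_comp hp (par_hol₄ Q (c := (C.s e, e.1.2.2)) (hes e)))
    (hdim₂ (C.s e, e.1.2.2) (hes e))
  have hro : ∀ e : Ed U, (C.rs e (C.o _)).1 = R.B.form 2 fun x => p (Q.ι₂ e.1.2.2 x) := fun e => by
    rw [hC.rs, hC.o, (hForm Y R.B 3 (Q.H _) _ (holY_comp hp (par_hol Q _))).2.2.2.2.2.2.2 2
      (Q.S _) _ (par_hol₂ Q (hes e))]
    exact congrArg _ (funext fun x => congrArg p (Q.fac _ (hes e) x))
  have hlam : ∀ c ∈ U.cmp, ∀ x ∈ Lam (Q.H c.1), ∀ z : C11 (Q.S c.2),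
      z.1 = pb (Cm 2) (Q.j c.1 c.2) x.1 → z ∈ Lam (Q.S c.2) := fun c hc x hx z hz => by
    obtain ⟨L, φ, hL⟩ := ((hLam 3 _).2.2.1 x).1 hx
    exact ((hLam 2 _).2.2.1 z).2 ⟨_, _, hz ▸ (hLam 3 _).2.2.2.2 2 _ _ L φ _ (par_hol₂ Q hc) hL⟩
  let Sg := {σ // σ ∈ Finset.univ.image fun k => p '' U.G k}
  letI : Fintype Sg := Finset.Subtype.fintype _
  let pr : Fin U.r → Sg := fun k => ⟨p '' U.G k, Finset.mem_image_of_mem _ (Finset.mem_univ k)⟩
  let u : Sg → ℕ := fun σ =>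
    (Finset.univ.filter fun k => 0 < a k ∧ a k < α ∧ ψ '' V.G k = σ.1).card
  refine (fun hcount : finrank ℝ Rr ≤ ∑ σ, u σ + finrank ℝ (C.Z.comap β) => ?_)
    (P277Z.O1.Cfg.count hG hg pr ?_ (fun k => Lam (Q.H k)) hC.D κ ?_ ?_ β
    (fun ρ k => hC.D k ▸ (hρ ρ).1 k) ?_ u ?_)
  · have h1 : ∑ σ, u σ ≤ N3 V a Y ψ α := by
      rw [← Finset.card_biUnion]
      · refine Finset.card_le_card fun k hk => ?_
        obtain ⟨σ, -, h2⟩ := Finset.mem_biUnion.1 hk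
        obtain ⟨-, h3, h4, h5⟩ := Finset.mem_filter.1 h2
        obtain ⟨j, -, hj⟩ := Finset.mem_image.1 σ.2
        exact Finset.mem_filter.2 ⟨Finset.mem_univ _, h3, h4, by rw [h5, ← hj]; exact hdim j⟩
      · intro σ _ σ' _ h
        refine Finset.disjoint_left.2 fun k h2 h3 => h (Subtype.ext ?_)
        exact (Finset.mem_filter.1 h2).2.2.2.symm.trans (Finset.mem_filter.1 h3).2.2.2
    have hL0 : ∀ l, a l + 1 < α → a l < 0 := fun l hl => by linarith [H.αle]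
    have hLs : ∀ l, a l + 1 < α → ∀ k, l ≠ s k := fun l hl k h => by
      have := hspos k
      rw [← h] at this
      linarith [hL0 l hl]
    choose ms hms using fun e : Ed U => (hC.cs e).2.elim fun g hg =>
      hEdge V U P Q μ s _ ν hs hν _ (hes e) Y p R hp H.dimU _ g hg
    choose mt hmt using fun e : Ed U => (hC.ct e).2.elim fun g hg =>
      hEdge V U P Q μ s _ ν hs hν _ (het e) Y p R hp H.dimU _ g hg
    refine (fun h2 : finrank ℝ ((C.Z.comap β).map Rr.subtype) ≤ V₀.cmp.card => ?_)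
      (hTR V V₀ U π μ s P {l | a l + 1 < α} _ hπ hs
      (fun l hl => ⟨hL l (hL0 l hl), fun h => by
        linarith [(Finset.mem_filter.1 h).2, hL0 l hl]⟩) ((C.Z.comap β).map Rr.subtype) ?_)
    · rw [Submodule.finrank_map_subtype_eq] at h2
      unfold Val.Top
      omega
    rintro _ ⟨ρ, hZ, rfl⟩
    obtain ⟨r, hr⟩ := P277Z.O1.Cfg.mem_Z.1 hZ
    have hm0 : ∀ c : Fin V.r × Set V.W, (∀ k, c.1 ≠ s k) → m ρ c = 0 := fun c hc => by
      by_contra h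
      obtain ⟨k, hk⟩ := ((hρ ρ).2.2.1 c h).2.1
      exact hc k hk.symm
    have hρ' : ∀ c : Fin V.r × Set V.W, (∀ k, c.1 ≠ s k) → ρ.1 c - m ρ c +
        ∑ e, r e * (dl (s (C.s e)) (ms e) c - dl (s (C.t e)) (mt e) c) = ρ.1 c := fun c hc => by
      simp [hm0 c hc, dl, hc]
    refine ⟨fun c hc => ?_, fun c => ρ.1 c - m ρ c +
      ∑ e, r e * (dl (s (C.s e)) (ms e) c - dl (s (C.t e)) (mt e) c),
      fun c hc => hρ' c (hLs _ hc), fun l => ?_, fun θ hθ => ?_⟩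
    · have h3 : c ∈ Tp V a α := by
        by_contra h
        exact hc ((hle ρ.2).1 c h)
      exact ⟨(Finset.mem_filter.1 h3).1, (Finset.mem_filter.1 h3).2.1⟩
    · by_cases hl : ∃ k, l = s k
      · obtain ⟨k, rfl⟩ := hl
        refine cls_ex P (cls_add P (cls_sub P (hnul ρ ρ.2 (s k)) ((hρ ρ).2.1 k))
          (cls_sum P r fun e => cls_sub P (cls_single P hs.sinj _ k _ (hms e).1)
            (cls_single P hs.sinj _ k _ (hmt e).1))) ?_
        have h3 := isEx_neg (isEx_pb (hν.hol k) ((hC.N k _).1 (hr k)))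
        have h4 : C.gam r k = ∑ e, r e • C.g1 e k := by
          rw [P277Z.O1.Cfg.gam, Fintype.linearCombination_apply, Finset.sum_apply]
          rfl
        let F := (C11 (P.H (s k))).subtype.comp (res (hν.hol k))
        have h5 : 0 - F (β ρ k) + ∑ e, r e •
            (F (Pi.single (M := fun k => C11 (Q.H k)) (C.s e) (C.cs e) k) -
              F (Pi.single (M := fun k => C11 (Q.H k)) (C.t e) (C.ct e) k)) =
            -F (β ρ k - C.gam r k) := by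
          rw [h4, map_sub, map_sum, zero_sub, neg_sub, sub_eq_neg_add]
          simp only [map_smul, P277Z.O1.Cfg.g1, Pi.sub_apply, map_sub]
        exact (congrArg IsEx h5).mpr h3
      · have h3 : (fun T => ρ.1 (l, T) - m ρ (l, T) + ∑ e, r e * (dl (s (C.s e)) (ms e) (l, T) -
            dl (s (C.t e)) (mt e) (l, T))) = fun T => ρ.1 (l, T) :=
          funext fun T => hρ' (l, T) fun k h => hl ⟨k, h⟩
        exact h3 ▸ hnul ρ ρ.2 l
    · rw [Z_comb, (hρ ρ).2.2.2 θ hθ, sub_self, zero_add]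
      refine Finset.sum_eq_zero fun e _ => ?_
      rw [Z_dl, Z_dl]
      exact mul_eq_zero_of_right _ (sub_eq_zero.2 (((hms e).2 θ hθ).trans ((hmt e).2 θ hθ).symm))
  · intro e he
    rw [hC.P] at he
    have h1 := (hIrr Y 2 (Q.S _) _ (Q.conn₂ _ (hes e)) (holY_comp hp (par_hol₄ Q (hes e)))
      (hdim₂ _ (hes e))).2.2 (by rwa [hrg₂ _ (hes e)])
    rw [hrg₂ _ (hes e)] at h1
    have h2 : ∀ k k', e.1.2.2 ⊆ U.G k → e.1.2.2 ⊆ U.G k' → p '' U.G k ⊆ p '' U.G k' :=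
      fun k k' hk hk' => by
        rw [← hrg, ← hrg]
        refine (hIrr Y 3 (Q.H k) _ (Q.conn k) (holY_comp hp (par_hol Q k))
          (hrg k ▸ hdim k)).2.1 3 (Q.H k') _ (holY_comp hp (par_hol Q k')) (hrg k' ▸ hdim k') ?_
        rw [hrg, hrg]
        exact fun h => h1.1 (h.mono (subset_inter (image_mono hk) (image_mono hk')))
    have h3 := hsub _ (hes e)
    have h4 := hsub _ (het e)
    exact Subtype.ext ((h2 _ _ h3 h4).antisymm (h2 _ _ h4 h3))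
  · intro e x hx
    rw [hC.B, hro]
    exact hκ e _ (hlam _ (hes e) x hx _ (hC.rs e x))
  · intro e x hx
    rw [hC.B, hro]
    exact hκ e _ (hlam _ (het e) x hx _ (hC.rt e x))
  · intro ρ
    refine hGys U Y p Q R C hC _ fun Φ hΦ => ?_
    rw [gys_int P hPL hν H.hol hs.sinj (hρ ρ).2.1 (fun c hc => ((hρ ρ).2.2.1 c hc).2.1) hΦ,
      (hρ ρ).2.2.2 Φ (cl_sm hΦ)]
    exact Z_nul P hPL (hnul ρ ρ.2) (cl_pb H.hol hΦ)
  · intro σ
    obtain ⟨k₀, -, hk₀⟩ := Finset.mem_image.1 σ.2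
    by_cases hσ : ¬ σ.1.Subsingleton ∧ ∃ l, a l + 1 < α ∧ σ.1 ⊆ ψ '' V.G l
    · obtain ⟨h1, l, h2, h3⟩ := hσ
      have h4 := hCls V U a Y ψ α μ s p Q R C H' hC k₀ l (hk₀ ▸ h1) h2 (hk₀ ▸ h3)
      rw [hk₀] at h4
      have h5 : {k | pr k = σ} = {k | p '' U.G k = σ.1} := Set.ext fun k => Subtype.ext_iff
      exact Or.inr (h5 ▸ h4)
    refine Or.inl fun ρ k hk x _ => ?_
    have hk' : p '' U.G k = σ.1 := congrArg Subtype.val hk
    rw [hC.T, T3, lift_int P hPL hν (c_sm _) ((hρ ρ).2.1 k) (cl_wd (c_cl _) (c_cl _))]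
    refine Finset.sum_eq_zero fun T hT => ?_
    by_cases h0 : m ρ (s k, T) = 0
    · rw [h0, zero_mul]
    have hT' : (s k, T) ∈ V.cmp := mem_cl.1 hT
    obtain ⟨-, -, l, h1, h2⟩ := (hρ ρ).2.2.1 _ h0
    have h3 : range (fun x => ψ (P.ι₂ T x)) = ψ '' T :=
      (range_comp ψ (P.ι₂ T)).trans (congrArg (ψ '' ·) (P.rng₂ _ hT'))
    have h4 : ψ '' T ⊆ σ.1 := by
      rw [← hk', ← hψs]
      exact image_mono (hsub _ hT')
    have h5 : HolY 2 Y fun x => ψ (P.ι₂ T x) := holY_comp hψ (par_hol₄ P hT')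
    have h6 : (ψ '' T).Subsingleton := by
      by_contra h
      have h7 := ((hIrr Y 2 (P.S T) _ (P.conn₂ _ hT') h5
        (h3 ▸ dim_mono (hdim k) (hk' ▸ h4))).2.2 (h3 ▸ h)).1
      refine hσ ⟨fun h8 => h (h8.anti h4), l, h1, ?_⟩
      rw [← hk', ← hrg]
      refine (hIrr Y 3 (Q.H k) _ (Q.conn k) (holY_comp hp (par_hol Q k)) (hrg k ▸ hdim k)).1 _
        (fun y _ => ?_) fun h8 => h7 (h8.mono ?_)
      · obtain ⟨f, hf, hf'⟩ := H.car l h1 y
        exact ⟨1, fun _ => f, fun _ => hf, hf'.mono fun y' h => by simp [h]⟩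
      · rw [h3, hrg, hk']
        exact subset_inter h4 h2
    have h7 : pb (Cm 2) (P.j (s k) T) (pb (Cm 3) (ν k) (C.o k).1) = 0 := by
      rw [pb_pb (par_hol₂ P hT') (hν.hol k), hC.o, (hForm Y R.B 3 (Q.H _) _
        (holY_comp hp (par_hol Q _))).2.2.2.2.2.2.2 2 (P.S T) _
        (holM_comp (hν.hol k) (par_hol₂ P hT'))]
      have h8 : (fun x => p (Q.ι k (ν k (P.j (s k) T x)))) = fun x => ψ (P.ι₂ T x) :=
        funext fun x => by rw [hν.fac, H.fac, P.fac _ hT']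
      rw [h8]
      exact (hForm Y R.B 2 (P.S T) _ h5).2.2.2.2.2.1 (h3 ▸ h6)
    rw [pb_wd, pb_wd, h7, wd_zero_left]
    exact mul_eq_zero_of_right _ (int_zero _)

end Vale.Agent.P277Z.Top
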