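import Vale.Agent.P277Z.Top.Defs
import Vale.Agent.P277Z.Top.HbHI
import Vale.Agent.P277Z.Ln.LB
import Vale.Agent.P277Z.Ln.Tors

/-!
# P277, block TOP: curvature forms and topological isomorphisms of line bundles
-/

set_option linter.all false
set_option maxSynthPendingDepth 3

open scoped Manifold ContDiff Topology
open Vale.Agent.P272.K Vale.Agent.P285.H281.FD Vale.Agent.P277 Set Filter Module Complex
open Vale.Agent.P267.H175 (SmAt dF loc dF_add dF_smul dF_congr loc_dF smAt_dF dF_dF smAt_iff)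
open Vale.Agent.P277.PH (HolF SmR)
open Vale.Agent.P277Z.Ln (Iso CB Rel pl triv dual at_self)

noncomputable section

namespace Vale.Agent.P277Z.Top.H98

section top

variable {X : Type} [TopologicalSpace X] {A : Set X} {L M : Bd X}

theorem cb_pow (h : CB A L) (k : ℕ) : CB A (L.pow k) :=
  ⟨h.isOpen, h.cover, fun i j => (h.cont i j).pow k,
    fun i j x a b c => pow_ne_zero k (h.ne_zero i j x a b c),
    fun i j l x a b c e => by
      show _ ^ k * _ ^ k = _ ^ k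
      rw [← mul_pow, h.cocycle i j l x a b c e]⟩

theorem iso_pow {k : ℕ} (h : Iso A (L.pow k) (M.pow k)) (m : ℕ) :
    Iso A (L.pow (k * m)) (M.pow (k * m)) := by
  obtain ⟨u, h1, h2⟩ := h
  refine ⟨fun i j x => u i j x ^ m, ⟨fun i j x a b c => pow_ne_zero m (h1.ne_zero i j x a b c),
    fun i i' j j' x a b c e f => ?_⟩, fun i j => (h2 i j).pow m⟩
  have h3 : u i j x * M.g j j' x ^ k = L.g i i' x ^ k * u i' j' x := h1.chg i i' j j' x a b c e f
  show _ * _ ^ (k * m) = _ ^ (k * m) * _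
  rw [pow_mul, pow_mul, ← mul_pow, ← mul_pow, h3]

theorem iso_push {N : Type} [TopologicalSpace N] {φ : N → X} (hφ : Topology.IsEmbedding φ)
    (h : Iso univ (pl φ L) (pl φ M)) : Iso (range φ) L M := by
  obtain ⟨u, h1, h2⟩ := h
  have h3 : ∀ i j y, Function.extend φ (u i j) 1 (φ y) = u i j y := fun i j y =>
    hφ.injective.extend_apply _ _ _
  refine ⟨fun i j => Function.extend φ (u i j) 1, ⟨?_, ?_⟩, fun i j => ?_⟩
  · rintro i j _ ⟨y, rfl⟩ a b
    rw [hφ.injective.extend_apply]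
    exact h1.ne_zero i j y trivial a b
  · rintro i i' j j' _ ⟨y, rfl⟩ a b c e
    rw [hφ.injective.extend_apply, hφ.injective.extend_apply]
    exact h1.chg i i' j j' y trivial a b c e
  · have h4 : range φ ∩ L.U i ∩ M.U j = φ '' (univ ∩ φ ⁻¹' L.U i ∩ φ ⁻¹' M.U j) := by
      rw [image_inter_preimage, image_inter_preimage, image_univ]
    rw [h4, hφ.isInducing.continuousOn_image_iff]
    exact (h2 i j).congr fun y _ => h3 i j y

theorem iso_fin {J : Type} (s : Finset J) {B : J → Set X} (hB : ∀ a, IsClosed (B a))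
    (hd : ∀ a b, a ≠ b → Disjoint (B a) (B b)) (h : ∀ a, Iso (B a) L M) :
    Iso (⋃ a ∈ s, B a) L M := by
  classical
  induction s using Finset.induction_on with
  | empty =>
    exact ⟨fun _ _ _ => 1, ⟨fun _ _ _ h => by simp at h, fun _ _ _ _ _ h => by simp at h⟩,
      fun _ _ => continuousOn_const⟩
  | insert a s ha ih =>
    rw [Finset.set_biUnion_insert]
    obtain ⟨u, h1, h2⟩ := h a
    obtain ⟨u', h3, h4⟩ := ih
    refine Ln.SmH.paste (hB a) (isClosed_biUnion_finset fun b _ => hB b) h1 h2 h3 h4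
      fun i j x hx hx' => ?_
    obtain ⟨b, hb, hx''⟩ := mem_iUnion₂.1 hx'
    exact absurd hx'' (disjoint_left.1 (hd a b fun h => ha (h ▸ hb)) hx)

end top

variable {d : ℕ} {M : Type} [TopologicalSpace M] [ChartedSpace (Cm d) M]
  [IsManifold 𝓘(ℂ, Cm d) ω M] {x : M} {e : Chart d M} {u v : M → ℝ}

theorem isDc (u : M → ℝ) (y : M) : H38.IsDc (4 * Real.pi)⁻¹ u (dc d u) y := fun _ => rfl

theorem smAt_dc (hu : ∀ᶠ y in 𝓝 x, SmR d u y) : SmAt (dc d u) x :=
  (H38.ddc_at (Eventually.of_forall (isDc u)) (hu.mono fun y hy => hy _ (at_self y))).1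

theorem mat_ddc (a : At e x) (hu : ∀ᶠ y in 𝓝 x, SmR d u y) :
    H38.mat (loc e (ddc d u) (e x)) =
      (((4 * Real.pi)⁻¹ : ℝ) : ℂ) • cHess (fun z => u (e.symm z)) (e x) := by
  have := INT.isManifold_real d M
  have h1 := smAt_dc hu
  rw [ddc, loc_dF a.1 (e.map_source a.2) (by rwa [e.left_inv a.2])]
  refine (H38.mat_ddc (((smAt_iff a.1 a.2).1 h1).differentiableAt (by simp))
    ((hu.self_of_nhds e a).of_le INT.two_le_inf) ?_).2
  filter_upwards [Ln.ev_chart a hu] with z ⟨k1, k2, k3⟩ w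
  have h5 := (isDc u _).loc ((k3 _ (at_self _)).differentiableAt (by simp)) k1 w
  rwa [k2] at h5

theorem met_ev {L : Bd M} {ψ : L.ι → M → ℝ} {α : Fr d 2 M} (h : IsCv L ψ α) {i : L.ι}
    (hi : x ∈ L.U i) : ∀ᶠ y in 𝓝 x, SmR d (ψ i) y := by
  filter_upwards [(h.lb.isOpen i).mem_nhds hi] with y hy e he using h.met.smooth i e y he hy

theorem lb_cb {L : Bd M} (h : IsLB d L) : Ln.SB d univ L :=
  ⟨h.isOpen, fun x _ => h.cover x, fun i j x hi hj e he =>
    ((h.holo i j e x he hi hj).restrict_scalars ℝ).of_le le_top, h.ne_zero, h.cocycle⟩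

theorem lb_md {L L' : Bd M} (h : IsLB d L) (h' : IsLB d L') : IsLB d (L.mul (dual L')) := by
  refine ⟨fun i => (h.isOpen _).inter (h'.isOpen _), fun x => ?_, fun i j e x he hi hj => ?_,
    fun i j x hi hj => mul_ne_zero (h.ne_zero _ _ x hi.1 hj.1)
      (inv_ne_zero (h'.ne_zero _ _ x hi.2 hj.2)), fun i j k x hi hj hk => ?_⟩
  · obtain ⟨i, hi⟩ := h.cover x
    obtain ⟨j, hj⟩ := h'.cover x
    exact ⟨(i, j), hi, hj⟩
  · exact (h.holo _ _ e x he hi.1 hj.1).mul ((h'.holo _ _ e x he hi.2 hj.2).inv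
      (by rw [e.left_inv he.2]; exact h'.ne_zero _ _ x hi.2 hj.2))
  · show _ * _⁻¹ * (_ * _⁻¹) = _ * _⁻¹
    rw [← h.cocycle _ _ _ x hi.1 hj.1 hk.1, ← h'.cocycle _ _ _ x hi.2 hj.2 hk.2, mul_inv]
    ring

/-- bundles with the same class have isomorphic powers -/
theorem iso_of_ex (X : Mf d) {L L' : Bd X.M} {ψ : L.ι → X.M → ℝ} {ψ' : L'.ι → X.M → ℝ}
    {α α' : Fr d 2 X.M} (h : IsCv L ψ α) (h' : IsCv L' ψ' α') (he : IsEx (α - α')) :
    ∃ n, 1 ≤ n ∧ Iso univ (L.pow n) (L'.pow n) := by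
  obtain ⟨u, hu⟩ := he
  obtain ⟨n, hn, w, h1, h2⟩ := Ln.tors d X.M _ (lb_md h.lb h'.lb)
    ⟨fun i y => ψ i.1 y - ψ' i.2 y - u y, ⟨fun i e x a hi => ((h.met.smooth _ e x a hi.1).sub
      (h'.met.smooth _ e x a hi.2)).sub ((hu x).1 e a), fun i j x hi hj => by
        have k1 := h.lb.ne_zero _ _ x hi.1 hj.1
        have k2 := h'.lb.ne_zero _ _ x hi.2 hj.2
        show _ = _ + Real.log (‖_ * _⁻¹‖ ^ 2)
        rw [h.met.change _ _ x hi.1 hj.1, h'.met.change _ _ x hi.2 hj.2, norm_mul, norm_inv,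
          mul_pow, inv_pow, Real.log_mul (by positivity) (by positivity), Real.log_inv]
        ring⟩, fun i e x a hi => by
      have k1 := mat_ddc a (met_ev h hi.1)
      have k2 := mat_ddc a (met_ev h' hi.2)
      have k3 := mat_ddc a (Eventually.of_forall fun y => (hu y).1)
      have k4 : ddc d (ψ i.1) x = ddc d (ψ' i.2) x + ddc d u x := by
        rw [← h.eq _ x hi.1, ← h'.eq _ x hi.2, ← (hu x).2, Pi.sub_apply, add_sub_cancel]
      have k5 : loc e (ddc d (ψ i.1)) (e x) =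
          loc e (ddc d (ψ' i.2)) (e x) + loc e (ddc d u) (e x) := by
        rw [H38.loc_eq _ a, H38.loc_eq _ a, H38.loc_eq _ a, k4]
        rfl
      rw [k5, H38.mat_add, k2, k3, ← smul_add] at k1
      have k6 : (((4 * Real.pi)⁻¹ : ℝ) : ℂ) ≠ 0 := ofReal_ne_zero.2 (by positivity)
      have a1 := (h.met.smooth _ e x a hi.1).of_le INT.two_le_inf
      have a2 := (h'.met.smooth _ e x a hi.2).of_le INT.two_le_inf
      rw [C2.cHess_sub (a1.sub a2) (((hu x).1 e a).of_le INT.two_le_inf), C2.cHess_sub a1 a2,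
        ← smul_right_injective _ k6 k1]
      abel⟩
  refine ⟨n, hn, fun i j => w (i, j) (), ⟨fun i j x _ a b => h1.ne_zero (i, j) () x trivial
    ⟨a, b⟩ trivial, fun i i' j j' x _ a b c f => ?_⟩, fun i j => (h2 (i, j) ()).mono
      fun x hx => ⟨⟨trivial, hx.1.2, hx.2⟩, trivial⟩⟩
  have h3 : w (i, j) () x * 1 = (L.g i i' x * (L'.g j j' x)⁻¹) ^ n * w (i', j') () x :=
    h1.chg (i, j) (i', j') () () x trivial ⟨a, c⟩ ⟨b, f⟩ trivial trivial
  have h4 := h'.lb.ne_zero _ _ x c f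
  show _ * _ ^ n = _ ^ n * _
  rw [← mul_one (w (i, j) () x), h3, mul_pow, inv_pow]
  field_simp

theorem fd_arg {f : Cm d → ℂ} {z : Cm d} {c : ℂ} (hf : DifferentiableAt ℝ f z)
    (h : f z / c ∈ slitPlane) :
    fderiv ℝ (fun w => (log (f w / c)).im) z = imCLM.comp ((f z)⁻¹ • fderiv ℝ f z) := by
  have h0 := div_ne_zero_iff.1 (slitPlane_ne_zero h)
  have k1 : HasFDerivAt (fun w => f w / c) (c⁻¹ • fderiv ℝ f z) z := hf.hasFDerivAt.mul_const _
  have k2 := imCLM.hasFDerivAt.comp z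
    (((hasDerivAt_log h).hasFDerivAt.restrictScalars ℝ).comp z k1)
  refine k2.fderiv.trans ?_
  ext v
  have : c⁻¹ * fderiv ℝ f z v * (f z / c)⁻¹ = (f z)⁻¹ * fderiv ℝ f z v := by
    have := h0.1
    have := h0.2
    field_simp
  exact congrArg im this

theorem fd_log {f : Cm d → ℂ} {z : Cm d} (hf : DifferentiableAt ℂ f z) (h : f z ≠ 0) (v : Cm d) :
    fderiv ℝ (fun w => Real.log (‖f w‖ ^ 2)) z (I • v) =
      -2 * ((f z)⁻¹ * fderiv ℝ f z v).im := by
  have k1 := (hf.restrictScalars ℝ).hasFDerivAt.norm_sq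
  have k2 := k1.log (by positivity)
  rw [k2.fderiv, hf.fderiv_restrictScalars ℝ]
  have h1 : normSq (f z) ≠ 0 := by simpa using h
  show (‖f z‖ ^ 2)⁻¹ * (2 • inner ℝ (f z) (fderiv ℂ f z (I • v))) =
    -2 * ((f z)⁻¹ * fderiv ℂ f z v).im
  rw [map_smul, Complex.inner, Complex.sq_norm, smul_eq_mul]
  generalize fderiv ℂ f z v = w
  simp only [mul_re, mul_im, inv_re, inv_im, I_re, I_im, conj_re, conj_im, nsmul_eq_mul]
  field_simp
  push_cast
  ring

/-- the differential of the argument -/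
def da (d : ℕ) {M : Type} [TopologicalSpace M] [ChartedSpace (Cm d) M] (g : M → ℂ) : Fr d 1 M :=
  fun x => ContinuousAlternatingMap.ofSubsingleton ℝ (Cm d) ℝ (0 : Fin 1) (imCLM.comp ((g x)⁻¹ •
    fderiv ℝ (fun z => g ((chartAt (Cm d) x).symm z)) (chartAt (Cm d) x x)))

theorem da_sm {g : M → ℂ} (hg : ∀ᶠ y in 𝓝 x, Ln.Sm d g y) (h0 : g x ≠ 0) :
    SmAt (da d g) x ∧ dF (da d g) x = 0 := by
  have := INT.isManifold_real d M
  have h1 : ∀ᶠ y in 𝓝 x, g y / g x ∈ slitPlane :=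
    (hg.self_of_nhds.cont.div_const _).eventually_mem
      (isOpen_slitPlane.mem_nhds (by simp [div_self h0]))
  obtain ⟨V, hV, hVo, hx⟩ := _root_.eventually_nhds_iff.1 (hg.and h1)
  set a : Fr d 0 M := fun y =>
    ContinuousAlternatingMap.constOfIsEmpty ℝ (Cm d) (Fin 0) (log (g y / g x)).im with ha
  have h2 : ∀ y ∈ V, ContDiffAt ℝ ∞ (fun z => log (g ((chartAt (Cm d) y).symm z) / g x))
      (chartAt (Cm d) y y) := fun y hy => by
    refine ContDiffAt.comp (g := log) _ ?_ (((hV y hy).1 _ (at_self y)).div_const _)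
    rw [(chartAt (Cm d) y).left_inv (mem_chart_source _ y)]
    exact (contDiffAt_log (hV y hy).2).restrict_scalars ℝ
  have h3 : ∀ y ∈ V, SmAt a y := fun y hy =>
    (ContinuousAlternatingMap.constOfIsEmptyLIE ℝ (Cm d) ℝ (Fin 0)).contDiff.contDiffAt.comp _
      (imCLM.contDiff.contDiffAt.comp _ (h2 y hy))
  have h4 : dF a =ᶠ[𝓝 x] da d g := by
    filter_upwards [hVo.mem_nhds hx] with y hy
    have k0 := (chartAt (Cm d) y).left_inv (mem_chart_source _ y)
    have k1 := fd_arg (c := g x) (((hV y hy).1 _ (at_self y)).differentiableAt (by simp))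
      (by rw [k0]; exact (hV y hy).2)
    rw [k0] at k1
    rw [da, ← k1]
    exact extDeriv_constOfIsEmpty _ _
  exact ⟨(smAt_dF hVo h3 hx).congr h4.symm, by rw [← dF_congr h4, dF_dF hVo h3 hx]⟩

theorem ev_c {β : Type} {f g : M → β} (h : ∀ᶠ y in 𝓝 x, f y = g y) :
    (fun z => f ((chartAt (Cm d) x).symm z)) =ᶠ[𝓝 (chartAt (Cm d) x x)]
      fun z => g ((chartAt (Cm d) x).symm z) :=
  (Ln.ev_chart (at_self x) h).mono fun _ hz => hz.2.2

theorem da_mul {f g f' g' : M → ℂ} (hf : Ln.Sm d f x) (hg : Ln.Sm d g x) (hf' : Ln.Sm d f' x)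
    (hg' : Ln.Sm d g' x) (h1 : f x ≠ 0) (h2 : g x ≠ 0) (h : ∀ᶠ y in 𝓝 x, f y * g y = f' y * g' y) :
    da d f x + da d g x = da d f' x + da d g' x := by
  have k0 := (chartAt (Cm d) x).left_inv (mem_chart_source _ x)
  have key : ∀ {f g : M → ℂ}, Ln.Sm d f x → Ln.Sm d g x → f x * g x ≠ 0 →
      da d f x + da d g x = da d (fun y => f y * g y) x := fun {f g} hf hg h0 => by
    have a1 := left_ne_zero_of_mul h0
    have a2 := right_ne_zero_of_mul h0
    rw [da, da, da, fderiv_fun_mul ((hf _ (at_self x)).differentiableAt (by simp))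
      ((hg _ (at_self x)).differentiableAt (by simp)), k0]
    ext v
    refine (add_im _ _).symm.trans (congrArg im ?_)
    show (f x)⁻¹ * _ + (g x)⁻¹ * _ = (f x * g x)⁻¹ * (f x * _ + g x * _)
    generalize fderiv ℝ (fun z => f ((chartAt (Cm d) x).symm z)) _ = A
    generalize fderiv ℝ (fun z => g ((chartAt (Cm d) x).symm z)) _ = B
    show _ * A (v 0) + _ * B (v 0) = _ * (_ * B (v 0) + _ * A (v 0))
    field_simp
    ring
  have h3 := h.self_of_nhds
  rw [key hf hg (mul_ne_zero h1 h2), key hf' hg' (h3 ▸ mul_ne_zero h1 h2), da, da,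
    (ev_c h).fderiv_eq, h3]

theorem dc_chg {L : Bd M} {ψ : L.ι → M → ℝ} {α : Fr d 2 M} (h : IsCv L ψ α) {i j : L.ι}
    (hi : x ∈ L.U i) (hj : x ∈ L.U j) :
    dc d (ψ i) x = dc d (ψ j) x + (2 * Real.pi)⁻¹ • da d (L.g i j) x := by
  have k0 := (chartAt (Cm d) x).left_inv (mem_chart_source _ x)
  have h1 : ∀ᶠ y in 𝓝 x, ψ i y = ψ j y + Real.log (‖L.g i j y‖ ^ 2) := by
    filter_upwards [(h.lb.isOpen i).mem_nhds hi, (h.lb.isOpen j).mem_nhds hj] with y a b
    exact h.met.change i j y a b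
  have h2 := (h.lb.holo i j _ x (at_self x) hi hj).differentiableAt (by simp)
  have h3 : L.g i j ((chartAt (Cm d) x).symm (chartAt (Cm d) x x)) ≠ 0 := by
    rw [k0]; exact h.lb.ne_zero i j x hi hj
  have h4 : DifferentiableAt ℝ (fun z => Real.log (‖L.g i j ((chartAt (Cm d) x).symm z)‖ ^ 2))
      (chartAt (Cm d) x x) := (h2.restrictScalars ℝ).norm_sq ℝ |>.log (by positivity)
  rw [dc, (ev_c h1).fderiv_eq, fderiv_fun_add
    ((h.met.smooth j _ x (at_self x) hj).differentiableAt (by simp)) h4]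
  ext v
  have h5 := fd_log h2 h3 (v 0)
  rw [k0] at h5
  show -(4 * Real.pi)⁻¹ * (fderiv ℝ _ _ (I • v 0) + fderiv ℝ _ _ (I • v 0)) =
    -(4 * Real.pi)⁻¹ * fderiv ℝ _ _ (I • v 0) +
      (2 * Real.pi)⁻¹ * ((L.g i j x)⁻¹ * fderiv ℝ _ _ (v 0)).im
  rw [h5]
  have := Real.pi_pos
  field_simp
  ring

/-- isomorphic bundles have the same class -/
theorem ex_of_iso (X : Mf d) {L L' : Bd X.M} {ψ : L.ι → X.M → ℝ} {ψ' : L'.ι → X.M → ℝ}
    {α α' : Fr d 2 X.M} (h : IsCv L ψ α) (h' : IsCv L' ψ' α') (hi : Iso univ L L') :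
    ∃ θ : Fr d 1 X.M, Sm θ ∧ α - α' = dF θ := by
  have := ChartedSpace.secondCountable_of_sigmaCompact (Cm d) X.M
  obtain ⟨V, -, hV, u, h1, h2⟩ := Ln.g3 d X.M univ isCompact_univ L L' (lb_cb h.lb) (lb_cb h'.lb) hi
  choose I hI using h.lb.cover
  choose J hJ using h'.lb.cover
  set θ : L.ι → L'.ι → Fr d 1 X.M := fun i j => dc d (ψ i) + (-1 : ℝ) • dc d (ψ' j) +
    (-(2 * Real.pi)⁻¹) • da d (u i j) with hθ
  have h3 : ∀ x, (fun y => θ (I y) (J y) y) =ᶠ[𝓝 x] θ (I x) (J x) := fun x => by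
    filter_upwards [(h.lb.isOpen _).mem_nhds (hI x), (h'.lb.isOpen _).mem_nhds (hJ x)] with y a b
    have k1 := da_mul (h2 _ _ y (hV trivial) (hI y) (hJ y)) ((lb_cb h'.lb).sm _ _ y (hJ y) b)
      ((lb_cb h.lb).sm _ _ y (hI y) a) (h2 _ _ y (hV trivial) a b)
      (h1.ne_zero _ _ y (hV trivial) (hI y) (hJ y)) (h'.lb.ne_zero _ _ y (hJ y) b) (by
        filter_upwards [(h.lb.isOpen _).mem_nhds (hI y), (h'.lb.isOpen _).mem_nhds (hJ y),
          (h.lb.isOpen _).mem_nhds a, (h'.lb.isOpen _).mem_nhds b] with w c1 c2 c3 c4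
        exact h1.chg _ _ _ _ w (hV trivial) c1 c3 c2 c4)
    simp only [hθ, Pi.add_apply, Pi.smul_apply]
    rw [dc_chg h (hI y) a, dc_chg h' (hJ y) b, eq_sub_of_add_eq k1]
    module
  have h4 := fun x => da_sm (d := d) (g := u (I x) (J x)) (x := x) (by
    filter_upwards [(h.lb.isOpen _).mem_nhds (hI x), (h'.lb.isOpen _).mem_nhds (hJ x)] with y a b
    exact h2 _ _ y (hV trivial) a b) (h1.ne_zero _ _ x (hV trivial) (hI x) (hJ x))
  have h5 := fun x => smAt_dc (met_ev h (hI x))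
  have h6 := fun x => smAt_dc (met_ev h' (hJ x))
  refine ⟨fun y => θ (I y) (J y) y, fun x => (((h5 x).add ((h6 x).smul _)).add
    ((h4 x).1.smul _)).congr (h3 x), funext fun x => ?_⟩
  rw [dF_congr (h3 x), hθ]
  beta_reduce
  rw [dF_add ((h5 x).add ((h6 x).smul _)) ((h4 x).1.smul _), dF_add (h5 x) ((h6 x).smul _),
    dF_smul, dF_smul, (h4 x).2, Pi.sub_apply, h.eq _ x (hI x), h'.eq _ x (hJ x), smul_zero,
    add_zero, neg_one_smul, sub_eq_add_neg]
  rfl

end Vale.Agent.P277Z.Top.H98
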