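import Vale.Agent.P277Z.Top.Fib

/-!
# P277, block TOP: the components of the fibres
-/

set_option linter.all false
set_option maxSynthPendingDepth 3

open scoped Manifold ContDiff Topology
open Vale.Agent.P272.K Vale.Agent.P277 Set Filter Module MeasureTheory
open Vale.Agent.P277.PH (HolF SmR)
open Vale.Agent.P277Z.Tr (pb)
open Vale.Agent.P277Z.Val (Sb holF_ev holF_cont)
open Vale.Agent.P277Z.Slc (RS dZ)
open Vale.Agent.P277Z.Gd

noncomputable section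

namespace Vale.Agent.P277Z.Top

namespace Fb

theorem sub_of_closed {X : Type} [TopologicalSpace X] {s u v : Set X} (hs : IsPreconnected s)
    (hu : IsClosed u) (hv : IsClosed v) (h : s ⊆ u ∪ v) (hd : Disjoint u v) {x : X} (hx : x ∈ s)
    (hx' : x ∈ u) : s ⊆ u :=
  (isPreconnected_iff_subset_of_disjoint_closed.1 hs u v hu hv h
    (by rw [hd.inter_eq, inter_empty])).resolve_right fun k => disjoint_left.1 hd hx' (k hx)

variable {Y : CSp} {d : ℕ} {X : Mf (d + 1)} {f : X.M → Y.pt} {O : Set Y.pt} {t : Y.pt → ℂ}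
  {g : ℂ → Y.pt} {Δ : Set ℂ} {φ : Fr (d + 1) (2 * d) X.M} {s : ℂ}

theorem range_eq (hf : HolY (d + 1) Y f) {y : Y.pt} {J : Type} [Fintype J] {N : J → Mf d}
    {j : ∀ i, (N i).M → X.M} (hj : IsFib f y N j) {Z W : Set X.M} (hZ : IsPreconnected Z)
    (hc : IsClosed Z) (hW : IsOpen W) (e : Z = W ∩ f ⁻¹' {y}) {x : X.M} (hx : x ∈ Z) {i : J}
    (hi : x ∈ range (j i)) : range (j i) = Z := by
  have hr : ∀ i, IsClosed (range (j i)) := fun i => (isCompact_range (hj.emb i).cont).isClosed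
  haveI := hj.conn i
  refine (sub_of_closed (isPreconnected_range (hj.emb i).cont) hc
    (((isClosed_singleton (x := y)).preimage hf.1).sdiff hW) (fun z hz => ?_)
    (disjoint_left.2 fun z h1 h2 => h2.2 (e.le h1).1) hi hx).antisymm
    (sub_of_closed hZ (hr i) (isClosed_iUnion_of_finite fun i' : {i' // i' ≠ i} => hr i')
      (fun z hz => ?_) (disjoint_iUnion_right.2 fun i' => hj.disj _ _ i'.2.symm) hx hi)
  · have k := hj.rng.le (mem_iUnion.2 ⟨i, hz⟩)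
    by_cases h : z ∈ W
    exacts [.inl (e.ge ⟨h, k⟩), .inr ⟨k, h⟩]
  · obtain ⟨i', k⟩ := mem_iUnion.1 (hj.rng.ge (e.le hz).2)
    by_cases h : i' = i
    exacts [.inl (h ▸ k), .inr (mem_iUnion.2 ⟨⟨i', h⟩, k⟩)]

/-- the points of the curve which are not regular values on a disc -/
def Bad' (f : X.M → Y.pt) : Set Y.pt :=
  {y ∈ range f | ¬ ∃ O t g Δ, IsDisc Y (range f) O t g Δ ∧ y ∈ O ∧
    ∀ x, f x = y → Sub (d + 1) (fun x => t (f x)) x}

theorem not_bad' {x : X.M} : x ∉ f ⁻¹' Bad' f ↔ ∃ O t g Δ, IsDisc Y (range f) O t g Δ ∧ f x ∈ O ∧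
    ∀ x', f x' = f x → Sub (d + 1) (fun x => t (f x)) x' :=
  ⟨fun h => by_contra fun k => h ⟨mem_range_self x, k⟩, fun h k => k.2 h⟩

theorem countable_bad' (hC : StCrit) (hf : HolY (d + 1) Y f) (h1 : ¬ (range f).Countable)
    (h2 : (Bad f).Countable) : (Bad' f).Countable := by
  obtain ⟨C, -, hC'⟩ := exists_seq hf (by
    by_contra k
    exact h1 (h2.mono fun _ ⟨x, e⟩ => e ▸ by_contra fun k' => k ⟨x, k'⟩))
  refine (h2.union (countable_iUnion fun k => (hC _ X _ _ (disc_prp hf (C k).disc).isOpen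
    (disc_prp hf (C k).disc).hol).image (C k).g)).mono ?_
  rintro _ ⟨⟨x, rfl⟩, h⟩
  refine or_iff_not_imp_left.2 fun k => ?_
  obtain ⟨n, hn⟩ := hC' x k
  have hx : f x ∈ (C n).O := mem_of_indicator_ne_zero (hn.trans_ne one_ne_zero)
  by_contra k'
  refine h ⟨_, _, _, _, (C n).disc, hx, fun x' e => by_contra fun k'' => k' (mem_iUnion.2
    ⟨n, _, ⟨x', ⟨by rwa [mem_preimage, e], k''⟩, rfl⟩, ?_⟩)⟩
  rw [← e] at hx ⊢
  exact (disc_eq (C n).disc (mem_range_self x') hx).2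

theorem near_good (hB : StBox) (h1 : StOne) (hL : StLoc) (hf : HolY (d + 1) Y f) (hφ : Cl φ)
    {x : X.M} (hx : x ∉ f ⁻¹' Bad' f) : ∃ c, ∀ᶠ y in 𝓝 x, y ∉ f ⁻¹' Bad' f ∧
      ∀ (J : Type) [Fintype J] (N : J → Mf d) (j : ∀ i, (N i).M → X.M), IsFib f (f y) N j →
        ∀ i, y ∈ range (j i) → (N i).int (pb (Cm d) (j i) φ) = c := by
  obtain ⟨O, t, g, Δ, hD, a1, a2⟩ := not_bad'.1 hx
  have key : ∀ y, f y ∈ O → f ⁻¹' O ∩ (fun x => t (f x)) ⁻¹' {t (f y)} = f ⁻¹' {f y} := fun y hy => by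
    rw [disc_fib hD (disc_eq hD (mem_range_self y) hy).1, (disc_eq hD (mem_range_self y) hy).2]
  obtain ⟨W, Δ', b1, b2, b3, -, b5, b6⟩ := hB d X _ _ Δ (disc_prp hf hD) x a1
    (disc_eq hD (mem_range_self x) a1).1 fun x' k e => a2 x' ((key x a1).le ⟨k, e⟩)
  obtain ⟨χ, K, c1, c2, -, -, -, -, c7, c8, c9⟩ := exists_one h1 b5.isOpen' b3
  refine ⟨X.int (wd (ipb W (fun x => t (f x)) (ddc 1 (pot (t (f x)) χ))) φ), ?_⟩
  filter_upwards [b5.isOpen.mem_nhds b2,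
    (holF_cont (b5.hol x b2)).eventually (b5.isOpen'.mem_nhds b3)] with y d1 d2
  refine ⟨not_bad'.2 ⟨O, t, g, Δ, hD, b1 d1, fun x' e => (b6 _ d2).2 x'
    ((key y (b1 d1)).ge e).1 ((key y (b1 d1)).ge e).2⟩, fun J _ N j hj i hi => ?_⟩
  have e := range_eq hf hj (b6 _ d2).1 (b5.prp _ (singleton_subset_iff.2 d2) isCompact_singleton)
    b5.isOpen (by rw [← key y (b1 d1), ← inter_assoc, inter_eq_left.2 b1]) ⟨d1, rfl⟩ hi
  have := hL d X W _ Δ' b5 _ d2 (fun x' k => (b6 _ d2).2 x' (b1 k)) Unit (fun _ => N i)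
    (fun _ => j i) ⟨fun _ => hj.emb i, fun _ => hj.conn i, fun _ _ k => (k rfl).elim,
      (iUnion_const _).trans e⟩ φ hφ _ K c7 c1 c2 c8
  rw [c9] at this
  simpa using this.symm

theorem exists_disc (hC : StCrit) (hf : HolY (d + 1) Y f) (h1 : ¬ (range f).Countable)
    (h2 : (Bad f).Countable) : ∃ O t g Δ, IsDisc Y (range f) O t g Δ ∧ ∃ s ∈ Δ,
      ∀ x, f x = g s → Sub (d + 1) (fun x => t (f x)) x := by
  obtain ⟨x, hx⟩ : ∃ x, x ∉ f ⁻¹' Bad' f := by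
    by_contra! k
    exact h1 ((countable_bad' hC hf h1 h2).mono fun _ ⟨x, e⟩ => e ▸ k x)
  obtain ⟨O, t, g, Δ, hD, a1, a2⟩ := not_bad'.1 hx
  obtain ⟨b1, b2⟩ := disc_eq hD (mem_range_self x) a1
  exact ⟨O, t, g, Δ, hD, _, b1, fun x' e => a2 x' (e.trans b2)⟩

end Fb

open Fb in
theorem stEqd (hI : StIrr) (hE : Fb.StEx) (hN : StConn) (h1 : StOne) (hC : StCrit) (hB : StBox)
    (hL : StLoc) : StEqd := by
  intro Y d X f hX hf h2 φ hφ
  by_cases h3 : (range f).Subsingleton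
  · refine ⟨0, fun O t g Δ hD s hs => ?_⟩
    have k : ∀ᶠ z in 𝓝[≠] s, z ∈ Δ := nhdsWithin_le_nhds (hD.isOpen'.mem_nhds hs)
    obtain ⟨s', a1, a2⟩ := (k.and self_mem_nhdsWithin).exists
    refine (a2 ?_).elim
    rw [mem_singleton_iff, ← (hD.par s hs).2.1, ← (hD.par s' a1).2.1,
      h3 (disc_mem hD hs).1 (disc_mem hD a1).1]
  obtain ⟨a1, a2⟩ := (hI Y _ X f hX hf h2).2.2 h3
  have hc : IsClosed (f ⁻¹' Bad' f) := ⟨isOpen_iff_mem_nhds.2 fun x hx =>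
    (near_good hB h1 hL hf hφ hx).elim fun _ k => k.mono fun _ k => k.1⟩
  obtain ⟨δ, h⟩ := const_of_loc ((hN Y _ X f hX hf h3 _ (countable_bad' hC hf a1 a2)).2 hc)
    (fun x hx => (near_good hB h1 hL hf hφ hx).imp fun _ k => k.mono fun _ k => k.2)
    fun x hx c c' k k' => by
      obtain ⟨O, t, g, Δ, hD, b1, b2⟩ := not_bad'.1 hx
      obtain ⟨c1, c2⟩ := disc_eq hD (mem_range_self x) b1
      obtain ⟨J, _, N, j, hj⟩ := exists_fib hE hf hD c1 fun x' e => b2 x' (e.trans c2)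
      rw [c2] at hj
      obtain ⟨i, hi⟩ := mem_iUnion.1 (hj.rng.ge (rfl : f x = f x))
      exact (k J N j hj i hi).symm.trans (k' J N j hj i hi)
  refine ⟨δ, fun O t g Δ hD s hs hr J _ N j hj i => ?_⟩
  obtain ⟨p⟩ := (hj.conn i).toNonempty
  have e : f (j i p) = g s := hj.rng.le (mem_iUnion.2 ⟨i, mem_range_self p⟩)
  exact h (j i p) (not_bad'.2 ⟨O, t, g, Δ, hD, e ▸ (disc_mem hD hs).2, fun x k => hr x (k.trans e)⟩)
    J N j (e ▸ hj) i (mem_range_self p)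

open Fb in
theorem stRat (hI : StIrr) (hF : StForm) (hb : StFib) (hT : StInt) (hL : StLam) (hC : StCrit) :
    StRat := by
  intro Y B X f hX hf h2
  by_cases h3 : (range f).Subsingleton
  · refine ⟨0, fun x _ => ⟨0, ?_⟩⟩
    rw [(hF Y B 2 X f hf).2.2.2.2.2.1 h3, B2, wd_zero_right, mul_zero]
    exact int_zero X
  obtain ⟨a1, a2⟩ := (hI Y _ X f hX hf h2).2.2 h3
  obtain ⟨κ, -, h⟩ := hb Y B 1 X f hX hf h2 h3
  obtain ⟨O, t, g, Δ, hD, s, hs, hr⟩ := exists_disc (d := 1) hC hf a1 a2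
  obtain ⟨⟨J, _, N, j, hj⟩, k⟩ := h O t g Δ hD s hs hr
  refine ⟨κ, fun x hx => ?_⟩
  obtain ⟨L, ψ, hv⟩ := ((hL 2 X).2.2.1 x).1 hx
  have e : ∀ i, ∃ n : ℤ, (N i).int (pb (Cm 1) (j i) x.1) = n := fun i =>
    haveI := hj.conn i
    ⟨_, hT ⟨(N i).M⟩ _ _ _ ((hL 2 X).2.2.2.2 1 (N i) (j i) L ψ _ (sb_holM (hj.emb i)) hv)⟩
  choose n hn using e
  refine ⟨((∑ i, n i : ℤ) : ℚ), ?_⟩
  rw [B2_comm, B2, k J N j hj x.1 (c_cl x), Finset.sum_congr rfl fun i _ => hn i, mul_comm]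
  push_cast
  rfl

end Vale.Agent.P277Z.Top
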