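import Vale.Agent.P277Z.Top.FbLoc

/-!
# P277, block TOP: integration over the fibres
-/

set_option linter.all false
set_option maxSynthPendingDepth 3

open scoped Manifold ContDiff Topology
open Vale.Agent.P272.K Vale.Agent.P277 Set Filter Module MeasureTheory
open Vale.Agent.P267.H175 (SmAt dF)
open Vale.Agent.P277.PH (HolF SmR)
open Vale.Agent.P277Z.Tr (pb)
open Vale.Agent.P277Z.Val (Sb holF_ev holF_cont)
open Vale.Agent.P277Z.Slc (LEq)
open Vale.Agent.P277Z.Gd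

noncomputable section

namespace Vale.Agent.P277Z.Top.Fb

theorem const_of_loc {X : Type} [TopologicalSpace X] {S : Set X} (hS : IsPreconnected S)
    {P : X → ℝ → Prop} (h1 : ∀ x ∈ S, ∃ c, ∀ᶠ y in 𝓝 x, P y c)
    (h2 : ∀ x ∈ S, ∀ c c', P x c → P x c' → c = c') : ∃ c, ∀ x ∈ S, P x c := by
  choose! c hc using h1
  rcases S.eq_empty_or_nonempty with rfl | ⟨x₀, h0⟩
  · exact ⟨0, fun _ h => h.elim⟩
  refine ⟨c x₀, fun x hx => ?_⟩
  rw [hS.induction₂' (fun x y => c x = c y) (fun x hx => ?_) (fun _ _ _ _ _ _ => Eq.trans)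
    h0 hx]
  · exact (hc x hx).self_of_nhds
  · filter_upwards [nhdsWithin_le_nhds (hc x hx), self_mem_nhdsWithin] with y k hy
    have := h2 y hy _ _ k (hc y hy).self_of_nhds
    exact ⟨this, this.symm⟩

theorem exists_kappa {m : ℕ → ℝ} {a : ℝ} (ha : 0 < a) (h : ∀ᶠ n in atTop, a ≤ m n) :
    ∃ κ, 0 < κ ∧ ∀ c L, Tendsto (fun n => m n * c) atTop (𝓝 L) → L = κ * c := by
  by_cases k : ∃ κ, Tendsto m atTop (𝓝 κ)
  · obtain ⟨κ, k⟩ := k
    exact ⟨κ, ha.trans_le (ge_of_tendsto k h), fun c L e => tendsto_nhds_unique e (k.mul_const c)⟩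
  · refine ⟨1, one_pos, fun c L e => ?_⟩
    obtain rfl : c = 0 := by_contra fun c0 => k ⟨_, by simpa [c0] using e.mul_const c⁻¹⟩
    simpa using (tendsto_nhds_unique e (by simpa using tendsto_const_nhds))

section disc

variable {Y : CSp} {d : ℕ} {X : Mf d} {f : X.M → Y.pt} {O O' : Set Y.pt} {t t' : Y.pt → ℂ}
  {g g' : ℂ → Y.pt} {Δ Δ' K : Set ℂ} {σ : Set Y.pt}

theorem disc_eq (hD : IsDisc Y σ O t g Δ) {y : Y.pt} (h : y ∈ σ) (hy : y ∈ O) :
    t y ∈ Δ ∧ g (t y) = y := by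
  obtain ⟨s, hs, rfl⟩ := hD.img.le ⟨h, hy⟩
  rw [(hD.par s hs).2.1]
  exact ⟨hs, rfl⟩

theorem disc_mem (hD : IsDisc Y σ O t g Δ) {s : ℂ} (hs : s ∈ Δ) : g s ∈ σ ∩ O :=
  hD.img.ge ⟨s, hs, rfl⟩

theorem disc_pre (hD : IsDisc Y (range f) O t g Δ) (hK : K ⊆ Δ) :
    f ⁻¹' O ∩ (fun x => t (f x)) ⁻¹' K = f ⁻¹' (g '' K) := by
  ext x
  refine ⟨fun h => ⟨_, h.2, (disc_eq hD (mem_range_self x) h.1).2⟩, fun ⟨s, hs, e⟩ => ?_⟩
  exact ⟨by rw [mem_preimage, ← e]; exact (disc_mem hD (hK hs)).2,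
    by rwa [mem_preimage, ← e, (hD.par s (hK hs)).2.1]⟩

theorem disc_fib (hD : IsDisc Y (range f) O t g Δ) {s : ℂ} (hs : s ∈ Δ) :
    f ⁻¹' O ∩ (fun x => t (f x)) ⁻¹' {s} = f ⁻¹' {g s} := by
  rw [disc_pre hD (singleton_subset_iff.2 hs), image_singleton]

theorem disc_cpt (hD : IsDisc Y σ O t g Δ) (hK : K ⊆ Δ) (h : IsCompact K) : IsClosed (g '' K) :=
  (h.image_of_continuousOn fun s hs => (hD.par s (hK hs)).1.continuousWithinAt).isClosed

theorem disc_prp (hf : HolY d Y f) (hD : IsDisc Y (range f) O t g Δ) :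
    Prp X (f ⁻¹' O) (fun x => t (f x)) Δ :=
  ⟨hD.isOpen.preimage hf.1, hD.isOpen', hD.conv, fun x hx => hf.2 x t (hD.hol _ hx),
    fun K hK h => disc_pre hD hK ▸ (disc_cpt hD hK h).preimage hf.1⟩

theorem exists_reg (hC : StCrit) {W : Set X.M} {T : X.M → ℂ} (h : Prp X W T Δ) {U : Set ℂ}
    (hU : IsOpen U) (ne : U.Nonempty) : ∃ s ∈ U, ∀ x ∈ W, T x = s → Sub d T x := by
  by_contra! k
  refine (hU.measure_pos volume ne).ne' (measure_mono_null (fun s hs => ?_)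
    ((hC d X W T h.isOpen h.hol).measure_zero volume))
  obtain ⟨x, h1, h2, h3⟩ := k s hs
  exact ⟨x, ⟨h1, h3⟩, h2⟩

theorem sub_chg (hf : HolY d Y f) (hD : IsDisc Y (range f) O t g Δ)
    (hD' : IsDisc Y (range f) O' t' g' Δ') {x : X.M} (hx : f x ∈ O) (hx' : f x ∈ O')
    (h : Sub d (fun x => t (f x)) x) : Sub d (fun x => t' (f x)) x := fun e he k => by
  obtain ⟨a1, a2⟩ := disc_eq hD' (mem_range_self x) hx'
  have b1 : AnalyticAt ℂ (fun s => t (g' s)) (t' (f (e.symm (e x)))) := by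
    rw [he.left_inv]; exact (hD'.par _ a1).2.2 t (a2.symm ▸ hD.hol _ hx)
  have b2 := fderiv_comp (f := fun z => t' (f (e.symm z))) (e x) b1.differentiableAt
    (hf.2 x t' (hD'.hol _ hx') e he).differentiableAt
  rw [k, ContinuousLinearMap.comp_zero] at b2
  refine h e he (Eq.trans (EventuallyEq.fderiv_eq ?_) b2)
  filter_upwards [Tr.ev_symm he.2 ((hD'.isOpen.preimage hf.1).mem_nhds hx')] with z hz
  exact congrArg t (disc_eq hD' (mem_range_self _) hz).2.symm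

end disc

variable {Y : CSp} {d : ℕ} {X : Mf (d + 1)} {f : X.M → Y.pt} {O O' : Set Y.pt} {t t' : Y.pt → ℂ}
  {g g' : ℂ → Y.pt} {Δ Δ' K : Set ℂ} {φ : Fr (d + 1) (2 * d) X.M} {s : ℂ} {c c' : ℝ}

theorem exists_fib (hE : StEx) (hf : HolY (d + 1) Y f) (hD : IsDisc Y (range f) O t g Δ)
    (hs : s ∈ Δ) (h : ∀ x, f x = g s → Sub (d + 1) (fun x => t (f x)) x) :
    ∃ (J : Type) (_ : Fintype J) (N : J → Mf d) (j : ∀ i, (N i).M → X.M), IsFib f (g s) N j := by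
  obtain ⟨J, _, N, j, k⟩ := hE d X (f ⁻¹' {g s}) (isClosed_singleton.preimage hf.1) fun x hx => by
    have hx' := (disc_fib hD hs).ge hx
    refine ⟨_, leq_sub (s := s) ((disc_prp hf hD).hol x hx'.1) (h x hx) ?_⟩
    filter_upwards [(disc_prp hf hD).isOpen.mem_nhds hx'.1] with y hy
    rw [← disc_fib hD hs]
    exact and_iff_right hy
  exact ⟨J, inferInstance, N, j, k.1, k.2, k.3, k.4⟩

/-- the integrals of the pull backs are proportional to the mass -/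
def Fm (φ : Fr (d + 1) (2 * d) X.M) (W : Set X.M) (T : X.M → ℂ) (Δ : Set ℂ) (c : ℝ) : Prop :=
  ∀ (η : Fr 1 2 (Cm 1)) (K : Set ℂ), ContDiff ℝ ∞ η → IsCompact K → K ⊆ Δ →
    (∀ z, z 0 ∉ K → η z = 0) → X.int (wd (ipb W T η) φ) = (∫ z, η z (tb 1)) * c

theorem Fm.unique {W : Set X.M} {T : X.M → ℂ} (h1 : StOne) (hΔ : IsOpen Δ) (hs : s ∈ Δ)
    (h : Fm φ W T Δ c) (h' : Fm φ W T Δ c') : c = c' := by
  obtain ⟨χ, K, a1, a2, -, -, -, -, a7, a8, a9⟩ := exists_one h1 hΔ hs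
  have := (h _ K a7 a1 a2 a8).symm.trans (h' _ K a7 a1 a2 a8)
  rw [a9] at this
  linarith

theorem fm_of (hL : StLoc) (hf : HolY (d + 1) Y f) (hD : IsDisc Y (range f) O t g Δ) (hs : s ∈ Δ)
    (h : ∀ x, f x = g s → Sub (d + 1) (fun x => t (f x)) x) {J : Type} [Fintype J] {N : J → Mf d}
    {j : ∀ i, (N i).M → X.M} (hj : IsFib f (g s) N j) (hφ : Cl φ) :
    Fm φ (f ⁻¹' O) (fun x => t (f x)) Δ (∑ i, (N i).int (pb (Cm d) (j i) φ)) :=
  hL d X _ _ Δ (disc_prp hf hD) s hs (fun x hx e => h x ((disc_fib hD hs).le ⟨hx, e⟩)) J N j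
    ⟨hj.1, hj.2, hj.3, hj.4.trans (disc_fib hD hs).symm⟩ φ hφ

/-- the points of the curve which are not on a disc -/
def Bad (f : X.M → Y.pt) : Set Y.pt :=
  {y ∈ range f | ¬ ∃ O t g Δ, IsDisc Y (range f) O t g Δ ∧ y ∈ O}

theorem not_bad {x : X.M} : x ∉ f ⁻¹' Bad f ↔ ∃ O t g Δ, IsDisc Y (range f) O t g Δ ∧ f x ∈ O :=
  ⟨fun h => by_contra fun k => h ⟨mem_range_self x, k⟩, fun h k => k.2 h⟩

theorem closed_bad (hf : HolY (d + 1) Y f) : IsClosed (f ⁻¹' Bad f) :=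
  ⟨isOpen_iff_mem_nhds.2 fun x hx =>
    let ⟨O, t, g, Δ, hD, k⟩ := not_bad.1 hx
    mem_of_superset ((hD.isOpen.preimage hf.1).mem_nhds k) fun _ k' => not_bad.2 ⟨O, t, g, Δ, hD, k'⟩⟩

theorem glob (hE : StEx) (hC : StCrit) (h1 : StOne) (hL : StLoc) (hf : HolY (d + 1) Y f)
    (hc : IsPreconnected (f ⁻¹' Bad f)ᶜ) (hφ : Cl φ) : ∃ c, ∀ x ∈ (f ⁻¹' Bad f)ᶜ, ∀ O t g Δ,
      IsDisc Y (range f) O t g Δ → f x ∈ O → Fm φ (f ⁻¹' O) (fun x => t (f x)) Δ c := by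
  have key : ∀ O t g Δ O' t' g' Δ', IsDisc Y (range f) O t g Δ → IsDisc Y (range f) O' t' g' Δ' →
      ∀ x, f x ∈ O → f x ∈ O' → ∃ c, Fm φ (f ⁻¹' O) (fun x => t (f x)) Δ c ∧
        Fm φ (f ⁻¹' O') (fun x => t' (f x)) Δ' c := fun O t g Δ O' t' g' Δ' hD hD' x hx hx' => by
    obtain ⟨a1, a2⟩ := disc_eq hD (mem_range_self x) hx
    obtain ⟨s, ⟨b1, b2⟩, b3⟩ := exists_reg hC (disc_prp hf hD) (ContinuousOn.isOpen_inter_preimage
      (fun s hs => (hD.par s hs).1.continuousWithinAt) hD.isOpen' hD'.isOpen)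
      ⟨_, a1, by rwa [mem_preimage, a2]⟩
    have b4 : ∀ x, f x = g s → Sub (d + 1) (fun x => t (f x)) x := fun x e =>
      b3 x ((disc_fib hD b1).ge e).1 ((disc_fib hD b1).ge e).2
    obtain ⟨J, _, N, j, hj⟩ := exists_fib hE hf hD b1 b4
    obtain ⟨c1, c2⟩ := disc_eq hD' (disc_mem hD b1).1 b2
    exact ⟨_, fm_of hL hf hD b1 b4 hj hφ, fm_of hL hf hD' c1 (fun x e =>
      sub_chg hf hD hD' ((disc_fib hD b1).ge (e.trans c2)).1 ((disc_fib hD' c1).ge e).1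
        (b4 x (e.trans c2))) (c2.symm ▸ hj) hφ⟩
  refine const_of_loc hc (fun x hx => ?_) fun x hx c c' k k' => ?_
  · obtain ⟨O, t, g, Δ, hD, k⟩ := not_bad.1 hx
    obtain ⟨c, hc, -⟩ := key O t g Δ O t g Δ hD hD x k k
    refine ⟨c, mem_of_superset ((hD.isOpen.preimage hf.1).mem_nhds k)
      fun y hy O' t' g' Δ' hD' hy' => ?_⟩
    obtain ⟨c', a1, a2⟩ := key O t g Δ O' t' g' Δ' hD hD' y hy hy'
    exact hc.unique h1 hD.isOpen' (disc_eq hD (mem_range_self x) k).1 a1 ▸ a2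
  · obtain ⟨O, t, g, Δ, hD, hy⟩ := not_bad.1 hx
    exact (k O t g Δ hD hy).unique h1 hD.isOpen' (disc_eq hD (mem_range_self x) hy).1
      (k' O t g Δ hD hy)

/-- a disc with a cut off function -/
structure Cut (f : X.M → Y.pt) where
  /-- the open set -/
  O : Set Y.pt
  /-- the coordinate -/
  t : Y.pt → ℂ
  /-- the parametrisation -/
  g : ℂ → Y.pt
  /-- the disc -/
  Δ : Set ℂ
  /-- the support -/
  K : Set ℂ
  /-- the function -/
  b : ℂ → ℝ
  disc : IsDisc Y (range f) O t g Δ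
  cpt : IsCompact K
  sub : K ⊆ Δ
  sm : ContDiff ℝ ∞ b
  nn : ∀ z, 0 ≤ b z
  le : ∀ z, b z ≤ 1
  zero : ∀ z ∉ K, b z = 0

/-- the cut off function on the base -/
def Cut.R (C : Cut f) : Y.pt → ℝ := C.O.indicator fun y => C.b (C.t y)

theorem Cut.R_nn (C : Cut f) (y : Y.pt) : 0 ≤ C.R y := indicator_nonneg (fun _ _ => C.nn _) y

theorem Cut.R_le (C : Cut f) (y : Y.pt) : C.R y ≤ 1 :=
  indicator_apply_le' (fun _ => C.le _) fun _ => zero_le_one

theorem Cut.smR (C : Cut f) (hf : HolY (d + 1) Y f) (x : X.M) :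
    SmR (d + 1) (fun x => C.R (f x)) x := by
  have h := disc_prp hf C.disc
  by_cases hx : f x ∈ C.O
  · exact smR_congr (smR_cx (h.hol x hx) C.sm.contDiffAt) (h.ind_in _ hx)
  · exact smR_congr (smR_const 0)
      (h.ind_out (a := fun x => C.b (C.t (f x))) C.cpt C.sub (fun y => C.zero _) fun k => hx k.1)

theorem Cut.sm_g (C : Cut f) (hD : IsDisc Y (range f) O t g Δ) (hs : s ∈ Δ) :
    ContDiffAt ℝ ∞ (fun s => C.R (g s)) s := by
  have hg := (hD.par s hs).1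
  by_cases h : g s ∈ C.O
  · refine (C.sm.contDiffAt.comp s ((((hD.par s hs).2.2 _ (C.disc.hol _ h)).contDiffAt.restrict_scalars
      ℝ).of_le le_top)).congr_of_eventuallyEq ?_
    exact (hg.eventually (C.disc.isOpen.mem_nhds h)).mono fun _ k => indicator_of_mem k _
  · refine (contDiffAt_const (c := (0 : ℝ))).congr_of_eventuallyEq ?_
    filter_upwards [hD.isOpen'.mem_nhds hs, hg.eventually
      ((disc_cpt C.disc C.sub C.cpt).isOpen_compl.mem_nhds fun ⟨s', k, e⟩ =>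
        h (e ▸ (disc_mem C.disc (C.sub k)).2))] with s' a1 a2
    exact indicator_apply_eq_zero.2 fun k => C.zero _ fun k' =>
      a2 ⟨_, k', (disc_eq C.disc (disc_mem hD a1).1 k).2⟩

theorem exists_cut (hf : HolY (d + 1) Y f) {x : X.M} (hx : x ∉ f ⁻¹' Bad f) :
    ∃ C : Cut f, ∀ᶠ y in 𝓝 x, C.R (f y) = 1 := by
  obtain ⟨O, t, g, Δ, hD, k⟩ := not_bad.1 hx
  obtain ⟨r, hr, k'⟩ := Metric.nhds_basis_closedBall.mem_iff.1
    (hD.isOpen'.mem_nhds (disc_eq hD (mem_range_self x) k).1)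
  let b : ContDiffBump (t (f x)) := ⟨r / 2, r, half_pos hr, half_lt_self hr⟩
  refine ⟨⟨O, t, g, Δ, _, b, hD, isCompact_closedBall _ r, k', b.contDiff, fun _ => b.nonneg,
    fun _ => b.le_one, fun z hz => b.zero_of_le_dist (le_of_lt (not_le.1 hz))⟩, ?_⟩
  filter_upwards [(hD.isOpen.preimage hf.1).mem_nhds k,
    (holF_cont ((disc_prp hf hD).hol x k)).eventually b.eventuallyEq_one] with y a1 a2
  exact (indicator_of_mem (s := O) a1 _).trans a2

theorem exists_seq (hf : HolY (d + 1) Y f) (ne : (f ⁻¹' Bad f)ᶜ.Nonempty) :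
    ∃ C : ℕ → Cut f, (∃ x, (C 0).R (f x) = 1) ∧ ∀ x ∉ f ⁻¹' Bad f, ∃ k, (C k).R (f x) = 1 := by
  haveI := ChartedSpace.secondCountable_of_sigmaCompact (Cm (d + 1)) X.M
  haveI := ne.to_subtype
  choose C hC using fun x : ((f ⁻¹' Bad f)ᶜ : Set X.M) => exists_cut hf x.2
  obtain ⟨S, h1, h2⟩ := TopologicalSpace.countable_cover_nhds
    fun x => continuousAt_subtype_val.eventually (hC x)
  obtain ⟨e, rfl⟩ := h1.exists_eq_range (by
    obtain ⟨x, hx, -⟩ := mem_iUnion₂.1 (h2.ge (mem_univ (Classical.arbitrary _)))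
    exact ⟨x, hx⟩)
  refine ⟨fun k => C (e k), ⟨_, (hC (e 0)).self_of_nhds⟩, fun x hx => ?_⟩
  obtain ⟨_, ⟨k, rfl⟩, k'⟩ := mem_iUnion₂.1 (h2.ge (mem_univ ⟨x, hx⟩))
  exact ⟨k, k'⟩

theorem masses (hI : StIrr) (hN : StConn) (hM : StLim) (hO : StOm) (hF : StForm) (B : Bas Y)
    (hX : ConnectedSpace X.M) (hf : HolY (d + 1) Y f) (h1 : DimLe Y 1 (range f))
    (h2 : ¬ (range f).Subsingleton) : ∃ κ : ℝ, 0 < κ ∧ ∀ (φ : Fr (d + 1) (2 * d) X.M) (c : ℝ),
      Sm φ → (∀ x ∈ (f ⁻¹' Bad f)ᶜ, ∀ O t g Δ, IsDisc Y (range f) O t g Δ → f x ∈ O →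
        Fm φ (f ⁻¹' O) (fun x => t (f x)) Δ c) → X.int (wd (B.form (d + 1) f) φ) = κ * c := by
  obtain ⟨a1, a2⟩ := (hI Y _ X f hX hf h1).2.2 h2
  obtain ⟨C, ⟨x₀, h0⟩, hC⟩ := exists_seq hf (by
    by_contra k
    exact a1 (a2.mono fun _ ⟨x, e⟩ => e ▸ by_contra fun k' => k ⟨x, k'⟩))
  let P : ℕ → Y.pt → ℝ := fun n y => ∏ k ∈ Finset.range n, (1 - (C k).R y)
  have P0 : ∀ n y, 0 ≤ P n y := fun n y => Finset.prod_nonneg fun k _ => sub_nonneg.2 ((C k).R_le y)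
  have P1 : ∀ n y, P n y ≤ 1 := fun n y => Finset.prod_le_one
    (fun k _ => sub_nonneg.2 ((C k).R_le y)) fun k _ => sub_le_self _ ((C k).R_nn y)
  have Ps : ∀ n x, SmR (d + 1) (fun x => P n (f x)) x := fun n x e he =>
    contDiffAt_prod fun k _ => smR_sub (smR_const 1) ((C k).smR hf x) e he
  let η : ℕ → Fr 1 2 (Cm 1) := fun n z =>
    ((C n).b (z 0) * P n ((C n).g (z 0))) • B.form 1 (fun z : Cm 1 => (C n).g (z 0)) z
  have η0 : ∀ n z, z 0 ∉ (C n).K → η n z = 0 := fun n z hz => by simp [η, (C n).zero _ hz]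
  have om := fun n => hO Y B _ _ _ _ _ (C n).disc
  have ηs : ∀ n, ContDiff ℝ ∞ (η n) := fun n => contDiff_iff_contDiffAt.2 fun z => by
    by_cases hz : z 0 ∈ (C n).Δ
    · exact (ContDiffAt.comp (g := fun s => (C n).b s * P n ((C n).g s)) z
        ((C n).sm.contDiffAt.mul (contDiffAt_prod fun k _ =>
          contDiffAt_const.sub ((C k).sm_g (C n).disc hz))) (contDiffAt_apply ℝ ℂ 0 z)).smul
        ((om n).1 z hz).1
    · exact (contDiffAt_const (c := 0)).congr_of_eventuallyEq (mem_of_superset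
        ((cpt_v (C n).cpt).isClosed.isOpen_compl.mem_nhds fun k => hz ((C n).sub k)) (η0 n))
  have ηn : ∀ n z, 0 ≤ η n z (tb 1) := fun n z => by
    by_cases hz : z 0 ∈ (C n).K
    · exact mul_nonneg (mul_nonneg ((C n).nn _) (P0 _ _)) ((om n).1 z ((C n).sub hz)).2.le
    · simp [η0 n z hz]
  have pos : 0 < ∫ z, η 0 z (tb 1) := by
    have k : f x₀ ∈ (C 0).O := mem_of_indicator_ne_zero (h0.trans_ne one_ne_zero)
    refine Continuous.integral_pos_of_hasCompactSupport_nonneg_nonzero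
      ((continuous_eval_const _).comp (ηs 0).continuous)
      (HasCompactSupport.intro (cpt_v (C 0).cpt) fun z hz => by simp [η0 0 z hz]) (ηn 0)
      (x := fun _ => (C 0).t (f x₀)) (mul_ne_zero (mul_ne_zero ?_ one_ne_zero)
        ((om 0).1 _ (disc_eq (C 0).disc (mem_range_self _) k).1).2.ne')
    exact ((indicator_of_mem k _).symm.trans h0).trans_ne one_ne_zero
  obtain ⟨κ, k1, k2⟩ := exists_kappa (m := fun n => ∑ k ∈ Finset.range n, ∫ z, η k z (tb 1)) pos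
    ((eventually_gt_atTop 0).mono fun n hn => Finset.single_le_sum
      (f := fun k => ∫ z, η k z (tb 1)) (fun k _ => integral_nonneg (ηn k)) (Finset.mem_range.2 hn))
  refine ⟨κ, k1, fun φ c hφ h => k2 c _ ?_⟩
  have sa := sm_wd (hF Y B _ X f hf).1 hφ
  have sr : ∀ r : X.M → ℝ, (∀ x, SmR (d + 1) r x) →
      Sm fun x => r x • wd (B.form (d + 1) f) φ x := fun r hr x => (smR_chart (hr x)).smul (sa x)
  have piece : ∀ n, X.int (fun x => ((C n).R (f x) * P n (f x)) • wd (B.form (d + 1) f) φ x) =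
      (∫ z, η n z (tb 1)) * c := fun n => by
    have e : (fun x => ((C n).R (f x) * P n (f x)) • wd (B.form (d + 1) f) φ x) =
        wd (ipb (f ⁻¹' (C n).O) (fun x => (C n).t (f x)) (η n)) φ := by
      funext x
      rw [wd, wd, ← H619.wdg_smul_left]
      congr 1
      by_cases hx : f x ∈ (C n).O
      · rw [ipb, indicator_of_mem (s := f ⁻¹' (C n).O) hx, Tr.pb_fsmul, Cut.R, indicator_of_mem hx,
          (om n).2 _ X f hf subset_rfl x hx]
        simp only [(disc_eq (C n).disc (mem_range_self x) hx).2]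
      · rw [ipb, indicator_of_notMem (s := f ⁻¹' (C n).O) hx, Cut.R, indicator_of_notMem hx,
          zero_mul, zero_smul]
    by_cases k : ∃ x, f x ∈ (C n).O
    · obtain ⟨x, hx⟩ := k
      rw [e]
      exact h x (not_bad.2 ⟨_, _, _, _, (C n).disc, hx⟩) _ _ _ _ (C n).disc hx _ _ (ηs n) (C n).cpt
        (C n).sub (η0 n)
    · have k1 : ∀ z, η n z = 0 := fun z => η0 n z fun hz =>
        let ⟨⟨x, e⟩, k'⟩ := disc_mem (C n).disc ((C n).sub hz)
        k ⟨x, e ▸ k'⟩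
      have k2 : ∀ x, (C n).R (f x) = 0 := fun x => indicator_of_notMem (fun k' => k ⟨x, k'⟩) _
      simp only [k1, k2, zero_mul, zero_smul, ContinuousAlternatingMap.coe_zero, Pi.zero_apply,
        integral_zero]
      exact int_zero X
  refine (hM _ X _ (fun n x => 1 - P n (f x)) _ sa (fun n x => smR_sub (smR_const 1) (Ps n x))
    (fun n x => abs_le.2 ⟨by linarith [P1 n (f x)], by linarith [P0 n (f x)]⟩)
    (hN Y _ X f hX hf h2 _ a2).1 fun x hx => ?_).congr fun n => ?_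
  · obtain ⟨k, hk⟩ := hC x hx
    refine tendsto_atTop_of_eventually_const (i₀ := k + 1) fun n hn => ?_
    rw [sub_eq_self]
    exact Finset.prod_eq_zero (Finset.mem_range.2 hn) (by rw [hk, sub_self])
  · induction n with
    | zero =>
      simp only [P, Finset.prod_range_zero, sub_self, zero_smul, Finset.sum_range_zero, zero_mul]
      exact int_zero X
    | succ n ih =>
      rw [Finset.sum_range_succ, add_mul, ← ih, ← piece, ← int_add X
        (sr _ fun x => smR_sub (smR_const 1) (Ps n x))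
        (sr _ fun x => smR_mul ((C n).smR hf x) (Ps n x))]
      congr 1
      funext x
      rw [Pi.add_apply, ← add_smul]
      congr 1
      simp only [P, Finset.prod_range_succ]
      ring

end Fb

open Fb in
theorem stFib (hI : StIrr) (hF : StForm) (hE : Fb.StEx) (hN : StConn) (hM : StLim) (h1 : StOne)
    (hO : StOm) (hC : StCrit) (hL : StLoc) : StFib := by
  intro Y B d X f hX hf h2 h3
  obtain ⟨κ, k1, k2⟩ := masses hI hN hM hO hF B hX hf h2 h3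
  refine ⟨κ, k1, fun O t g Δ hD s hs h => ⟨exists_fib hE hf hD hs h, fun J _ N j hj φ hφ => ?_⟩⟩
  obtain ⟨c, hc⟩ := glob hE hC h1 hL hf
    ((hN Y _ X f hX hf h3 _ ((hI Y _ X f hX hf h2).2.2 h3).2).2 (closed_bad hf)) hφ
  obtain ⟨⟨x, e⟩, hx⟩ := disc_mem hD hs
  rw [k2 φ c (cl_sm hφ) hc, (hc x (not_bad.2 ⟨O, t, g, Δ, hD, e ▸ hx⟩) O t g Δ hD (e ▸ hx)).unique
    h1 hD.isOpen' hs (fm_of hL hf hD hs h hj hφ)]

end Vale.Agent.P277Z.Top
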