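import Vale.Agent.P277Z.Top.Api

/-!
# P277, block TOP, row GYS: closed forms on a component extend to a neighbourhood
-/

set_option linter.all false
set_option maxSynthPendingDepth 3

open scoped Manifold ContDiff Topology
open Vale.Agent.P272.K Set Filter Metric
open Vale.Agent.P267.H175 (SmAt dF dF_congr smAt_zero smAt_fsmul)
open Vale.Agent.P277Z.Tr (pb SmM smAt_pb dF_pb pb_comp pb_eq_zero ev_symm)
open Vale.Agent.P277Z.Val (Sb Lg Crd AnM remL)
open Vale.Agent.P277Z.Gd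

noncomputable section

namespace Vale.Agent.P277Z.Top.Gy

section gen

variable {E' : Type*} [NormedAddCommGroup E'] [NormedSpace ℝ E']
variable {E : Type*} [NormedAddCommGroup E] [NormedSpace ℝ E]
variable {X : Type*} [TopologicalSpace X] [ChartedSpace E' X]
variable {Y : Type*} [TopologicalSpace Y] [ChartedSpace E Y] {F G : X → Y} {x : X}

theorem smM_congr (h : SmM E' E F x) (e : G =ᶠ[𝓝 x] F) : SmM E' E G x := by
  refine ⟨h.1.congr e.symm, ?_⟩
  rw [e.eq_of_nhds]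
  exact h.2.congr_of_eventuallyEq
    ((ev_symm (mem_chart_source E' x) e).mono fun z hz => congrArg _ hz)

theorem smM_id : SmM E' E' (fun x : X => x) x :=
  ⟨continuousAt_id, contDiffAt_id.congr_of_eventuallyEq
    ((chartAt E' x).eventually_right_inverse' (mem_chart_source E' x))⟩

theorem pb_id {k : ℕ} (a : X → E' [⋀^Fin k]→L[ℝ] ℝ) : pb E' (fun x : X => x) a = a := by
  funext x
  have h : (fun y => chartAt E' x ((chartAt E' x).symm y)) =ᶠ[𝓝 (chartAt E' x x)] id :=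
    (chartAt E' x).eventually_right_inverse' (mem_chart_source E' x)
  rw [pb, h.fderiv_eq, fderiv_id]
  rfl

end gen

theorem smM_mid {n n' : ℕ} {M M' : Type} [TopologicalSpace M] [ChartedSpace (Cm n) M]
    [IsManifold 𝓘(ℂ, Cm n) ω M] [TopologicalSpace M'] [ChartedSpace (Cm n') M'] {c : M → Cm n}
    {ξ : Cm n → M} {x : M} (h : Crd c ξ x) {k : Cm n → Cm n'} (hk : ContDiffAt ℝ ∞ k (c x))
    {γ : Cm n' → M'} (hγ : AnM n' γ (k (c x))) :
    SmM (Cm n) (Cm n') (fun y => γ (k (c y))) x := by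
  refine ⟨ContinuousAt.comp (f := fun y => k (c y)) hγ.1 (hk.continuousAt.comp h.cont), ?_⟩
  have h1 := ((h.isCo _ (at_ch x)).1.contDiffAt.restrict_scalars ℝ).of_le (m := ∞) le_top
  have h2 := ((hγ.2 _ (at_ch _)).contDiffAt.restrict_scalars ℝ).of_le (m := ∞) le_top
  have h3 := (at_ch (d := n) x).left_inv
  exact ContDiffAt.comp (g := fun w => chartAt (Cm n') (γ (k (c x))) (γ w)) _ (by rwa [h3])
    (ContDiffAt.comp (g := k) _ (by rwa [h3]) h1)

variable {V : Lg}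

theorem loc_ret {m : Fin V.r} {x : V.W} (hx : x ∈ V.G m) : ∃ (O : Set V.W) (r : V.W → V.W),
    IsOpen O ∧ x ∈ O ∧ (∀ y, SmM (Cm 4) (Cm 4) r y) ∧ (∀ y ∈ V.G m, r y = y) ∧
      ∀ y ∈ O, r y ∈ V.G m := by
  classical
  obtain ⟨Φ, ρ, lab, h, hl, -⟩ := V.snc.nch1 hx 0 (p := fun _ => True) (by simp)
  have hρ := h.pos
  let β : ContDiffBump (0 : Cm 4) := ⟨ρ / 4, ρ / 2, by positivity, by linarith⟩
  let k : Cm 4 → Cm 4 := fun w => w - β w • (Pi.single 0 (w 0) : Cm 4)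
  have k1 : ContDiff ℝ ∞ k := contDiff_id.sub (β.contDiff.smul
    ((ContinuousLinearMap.single ℝ (fun _ : Fin 4 => ℂ) 0).contDiff.comp
      (contDiff_apply ℝ ℂ (0 : Fin 4))))
  have k2 : ∀ w, k w 0 = (1 - β w : ℝ) * w 0 := fun w => by simp [k]; ring
  have k3 : ∀ w ∈ ball (0 : Cm 4) ρ, k w ∈ ball (0 : Cm 4) ρ := fun w hw => by
    rw [mem_ball_zero_iff, pi_norm_lt_iff hρ] at hw ⊢
    intro i
    by_cases hi : i = 0
    · rw [hi, k2, norm_mul, Complex.norm_real, Real.norm_of_nonneg (sub_nonneg.2 β.le_one)]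
      exact (mul_le_of_le_one_left (norm_nonneg _) (sub_le_self _ β.nonneg)).trans_lt (hw 0)
    · simpa [k, hi] using hw i
  have k4 : ∀ y ∈ Φ.source, k (Φ y) ∈ ball (0 : Cm 4) ρ := fun y hy =>
    k3 _ (h.tgt ▸ Φ.map_source hy)
  let r : V.W → V.W := fun y => if y ∈ Φ.source then Φ.symm (k (Φ y)) else y
  have r1 : ∀ y, (y ∈ Φ.source → k (Φ y) = Φ y) → r y = y := fun y hy => by
    by_cases e : y ∈ Φ.source
    · simp only [r, if_pos e, hy e, Φ.left_inv e]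
    · simp only [r, if_neg e]
  have hC : IsClosed (Φ.symm '' closedBall 0 (ρ / 2)) :=
    ((isCompact_closedBall _ _).image_of_continuousOn (Φ.continuousOn_symm.mono
      (h.tgt ▸ closedBall_subset_ball (by linarith)))).isClosed
  refine ⟨Φ.source ∩ Φ ⁻¹' ball 0 (ρ / 4), r, Φ.isOpen_inter_preimage isOpen_ball,
    ⟨h.src, by simp [h.zero, hρ]⟩, fun y => ?_, fun y hy => r1 y fun e => ?_, fun y hy => ?_⟩
  · by_cases e : y ∈ Φ.source
    · have h1 := (h.crd _ (h.symm_mem (k4 y e)).1).an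
      rw [(h.symm_mem (k4 y e)).2] at h1
      refine smM_congr (smM_mid (h.crd y e) k1.contDiffAt h1) ?_
      filter_upwards [Φ.open_source.mem_nhds e] with z hz using if_pos hz
    · refine smM_congr smM_id ?_
      have h1 : y ∉ Φ.symm '' closedBall 0 (ρ / 2) := by
        rintro ⟨w, hw, rfl⟩
        exact e (h.symm_mem (closedBall_subset_ball (by linarith) hw)).1
      filter_upwards [hC.isOpen_compl.mem_nhds h1] with z hz
      refine r1 z fun hz' => ?_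
      have h2 : β (Φ z) = 0 := β.zero_of_le_dist (le_of_not_gt fun h3 =>
        hz ⟨Φ z, (mem_ball.2 h3 |> ball_subset_closedBall), Φ.left_inv hz'⟩)
      simp [k, h2]
  · simp [k, (h.iff1 hl e).1 hy]
  · simp only [r, if_pos hy.1]
    rw [h.iff1 hl (h.symm_mem (k4 y hy.1)).1, (h.symm_mem (k4 y hy.1)).2, k2,
      β.one_of_mem_closedBall (ball_subset_closedBall hy.2)]
    simp

theorem glob_ret (m : Fin V.r) : ∃ (O : Set V.W) (r : V.W → V.W),
    IsOpen O ∧ V.G m ⊆ O ∧ (∀ y, SmM (Cm 4) (Cm 4) r y) ∧ (∀ y ∈ V.G m, r y = y) ∧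
      ∀ y ∈ O, r y ∈ V.G m := by
  have key : ∃ (O : Set V.W) (r : V.W → V.W), IsOpen O ∧ V.G m ∩ V.G m ⊆ O ∧
      (∀ y, SmM (Cm 4) (Cm 4) r y) ∧ (∀ y ∈ V.G m, r y = y) ∧ ∀ y ∈ O, r y ∈ V.G m := by
    refine (V.closed m).isCompact.induction_on (p := fun K => ∃ (O : Set V.W) (r : V.W → V.W),
      IsOpen O ∧ K ∩ V.G m ⊆ O ∧ (∀ y, SmM (Cm 4) (Cm 4) r y) ∧ (∀ y ∈ V.G m, r y = y) ∧
        ∀ y ∈ O, r y ∈ V.G m) ?_ ?_ ?_ ?_
    · exact ⟨∅, fun y => y, isOpen_empty, by simp, fun _ => smM_id, fun _ _ => rfl,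
        fun _ hy => hy.elim⟩
    · rintro s t hst ⟨O, r, h1, h2, h3⟩
      exact ⟨O, r, h1, (inter_subset_inter_left _ hst).trans h2, h3⟩
    · rintro s t ⟨O, r, h1, h2, h3, h4, h5⟩ ⟨O', r', k1, k2, k3, k4, k5⟩
      refine ⟨O ∪ r ⁻¹' O', fun y => r' (r y), h1.union (k1.preimage
        (continuous_iff_continuousAt.2 fun y => (h3 y).1)), ?_, fun y => (h3 y).comp (k3 _),
        fun y hy => (congrArg r' (h4 y hy)).trans (k4 y hy), ?_⟩
      · rintro y ⟨hy | hy, hy'⟩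
        · exact .inl (h2 ⟨hy, hy'⟩)
        · exact .inr (show r y ∈ O' from (h4 y hy').symm ▸ k2 ⟨hy, hy'⟩)
      · rintro y (hy | hy)
        · exact show r' (r y) ∈ _ from (k4 _ (h5 y hy)).symm ▸ h5 y hy
        · exact k5 _ hy
    · intro x hx
      obtain ⟨O, r, h1, h2, h3⟩ := loc_ret hx
      exact ⟨O, mem_nhdsWithin_of_mem_nhds (h1.mem_nhds h2), O, r, h1, inter_subset_left, h3⟩
  rwa [inter_self] at key

variable (P : Par V)

theorem par_G (l : Fin V.r) (y : (P.H l).M) : P.ι l y ∈ V.G l := P.rng l ▸ mem_range_self y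

theorem loc_inv (m : Fin V.r) (x : (P.H m).M) : ∃ F : V.W → (P.H m).M,
    SmM (Cm 4) (Cm 3) F (P.ι m x) ∧ ∀ᶠ w in 𝓝 (P.ι m x), ∀ y, P.ι m y = w → F w = y := by
  obtain ⟨Φ, ρ, lab, h, hl, -⟩ := V.snc.nch1 (par_G P m x) 0 (p := fun _ => True) (by simp)
  obtain ⟨ξ, hξ⟩ := (@Sb.isCo 3 _ V.W _ _ _ V.ch _ V.mf _ (P.emb m) x Φ 0 (h.crd _ h.src).isCo
    (((P.emb m).cont.continuousAt.eventually h.nhds).mono fun y hy =>
      (h.iff1 hl hy).1 (par_G P m y))).crd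
  refine ⟨fun w => ξ (remL (n := 3) 0 (Φ w)), smM_mid (h.crd _ h.src)
    (((remL (n := 3) 0).restrictScalars ℝ).contDiff.contDiffAt) hξ.an, ?_⟩
  have h1 := hξ.left
  rw [((P.emb m).cont.isClosedEmbedding (P.emb m).inj).isInducing.nhds_eq_comap,
    eventually_comap] at h1
  exact h1.mono fun w hw y e => e ▸ hw y e

/-- a closed form on a component is the restriction of a form which is closed near it -/
theorem exists_ext (m : Fin V.r) {k : ℕ} {y : Fr 3 k (P.H m).M} (hy : Cl y) :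
    ∃ (O : Set V.W) (Z : Fr 4 k V.W), IsOpen O ∧ V.G m ⊆ O ∧ Sm Z ∧ (∀ x ∈ O, dF Z x = 0) ∧
      pb (Cm 3) (P.ι m) Z = y := by
  have := P.conn m
  obtain ⟨O, r, h1, h2, h3, h4, h5⟩ := glob_ret m
  let s : V.W → (P.H m).M := fun w => Function.invFun (P.ι m) (r w)
  have s1 : ∀ w ∈ O, P.ι m (s w) = r w := fun w hw =>
    Function.invFun_eq (show r w ∈ range (P.ι m) from (P.rng m).symm ▸ h5 w hw)
  have s2 : (fun x => s (P.ι m x)) = fun x => x := funext fun x =>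
    (P.emb m).inj ((s1 _ (h2 (par_G P m x))).trans (h4 _ (par_G P m x)))
  have s3 : ∀ w ∈ O, SmM (Cm 4) (Cm 3) s w := fun w hw => by
    obtain ⟨F, k1, k2⟩ := loc_inv P m (s w)
    rw [s1 w hw] at k1 k2
    refine smM_congr ((h3 w).comp k1) ?_
    filter_upwards [h1.mem_nhds hw, (h3 w).1.eventually k2] with z e1 e2
    exact (e2 _ (s1 z e1)).symm
  have s4 : ∀ w ∈ O, ∀ᶠ z in 𝓝 w, SmM (Cm 4) (Cm 3) s z := fun w hw =>
    mem_of_superset (h1.mem_nhds hw) s3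
  obtain ⟨χ, c1, c2, -⟩ := exists_contMDiffMap_zero_one_nhds_of_isClosed (n := ⊤) 𝓘(ℝ, Cm 4)
    h1.isClosed_compl (V.closed m) (disjoint_compl_left_iff_subset.2 h2)
  obtain ⟨O', o1, o2, o3⟩ := eventually_nhdsSet_iff_exists.1 c2
  refine ⟨O ∩ O', fun w => χ w • pb (Cm 4) s y w, h1.inter o1, subset_inter h2 o2, fun w => ?_,
    fun w hw => ?_, ?_⟩
  · by_cases hw : w ∈ O
    · exact smAt_fsmul (χ.contMDiff w) (smAt_pb (s4 w hw) (hy _).1)
    · refine (smAt_zero w).congr ((c1.filter_mono (nhds_le_nhdsSet hw)).mono fun z hz => ?_)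
      simp [hz]
  · have e : (fun w => χ w • pb (Cm 4) s y w) =ᶠ[𝓝 w] pb (Cm 4) s y := by
      filter_upwards [o1.mem_nhds hw.2] with z hz
      rw [o3 z hz, one_smul]
    rw [dF_congr e, dF_pb (s4 w hw.1) (hy _).1]
    exact pb_eq_zero (hy _).2
  · funext x
    rw [Tr.pb_fsmul]
    show χ _ • _ = _
    rw [o3 _ (o2 (par_G P m x)), one_smul,
      pb_comp y ((par_hol P m).smM x) (s3 _ (h2 (par_G P m x))), s2, pb_id]

end Vale.Agent.P277Z.Top.Gy
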