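import Vale.Agent.P277.H619.Wdg

/-!
# P277, block TOP: real forms of type (1,1) and Hermitian matrices, pointwise
-/

set_option maxSynthPendingDepth 3

open scoped ContDiff Topology ComplexConjugate ComplexOrder
open ContinuousAlternatingMap Vale.Agent.P267.H928.Int Vale.Agent.P267.H175
open Vale.Agent.P272.K Vale.Agent.P277 Vale.Agent.P277.H619 Complex Matrix

noncomputable section

namespace Vale.Agent.P277Z.Top.H38

/-- table of `succAbove` -/
def tb6 : Fin 6 → Fin 5 → Fin 6 :=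
  ![![1, 2, 3, 4, 5], ![0, 2, 3, 4, 5], ![0, 1, 3, 4, 5], ![0, 1, 2, 4, 5], ![0, 1, 2, 3, 5],
    ![0, 1, 2, 3, 4]]

/-- table of `succAbove` -/
def tb5 : Fin 5 → Fin 4 → Fin 5 :=
  ![![1, 2, 3, 4], ![0, 2, 3, 4], ![0, 1, 3, 4], ![0, 1, 2, 4], ![0, 1, 2, 3]]

section two

variable {E : Type} [NormedAddCommGroup E] [NormedSpace ℝ E]

/-- a `2`-form as a function of two vectors -/
def bl (a : E [⋀^Fin 2]→L[ℝ] ℝ) (u v : E) : ℝ := a ![u, v]

theorem bl_eq (a : E [⋀^Fin 2]→L[ℝ] ℝ) (u v : E) :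
    bl a u v = (a.curryLeft u).curryLeft v Fin.elim0 := by
  rw [curryLeft_apply_apply, curryLeft_apply_apply]
  rfl

theorem bl_swap (a : E [⋀^Fin 2]→L[ℝ] ℝ) (u v : E) : bl a v u = - bl a u v := by
  have h := a.map_swap ![u, v] (i := 0) (j := 1) (by decide)
  have h1 : (![u, v] : Fin 2 → E) ∘ Equiv.swap 0 1 = ![v, u] := by
    funext i
    fin_cases i <;> rfl
  rw [h1] at h
  exact h

theorem bl_self (a : E [⋀^Fin 2]→L[ℝ] ℝ) (u : E) : bl a u u = 0 := by
  have := bl_swap a u u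
  linarith

theorem bl_add_left (a : E [⋀^Fin 2]→L[ℝ] ℝ) (u u' v : E) :
    bl a (u + u') v = bl a u v + bl a u' v := by
  simp only [bl_eq, map_add, curryLeft_add']
  rfl

theorem bl_smul_left (a : E [⋀^Fin 2]→L[ℝ] ℝ) (c : ℝ) (u v : E) :
    bl a (c • u) v = c * bl a u v := by
  have h : bl a (c • u) v = (a.curryLeft (c • u)) ![v] := by rw [curryLeft_apply_apply]; rfl
  have h' : bl a u v = (a.curryLeft u) ![v] := by rw [curryLeft_apply_apply]; rfl
  rw [h, h', map_smul]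
  rfl

theorem bl_add_right (a : E [⋀^Fin 2]→L[ℝ] ℝ) (u v v' : E) :
    bl a u (v + v') = bl a u v + bl a u v' := by
  rw [bl_swap, bl_add_left, bl_swap a u v, bl_swap a u v']
  ring

theorem bl_smul_right (a : E [⋀^Fin 2]→L[ℝ] ℝ) (c : ℝ) (u v : E) :
    bl a u (c • v) = c * bl a u v := by
  rw [bl_swap, bl_smul_left, bl_swap a u v]
  ring

theorem bl_neg_left (a : E [⋀^Fin 2]→L[ℝ] ℝ) (u v : E) : bl a (-u) v = - bl a u v := by
  rw [← neg_one_smul ℝ u, bl_smul_left, neg_one_mul]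

theorem bl_neg_right (a : E [⋀^Fin 2]→L[ℝ] ℝ) (u v : E) : bl a u (-v) = - bl a u v := by
  rw [← neg_one_smul ℝ v, bl_smul_right, neg_one_mul]

theorem bl_ext {a b : E [⋀^Fin 2]→L[ℝ] ℝ} (h : ∀ u v, bl a u v = bl b u v) : a = b := by
  ext v
  have h1 : v = ![v 0, v 1] := by
    funext i
    fin_cases i <;> rfl
  rw [h1]
  exact h _ _

theorem wdg_two {q : ℕ} (a : E [⋀^Fin 2]→L[ℝ] ℝ) (b : E [⋀^Fin q]→L[ℝ] ℝ) (v : Fin (q + 2) → E) :
    wdg a b v = 2⁻¹ * ∑ i : Fin (q + 2), ∑ j : Fin (q + 1), (-1) ^ (i.val + j.val) *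
      (bl a (v i) (v (i.succAbove j)) * b fun k => v (i.succAbove (j.succAbove k))) := by
  have h1 : wdg a b v = ((1 : ℕ) + 1 : ℝ)⁻¹ • alternatizeUncurryFin (inn a b) v := rfl
  rw [h1, alternatizeUncurryFin_apply, smul_eq_mul]
  congr 1
  · norm_num
  refine Finset.sum_congr rfl fun i _ => ?_
  have h2 : inn a b (v i) (i.removeNth v) = ((0 : ℕ) + 1 : ℝ)⁻¹ •
      alternatizeUncurryFin (inn (a.curryLeft (v i)) b) (i.removeNth v) := rfl
  rw [h2, alternatizeUncurryFin_apply, Nat.cast_zero, zero_add, inv_one, one_smul, Finset.smul_sum]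
  refine Finset.sum_congr rfl fun j _ => ?_
  have h3 : inn (a.curryLeft (v i)) b (i.removeNth v j) (j.removeNth (i.removeNth v)) =
      bl a (v i) (v (i.succAbove j)) * b fun k => v (i.succAbove (j.succAbove k)) := by
    rw [bl_eq]
    rfl
  rw [h3, pow_add]
  simp only [zsmul_eq_mul]
  push_cast
  ring

theorem wdg22 (a b : E [⋀^Fin 2]→L[ℝ] ℝ) (v : Fin 4 → E) :
    wdg a b v = bl a (v 0) (v 1) * bl b (v 2) (v 3) - bl a (v 0) (v 2) * bl b (v 1) (v 3) +
      bl a (v 0) (v 3) * bl b (v 1) (v 2) + bl a (v 1) (v 2) * bl b (v 0) (v 3) -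
      bl a (v 1) (v 3) * bl b (v 0) (v 2) + bl a (v 2) (v 3) * bl b (v 0) (v 1) := by
  have h1 : ∀ (i : Fin 4) (j : Fin 3), (b fun k => v (i.succAbove (j.succAbove k))) =
      bl b (v (i.succAbove (j.succAbove 0))) (v (i.succAbove (j.succAbove 1))) := by
    intro i j
    rw [bl]
    congr 1
    funext k
    fin_cases k <;> rfl
  have h2 : ∀ (i : Fin 4) (j : Fin 3), i.succAbove j =
      (![![1, 2, 3], ![0, 2, 3], ![0, 1, 3], ![0, 1, 2]] : Fin 4 → Fin 3 → Fin 4) i j := by decide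
  have h3 : ∀ (i : Fin 3) (j : Fin 2), i.succAbove j =
      (![![1, 2], ![0, 2], ![0, 1]] : Fin 3 → Fin 2 → Fin 3) i j := by decide
  have h4 : wdg a b v = 2⁻¹ * ∑ i : Fin 4, ∑ j : Fin 3, (-1) ^ (i.val + j.val) *
      (bl a (v i) (v (i.succAbove j)) * b fun k => v (i.succAbove (j.succAbove k))) :=
    wdg_two a b v
  simp only [h1] at h4
  rw [h4]
  simp only [h3]
  simp only [h2]
  simp only [Fin.sum_univ_four, Fin.sum_univ_three, Matrix.cons_val]
  rw [bl_swap a (v 0) (v 1), bl_swap a (v 0) (v 2), bl_swap a (v 0) (v 3), bl_swap a (v 1) (v 2),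
    bl_swap a (v 1) (v 3), bl_swap a (v 2) (v 3)]
  simp only [Fin.isValue, Fin.coe_ofNat_eq_mod, Nat.reduceMod, Nat.reduceAdd]
  ring

theorem wdg222 (a b c : E [⋀^Fin 2]→L[ℝ] ℝ) (v : Fin 6 → E) :
    wdg a (wdg b c) v = 2⁻¹ * ∑ i : Fin 6, ∑ j : Fin 5, (-1) ^ (i.val + j.val) *
      (bl a (v i) (v (tb6 i j)) *
        (bl b (v (tb6 i (tb5 j 0))) (v (tb6 i (tb5 j 1))) *
          bl c (v (tb6 i (tb5 j 2))) (v (tb6 i (tb5 j 3))) -
        bl b (v (tb6 i (tb5 j 0))) (v (tb6 i (tb5 j 2))) *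
          bl c (v (tb6 i (tb5 j 1))) (v (tb6 i (tb5 j 3))) +
        bl b (v (tb6 i (tb5 j 0))) (v (tb6 i (tb5 j 3))) *
          bl c (v (tb6 i (tb5 j 1))) (v (tb6 i (tb5 j 2))) +
        bl b (v (tb6 i (tb5 j 1))) (v (tb6 i (tb5 j 2))) *
          bl c (v (tb6 i (tb5 j 0))) (v (tb6 i (tb5 j 3))) -
        bl b (v (tb6 i (tb5 j 1))) (v (tb6 i (tb5 j 3))) *
          bl c (v (tb6 i (tb5 j 0))) (v (tb6 i (tb5 j 2))) +
        bl b (v (tb6 i (tb5 j 2))) (v (tb6 i (tb5 j 3))) *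
          bl c (v (tb6 i (tb5 j 0))) (v (tb6 i (tb5 j 1))))) := by
  have h2 : ∀ (i : Fin 6) (j : Fin 5), i.succAbove j = tb6 i j := by decide
  have h3 : ∀ (i : Fin 5) (j : Fin 4), i.succAbove j = tb5 i j := by decide
  have h4 : wdg a (wdg b c) v = 2⁻¹ * ∑ i : Fin 6, ∑ j : Fin 5, (-1) ^ (i.val + j.val) *
      (bl a (v i) (v (i.succAbove j)) *
        wdg b c fun k : Fin 4 => v (i.succAbove (j.succAbove k))) :=
    wdg_two a (wdg b c) v
  rw [h4]
  simp only [wdg22, h2, h3]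

end two

section mat

variable {d : ℕ}

/-- invariance under multiplication by `i` -/
def J11 (a : Cm d [⋀^Fin 2]→L[ℝ] ℝ) : Prop := ∀ u v, bl a (I • u) (I • v) = bl a u v

/-- the coefficient matrix of a form of bidegree one, one -/
def mat (a : Cm d [⋀^Fin 2]→L[ℝ] ℝ) : Matrix (Fin d) (Fin d) ℂ :=
  Matrix.of fun j k => ((bl a (Pi.single j 1) (Pi.single k I) : ℂ) -
    I * bl a (Pi.single j 1) (Pi.single k 1)) / 4

theorem single_I (k : Fin d) : (Pi.single k I : Cm d) = I • (Pi.single k 1 : Cm d) := by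
  rw [← Pi.single_smul, smul_eq_mul, mul_one]

theorem I_I (u : Cm d) : I • I • u = -u := by
  rw [smul_smul, I_mul_I, neg_one_smul]

variable {a b c : Cm d [⋀^Fin 2]→L[ℝ] ℝ}

theorem J11.left (h : J11 a) (u v : Cm d) : bl a (I • u) v = - bl a u (I • v) := by
  rw [← h u (I • v), I_I, bl_neg_right, neg_neg]

theorem bl_xy (j k : Fin d) : bl a (Pi.single j 1) (Pi.single k I) = 4 * (mat a j k).re := by
  simp [mat]
  ring

theorem bl_xx (j k : Fin d) : bl a (Pi.single j 1) (Pi.single k 1) = -4 * (mat a j k).im := by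
  simp [mat]
  ring

theorem J11.bl_yx (h : J11 a) (j k : Fin d) :
    bl a (Pi.single j I) (Pi.single k 1) = -4 * (mat a j k).re := by
  rw [single_I j, h.left, ← single_I, bl_xy]
  ring

theorem J11.bl_yy (h : J11 a) (j k : Fin d) :
    bl a (Pi.single j I) (Pi.single k I) = -4 * (mat a j k).im := by
  rw [single_I j, single_I k, h, bl_xx]

theorem J11.mat_swap (h : J11 a) (j k : Fin d) : mat a k j = conj (mat a j k) := by
  have h1 := bl_xy (a := a) k j
  have h2 := bl_xx (a := a) k j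
  rw [bl_swap, h.bl_yx] at h1
  rw [bl_swap, bl_xx] at h2
  apply Complex.ext
  · rw [conj_re]; linarith
  · rw [conj_im]; linarith

theorem J11.herm (h : J11 a) : (mat a).IsHermitian := by
  ext j k
  rw [conjTranspose_apply, h.mat_swap j k]
  simp

theorem mat_add (a b : Cm d [⋀^Fin 2]→L[ℝ] ℝ) : mat (a + b) = mat a + mat b := by
  ext j k
  have h : ∀ u v, bl (a + b) u v = bl a u v + bl b u v := fun _ _ => rfl
  simp only [mat, of_apply, Matrix.add_apply, h]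
  push_cast
  ring

theorem mat_smul (r : ℝ) (a : Cm d [⋀^Fin 2]→L[ℝ] ℝ) : mat (r • a) = (r : ℂ) • mat a := by
  ext j k
  have h : ∀ u v, bl (r • a) u v = r * bl a u v := fun _ _ => rfl
  simp only [mat, of_apply, Matrix.smul_apply, h, smul_eq_mul]
  push_cast
  ring

/-- the sesquilinear form of `a` -/
def sq (a : Cm d [⋀^Fin 2]→L[ℝ] ℝ) (u v : Cm d) : ℂ :=
  ((bl a u (I • v) : ℂ) - I * bl a u v) / 4

theorem sq_single (j k : Fin d) : sq a (Pi.single j 1) (Pi.single k 1) = mat a j k := by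
  rw [sq, ← single_I]
  rfl

theorem csmul_eq (z : ℂ) (u : Cm d) : z • u = z.re • u + z.im • I • u := by
  funext i
  simp only [Pi.smul_apply, Pi.add_apply, smul_eq_mul, real_smul]
  conv_lhs => rw [← re_add_im z]
  ring

theorem sq_add_left (u u' v : Cm d) : sq a (u + u') v = sq a u v + sq a u' v := by
  simp only [sq, bl_add_left]
  push_cast
  ring

theorem sq_add_right (u v v' : Cm d) : sq a u (v + v') = sq a u v + sq a u v' := by
  simp only [sq, smul_add, bl_add_right]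
  push_cast
  ring

theorem J11.sq_smul_left (h : J11 a) (z : ℂ) (u v : Cm d) : sq a (z • u) v = z * sq a u v := by
  rw [csmul_eq z u]
  simp only [sq, bl_add_left, bl_smul_left, h u v, h.left u v]
  conv_rhs => rw [← re_add_im z]
  push_cast
  linear_combination (z.im * bl a u v / 4 : ℂ) * I_mul_I

theorem sq_smul_right (z : ℂ) (u v : Cm d) : sq a u (z • v) = conj z * sq a u v := by
  have h1 : I • z • v = z • I • v := smul_comm _ _ _
  have h2 : conj z = z.re - z.im * I := by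
    apply Complex.ext <;> simp
  rw [sq, h1, csmul_eq z v, csmul_eq z (I • v), I_I, h2]
  simp only [sq, bl_add_right, bl_smul_right, bl_neg_right]
  push_cast
  linear_combination (-z.im * bl a u v / 4 : ℂ) * I_mul_I

theorem J11.sq_eq (h : J11 a) (u v : Cm d) :
    sq a u v = ∑ j, ∑ k, u j * mat a j k * conj (v k) := by
  have h0 : ∀ w : Cm d, w = ∑ j, w j • (Pi.single j 1 : Cm d) := fun w => pi_eq_sum_univ' w
  have h1 : ∀ (s : Finset (Fin d)) (f : Fin d → Cm d) (v : Cm d),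
      sq a (∑ j ∈ s, f j) v = ∑ j ∈ s, sq a (f j) v := by
    intro s f v
    induction s using Finset.induction_on with
    | empty =>
      have := h.sq_smul_left 0 0 v
      simpa using this
    | insert i s hi ih => rw [Finset.sum_insert hi, Finset.sum_insert hi, sq_add_left, ih]
  have h2 : ∀ (s : Finset (Fin d)) (f : Fin d → Cm d) (u : Cm d),
      sq a u (∑ j ∈ s, f j) = ∑ j ∈ s, sq a u (f j) := by
    intro s f u
    induction s using Finset.induction_on with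
    | empty =>
      have := sq_smul_right (a := a) 0 u 0
      simpa using this
    | insert i s hi ih => rw [Finset.sum_insert hi, Finset.sum_insert hi, sq_add_right, ih]
  conv_lhs => rw [h0 u, h0 v, h1]
  refine Finset.sum_congr rfl fun j _ => ?_
  rw [h2]
  refine Finset.sum_congr rfl fun k _ => ?_
  rw [h.sq_smul_left, sq_smul_right, sq_single]
  ring

theorem bl_eq_sq (u v : Cm d) : bl a u v = -4 * (sq a u v).im := by
  simp [sq]
  ring

theorem bl_I_eq_sq (u v : Cm d) : bl a u (I • v) = 4 * (sq a u v).re := by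
  simp [sq]
  ring

theorem mat_inj (ha : J11 a) (hb : J11 b) (h : mat a = mat b) : a = b :=
  bl_ext fun u v => by rw [bl_eq_sq, bl_eq_sq, ha.sq_eq, hb.sq_eq, h]

theorem J11.posDef (h : J11 a) (hp : ∀ u, u ≠ 0 → 0 < bl a u (I • u)) : (mat a).PosDef := by
  refine PosDef.of_dotProduct_mulVec_pos h.herm fun x hx => ?_
  have h1 : star x ⬝ᵥ (mat a *ᵥ x) = sq a (star x) (star x) := by
    rw [h.sq_eq]
    simp only [dotProduct, mulVec, Finset.mul_sum, Pi.star_apply, RCLike.star_def, conj_conj,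
      mul_assoc]
  rw [h1, sq, bl_self]
  have h2 := hp (star x) (by simpa using hx)
  have h3 : ((bl a (star x) (I • star x) : ℂ) - I * (0 : ℝ)) / 4 =
      ((bl a (star x) (I • star x) / 4 : ℝ) : ℂ) := by
    push_cast
    ring
  rw [h3]
  exact_mod_cast div_pos h2 four_pos

/-- change of coordinates -/
theorem J11.mat_comp {d' : ℕ} (h : J11 a) (T : Cm d' →L[ℝ] Cm d) (J : Matrix (Fin d) (Fin d') ℂ)
    (hT : ∀ u, T u = J *ᵥ u) :
    mat (a.compContinuousLinearMap T) = Jᵀ * mat a * J.map (starRingEnd ℂ) := by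
  ext j k
  have h1 : ∀ u v, bl (a.compContinuousLinearMap T) u v = bl a (T u) (T v) := by
    intro u v
    rw [bl, bl, compContinuousLinearMap_apply]
    congr 1
    funext i
    fin_cases i <;> rfl
  have h2 : mat (a.compContinuousLinearMap T) j k =
      sq a (J *ᵥ Pi.single j 1) (J *ᵥ Pi.single k 1) := by
    rw [← sq_single, sq, sq, h1, h1, hT, hT, hT, mulVec_smul]
  rw [h2, h.sq_eq, Finset.sum_comm]
  simp only [mulVec_single_one, col_apply, Matrix.mul_apply, transpose_apply, map_apply,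
    Finset.sum_mul]

theorem J11.comp {d' : ℕ} (h : J11 a) (T : Cm d' →L[ℝ] Cm d) (hT : ∀ u, T (I • u) = I • T u) :
    J11 (a.compContinuousLinearMap T) := by
  have h1 : ∀ u v, bl (a.compContinuousLinearMap T) u v = bl a (T u) (T v) := by
    intro u v
    rw [bl, bl, compContinuousLinearMap_apply]
    congr 1
    funext i
    fin_cases i <;> rfl
  intro u v
  rw [h1, h1, hT, hT, h]

end mat

section top

/-- the mixed determinant in dimension two -/
def mix2 (A B : Matrix (Fin 2) (Fin 2) ℂ) : ℂ :=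
  A 0 0 * B 1 1 + A 1 1 * B 0 0 - A 0 1 * B 1 0 - A 1 0 * B 0 1

/-- the mixed determinant in dimension three -/
def mix3 (A B C : Matrix (Fin 3) (Fin 3) ℂ) : ℂ :=
  A 0 0 * (B 1 1 * C 2 2 + B 2 2 * C 1 1 - B 1 2 * C 2 1 - B 2 1 * C 1 2) +
  A 1 1 * (B 0 0 * C 2 2 + B 2 2 * C 0 0 - B 0 2 * C 2 0 - B 2 0 * C 0 2) +
  A 2 2 * (B 0 0 * C 1 1 + B 1 1 * C 0 0 - B 0 1 * C 1 0 - B 1 0 * C 0 1) -
  A 0 1 * (B 1 0 * C 2 2 + B 2 2 * C 1 0 - B 1 2 * C 2 0 - B 2 0 * C 1 2) -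
  A 1 0 * (B 0 1 * C 2 2 + B 2 2 * C 0 1 - B 2 1 * C 0 2 - B 0 2 * C 2 1) -
  A 0 2 * (B 2 0 * C 1 1 + B 1 1 * C 2 0 - B 2 1 * C 1 0 - B 1 0 * C 2 1) -
  A 2 0 * (B 0 2 * C 1 1 + B 1 1 * C 0 2 - B 1 2 * C 0 1 - B 0 1 * C 1 2) -
  A 1 2 * (B 2 1 * C 0 0 + B 0 0 * C 2 1 - B 2 0 * C 0 1 - B 0 1 * C 2 0) -
  A 2 1 * (B 1 2 * C 0 0 + B 0 0 * C 1 2 - B 0 2 * C 1 0 - B 1 0 * C 0 2)

theorem J11.im_diag {d : ℕ} {a : Cm d [⋀^Fin 2]→L[ℝ] ℝ} (h : J11 a) (j : Fin d) :
    (mat a j j).im = 0 := by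
  have h1 := congrArg Complex.im (h.mat_swap j j)
  rw [conj_im] at h1
  linarith

theorem top2 {a b : Cm 2 [⋀^Fin 2]→L[ℝ] ℝ} (ha : J11 a) (hb : J11 b) (v : Fin 4 → Cm 2)
    (h0 : v 0 = Pi.single 0 1) (h1 : v 1 = Pi.single 0 I) (h2 : v 2 = Pi.single 1 1)
    (h3 : v 3 = Pi.single 1 I) : wdg a b v = 16 * (mix2 (mat a) (mat b)).re := by
  rw [wdg22, h0, h1, h2, h3]
  simp only [bl_xy, bl_xx, ha.bl_yx, ha.bl_yy, hb.bl_yx, hb.bl_yy, mix2, ha.mat_swap 0 1,
    hb.mat_swap 0 1, add_re, sub_re, mul_re, conj_re, conj_im, ha.im_diag, hb.im_diag]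
  ring

theorem top3 {a b c : Cm 3 [⋀^Fin 2]→L[ℝ] ℝ} (ha : J11 a) (hb : J11 b) (hc : J11 c)
    (v : Fin 6 → Cm 3)
    (h0 : v 0 = Pi.single 0 1) (h1 : v 1 = Pi.single 0 I) (h2 : v 2 = Pi.single 1 1)
    (h3 : v 3 = Pi.single 1 I) (h4 : v 4 = Pi.single 2 1) (h5 : v 5 = Pi.single 2 I) :
    wdg a (wdg b c) v = 64 * (mix3 (mat a) (mat b) (mat c)).re := by
  rw [wdg222]
  simp only [Fin.sum_univ_six, Fin.sum_univ_five, tb6, tb5, Matrix.cons_val, h0, h1, h2, h3, h4,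
    h5]
  simp only [bl_xy, bl_xx, ha.bl_yx, ha.bl_yy, hb.bl_yx, hb.bl_yy, hc.bl_yx, hc.bl_yy, mix3,
    ha.mat_swap 0 1, ha.mat_swap 0 2, ha.mat_swap 1 2, hb.mat_swap 0 1, hb.mat_swap 0 2,
    hb.mat_swap 1 2, hc.mat_swap 0 1, hc.mat_swap 0 2, hc.mat_swap 1 2, add_re, sub_re, mul_re,
    add_im, sub_im, mul_im, conj_re, conj_im, ha.im_diag, hb.im_diag, hc.im_diag,
    Fin.isValue, Fin.coe_ofNat_eq_mod, Nat.reduceMod, Nat.reduceAdd]
  ring

end top

end Vale.Agent.P277Z.Top.H38
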