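import Vale.Agent.P277Z.Top.HbAlg
import Vale.Agent.P277.H19.Top
import Vale.Agent.P272.K.INT.Global
import Vale.Agent.P272.K.N.Hess

/-!
# P277, block TOP: real forms of type (1,1) and Hermitian matrices on a complex manifold
-/

set_option maxSynthPendingDepth 3
set_option linter.unusedSectionVars false

open scoped Manifold ContDiff Topology ComplexConjugate ComplexOrder
open ContinuousAlternatingMap Vale.Agent.P267.H928.Int Vale.Agent.P267.H175
open Vale.Agent.P272.K Vale.Agent.P277 Vale.Agent.P277.H619 Complex Matrix Filter Set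
open MeasureTheory

noncomputable section

namespace Vale.Agent.P277Z.Top.H38

section flat

variable {d : ℕ}

/-- evaluation at two vectors -/
def blL (u v : Cm d) : (Cm d [⋀^Fin 2]→L[ℝ] ℝ) →L[ℝ] ℝ :=
  ContinuousAlternatingMap.apply ℝ (Cm d) ℝ ![u, v]

theorem blL_apply (u v : Cm d) (a : Cm d [⋀^Fin 2]→L[ℝ] ℝ) : blL u v a = bl a u v := rfl

/-- the entries of `mat` as linear maps -/
def matL (j k : Fin d) : (Cm d [⋀^Fin 2]→L[ℝ] ℝ) →L[ℝ] ℂ :=
  (4⁻¹ : ℂ) • (ofRealCLM.comp (blL (Pi.single j 1) (Pi.single k I)) -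
    I • ofRealCLM.comp (blL (Pi.single j 1) (Pi.single k 1)))

theorem matL_apply (j k : Fin d) (a : Cm d [⋀^Fin 2]→L[ℝ] ℝ) : matL j k a = mat a j k := by
  have h : matL j k a = (4⁻¹ : ℂ) * ((bl a (Pi.single j 1) (Pi.single k I) : ℂ) -
    I * bl a (Pi.single j 1) (Pi.single k 1)) := rfl
  rw [h, mat, of_apply]
  ring

theorem mat_fun (j k : Fin d) (α : Cm d → Cm d [⋀^Fin 2]→L[ℝ] ℝ) :
    (fun y => mat (α y) j k) = fun y => matL j k (α y) := funext fun _ => (matL_apply j k _).symm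

variable {α : Cm d → Cm d [⋀^Fin 2]→L[ℝ] ℝ} {z : Cm d}

theorem j11_fderiv (hα : DifferentiableAt ℝ α z) (h : ∀ᶠ y in 𝓝 z, J11 (α y)) (v : Cm d) :
    J11 (fderiv ℝ α z v) := by
  intro u w
  have h1 := ((blL (I • u) (I • w)).hasFDerivAt.comp z hα.hasFDerivAt).fderiv
  have h2 := ((blL u w).hasFDerivAt.comp z hα.hasFDerivAt).fderiv
  have h3 : (blL (I • u) (I • w) ∘ α) =ᶠ[𝓝 z] (blL u w ∘ α) := h.mono fun y hy => hy u w
  rw [h3.fderiv_eq, h2] at h1
  exact (congrArg (fun L : Cm d →L[ℝ] ℝ => L v) h1).symm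

theorem cyc (h0 : extDeriv α z = 0) (v u w : Cm d) :
    bl (fderiv ℝ α z v) u w - bl (fderiv ℝ α z u) v w + bl (fderiv ℝ α z w) v u = 0 := by
  have h1 : extDeriv α z ![v, u, w] = 0 := by rw [h0]; rfl
  rw [extDeriv, alternatizeUncurryFin_apply, Fin.sum_univ_three] at h1
  have h2 : (0 : Fin 3).removeNth ![v, u, w] = ![u, w] := by
    funext i; fin_cases i <;> rfl
  have h3 : (1 : Fin 3).removeNth ![v, u, w] = ![v, w] := by
    funext i; fin_cases i <;> rfl
  have h4 : (2 : Fin 3).removeNth ![v, u, w] = ![v, u] := by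
    funext i; fin_cases i <;> rfl
  rw [h2, h3, h4] at h1
  simp only [Fin.isValue, Fin.coe_ofNat_eq_mod, cons_val, zsmul_eq_mul] at h1
  simp only [bl]
  push_cast at h1
  linarith

theorem mat_closed (hα : DifferentiableAt ℝ α z) (h : ∀ᶠ y in 𝓝 z, J11 (α y))
    (h0 : extDeriv α z = 0) (i k l : Fin d) :
    dz i (fun y => mat (α y) k l) z = dz k (fun y => mat (α y) i l) z := by
  have h1 : ∀ k l v, fderiv ℝ (fun y => mat (α y) k l) z v = mat (fderiv ℝ α z v) k l := by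
    intro k l v
    rw [mat_fun, ← matL_apply]
    have h2 := ((matL k l).hasFDerivAt.comp z hα.hasFDerivAt).fderiv
    exact congrArg (fun L : Cm d →L[ℝ] ℂ => L v) h2
  simp only [dz, h1]
  have hJ := j11_fderiv hα h
  have c1 := cyc h0 (Pi.single i 1) (Pi.single k 1) (Pi.single l I)
  have c2 := cyc h0 (Pi.single i I) (Pi.single k I) (Pi.single l I)
  have c3 := cyc h0 (Pi.single i 1) (Pi.single k 1) (Pi.single l 1)
  have c4 := cyc h0 (Pi.single i I) (Pi.single k I) (Pi.single l 1)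
  rw [bl_xy, bl_xy, bl_xx] at c1
  rw [(hJ _).bl_yy, (hJ _).bl_yy, (hJ _).bl_yy] at c2
  rw [bl_xx, bl_xx, bl_xx] at c3
  rw [(hJ _).bl_yx, (hJ _).bl_yx, (hJ _).bl_yy] at c4
  congr 1
  apply Complex.ext
  · simp only [sub_re, mul_re, I_re, I_im]
    linarith
  · simp only [sub_im, mul_im, I_re, I_im]
    linarith

theorem bl_extDeriv (γ : Cm d → Cm d [⋀^Fin 1]→L[ℝ] ℝ) (u w : Cm d) :
    bl (extDeriv γ z) u w = fderiv ℝ γ z u ![w] - fderiv ℝ γ z w ![u] := by
  rw [bl, extDeriv, alternatizeUncurryFin_apply, Fin.sum_univ_two]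
  have h2 : (0 : Fin 2).removeNth ![u, w] = ![w] := by
    funext i; fin_cases i; rfl
  have h3 : (1 : Fin 2).removeNth ![u, w] = ![u] := by
    funext i; fin_cases i; rfl
  rw [h2, h3]
  simp [sub_eq_add_neg]

/-- `d` of `-c (df) ∘ i` -/
theorem bl_ddc {γ : Cm d → Cm d [⋀^Fin 1]→L[ℝ] ℝ} {f : Cm d → ℝ} {c : ℝ}
    (hγ : DifferentiableAt ℝ γ z) (hf : DifferentiableAt ℝ (fderiv ℝ f) z)
    (h : ∀ᶠ y in 𝓝 z, ∀ v, γ y ![v] = -c * fderiv ℝ f y (I • v)) (u w : Cm d) :
    bl (extDeriv γ z) u w = c * (fderiv ℝ (fderiv ℝ f) z w (I • u) -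
      fderiv ℝ (fderiv ℝ f) z u (I • w)) := by
  have h1 : ∀ u w : Cm d, fderiv ℝ γ z u ![w] = -c * fderiv ℝ (fderiv ℝ f) z u (I • w) := by
    intro u w
    have h2 := ((ContinuousAlternatingMap.apply ℝ (Cm d) ℝ ![w]).hasFDerivAt.comp z
      hγ.hasFDerivAt).fderiv
    have h3 := (((ContinuousLinearMap.apply ℝ ℝ (I • w)).hasFDerivAt.comp z
      hf.hasFDerivAt).const_mul (-c)).fderiv
    have h4 : (ContinuousAlternatingMap.apply ℝ (Cm d) ℝ ![w] ∘ γ) =ᶠ[𝓝 z]
        fun y => -c * (ContinuousLinearMap.apply ℝ ℝ (I • w) ∘ fderiv ℝ f) y :=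
      h.mono fun y hy => hy w
    rw [h4.fderiv_eq, h3] at h2
    exact (congrArg (fun L : Cm d →L[ℝ] ℝ => L u) h2).symm
  rw [bl_extDeriv, h1, h1]
  ring

theorem mat_ddc {γ : Cm d → Cm d [⋀^Fin 1]→L[ℝ] ℝ} {f : Cm d → ℝ} {c : ℝ}
    (hγ : DifferentiableAt ℝ γ z) (hf : ContDiffAt ℝ 2 f z)
    (h : ∀ᶠ y in 𝓝 z, ∀ v, γ y ![v] = -c * fderiv ℝ f y (I • v)) :
    J11 (extDeriv γ z) ∧ mat (extDeriv γ z) = (c : ℂ) • cHess f z := by
  have hf' : DifferentiableAt ℝ (fderiv ℝ f) z :=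
    (hf.fderiv_right (m := 1) (by norm_num)).differentiableAt (by simp)
  have hs : ∀ u w, fderiv ℝ (fderiv ℝ f) z u w = fderiv ℝ (fderiv ℝ f) z w u :=
    hf.isSymmSndFDerivAt (by simp)
  constructor
  · intro u w
    rw [bl_ddc hγ hf' h, bl_ddc hγ hf' h, I_I, I_I, map_neg, map_neg, hs (I • w) u, hs (I • u) w]
    ring
  · ext j k
    rw [N.cHess_eq_lev hf', Matrix.smul_apply, N.lev_apply, mat, of_apply, bl_ddc hγ hf' h,
      bl_ddc hγ hf' h, single_I j, single_I k, I_I, map_neg,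
      hs (I • (Pi.single k 1 : Cm d)) (I • (Pi.single j 1 : Cm d)),
      hs (Pi.single k 1 : Cm d) (I • (Pi.single j 1 : Cm d)), smul_eq_mul]
    push_cast
    ring

end flat

section mfd

variable {d : ℕ} {M : Type} [TopologicalSpace M] [ChartedSpace (Cm d) M]

/-- the coefficient matrices in the charts -/
def mtF (a : M → Cm d [⋀^Fin 2]→L[ℝ] ℝ) (e : Chart d M) (z : Cm d) : Matrix (Fin d) (Fin d) ℂ :=
  mat (loc e a z)

theorem mtF_add_smul (a b : M → Cm d [⋀^Fin 2]→L[ℝ] ℝ) (t : ℝ) (e : Chart d M) (z : Cm d) :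
    mtF (a + t • b) e z = mtF a e z + (t : ℂ) • mtF b e z := by
  rw [mtF, loc_add, loc_smul, Pi.add_apply, Pi.smul_apply, mat_add, mat_smul]
  rfl

theorem loc_wdg {p q : ℕ} (e : Chart d M) (a : M → Cm d [⋀^Fin p]→L[ℝ] ℝ)
    (b : M → Cm d [⋀^Fin q]→L[ℝ] ℝ) (z : Cm d) :
    loc e (fun y => wdg (a y) (b y)) z = wdg (loc e a z) (loc e b z) :=
  wdg_comp _ (b (e.symm z)) p (a (e.symm z))

variable [IsManifold 𝓘(ℂ, Cm d) ω M]

theorem fderiv_chg {e e' : Chart d M} {x : M} (h : At e x) (h' : At e' x) (u : Cm d) :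
    fderiv ℝ (fun y => e' (e.symm y)) (e x) u = jacM e e' x *ᵥ u := by
  have h1 : DifferentiableAt ℂ (fun y => e' (e.symm y)) (e x) :=
    (INT.transition_contDiffAt h h').differentiableAt (by simp)
  rw [h1.fderiv_restrictScalars ℝ]
  have h2 : ∀ p i, jacM e e' x p i = fderiv ℂ (fun y => e' (e.symm y)) (e x) (Pi.single i 1) p := by
    intro p i
    rw [jacM, of_apply, INT.dz_of_holo (differentiableAt_pi.1 h1 p), fderiv_apply h1 p]
    rfl
  funext p
  show fderiv ℂ (fun y => e' (e.symm y)) (e x) u p = ∑ i, jacM e e' x p i * u i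
  conv_lhs => rw [pi_eq_sum_univ' u, _root_.map_sum]
  simp only [map_smul, Finset.sum_apply, Pi.smul_apply, smul_eq_mul, h2, mul_comm]

theorem loc_eq {k : ℕ} (a : M → Cm d [⋀^Fin k]→L[ℝ] ℝ) {e : Chart d M} {x : M} (h : At e x) :
    loc e a (e x) = (a x).compContinuousLinearMap
      (fderiv ℝ (fun y => chartAt (Cm d) x (e.symm y)) (e x)) := by
  rw [loc, e.left_inv h.2]

theorem j11_loc {a : M → Cm d [⋀^Fin 2]→L[ℝ] ℝ} {e : Chart d M} {x : M} (h : At e x)
    (ha : J11 (a x)) : J11 (loc e a (e x)) := by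
  rw [loc_eq a h]
  refine ha.comp _ fun u => ?_
  have h' : At (chartAt (Cm d) x) x := ⟨chart_mem_atlas _ _, mem_chart_source _ _⟩
  rw [fderiv_chg h h', fderiv_chg h h', mulVec_smul]

theorem isForm_mtF {a : M → Cm d [⋀^Fin 2]→L[ℝ] ℝ} (ha : ∀ x, J11 (a x)) : IsForm (mtF a) := by
  have := INT.isManifold_real d M
  intro e e' x h h'
  have h1 := loc_change h.1 h'.1 a (e.map_source h.2) (by rw [e.left_inv h.2]; exact h'.2)
  rw [e.left_inv h.2] at h1
  rw [mtF, h1]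
  exact (j11_loc h' (ha x)).mat_comp _ _ (fderiv_chg h h')

theorem smooth_mtF {a : M → Cm d [⋀^Fin 2]→L[ℝ] ℝ} {e : Chart d M} {x : M} (h : At e x)
    (ha : SmAt a x) (i j : Fin d) : ContDiffAt ℝ ∞ (fun z => mtF a e z i j) (e x) := by
  have := INT.isManifold_real d M
  have h1 : (fun z => mtF a e z i j) = fun z => matL i j (loc e a z) := mat_fun i j _
  rw [h1]
  exact (matL i j).contDiff.contDiffAt.comp _ ((smAt_iff h.1 h.2).1 ha)

theorem ev_at {e : Chart d M} {x : M} (h : At e x) :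
    ∀ᶠ z in 𝓝 (e x), At e (e.symm z) ∧ e (e.symm z) = z := by
  filter_upwards [e.open_target.mem_nhds (e.map_source h.2)] with z hz
  exact ⟨⟨h.1, e.map_target hz⟩, e.right_inv hz⟩

theorem closed_mtF {a : M → Cm d [⋀^Fin 2]→L[ℝ] ℝ} (hs : ∀ x, SmAt a x) (ha : ∀ x, J11 (a x))
    (hc : ∀ x, dF a x = 0) : INT.IsClosedForm (mtF a) where
  smooth e x h := smooth_mtF h (hs x)
  form := isForm_mtF ha
  closed e x h i k l := by
    have := INT.isManifold_real d M
    refine mat_closed (((smAt_iff h.1 h.2).1 (hs x)).differentiableAt (by simp)) ?_ ?_ i k l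
    · filter_upwards [ev_at h] with z hz
      have h1 := j11_loc hz.1 (ha _)
      rwa [hz.2] at h1
    · rw [← loc_dF h.1 (e.map_source h.2) (hs _), loc, hc]
      rfl

theorem herm_mtF {a : M → Cm d [⋀^Fin 2]→L[ℝ] ℝ} (ha : ∀ x, J11 (a x)) (e : Chart d M) (x : M)
    (h : At e x) : (mtF a e (e x)).IsHermitian := (j11_loc h (ha x)).herm

theorem posDef_mtF {a : M → Cm d [⋀^Fin 2]→L[ℝ] ℝ} {e : Chart d M} {x : M} (h : At e x)
    (ha : J11 (a x)) (hp : ∀ u, u ≠ 0 → 0 < bl (a x) u (I • u)) : (mtF a e (e x)).PosDef := by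
  refine (j11_loc h ha).posDef fun u hu => ?_
  have h' : At (chartAt (Cm d) x) x := ⟨chart_mem_atlas _ _, mem_chart_source _ _⟩
  have h1 : bl (loc e a (e x)) u (I • u) = bl (a x) (jacM e (chartAt (Cm d) x) x *ᵥ u)
      (I • jacM e (chartAt (Cm d) x) x *ᵥ u) := by
    rw [loc_eq a h, ← mulVec_smul, ← fderiv_chg h h', ← fderiv_chg h h', bl, bl,
      compContinuousLinearMap_apply]
    congr 1
    funext i
    fin_cases i <;> rfl
  rw [h1]
  refine hp _ fun h0 => hu ?_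
  have h2 := jacM_isUnit h h'
  exact Matrix.eq_zero_of_mulVec_eq_zero h2.ne_zero h0

theorem kahler_mtF {a : M → Cm d [⋀^Fin 2]→L[ℝ] ℝ} (hs : ∀ x, SmAt a x) (ha : ∀ x, J11 (a x))
    (hc : ∀ x, dF a x = 0) (hp : ∀ x u, u ≠ 0 → 0 < bl (a x) u (I • u)) : IsKahler (mtF a) where
  smooth := (closed_mtF hs ha hc).smooth
  posDef _ x h := posDef_mtF h (ha x) (hp x)
  change := isForm_mtF ha
  closed e x h i j k := (closed_mtF hs ha hc).closed e x h k i j

/-- the two integrals agree -/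
theorem intForm_eq [T2Space M] [CompactSpace M] [IsManifold 𝓘(ℝ, Cm d) ∞ M] [PosAtlas (Cm d) M]
    [MeasurableSpace M] [BorelSpace M] (P : Pou (Cm d) M) {k : ℕ}
    (b : Module.Basis (Fin k) ℝ (Cm d)) {A : M → Cm d [⋀^Fin k]→L[ℝ] ℝ} (hA : ∀ x, SmAt A x) :
    intForm volume P b (show Form (Cm d) ℝ k M from A) = INT.intX fun e z => loc e A z b := by
  have h1 : DCont M fun (e : OpenPartialHomeomorph M (Cm d)) z =>
      cf b e (show Form (Cm d) ℝ k M from A) z := by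
    intro e he
    refine ContinuousOn.congr (f := fun z => loc e A z b) (fun z hz => ?_) fun z hz => ?_
    · have h2 := (smAt_iff he (e.map_target hz)).1 (hA (e.symm z))
      rw [e.right_inv hz] at h2
      exact ((ContinuousAlternatingMap.apply ℝ (Cm d) ℝ (b : Fin k → Cm d)).continuous.continuousAt.comp
        h2.continuousAt).continuousWithinAt
    · show cf b e (show Form (Cm d) ℝ k M from A) z = _
      rw [cf, H19.pull_eq_loc he A hz]
  have h2 := P.integrable_quo volume (isDens_cf b (show Form (Cm d) ℝ k M from A)) h1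
    isCompact_univ fun e he z hz hx => (hx (mem_univ _)).elim
  rw [intForm, P.integ_eq_sum volume (isDens_cf b _) h2 (INT.part d M).e (INT.part d M).mem
    (INT.part d M).ρ (INT.part d M).cont (fun i => ?_)
    (fun i => (subset_tsupport _).trans ((INT.part d M).supp i)) fun x _ => (INT.part d M).sum x,
    INT.intX]
  · refine Finset.sum_congr rfl fun i _ => ?_
    refine setIntegral_congr_fun ((INT.part d M).e i).open_target.measurableSet fun z hz => ?_
    show _ • cf b _ (show Form (Cm d) ℝ k M from A) z = _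
    rw [cf, H19.pull_eq_loc ((INT.part d M).mem i) A hz, smul_eq_mul]
  · refine ⟨1, fun x => ?_⟩
    rw [abs_of_nonneg ((INT.part d M).nonneg i x), ← (INT.part d M).sum x]
    exact Finset.single_le_sum (fun j _ => (INT.part d M).nonneg j x) (Finset.mem_univ i)

end mfd

end Vale.Agent.P277Z.Top.H38
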