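import Vale.Agent.P277Z.Val.RkA
import Vale.Agent.P277Z.Val.Ident
import Vale.Agent.P277.A.Basic

/-!
# P277, block TOP, row IRR: critical values, maps of rank one, discs
-/

open Set Filter Metric Topology
open Vale.Agent.P272.K Vale.Agent.P277
open Vale.Agent.P277.H762 (Cv)

noncomputable section

namespace Vale.Agent.P277Z.Top.Ir

open Val

theorem count_local {V W : Type*} [TopologicalSpace V] [SecondCountableTopology V] {S : Set V}
    {f : V → W} (h : ∀ x ∈ S, ∃ N ∈ 𝓝 x, (f '' (N ∩ S)).Countable) : (f '' S).Countable := by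
  choose! N hN hd using h
  obtain ⟨t, htT, htc, ht⟩ := TopologicalSpace.countable_cover_nhdsWithin
    (f := N) (s := S) fun p hp => mem_nhdsWithin_of_mem_nhds (hN p hp)
  refine (htc.biUnion fun p hp => hd p (htT hp)).mono ?_
  rintro _ ⟨x, hx, rfl⟩
  obtain ⟨p, hp, hxp⟩ := mem_iUnion₂.1 (ht hx)
  exact mem_iUnion₂.2 ⟨p, hp, x, ⟨hxp, hx⟩, rfl⟩

/-- the values at the points where the differential vanishes -/
theorem crit_cm {N : ℕ} : ∀ (k : ℕ) (F : Cm k → Cm N),
    (F '' {p | AnalyticAt ℂ F p ∧ fderiv ℂ F p = 0}).Countable := by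
  intro k
  induction k with
  | zero => exact fun F => (Set.subsingleton_of_subsingleton.countable).image F
  | succ k ih =>
    refine fun F => count_local fun q hq => ?_
    obtain ⟨r, hr, hB⟩ := Metric.eventually_nhds_iff_ball.1 hq.1.eventually_analyticAt
    refine ⟨ball q r, ball_mem_nhds q hr, ?_⟩
    by_cases h : ∃ q' ∈ ball q r, ∃ v i, fderiv ℂ F q' v i ≠ 0
    · obtain ⟨q', e1, v, i, e2⟩ := h
      obtain ⟨Ω, g, -, h2, h3⟩ := Rk.cv_zero (c := fun z => fderiv ℂ F z v i) (fun z hz =>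
        analyticAt_pi_iff.1 (((ContinuousLinearMap.apply ℂ (Cm N) v).analyticAt _).comp
          (hB z hz).fderiv) i) e1 e2
      refine (countable_iUnion fun l => ih fun p => F (g l p)).mono ?_
      rintro _ ⟨z, ⟨h4, h5, h6⟩, rfl⟩
      obtain ⟨l, p, h7, rfl⟩ := mem_iUnion.1 (h3 ⟨h4, by simp [h6]⟩)
      refine mem_iUnion.2 ⟨l, p, ⟨h5.comp (h2 l p h7), ?_⟩, rfl⟩
      have := fderiv_comp p h5.differentiableAt (h2 l p h7).differentiableAt
      rw [h6, ContinuousLinearMap.zero_comp] at this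
      exact this
    · push Not at h
      refine (countable_singleton (F q)).mono ?_
      rintro _ ⟨z, hz, rfl⟩
      refine isOpen_ball.is_const_of_fderiv_eq_zero (𝕜 := ℂ) (convex_ball q r).isPreconnected
        (fun y hy => (hB y hy).differentiableAt.differentiableWithinAt)
        (fun y hy => ?_) hz.1 (mem_ball_self hr)
      ext v i
      exact h y hy _ i

/-- a map of rank one factors through a submersion -/
theorem factor {d N : ℕ} {F : Cm d → Cm N} {T : Cm d → ℂ} {a : Cm d} (hF : AnalyticAt ℂ F a)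
    (hT : AnalyticAt ℂ T a) (h0 : fderiv ℂ T a ≠ 0)
    (hr : ∀ i, ∃ S : Set (Cm 2), Cv 1 S ∧ ∀ᶠ z in 𝓝 a, ![T z, F z i] ∈ S) :
    ∃ γ : ℂ → Cm d, AnalyticAt ℂ γ (T a) ∧ γ (T a) = a ∧ (∀ᶠ s in 𝓝 (T a), T (γ s) = s) ∧
      ∀ᶠ z in 𝓝 a, F (γ (T z)) = F z := by
  set l := fderiv ℂ T a with hl
  obtain ⟨v, hv⟩ : ∃ v, l v = 1 := by
    obtain ⟨v, hv⟩ := DFunLike.ne_iff.1 h0
    exact ⟨(l v)⁻¹ • v, by rw [map_smul]; exact inv_mul_cancel₀ hv⟩
  set Ψ : Cm d → Cm d := fun z => z + (T z - l z) • v with hΨ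
  have h1 : AnalyticAt ℂ Ψ a := analyticAt_id.add ((hT.sub (l.analyticAt a)).smul analyticAt_const)
  have h2 : ∀ z, l (Ψ z) = T z := fun z => by simp [hΨ, hv]
  have h3 : HasFDerivAt Ψ (ContinuousLinearMap.id ℂ (Cm d)) a := by
    refine ((hasFDerivAt_id a).add ((hT.differentiableAt.hasFDerivAt.sub
      l.hasFDerivAt).smul_const v)).congr_fderiv ?_
    ext1 w
    simp [hl]
  obtain ⟨θ, t1, t2, t3, t4⟩ :=
    (locIso_of_inj h1 (by rw [h3.fderiv]; exact Function.injective_id)).exists_inv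
  set b := Ψ a
  have hθ : Tendsto θ (𝓝 b) (𝓝 a) := t2 ▸ t1.1.continuousAt.tendsto
  have hG : AnalyticAt ℂ (fun w => F (θ w)) b := AnalyticAt.comp (t2.symm ▸ hF) t1.1
  have h4 : ∀ᶠ w in 𝓝 b, T (θ w) = l w := t4.mono fun w hw => by rw [← h2, hw]
  choose S h5 h6 using hr
  have h7 : ∀ᶠ w in 𝓝 b, DifferentiableAt ℂ (fun w => F (θ w)) w ∧
      ∀ u, l u = 0 → fderiv ℂ (fun w => F (θ w)) w u = 0 := by
    filter_upwards [hG.eventually_analyticAt, h4.eventually_nhds,
      (hθ.eventually (eventually_all.2 h6)).eventually_nhds] with w k1 k2 k3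
    refine ⟨k1.differentiableAt, fun u hu => funext fun i => by_contra fun k4 => ?_⟩
    set D := fderiv ℂ (fun w => F (θ w)) w
    have k5 : HasStrictFDerivAt (fun w => (![l w, F (θ w) i] : Cm 2))
        (ContinuousLinearMap.pi ![l, (ContinuousLinearMap.proj i).comp D]) w :=
      hasStrictFDerivAt_pi.2 (Fin.forall_fin_two.2 ⟨l.hasStrictFDerivAt,
        hasStrictFDerivAt_pi'.1 k1.hasStrictFDerivAt i⟩)
    have k6 := k5.map_nhds_eq_of_surj (LinearMap.range_eq_top.2 fun z =>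
      ⟨z 0 • v + ((z 1 - z 0 * D v i) / D u i) • u, funext (Fin.forall_fin_two.2
        ⟨by simp [hv, hu], by
          have k7 : D u i ≠ 0 := k4
          simp [k7]⟩)⟩)
    refine (nul_of_cv (h5 i)).not_nhds _ (k6.ge (mem_map.2 ?_))
    filter_upwards [k2, k3] with w' a1 a2 using (a1 ▸ a2 i :)
  obtain ⟨ρ, hρ, h8⟩ := Metric.eventually_nhds_iff_ball.1 h7
  have h9 : ∀ w ∈ ball b ρ, ∀ w' ∈ ball b ρ, l w = l w' → F (θ w') = F (θ w) := by
    intro w hw w' hw' e
    have k1 := norm_image_sub_le_of_norm_deriv_le_segment_01' (C := 0)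
      (f := fun t : ℝ => F (θ (w + t • (w' - w)))) (f' := fun _ => 0) (fun t ht => by
        obtain ⟨k2, k3⟩ := h8 _ ((convex_ball b ρ).add_smul_sub_mem hw hw' ht)
        have k4 : HasDerivAt (fun t : ℝ => w + t • (w' - w)) (w' - w) t := by
          simpa using ((hasDerivAt_id t).smul_const (w' - w)).const_add w
        have k5 := (k2.hasFDerivAt.restrictScalars ℝ).comp_hasDerivAt t k4
        rw [ContinuousLinearMap.coe_restrictScalars', k3 _ (by rw [map_sub, e, sub_self])] at k5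
        exact k5.hasDerivWithinAt) (by simp)
    simpa [sub_eq_zero] using k1
  have h10 : AnalyticAt ℂ (fun s : ℂ => b + (s - T a) • v) (T a) := by fun_prop
  have h11 : b + (T a - T a) • v = b := by simp
  have h12 : Tendsto (fun s : ℂ => b + (s - T a) • v) (𝓝 (T a)) (𝓝 b) := by
    simpa using h10.continuousAt.tendsto
  have h13 : ∀ s, l (b + (s - T a) • v) = s := fun s => by simp [h2, hv, b]
  refine ⟨fun s => θ (b + (s - T a) • v), AnalyticAt.comp (h11.symm ▸ t1.1) h10,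
    (congrArg θ h11).trans t2,
    (h12.eventually h4).mono fun s hs => hs.trans (h13 s), ?_⟩
  filter_upwards [t3, h1.continuousAt.eventually (ball_mem_nhds _ hρ),
    (h12.comp hT.continuousAt).eventually (ball_mem_nhds _ hρ)] with z k1 k2 k3
  exact (h9 _ k2 _ k3 ((h2 z).trans (h13 _).symm)).trans (congrArg F k1)

variable {Y : CSp}

theorem cv_of_dim {k m : ℕ} {R : Set Y.pt} (h : DimLe Y k R) (w : Fin m → Y.pt → ℂ) :
    Cv k ((fun y a => w a y) '' {y ∈ R | ∀ a, Y.Hol (w a) y}) := by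
  obtain ⟨Ω, g, h1, h2, h3⟩ := h
  refine ⟨fun l => {p ∈ Ω l | ∀ a, Y.Hol (w a) (g l p)}, fun l p a => w a (g l p), fun l =>
    isOpen_iff_mem_nhds.2 fun p hp => ?_, fun l p hp =>
      AnalyticAt.pi fun a => (h2 l p hp.1).analyticAt (hp.2 a), ?_⟩
  · exact inter_mem ((h1 l).mem_nhds hp.1)
      ((h2 l p hp.1).1.eventually (eventually_all.2 fun a => hol_eventually (hp.2 a)))
  · rintro _ ⟨y, hy, rfl⟩
    obtain ⟨l, p, hp, rfl⟩ := mem_iUnion.1 (h3 hy.1)
    exact mem_iUnion.2 ⟨l, p, ⟨hp, hy.2⟩, rfl⟩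

/-- the germ of a disc through `y` -/
structure Dsc (y : Y.pt) (t : Y.pt → ℂ) (g : ℂ → Y.pt) : Prop where
  hol : Y.Hol t y
  eq : g (t y) = y
  cont : ContinuousAt g (t y)
  an : ∀ h, Y.Hol h y → AnalyticAt ℂ (fun s => h (g s)) (t y)
  inv : ∀ᶠ s in 𝓝 (t y), t (g s) = s

variable {y : Y.pt} {t : Y.pt → ℂ} {g : ℂ → Y.pt} {B B' : Set Y.pt}

theorem Dsc.tend (h : Dsc y t g) : Tendsto g (𝓝 (t y)) (𝓝 y) := by
  simpa only [h.eq] using h.cont.tendsto

theorem Dsc.tend' (h : Dsc y t g) : Tendsto (fun y => g (t y)) (𝓝 y) (𝓝 y) :=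
  h.tend.comp (hol_continuousAt h.hol)

theorem Dsc.near (h : Dsc y t g) : ∀ᶠ s in 𝓝 (t y), t (g s) = s ∧ Dsc (g s) t g := by
  have h1 : HolAt Y (fun p : Cm 1 => g (p 0)) fun _ => t y :=
    ⟨h.cont.comp (f := fun p : Cm 1 => p 0) (continuous_apply 0).continuousAt, fun f hf =>
      AnalyticAt.comp (g := fun s => f (g s)) (f := fun p : Cm 1 => p 0) (h.an f (h.eq ▸ hf))
        (an_coord 0 _)⟩
  have h2 : ∀ s, AnalyticAt ℂ (fun (s : ℂ) (_ : Fin 1) => s) s := fun s =>
    AnalyticAt.pi fun _ => analyticAt_id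
  filter_upwards [(h2 _).continuousAt.eventually h1.eventually, h.inv.eventually_nhds,
    h.tend.eventually (hol_eventually h.hol)] with s k1 k2 k3
  have k4 := k2.self_of_nhds
  refine ⟨k4, k3, by rw [k4], ?_, fun f hf => ?_, by rwa [k4]⟩ <;> rw [k4]
  · exact k1.1.comp (f := fun (s : ℂ) (_ : Fin 1) => s) (h2 s).continuousAt
  · exact (k1.2 f hf).comp (f := fun (s : ℂ) (_ : Fin 1) => s) (h2 s)

/-- every disc through `y` is contained in `B` or meets `B` at most in `y` -/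
def Dich (B : Set Y.pt) (y : Y.pt) : Prop :=
  ∀ t g, Dsc y t g → (∀ᶠ s in 𝓝 (t y), g s ∈ B) ∨ ∀ᶠ s in 𝓝[≠] (t y), g s ∉ B

theorem Dich.congr (h : Dich B y) (e : ∀ᶠ z in 𝓝 y, z ∈ B' ↔ z ∈ B) : Dich B' y := fun t g k =>
  (h t g k).imp (fun a => (a.and (k.tend.eventually e)).mono fun _ b => b.2.2 b.1) fun a =>
    (a.and ((k.tend.eventually e).filter_mono nhdsWithin_le_nhds)).mono fun _ b c => b.1 (b.2.1 c)

theorem dich_zero {ι : Type} [Finite ι] {h : ι → Y.pt → ℂ} (h1 : ∀ i, Y.Hol (h i) y) :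
    Dich {z | ∀ i, h i z = 0} y := fun t g k => by
  by_cases e : ∀ i, ∀ᶠ s in 𝓝 (t y), h i (g s) = 0
  · exact .inl (eventually_all.2 e)
  · obtain ⟨i, hi⟩ := not_forall.1 e
    exact .inr (((k.an _ (h1 i)).eventually_eq_zero_or_eventually_ne_zero.resolve_left hi).mono
      fun _ a b => a (b i))

theorem dich_ex {J : Type} [Finite J] {D : J → Set Y.pt} (h : ∀ j, Dich (D j) y) :
    Dich {z | ∃ j, z ∈ D j} y := fun t g k => by
  by_cases e : ∃ j, ∀ᶠ s in 𝓝 (t y), g s ∈ D j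
  · exact .inl (e.elim fun j a => a.mono fun _ b => ⟨j, b⟩)
  · exact .inr ((eventually_all.2 fun j => (h j t g k).resolve_left fun a => e ⟨j, a⟩).mono
      fun _ a b => b.elim a)

theorem Dsc.dich (h : Dsc y t g) : Dich {z | g (t z) = z} y := by
  obtain ⟨N, V, u, hx, hu⟩ := exists_isCoord Y y
  refine (dich_zero (h := fun i z => u i (g (t z)) - u i z) fun i => hol_sub
    (hol_comp₁ (G := fun s => u i (g s)) h.hol (h.an _ (hu.hol i y hx))) (hu.hol i y hx)).congr ?_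
  filter_upwards [hu.isOpen.mem_nhds hx, h.tend'.eventually (hu.isOpen.mem_nhds hx)] with z k1 k2
  exact ⟨fun e i => by rw [e, sub_self], fun e =>
    hu.injOn k2 k1 (funext fun i => sub_eq_zero.1 (e i))⟩

/-- off `y` a finite union of discs through `y` is locally one disc -/
theorem one_disc {J : Type} [Finite J] {t : J → Y.pt → ℂ} {g : J → ℂ → Y.pt}
    (h : ∀ j, Dsc y (t j) (g j)) : ∀ᶠ z in 𝓝 y, z ≠ y → ∀ i, g i (t i z) = z →
      Dsc z (t i) (g i) ∧ ∀ᶠ w in 𝓝 z, (∃ j, g j (t j w) = w) ↔ g i (t i w) = w := by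
  have h1 : ∀ j i, ∀ᶠ z in 𝓝 y, z ≠ y → g j (t j z) = z → g i (t i z) = z →
      ∀ᶠ w in 𝓝 z, g j (t j w) = w → g i (t i w) = w := fun j i => by
    have c := hol_continuousAt (h j).hol
    rcases (h i).dich _ _ (h j) with k | k
    · exact (c.eventually k).eventually_nhds.mono fun z a _ _ _ => a.mono fun w b e => e ▸ b
    · filter_upwards [c.eventually (eventually_nhdsWithin_iff.1 k)] with z a b e e'
      refine (a (fun e'' => b ?_) (by rwa [e])).elim
      rw [← e, show t j z = t j y from e'', (h j).eq]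
  filter_upwards [eventually_all.2 fun j => eventually_all.2 (h1 j), eventually_all.2 fun j =>
    ((hol_continuousAt (h j).hol).eventually (h j).near).and (hol_eventually (h j).hol)]
    with z k1 k2 k3 i k4
  refine ⟨k4 ▸ (k2 i).1.2, ?_⟩
  have k5 : ∀ j, ∀ᶠ w in 𝓝 z, g j (t j w) = w → g i (t i w) = w := fun j => by
    by_cases e : g j (t j z) = z
    · exact k1 j i k3 e k4
    · have c : ContinuousAt (fun w => g j (t j w)) z :=
        ((k2 j).1.1 ▸ (k2 j).1.2.cont :).comp (hol_continuousAt (k2 j).2)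
      exact (c.ne_iff_eventually_ne continuousAt_id).1 e |>.mono fun _ a b => (a b).elim
  exact (eventually_all.2 k5).mono fun w a => ⟨fun b => b.elim a, fun b => ⟨i, b⟩⟩

end Vale.Agent.P277Z.Top.Ir
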