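import Vale.Agent.P267.H823.PL1

/-!
# P277, block TOP, Poincare-Lelong: the approximate identity on `ℂ × ℂ^d`
-/

open Filter hiding ker
open Topology MeasureTheory Set
open scoped Real
open Vale.Agent.P267.H823.PL (ker ker_nonneg ker_le integrable_bound integral_ker)

namespace Vale.Agent.P277Z.Top.PL

/-- **Approximate identity.** -/
theorem tendsto_kernel {d : ℕ} {H : ℂ × (Fin d → ℂ) → ℂ} {θ : ℂ × (Fin d → ℂ) → ℝ} {W : Set (ℂ × (Fin d → ℂ))} (hW : IsOpen W)
    (hH : Continuous H) (hc : HasCompactSupport H) (hHW : tsupport H ⊆ W)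
    (hθ : ContinuousOn θ W) (hpos : ∀ y ∈ W, 0 < θ y) :
    Tendsto (fun ε : ℝ => ∫ y : ℂ × (Fin d → ℂ), ((ε * θ y / (‖y.1‖ ^ 2 * θ y + ε) ^ 2 : ℝ) : ℂ) * H y)
      (𝓝[>] 0) (𝓝 (π * ∫ w : Fin d → ℂ, H (0, w))) := by
  -- bounds on the support
  obtain ⟨B, hB⟩ := hc.exists_bound_of_continuousOn hH.continuousOn
  have hB' : ∀ y, ‖H y‖ ≤ |B| := by
    intro y
    by_cases hy : y ∈ tsupport H
    · exact (hB y hy).trans (le_abs_self B)
    · rw [image_eq_zero_of_notMem_tsupport hy, norm_zero]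
      exact abs_nonneg B
  have hK : IsCompact (tsupport H) := hc
  obtain ⟨c, hc0, hcθ⟩ : ∃ c > 0, ∀ y ∈ tsupport H, c ≤ θ y := by
    rcases (tsupport H).eq_empty_or_nonempty with h | h
    · exact ⟨1, one_pos, fun y hy => by rw [h] at hy; exact hy.elim⟩
    · obtain ⟨y0, hy0, hmin⟩ := hK.exists_isMinOn h (hθ.mono hHW)
      exact ⟨θ y0, hpos y0 (hHW hy0), fun y hy => hmin hy⟩
  obtain ⟨C, hC0, hCθ⟩ : ∃ C : ℝ, 0 ≤ C ∧ ∀ y ∈ tsupport H, θ y ≤ C := by
    obtain ⟨C, hC⟩ := hK.exists_bound_of_continuousOn (hθ.mono hHW)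
    exact ⟨|C|, abs_nonneg C, fun y hy => (le_abs_self _).trans ((hC y hy).trans (le_abs_self C))⟩
  -- a bound for the second variable
  obtain ⟨R, hR⟩ := hK.isBounded.subset_ball (0 : ℂ × (Fin d → ℂ))
  have hsupp2 : ∀ (z : ℂ) (w : Fin d → ℂ), R ≤ ‖w‖ → H (z, w) = 0 := by
    intro z w hw
    by_contra hne
    have h1 := hR (subset_tsupport H hne)
    rw [mem_ball_zero_iff, Prod.norm_def] at h1
    exact absurd (lt_of_le_of_lt (le_max_right _ _) h1) (not_lt.2 hw)
  -- the integrand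
  set G : ℝ → ℂ × (Fin d → ℂ) → ℂ := fun ε y =>
    ((ε * θ y / (‖y.1‖ ^ 2 * θ y + ε) ^ 2 : ℝ) : ℂ) * H y with hG
  have hGcont : ∀ ε > 0, Continuous (G ε) := by
    intro ε hε
    rw [continuous_iff_continuousAt]
    intro y
    by_cases hy : y ∈ W
    · have h1 : ContinuousAt θ y := hθ.continuousAt (hW.mem_nhds hy)
      refine ContinuousAt.mul ?_ hH.continuousAt
      refine Complex.continuous_ofReal.continuousAt.comp ?_
      refine ContinuousAt.div (by fun_prop) (by fun_prop) ?_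
      have := hpos y hy
      positivity
    · have hy' : y ∉ tsupport H := fun h => hy (hHW h)
      have h1 : G ε =ᶠ[𝓝 y] fun _ => 0 := by
        filter_upwards [(isClosed_tsupport H).isOpen_compl.mem_nhds hy'] with x hx
        simp only [hG, image_eq_zero_of_notMem_tsupport hx, mul_zero]
      exact h1.continuousAt
  have hGcs : ∀ ε, HasCompactSupport (G ε) := fun ε =>
    hc.mul_left
  -- the scaled integrand
  set J : ℝ → (Fin d → ℂ) → ℂ → ℂ := fun s w ζ =>
    ((ker (θ (s • ζ, w)) ‖ζ‖ : ℝ) : ℂ) * H (s • ζ, w) with hJ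
  have hscale : ∀ ε > 0, ∀ w, ∫ ζ, G ε (ζ, w) = ∫ ζ, J (√ε) w ζ := by
    intro ε hε w
    have h1 := Measure.integral_comp_smul (volume : Measure ℂ) (fun ζ => G ε (ζ, w)) (√ε)
    have hs : √ε ^ 2 = ε := Real.sq_sqrt hε.le
    rw [Complex.finrank_real_complex, hs, abs_of_pos (by positivity)] at h1
    have h2 : ∫ ζ, G ε (ζ, w) = ε • ∫ ζ, G ε (√ε • ζ, w) := by
      rw [h1, smul_smul, mul_inv_cancel₀ hε.ne', one_smul]
    rw [h2, ← integral_smul]
    congr 1
    funext ζ
    simp only [hG, hJ, ker]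
    rw [norm_smul, mul_pow, Real.norm_eq_abs, sq_abs, hs, Complex.real_smul, ← mul_assoc,
      ← Complex.ofReal_mul]
    congr 2
    have h3 : ε * ‖ζ‖ ^ 2 * θ (√ε • ζ, w) + ε = ε * (‖ζ‖ ^ 2 * θ (√ε • ζ, w) + 1) := by ring
    rw [h3]
    generalize ‖ζ‖ ^ 2 * θ (√ε • ζ, w) + 1 = X
    generalize θ (√ε • ζ, w) = T
    by_cases h4 : X = 0
    · simp [h4]
    · field_simp
  -- domination
  have hdom : ∀ s w ζ, ‖J s w ζ‖ ≤ |B| * (C * (1 / (‖ζ‖ ^ 2 * c + 1) ^ 2)) := by
    intro s w ζ
    by_cases hy : (s • ζ, w) ∈ tsupport H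
    · have h1 := hcθ _ hy
      have h2 := hCθ _ hy
      simp only [hJ]
      rw [norm_mul, Complex.norm_real, Real.norm_of_nonneg (ker_nonneg (hc0.le.trans h1) _),
        mul_comm |B|]
      exact mul_le_mul (ker_le hc0 h1 h2 _) (hB' _) (norm_nonneg _)
        ((ker_nonneg (hc0.le.trans h1) _).trans (ker_le hc0 h1 h2 _))
    · simp only [hJ, image_eq_zero_of_notMem_tsupport hy, mul_zero, norm_zero]
      positivity
  -- the inner limit
  have hinner : ∀ w, Tendsto (fun ε : ℝ => ∫ ζ, J (√ε) w ζ) (𝓝[>] 0) (𝓝 (π * H (0, w))) := by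
    intro w
    have hs0 : Tendsto (fun ε : ℝ => √ε) (𝓝[>] 0) (𝓝 0) := by
      have h1 : Tendsto (fun ε : ℝ => √ε) (𝓝 0) (𝓝 (√0)) := Real.continuous_sqrt.tendsto 0
      rw [Real.sqrt_zero] at h1
      exact h1.mono_left nhdsWithin_le_nhds
    have hlim : ∀ ζ, Tendsto (fun ε : ℝ => J (√ε) w ζ) (𝓝[>] 0)
        (𝓝 (((ker (θ (0, w)) ‖ζ‖ : ℝ) : ℂ) * H (0, w))) := by
      intro ζ
      have h1 : Tendsto (fun ε : ℝ => (√ε • ζ, w)) (𝓝[>] 0) (𝓝 (0, w)) := by
        have h2 : Tendsto (fun ε : ℝ => √ε • ζ) (𝓝[>] 0) (𝓝 0) := by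
          have := hs0.smul_const ζ
          rwa [zero_smul] at this
        exact h2.prodMk_nhds tendsto_const_nhds
      by_cases hw : ((0 : ℂ), w) ∈ W
      · have h2 : ContinuousAt θ (0, w) := hθ.continuousAt (hW.mem_nhds hw)
        have h3 : ContinuousAt (fun y => ((ker (θ y) ‖ζ‖ : ℝ) : ℂ) * H y) (0, w) := by
          refine ContinuousAt.mul ?_ hH.continuousAt
          refine Complex.continuous_ofReal.continuousAt.comp ?_
          unfold ker
          refine ContinuousAt.div (by fun_prop) (by fun_prop) ?_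
          have := hpos _ hw
          positivity
        exact h3.tendsto.comp h1
      · have hy' : ((0 : ℂ), w) ∉ tsupport H := fun h => hw (hHW h)
        have h2 : ∀ᶠ y in 𝓝 ((0 : ℂ), w), H y = 0 := by
          filter_upwards [(isClosed_tsupport H).isOpen_compl.mem_nhds hy'] with x hx
          exact image_eq_zero_of_notMem_tsupport hx
        have h3 : ∀ᶠ ε : ℝ in 𝓝[>] 0, J (√ε) w ζ = 0 := by
          filter_upwards [h1.eventually h2] with ε hε
          simp only [hJ, hε, mul_zero]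
        rw [h2.self_of_nhds, mul_zero]
        exact tendsto_const_nhds.congr' (h3.mono fun ε h => h.symm)
    have hval : ∫ ζ : ℂ, ((ker (θ (0, w)) ‖ζ‖ : ℝ) : ℂ) * H (0, w) = π * H (0, w) := by
      rw [integral_mul_const]
      by_cases hw : ((0 : ℂ), w) ∈ W
      · rw [integral_complex_ofReal, integral_ker (hpos _ hw)]
      · rw [image_eq_zero_of_notMem_tsupport fun h => hw (hHW h), mul_zero, mul_zero]
    rw [← hval]
    refine tendsto_integral_filter_of_dominated_convergence
      (fun ζ => |B| * (C * (1 / (‖ζ‖ ^ 2 * c + 1) ^ 2))) ?_ ?_ ?_ ?_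
    · filter_upwards [self_mem_nhdsWithin] with ε hε
      have hε' : (0 : ℝ) < ε := hε
      have h1 : J (√ε) w = fun ζ => (ε : ℂ) * G ε (√ε • ζ, w) := by
        funext ζ
        have hs : √ε ^ 2 = ε := Real.sq_sqrt hε'.le
        simp only [hG, hJ, ker]
        rw [norm_smul, mul_pow, Real.norm_eq_abs, sq_abs, hs, ← mul_assoc, ← Complex.ofReal_mul]
        congr 2
        have h3 : ε * ‖ζ‖ ^ 2 * θ (√ε • ζ, w) + ε = ε * (‖ζ‖ ^ 2 * θ (√ε • ζ, w) + 1) := by ring
        rw [h3]
        generalize ‖ζ‖ ^ 2 * θ (√ε • ζ, w) + 1 = X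
        generalize θ (√ε • ζ, w) = T
        by_cases h4 : X = 0
        · simp [h4]
        · field_simp
      rw [h1]
      refine Continuous.aestronglyMeasurable ?_
      exact continuous_const.mul ((hGcont ε hε').comp (by fun_prop))
    · exact Eventually.of_forall fun ε => Eventually.of_forall fun ζ => hdom _ _ _
    · exact ((integrable_bound hc0).const_mul C).const_mul |B|
    · exact Eventually.of_forall hlim
  -- the outer integral
  have houter : ∀ ε > 0, ∫ y, G ε y = ∫ w, ∫ ζ, J (√ε) w ζ := by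
    intro ε hε
    have h1 : Integrable (G ε) ((volume : Measure ℂ).prod (volume : Measure (Fin d → ℂ))) :=
      (hGcont ε hε).integrable_of_hasCompactSupport (hGcs ε)
    have h2 := integral_prod_symm (G ε) h1
    rw [← Measure.volume_eq_prod] at h2
    rw [h2]
    congr 1
    funext w
    exact hscale ε hε w
  set K0 : ℝ := ∫ ζ : ℂ, |B| * (C * (1 / (‖ζ‖ ^ 2 * c + 1) ^ 2)) with hK0
  have hbd : ∀ s w, ‖∫ ζ, J s w ζ‖ ≤ (Metric.closedBall (0 : Fin d → ℂ) R).indicator (fun _ => K0) w := by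
    intro s w
    by_cases hw : w ∈ Metric.closedBall (0 : Fin d → ℂ) R
    · rw [indicator_of_mem hw]
      exact norm_integral_le_of_norm_le (((integrable_bound hc0).const_mul C).const_mul |B|)
        (Eventually.of_forall fun ζ => hdom _ _ _)
    · rw [indicator_of_notMem hw]
      have h1 : ∀ ζ, J s w ζ = 0 := by
        intro ζ
        simp only [hJ]
        rw [hsupp2 _ w, mul_zero]
        rw [mem_closedBall_zero_iff, not_le] at hw
        exact hw.le
      simp [h1]
  have hlim : Tendsto (fun ε : ℝ => ∫ w, ∫ ζ, J (√ε) w ζ) (𝓝[>] 0)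
      (𝓝 (∫ w, π * H (0, w))) := by
    refine tendsto_integral_filter_of_dominated_convergence
      ((Metric.closedBall (0 : Fin d → ℂ) R).indicator fun _ => K0) ?_ ?_ ?_ ?_
    · filter_upwards [self_mem_nhdsWithin] with ε hε
      have hε' : (0 : ℝ) < ε := hε
      have h1 : Integrable (G ε) ((volume : Measure ℂ).prod (volume : Measure (Fin d → ℂ))) :=
        (hGcont ε hε').integrable_of_hasCompactSupport (hGcs ε)
      have h2 := h1.integral_prod_right.aestronglyMeasurable
      refine h2.congr (Eventually.of_forall fun w => ?_)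
      exact hscale ε hε' w
    · exact Eventually.of_forall fun ε => Eventually.of_forall fun w => hbd _ _
    · refine (integrable_indicator_iff measurableSet_closedBall).2 ?_
      exact integrableOn_const (by
        exact (isCompact_closedBall (0 : Fin d → ℂ) R).measure_lt_top.ne)
    · exact Eventually.of_forall hinner
  rw [integral_const_mul] at hlim
  refine hlim.congr' ?_
  filter_upwards [self_mem_nhdsWithin] with ε hε
  exact (houter ε hε).symm

end Vale.Agent.P277Z.Top.PL
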