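import Vale.Agent.P277Z.Top.PL1
import Vale.Agent.P267.H928.Int.Cplx
import Vale.Agent.P267.H62.Str
import Mathlib.MeasureTheory.Function.Jacobian

/-!
# P277, block TOP, Poincare-Lelong: the limits in coordinates
-/

open scoped ContDiff Real
open MeasureTheory Set Filter Topology

noncomputable section

namespace Vale.Agent.P277Z.Top.PL

variable {d : ℕ}

/-- absolute value of the real Jacobian -/
def adet (σ : (Fin d → ℂ) → (Fin d → ℂ)) (y : Fin d → ℂ) : ℝ := |(fderiv ℝ σ y).det|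

theorem continuousOn_adet {σ : (Fin d → ℂ) → (Fin d → ℂ)} {S : Set (Fin d → ℂ)} (hS : IsOpen S)
    (hσ : DifferentiableOn ℂ σ S) : ContinuousOn (adet σ) S := by
  have h1 : ContDiffOn ℝ 1 σ S :=
    (P268.contDiffOn_of_differentiableOn hS hσ 1).restrict_scalars ℝ
  have h2 : ContinuousOn (fderiv ℝ σ) S := h1.continuousOn_fderiv_of_isOpen hS le_rfl
  exact (ContinuousLinearMap.continuous_det.comp_continuousOn h2).abs

/-- the isomorphism `ℂ × ℂ^d ≃ ℂ^(d+1)` -/
def iot (d : ℕ) : (ℂ × (Fin d → ℂ)) ≃L[ℂ] (Fin (d + 1) → ℂ) :=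
  Fin.consEquivL ℂ (fun _ : Fin (d + 1) => ℂ)

theorem iot_apply (p : ℂ × (Fin d → ℂ)) : iot d p = Fin.cons p.1 p.2 := rfl

theorem iot_zero (p : ℂ × (Fin d → ℂ)) : iot d p 0 = p.1 := rfl

theorem iot_succ (p : ℂ × (Fin d → ℂ)) (i : Fin d) : iot d p i.succ = p.2 i := rfl

theorem integral_iot (f : (Fin (d + 1) → ℂ) → ℝ) :
    ∫ y, f y = ∫ p : ℂ × (Fin d → ℂ), f (iot d p) := by
  have h := (volume_preserving_piFinSuccAbove (fun _ : Fin (d + 1) => ℂ) 0).symm
  have h2 := h.integral_comp' (g := f)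
  rw [← h2]
  refine integral_congr_ae (Eventually.of_forall fun p => ?_)
  simp only [MeasurableEquiv.piFinSuccAbove_symm_apply, Fin.insertNthEquiv, Equiv.coe_fn_mk,
    Fin.insertNth_zero']
  rfl

/-- real form of the approximate identity -/
theorem tendsto_kernelR {H : ℂ × (Fin d → ℂ) → ℝ} {θ : ℂ × (Fin d → ℂ) → ℝ}
    {W : Set (ℂ × (Fin d → ℂ))} (hW : IsOpen W)
    (hH : Continuous H) (hc : HasCompactSupport H) (hHW : tsupport H ⊆ W)
    (hθ : ContinuousOn θ W) (hpos : ∀ y ∈ W, 0 < θ y) :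
    Tendsto (fun ε : ℝ => ∫ y : ℂ × (Fin d → ℂ), ε * θ y / (‖y.1‖ ^ 2 * θ y + ε) ^ 2 * H y)
      (𝓝[>] 0) (𝓝 (π * ∫ w : Fin d → ℂ, H (0, w))) := by
  have hs : Function.support (fun y => (H y : ℂ)) = Function.support H := by
    ext y; simp
  have hts : tsupport (fun y => (H y : ℂ)) = tsupport H := by
    rw [tsupport, tsupport, hs]
  have key := tendsto_kernel (H := fun y => (H y : ℂ)) hW (Complex.continuous_ofReal.comp hH)
    (by rw [HasCompactSupport, hts]; exact hc) (by rw [hts]; exact hHW) hθ hpos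
  have h2 := (Complex.continuous_re.tendsto _).comp key
  have h3 : (π * ∫ w : Fin d → ℂ, (H (0, w) : ℂ)).re = π * ∫ w : Fin d → ℂ, H (0, w) := by
    rw [integral_complex_ofReal, ← Complex.ofReal_mul, Complex.ofReal_re]
  rw [h3] at h2
  refine h2.congr fun ε => ?_
  simp only [Function.comp_apply]
  simp_rw [← Complex.ofReal_mul]
  rw [integral_complex_ofReal, Complex.ofReal_re]

theorem tendsto_flat {κ : OpenPartialHomeomorph (Fin (d + 1) → ℂ) (Fin (d + 1) → ℂ)}
    (hκs : DifferentiableOn ℂ κ.symm κ.target) {g : (Fin (d + 1) → ℂ) → ℂ}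
    (hg : ∀ z ∈ κ.source, κ z 0 = g z)
    {θ : (Fin (d + 1) → ℂ) → ℝ} (hθ : ContinuousOn θ κ.source) (hpos : ∀ z ∈ κ.source, 0 < θ z)
    {q : (Fin (d + 1) → ℂ) → ℝ} (hq : ContinuousOn q κ.source)
    {K : Set (Fin (d + 1) → ℂ)} (hK : IsCompact K) (hKs : K ⊆ κ.source)
    (hq0 : ∀ z ∈ κ.source, z ∉ K → q z = 0) :
    Tendsto (fun ε : ℝ => ∫ z in κ.source, ε * θ z / (‖g z‖ ^ 2 * θ z + ε) ^ 2 * q z)
      (𝓝[>] 0) (𝓝 (π * ∫ w in {w : Fin d → ℂ | iot d (0, w) ∈ κ.target},
        adet κ.symm (iot d (0, w)) * q (κ.symm (iot d (0, w))))) := by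
  set S := κ.target with hS
  have hSo : IsOpen S := κ.open_target
  set σ := κ.symm with hσ
  set L : Set (ℂ × (Fin d → ℂ)) := iot d ⁻¹' (κ '' K) with hL
  have hLc : IsCompact L := by
    have h1 : IsCompact ((iot d).toHomeomorph ⁻¹' (κ '' K)) := by
      rw [(iot d).toHomeomorph.isCompact_preimage]
      exact hK.image_of_continuousOn (κ.continuousOn.mono hKs)
    exact h1
  set W : Set (ℂ × (Fin d → ℂ)) := iot d ⁻¹' S with hW
  have hWo : IsOpen W := hSo.preimage (iot d).continuous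
  have hLW : L ⊆ W := by
    rintro p ⟨z, hz, hzp⟩
    rw [hW, mem_preimage, ← hzp]
    exact κ.map_source (hKs hz)
  set H : ℂ × (Fin d → ℂ) → ℝ := W.indicator (fun p => adet σ (iot d p) * q (σ (iot d p))) with hH
  have hH0 : ∀ p ∉ L, H p = 0 := by
    intro p hp
    by_cases hpW : p ∈ W
    · rw [hH, indicator_of_mem hpW]
      have h1 : σ (iot d p) ∈ κ.source := κ.map_target hpW
      have h2 : σ (iot d p) ∉ K := by
        intro h
        apply hp
        exact ⟨_, h, κ.right_inv hpW⟩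
      rw [hq0 _ h1 h2, mul_zero]
    · rw [hH, indicator_of_notMem hpW]
  have hHc : Continuous H := by
    rw [continuous_iff_continuousAt]
    intro p
    by_cases hp : p ∈ W
    · have h1 : H =ᶠ[𝓝 p] fun p => adet σ (iot d p) * q (σ (iot d p)) := by
        filter_upwards [hWo.mem_nhds hp] with y hy
        rw [hH, indicator_of_mem hy]
      refine ContinuousAt.congr ?_ h1.symm
      have h2 : ContinuousAt (adet σ) (iot d p) :=
        (continuousOn_adet hSo hκs).continuousAt (hSo.mem_nhds hp)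
      have h3 : ContinuousAt σ (iot d p) := κ.continuousAt_symm hp
      have h4 : ContinuousAt q (σ (iot d p)) :=
        hq.continuousAt (κ.open_source.mem_nhds (κ.map_target hp))
      have h5 : ContinuousAt (iot d) p := (iot d).continuous.continuousAt
      have h6 : ContinuousAt (fun p => adet σ (iot d p)) p := ContinuousAt.comp (g := adet σ) h2 h5
      have h7 : ContinuousAt (fun p => σ (iot d p)) p := ContinuousAt.comp (g := σ) h3 h5
      exact h6.mul (ContinuousAt.comp (g := q) h4 h7)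
    · have h1 : H =ᶠ[𝓝 p] fun _ => 0 := by
        filter_upwards [hLc.isClosed.isOpen_compl.mem_nhds (fun h => hp (hLW h))] with y hy
        exact hH0 y hy
      exact h1.continuousAt
  have hHcs : HasCompactSupport H := HasCompactSupport.intro hLc hH0
  have hts : tsupport H ⊆ W := by
    refine Subset.trans (closure_minimal ?_ hLc.isClosed) hLW
    intro p hp
    by_contra h
    exact hp (hH0 p h)
  set θ' : ℂ × (Fin d → ℂ) → ℝ := fun p => θ (σ (iot d p)) with hθ'
  have hθc : ContinuousOn θ' W := by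
    have h1 : ContinuousOn (fun p => σ (iot d p)) W :=
      ContinuousOn.comp (t := S) κ.continuousOn_symm (iot d).continuous.continuousOn fun p hp => hp
    exact ContinuousOn.comp hθ h1 fun p hp => κ.map_target hp
  have key := tendsto_kernelR hWo hHc hHcs hts hθc (fun p hp => hpos _ (κ.map_target hp))
  have hrhs : ∫ w : Fin d → ℂ, H (0, w) = ∫ w in {w : Fin d → ℂ | iot d (0, w) ∈ S},
      adet σ (iot d (0, w)) * q (σ (iot d (0, w))) := by
    have hm : MeasurableSet {w : Fin d → ℂ | iot d (0, w) ∈ S} := by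
      refine (hSo.preimage (f := fun w : Fin d → ℂ => iot d (0, w)) ?_).measurableSet
      exact (iot d).continuous.comp (by fun_prop)
    rw [← integral_indicator hm]
    refine integral_congr_ae (Eventually.of_forall fun w => ?_)
    simp only [hH, hW]
    by_cases hw : iot d (0, w) ∈ S
    · rw [indicator_of_mem (show ((0 : ℂ), w) ∈ iot d ⁻¹' S from hw),
        indicator_of_mem (show w ∈ {w : Fin d → ℂ | iot d (0, w) ∈ S} from hw)]
    · rw [indicator_of_notMem (show ((0 : ℂ), w) ∉ iot d ⁻¹' S from hw),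
        indicator_of_notMem (show w ∉ {w : Fin d → ℂ | iot d (0, w) ∈ S} from hw)]
  rw [← hrhs]
  refine key.congr fun ε => ?_
  have hder : ∀ y ∈ σ.source, HasFDerivAt σ (fderiv ℝ σ y) y := fun y hy =>
    ((hκs.differentiableAt (hSo.mem_nhds hy)).restrictScalars ℝ).hasFDerivAt
  have h1 := integral_target_eq_integral_abs_det_fderiv_smul (volume : Measure (Fin (d + 1) → ℂ))
    hder (fun z => ε * θ z / (‖g z‖ ^ 2 * θ z + ε) ^ 2 * q z)
  rw [show σ.target = κ.source from rfl] at h1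
  rw [h1, show σ.source = S from rfl, ← integral_indicator hSo.measurableSet, integral_iot]
  refine integral_congr_ae (Eventually.of_forall fun p => ?_)
  by_cases hp : iot d p ∈ S
  · have h2 : g (σ (iot d p)) = p.1 := by
      rw [← hg _ (κ.map_target hp), κ.right_inv hp, iot_zero]
    simp only [hH, hW, hθ']
    rw [indicator_of_mem hp, indicator_of_mem (show p ∈ iot d ⁻¹' S from hp), h2, adet,
      smul_eq_mul]
    ring
  · simp only [hH, hW]
    rw [indicator_of_notMem hp, indicator_of_notMem (show p ∉ iot d ⁻¹' S from hp), mul_zero]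

/-- the zero set of the first coordinate is a null set -/
theorem volume_zero {κ : OpenPartialHomeomorph (Fin (d + 1) → ℂ) (Fin (d + 1) → ℂ)}
    (hκs : DifferentiableOn ℂ κ.symm κ.target) {g : (Fin (d + 1) → ℂ) → ℂ}
    (hg : ∀ z ∈ κ.source, κ z 0 = g z) : volume {z ∈ κ.source | g z = 0} = 0 := by
  have h1 : {z ∈ κ.source | g z = 0} ⊆ κ.symm '' (κ.target ∩ {y | y 0 = 0}) := by
    rintro z ⟨hz, hz0⟩
    exact ⟨κ z, ⟨κ.map_source hz, by show κ z 0 = 0; rw [hg z hz, hz0]⟩, κ.left_inv hz⟩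
  refine measure_mono_null h1 ?_
  refine addHaar_image_eq_zero_of_differentiableOn_of_addHaar_eq_zero volume
    ((hκs.restrictScalars ℝ).mono inter_subset_left) ?_
  exact measure_mono_null inter_subset_right
    (Measure.pi_hyperplane (fun _ : Fin (d + 1) => (volume : Measure ℂ)) 0 (0 : ℂ))

/-- a linear form is the first coordinate -/
theorem exists_coord (a : (Fin (d + 1) → ℂ) →L[ℂ] ℂ) (ha : a ≠ 0) :
    ∃ A : (Fin (d + 1) → ℂ) ≃L[ℂ] (Fin (d + 1) → ℂ), ∀ x, A x 0 = a x := by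
  have hsurj : Function.Surjective a := by
    obtain ⟨v, hv⟩ : ∃ v, a v ≠ 0 := by
      by_contra h
      push Not at h
      exact ha (ContinuousLinearMap.ext h)
    intro c
    exact ⟨(c / a v) • v, by rw [map_smul, smul_eq_mul, div_mul_cancel₀ _ hv]⟩
  set K := LinearMap.ker (a : (Fin (d + 1) → ℂ) →ₗ[ℂ] ℂ) with hK
  have hrk : Module.finrank ℂ K = d := by
    have h1 := LinearMap.finrank_range_add_finrank_ker (a : (Fin (d + 1) → ℂ) →ₗ[ℂ] ℂ)
    have h2 : LinearMap.range (a : (Fin (d + 1) → ℂ) →ₗ[ℂ] ℂ) = ⊤ :=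
      LinearMap.range_eq_top.2 hsurj
    rw [h2, finrank_top, Module.finrank_self, Module.finrank_fin_fun] at h1
    rw [hK]
    omega
  obtain ⟨Q, hQ⟩ := K.exists_isCompl
  let π1 : (Fin (d + 1) → ℂ) →ₗ[ℂ] K := K.projectionOnto Q hQ
  let j : K ≃ₗ[ℂ] (Fin d → ℂ) := LinearEquiv.ofFinrankEq _ _ (by rw [hrk, Module.finrank_fin_fun])
  let T : (Fin (d + 1) → ℂ) →ₗ[ℂ] (Fin (d + 1) → ℂ) :=
    (iot d).toLinearEquiv.toLinearMap ∘ₗ
      LinearMap.prod (a : (Fin (d + 1) → ℂ) →ₗ[ℂ] ℂ) (j.toLinearMap ∘ₗ π1)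
  have hinj : Function.Injective T := by
    rw [← LinearMap.ker_eq_bot, LinearMap.ker_eq_bot']
    intro x hx
    have h1 : ((a x, j (π1 x)) : ℂ × (Fin d → ℂ)) = 0 := by
      apply (iot d).injective
      rw [map_zero]
      exact hx
    have h2 : a x = 0 := congrArg Prod.fst h1
    have h3 : π1 x = 0 := j.injective (by rw [map_zero]; exact congrArg Prod.snd h1)
    have h4 : π1 x = ⟨x, h2⟩ := Submodule.projectionOnto_apply_left hQ ⟨x, h2⟩
    rw [h4] at h3
    exact congrArg Subtype.val h3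
  exact ⟨(LinearEquiv.ofInjectiveEndo T hinj).toContinuousLinearEquiv, fun x => rfl⟩

/-- straightening of the zero set, in a chart -/
theorem exists_kappa {D : Set (Fin (d + 1) → ℂ)} (hD : IsOpen D) {g : (Fin (d + 1) → ℂ) → ℂ}
    (hg : DifferentiableOn ℂ g D) {z₀ : Fin (d + 1) → ℂ} (hz : z₀ ∈ D)
    (hne : fderiv ℂ g z₀ ≠ 0) :
    ∃ κ : OpenPartialHomeomorph (Fin (d + 1) → ℂ) (Fin (d + 1) → ℂ), z₀ ∈ κ.source ∧
      κ.source ⊆ D ∧ (∀ z ∈ κ.source, κ z 0 = g z) ∧ DifferentiableOn ℂ κ κ.source ∧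
      DifferentiableOn ℂ κ.symm κ.target := by
  obtain ⟨A, hA⟩ := exists_coord _ hne
  set Φ : (Fin (d + 1) → ℂ) → (Fin (d + 1) → ℂ) :=
    fun z => Fin.cons (g z) (fun i => A z i.succ) with hΦ
  have hΦd : DifferentiableOn ℂ Φ D := by
    rw [differentiableOn_pi]
    intro i
    refine Fin.cases ?_ (fun i => ?_) i
    · exact hg
    · intro y _
      exact (differentiableAt_pi.1 A.differentiableAt i.succ).differentiableWithinAt
  have hΦ' : HasFDerivAt Φ (A : (Fin (d + 1) → ℂ) →L[ℂ] (Fin (d + 1) → ℂ)) z₀ := by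
    rw [hasFDerivAt_pi']
    intro i
    refine Fin.cases ?_ (fun i => ?_) i
    · have h1 : HasFDerivAt g (fderiv ℂ g z₀) z₀ :=
        (hg.differentiableAt (hD.mem_nhds hz)).hasFDerivAt
      have h2 : (ContinuousLinearMap.proj (R := ℂ) (φ := fun _ : Fin (d + 1) => ℂ) 0).comp
          (A : (Fin (d + 1) → ℂ) →L[ℂ] (Fin (d + 1) → ℂ)) = fderiv ℂ g z₀ := by
        ext1 v
        exact hA v
      rw [h2]
      exact h1
    · exact ((ContinuousLinearMap.proj (R := ℂ) (φ := fun _ : Fin (d + 1) => ℂ) i.succ).comp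
        (A : (Fin (d + 1) → ℂ) →L[ℂ] (Fin (d + 1) → ℂ))).hasFDerivAt
  obtain ⟨κ, h1, h2, h3, h4, h5⟩ := P267.H62.exists_homeo hD hz hΦd hΦ'
  exact ⟨κ, h1, h2, fun z _ => by rw [h3]; rfl, h4, h5⟩

section dom

variable {α : Type*} [MeasurableSpace α] {μ : Measure α}

theorem tendsto_dom {b : α → ℝ} (hb : Integrable b μ) {N : α → ℝ}
    (hNm : AEStronglyMeasurable N μ) (hN : ∀ᵐ z ∂μ, 0 < N z) :
    Tendsto (fun ε : ℝ => ∫ z, N z / (N z + ε) * b z ∂μ) (𝓝[>] 0) (𝓝 (∫ z, b z ∂μ)) := by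
  refine tendsto_integral_filter_of_dominated_convergence (fun z => ‖b z‖) ?_ ?_ hb.norm ?_
  · refine Eventually.of_forall fun ε => ?_
    have h1 : AEStronglyMeasurable (fun z => N z / (N z + ε)) μ := by
      have := hNm.aemeasurable
      exact (this.div (this.add_const ε)).aestronglyMeasurable
    exact h1.mul hb.aestronglyMeasurable
  · filter_upwards [self_mem_nhdsWithin] with ε hε
    have hε' : (0 : ℝ) < ε := hε
    filter_upwards [hN] with z hz
    rw [norm_mul]
    have h2 : ‖N z / (N z + ε)‖ ≤ 1 := by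
      rw [Real.norm_of_nonneg (by positivity), div_le_one (by positivity)]
      linarith
    exact mul_le_of_le_one_left (norm_nonneg _) h2
  · filter_upwards [hN] with z hz
    have h1 : Tendsto (fun ε : ℝ => N z / (N z + ε) * b z) (𝓝 0)
        (𝓝 (N z / (N z + 0) * b z)) := by
      refine ContinuousAt.tendsto (f := fun ε : ℝ => N z / (N z + ε) * b z) ?_
      refine ContinuousAt.mul ?_ continuousAt_const
      refine ContinuousAt.div (by fun_prop) (by fun_prop) ?_
      simp [hz.ne']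
    rw [add_zero, div_self hz.ne', one_mul] at h1
    exact h1.mono_left nhdsWithin_le_nhds

end dom

end Vale.Agent.P277Z.Top.PL
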