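import Vale.Agent.P277.H619.Pair

/-!
# P277, block TOP, Poincare-Lelong: the local computation of `d d^c log (|ζ|² e^v + ε)`
-/

set_option maxSynthPendingDepth 3

open scoped ContDiff Topology
open ContinuousAlternatingMap Vale.Agent.P267.H928.Int Vale.Agent.P267.H175
open Vale.Agent.P277 Vale.Agent.P277.H60 Vale.Agent.P277.H619 Filter Set

noncomputable section

namespace Vale.Agent.P277Z.Top.PL

variable {n : ℕ}

/-- multiplication by `i` -/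
def Jc (n : ℕ) : (Fin n → ℂ) →L[ℝ] (Fin n → ℂ) :=
  (Complex.I • ContinuousLinearMap.id ℂ (Fin n → ℂ)).restrictScalars ℝ

theorem Jc_apply (v : Fin n → ℂ) : Jc n v = Complex.I • v := rfl

/-- the `1`-form `du ∘ J` -/
def dcf (u : (Fin n → ℂ) → ℝ) (z : Fin n → ℂ) : (Fin n → ℂ) [⋀^Fin (0 + 1)]→L[ℝ] ℝ :=
  wedge1 ((fderiv ℝ u z).comp (Jc n)) one0

theorem dcf_congr {u u' : (Fin n → ℂ) → ℝ} {z : Fin n → ℂ} (h : u =ᶠ[𝓝 z] u') :
    dcf u =ᶠ[𝓝 z] dcf u' := by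
  filter_upwards [h.fderiv (𝕜 := ℝ)] with y hy
  rw [dcf, dcf, hy]

theorem contDiffAt_dcf {u : (Fin n → ℂ) → ℝ} {z : Fin n → ℂ} (hu : ContDiffAt ℝ ∞ u z) :
    ContDiffAt ℝ ∞ (dcf u) z := by
  have h1 : ContDiffAt ℝ ∞ (fderiv ℝ u) z := hu.fderiv_right (m := ∞) (by simp)
  exact contDiffAt_wedge1 (h1.clm_comp contDiffAt_const) contDiffAt_const

theorem ev_diff {F : Type*} [NormedAddCommGroup F] [NormedSpace ℝ F] {u : (Fin n → ℂ) → F}
    {z : Fin n → ℂ} (hu : ContDiffAt ℝ ∞ u z) : ∀ᶠ y in 𝓝 z, DifferentiableAt ℝ u y := by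
  filter_upwards [(hu.of_le (show (1 : WithTop ℕ∞) ≤ ∞ by simp)).eventually (by simp)] with y hy
  exact hy.differentiableAt one_ne_zero

theorem ddc_add {u u' : (Fin n → ℂ) → ℝ} {z : Fin n → ℂ} (hu : ContDiffAt ℝ ∞ u z)
    (hu' : ContDiffAt ℝ ∞ u' z) :
    extDeriv (dcf fun y => u y + u' y) z = extDeriv (dcf u) z + extDeriv (dcf u') z := by
  have h1 : (dcf fun y => u y + u' y) =ᶠ[𝓝 z] fun y => dcf u y + dcf u' y := by
    filter_upwards [ev_diff hu, ev_diff hu'] with y hy hy'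
    rw [dcf, fderiv_fun_add hy hy', ContinuousLinearMap.add_comp, wedge1_add_left]
    rfl
  rw [h1.extDeriv_eq, extDeriv_fun_add ((contDiffAt_dcf hu).differentiableAt (by simp))
    ((contDiffAt_dcf hu').differentiableAt (by simp))]

theorem ddc_neg {u : (Fin n → ℂ) → ℝ} {z : Fin n → ℂ} :
    extDeriv (dcf fun y => - u y) z = - extDeriv (dcf u) z := by
  have h1 : (dcf fun y => - u y) = (-1 : ℝ) • dcf u := by
    funext y
    rw [Pi.smul_apply, dcf, fderiv_fun_neg, dcf, ← wedge1_smul_left]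
    congr 1
    ext v
    simp
  rw [h1, extDeriv_smul, neg_one_smul]

/-- the chain rule for `d d^c` -/
theorem ddc_comp {G : (Fin n → ℂ) → ℝ} {z : Fin n → ℂ} (hG : ContDiffAt ℝ ∞ G z)
    {φ φ' : ℝ → ℝ} {φ'' : ℝ} (h1 : ∀ t, HasDerivAt φ (φ' t) t) (h2 : HasDerivAt φ' φ'' (G z)) :
    extDeriv (dcf fun y => φ (G y)) z =
      φ' (G z) • extDeriv (dcf G) z + φ'' • wedge1 (fderiv ℝ G z) (dcf G z) := by
  have h3 : (dcf fun y => φ (G y)) =ᶠ[𝓝 z] fun y => φ' (G y) • dcf G y := by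
    filter_upwards [ev_diff hG] with y hy
    have h4 : fderiv ℝ (fun y => φ (G y)) y = φ' (G y) • fderiv ℝ G y :=
      ((h1 (G y)).comp_hasFDerivAt y hy.hasFDerivAt).fderiv
    rw [dcf, h4, dcf, ← wedge1_smul_left, ContinuousLinearMap.smul_comp]
  have hGd : DifferentiableAt ℝ G z := hG.differentiableAt (by simp)
  have h5 : HasFDerivAt (fun y => φ' (G y)) (φ'' • fderiv ℝ G z) z :=
    h2.comp_hasFDerivAt z hGd.hasFDerivAt
  rw [h3.extDeriv_eq, extDeriv_smul_fun h5.differentiableAt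
    ((contDiffAt_dcf hG).differentiableAt (by simp)), h5.fderiv, wedge1_smul_left]

/-- the real part of a holomorphic function is pluriharmonic -/
theorem ddc_re {f : (Fin n → ℂ) → ℂ} {z : Fin n → ℂ} (hf : ContDiffAt ℂ ∞ f z) :
    extDeriv (dcf fun y => (f y).re) z = 0 := by
  have hfr : ContDiffAt ℝ ∞ f z := hf.restrict_scalars ℝ
  have him : ContDiffAt ℝ ∞ (fun y => -(f y).im) z :=
    (Complex.imCLM.contDiff.contDiffAt.comp z hfr).neg
  have hev : ∀ᶠ y in 𝓝 z, DifferentiableAt ℂ f y := by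
    filter_upwards [(hf.of_le (show (1 : WithTop ℕ∞) ≤ ∞ by simp)).eventually (by simp)] with y hy
    exact hy.differentiableAt one_ne_zero
  have h1 : (dcf fun y => (f y).re) =ᶠ[𝓝 z]
      extDeriv fun y => (-(f y).im) • (one0 : (Fin n → ℂ) [⋀^Fin 0]→L[ℝ] ℝ) := by
    filter_upwards [hev] with y hy
    have h2 : HasFDerivAt f ((fderiv ℂ f y).restrictScalars ℝ) y := hy.hasFDerivAt.restrictScalars ℝ
    have h3 : HasFDerivAt (fun y => (f y).re)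
        (Complex.reCLM.comp ((fderiv ℂ f y).restrictScalars ℝ)) y :=
      Complex.reCLM.hasFDerivAt.comp y h2
    have h4 : HasFDerivAt (fun y => -(f y).im)
        (-Complex.imCLM.comp ((fderiv ℂ f y).restrictScalars ℝ)) y :=
      (Complex.imCLM.hasFDerivAt.comp y h2).neg
    rw [extDeriv_smul_fun h4.differentiableAt (differentiableAt_const _), h4.fderiv, dcf, h3.fderiv]
    have h5 : extDeriv (fun _ : Fin n → ℂ => (one0 : (Fin n → ℂ) [⋀^Fin 0]→L[ℝ] ℝ)) y = 0 := by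
      rw [extDeriv, fderiv_fun_const]
      exact (alternatizeUncurryFinCLM ℝ (Fin n → ℂ) ℝ).map_zero
    rw [h5, smul_zero]
    refine Eq.trans ?_ (zero_add _).symm
    congr 1
    ext1 v
    simp [Jc_apply]
  rw [h1.extDeriv_eq]
  exact extDeriv_extDeriv_apply (r := ∞) (him.smul contDiffAt_const) minS

theorem log_ev {ζ : (Fin n → ℂ) → ℂ} {z : Fin n → ℂ} (hζ : ContinuousAt ζ z) (h0 : ζ z ≠ 0) :
    (fun y => Real.log (‖ζ y‖ ^ 2)) =ᶠ[𝓝 z]
      fun y => (2 * Complex.log (ζ y / ζ z) + (Real.log (‖ζ z‖ ^ 2) : ℝ)).re := by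
  filter_upwards [hζ.eventually_ne h0] with y hy
  have h1 : ‖ζ y‖ ≠ 0 := norm_ne_zero_iff.2 hy
  have h2 : ‖ζ z‖ ≠ 0 := norm_ne_zero_iff.2 h0
  rw [Complex.add_re, Complex.ofReal_re]
  have h3 : (2 * Complex.log (ζ y / ζ z)).re = 2 * Real.log ‖ζ y / ζ z‖ := by
    rw [← Complex.log_re]; simp
  rw [h3, norm_div, Real.log_div h1 h2, Real.log_pow, Real.log_pow]
  push_cast
  ring

theorem contDiffAt_clog {ζ : (Fin n → ℂ) → ℂ} {z : Fin n → ℂ} (hζ : ContDiffAt ℂ ∞ ζ z)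
    (h0 : ζ z ≠ 0) : ContDiffAt ℂ ∞
      (fun y => 2 * Complex.log (ζ y / ζ z) + (Real.log (‖ζ z‖ ^ 2) : ℝ)) z := by
  have h1 : ContDiffAt ℂ ∞ (fun y => ζ y / ζ z) z := hζ.div_const _
  have h2 : ContDiffAt ℂ ∞ Complex.log (ζ z / ζ z) :=
    Complex.contDiffAt_log (by rw [div_self h0]; exact Complex.one_mem_slitPlane)
  exact (contDiffAt_const.mul (ContDiffAt.comp (g := Complex.log) z h2 h1)).add contDiffAt_const

theorem ddc_log {ζ : (Fin n → ℂ) → ℂ} {z : Fin n → ℂ} (hζ : ContDiffAt ℂ ∞ ζ z) (h0 : ζ z ≠ 0) :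
    extDeriv (dcf fun y => Real.log (‖ζ y‖ ^ 2)) z = 0 := by
  rw [(dcf_congr (log_ev hζ.continuousAt h0)).extDeriv_eq]
  exact ddc_re (contDiffAt_clog hζ h0)

theorem contDiffAt_log {ζ : (Fin n → ℂ) → ℂ} {z : Fin n → ℂ} (hζ : ContDiffAt ℂ ∞ ζ z)
    (h0 : ζ z ≠ 0) : ContDiffAt ℝ ∞ (fun y => Real.log (‖ζ y‖ ^ 2)) z :=
  (Complex.reCLM.contDiff.contDiffAt.comp z
    ((contDiffAt_clog hζ h0).restrict_scalars ℝ)).congr_of_eventuallyEq
    (log_ev hζ.continuousAt h0)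

theorem fderiv_log {ζ : (Fin n → ℂ) → ℂ} {z : Fin n → ℂ} (hζ : ContDiffAt ℂ ∞ ζ z) (h0 : ζ z ≠ 0)
    (w : Fin n → ℂ) :
    fderiv ℝ (fun y => Real.log (‖ζ y‖ ^ 2)) z w = 2 * ((ζ z)⁻¹ * fderiv ℂ ζ z w).re := by
  rw [(log_ev hζ.continuousAt h0).fderiv_eq]
  have h1 : HasFDerivAt ζ (fderiv ℂ ζ z) z := (hζ.differentiableAt (by simp)).hasFDerivAt
  have h2 : HasFDerivAt (fun y => ζ y / ζ z) ((ζ z)⁻¹ • fderiv ℂ ζ z) z := by
    have := h1.const_smul (ζ z)⁻¹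
    refine this.congr_of_eventuallyEq (Eventually.of_forall fun y => ?_)
    simp [div_eq_inv_mul]
  have h3 : HasDerivAt Complex.log (ζ z / ζ z)⁻¹ (ζ z / ζ z) :=
    Complex.hasDerivAt_log (by rw [div_self h0]; exact Complex.one_mem_slitPlane)
  have h4 := h3.comp_hasFDerivAt (f := fun y => ζ y / ζ z) z h2
  have h5 := ((h4.const_mul (2 : ℂ)).add_const ((Real.log (‖ζ z‖ ^ 2) : ℝ) : ℂ)).restrictScalars ℝ
  have h6 := Complex.reCLM.hasFDerivAt.comp z h5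
  have h7 := h6.fderiv
  have h8 : (fun y => (2 * Complex.log (ζ y / ζ z) + (Real.log (‖ζ z‖ ^ 2) : ℝ)).re) =
      Complex.reCLM ∘ fun y => 2 * (Complex.log ∘ fun y => ζ y / ζ z) y +
        (Real.log (‖ζ z‖ ^ 2) : ℝ) := rfl
  rw [h8, h7]
  simp [div_self h0]

/-- `Re μ ∧ Im μ ∧ Ψ` -/
def RI {E : Type} [NormedAddCommGroup E] [NormedSpace ℝ E] {q : ℕ} (μ : E →L[ℝ] ℂ)
    (Ψ : E [⋀^Fin q]→L[ℝ] ℝ) : E [⋀^Fin (q + 1 + 1)]→L[ℝ] ℝ :=
  wedge1 (Complex.reCLM.comp μ) (wedge1 (Complex.imCLM.comp μ) Ψ)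

theorem RI_smul {E : Type} [NormedAddCommGroup E] [NormedSpace ℝ E] {q : ℕ} (c : ℂ)
    (μ : E →L[ℝ] ℂ) (Ψ : E [⋀^Fin q]→L[ℝ] ℝ) : RI (c • μ) Ψ = ‖c‖ ^ 2 • RI μ Ψ := by
  have h1 : Complex.reCLM.comp (c • μ) =
      c.re • Complex.reCLM.comp μ + (-c.im) • Complex.imCLM.comp μ := by
    ext v; simp; ring
  have h2 : Complex.imCLM.comp (c • μ) =
      c.im • Complex.reCLM.comp μ + c.re • Complex.imCLM.comp μ := by
    ext v; simp; ring
  rw [RI, h1, h2, RI]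
  simp only [wedge1_add_left, wedge1_add_right, wedge1_smul_left, wedge1_smul_right, wedge1_self,
    smul_zero, zero_add, add_zero]
  rw [wedge1_comm (Complex.imCLM.comp μ) (Complex.reCLM.comp μ), Complex.sq_norm,
    Complex.normSq_apply]
  module

theorem RI_comp {E E' : Type} [NormedAddCommGroup E] [NormedSpace ℝ E] [NormedAddCommGroup E']
    [NormedSpace ℝ E'] {q : ℕ} (μ : E →L[ℝ] ℂ) (Ψ : E [⋀^Fin q]→L[ℝ] ℝ) (T : E' →L[ℝ] E) :
    (RI μ Ψ).compContinuousLinearMap T = RI (μ.comp T) (Ψ.compContinuousLinearMap T) := by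
  rw [RI, wedge1_comp, wedge1_comp]; rfl

theorem RI_smul_right {E : Type} [NormedAddCommGroup E] [NormedSpace ℝ E] {q : ℕ} (c : ℝ)
    (μ : E →L[ℝ] ℂ) (Ψ : E [⋀^Fin q]→L[ℝ] ℝ) : RI μ (c • Ψ) = c • RI μ Ψ := by
  rw [RI, wedge1_smul_right, wedge1_smul_right, RI]

/-- the covariant differential `dζ + ζ ∂v` -/
def mu (ζ : (Fin n → ℂ) → ℂ) (v : (Fin n → ℂ) → ℝ) (z : Fin n → ℂ) : (Fin n → ℂ) →L[ℝ] ℂ :=
  (fderiv ℂ ζ z).restrictScalars ℝ + (ζ z / 2) • (Complex.ofRealCLM.comp (fderiv ℝ v z) -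
    Complex.I • Complex.ofRealCLM.comp ((fderiv ℝ v z).comp (Jc n)))

theorem mu_apply (ζ : (Fin n → ℂ) → ℂ) (v : (Fin n → ℂ) → ℝ) (z w : Fin n → ℂ) :
    mu ζ v z w = fderiv ℂ ζ z w +
      ζ z / 2 * ((fderiv ℝ v z w : ℝ) - Complex.I * (fderiv ℝ v z (Complex.I • w) : ℝ)) := rfl

theorem mu_zero {ζ : (Fin n → ℂ) → ℂ} (v : (Fin n → ℂ) → ℝ) {z : Fin n → ℂ} (h : ζ z = 0) :
    mu ζ v z = (fderiv ℂ ζ z).restrictScalars ℝ := by
  rw [mu, h, zero_div, zero_smul, add_zero]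

theorem continuousAt_mu {ζ : (Fin n → ℂ) → ℂ} {v : (Fin n → ℂ) → ℝ} {z : Fin n → ℂ}
    (hζ : ContDiffAt ℂ ∞ ζ z) (hv : ContDiffAt ℝ ∞ v z) : ContinuousAt (mu ζ v) z := by
  have h1 : ContinuousAt (fderiv ℂ ζ) z := (hζ.fderiv_right (m := 0) (by simp)).continuousAt
  have h2 : ContinuousAt (fderiv ℝ v) z := (hv.fderiv_right (m := 0) (by simp)).continuousAt
  have h3 : ContinuousAt (fun y => (fderiv ℂ ζ y).restrictScalars ℝ) z :=
    (ContinuousLinearMap.restrictScalarsL ℂ (Fin n → ℂ) ℂ ℝ ℝ).continuous.continuousAt.comp h1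
  have h4 : ContinuousAt (fun y => Complex.ofRealCLM.comp (fderiv ℝ v y)) z :=
    continuousAt_const.clm_comp h2
  have h5 : ContinuousAt (fun y => Complex.ofRealCLM.comp ((fderiv ℝ v y).comp (Jc n))) z :=
    continuousAt_const.clm_comp (h2.clm_comp continuousAt_const)
  exact h3.add ((hζ.continuousAt.div_const 2).smul (h4.sub (h5.const_smul Complex.I)))

theorem continuousAt_RI {X : Type*} [TopologicalSpace X] {q : ℕ} {μ : X → (Fin n → ℂ) →L[ℝ] ℂ}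
    {Ψ : X → (Fin n → ℂ) [⋀^Fin q]→L[ℝ] ℝ} {x : X} (hμ : ContinuousAt μ x)
    (hΨ : ContinuousAt Ψ x) : ContinuousAt (fun y => RI (μ y) (Ψ y)) x := by
  have h1 : ContinuousAt (fun y => Complex.reCLM.comp (μ y)) x := continuousAt_const.clm_comp hμ
  have h2 : ContinuousAt (fun y => Complex.imCLM.comp (μ y)) x := continuousAt_const.clm_comp hμ
  have h3 : ContinuousAt (fun y => wedge1L q (Complex.imCLM.comp (μ y)) (Ψ y)) x :=
    ((wedge1L q).continuous.continuousAt.comp h2).clm_apply hΨ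
  exact ((wedge1L (q + 1)).continuous.continuousAt.comp h1).clm_apply h3

/-- **The local formula**, off the zero set. -/
theorem ddc_eps {ζ : (Fin n → ℂ) → ℂ} {v : (Fin n → ℂ) → ℝ} {z : Fin n → ℂ}
    (hζ : ContDiffAt ℂ ∞ ζ z) (hv : ContDiffAt ℝ ∞ v z) (h0 : ζ z ≠ 0) {ε : ℝ} (hε : 0 < ε)
    {q : ℕ} (Ψ : (Fin n → ℂ) [⋀^Fin q]→L[ℝ] ℝ) :
    wdg (extDeriv (dcf fun y => Real.log (‖ζ y‖ ^ 2 * Real.exp (v y) + ε)) z) Ψ =
      (‖ζ z‖ ^ 2 * Real.exp (v z) / (‖ζ z‖ ^ 2 * Real.exp (v z) + ε)) •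
          wdg (extDeriv (dcf v) z) Ψ +
        (-4 * (ε * Real.exp (v z) / (‖ζ z‖ ^ 2 * Real.exp (v z) + ε) ^ 2)) • RI (mu ζ v z) Ψ := by
  set G : (Fin n → ℂ) → ℝ := fun y => Real.log (‖ζ y‖ ^ 2) + v y with hG
  have hl := contDiffAt_log hζ h0
  have hGs : ContDiffAt ℝ ∞ G z := hl.add hv
  have hexp : ∀ y, ζ y ≠ 0 → Real.exp (G y) = ‖ζ y‖ ^ 2 * Real.exp (v y) := by
    intro y hy
    have : 0 < ‖ζ y‖ ^ 2 := pow_pos (norm_pos_iff.2 hy) 2
    rw [hG, Real.exp_add, Real.exp_log this]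
  have h1 : (fun y => Real.log (‖ζ y‖ ^ 2 * Real.exp (v y) + ε)) =ᶠ[𝓝 z]
      fun y => Real.log (Real.exp (G y) + ε) := by
    filter_upwards [hζ.continuousAt.eventually_ne h0] with y hy
    rw [hexp y hy]
  have hp : ∀ t, Real.exp t + ε ≠ 0 := fun t => by positivity
  have h2 : ∀ t, HasDerivAt (fun t => Real.log (Real.exp t + ε))
      (Real.exp t / (Real.exp t + ε)) t := fun t =>
    ((Real.hasDerivAt_exp t).add_const ε).log (hp t)
  have h3 : HasDerivAt (fun t => Real.exp t / (Real.exp t + ε))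
      (ε * Real.exp (G z) / (Real.exp (G z) + ε) ^ 2) (G z) := by
    have := (Real.hasDerivAt_exp (G z)).div ((Real.hasDerivAt_exp (G z)).add_const ε) (hp _)
    refine this.congr_deriv ?_
    ring
  have hGv : extDeriv (dcf G) z = extDeriv (dcf v) z := by
    rw [hG, ddc_add hl hv, ddc_log hζ h0]
    exact zero_add _
  rw [(dcf_congr h1).extDeriv_eq, ddc_comp hGs h2 h3, hGv,
    wdg_add_left, wdg_smul_left, wdg_smul_left, hexp z h0]
  congr 1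
  -- the second term
  have hd : ∀ w, fderiv ℝ G z w = 2 * ((ζ z)⁻¹ * fderiv ℂ ζ z w).re + fderiv ℝ v z w := by
    intro w
    rw [hG, fderiv_fun_add (hl.differentiableAt (by simp)) (hv.differentiableAt (by simp)),
      _root_.add_apply, fderiv_log hζ h0]
  have hm : ∀ w, (ζ z)⁻¹ * mu ζ v z w = (ζ z)⁻¹ * fderiv ℂ ζ z w +
      1 / 2 * ((fderiv ℝ v z w : ℝ) - Complex.I * (fderiv ℝ v z (Complex.I • w) : ℝ)) := by
    intro w
    rw [mu_apply]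
    field_simp
  have h4 : fderiv ℝ G z = (2 : ℝ) • Complex.reCLM.comp ((ζ z)⁻¹ • mu ζ v z) := by
    ext1 w
    have : ((2 : ℝ) • Complex.reCLM.comp ((ζ z)⁻¹ • mu ζ v z)) w =
      2 * ((ζ z)⁻¹ * mu ζ v z w).re := rfl
    rw [this, hd, hm]
    simp
    ring
  have h5 : (fderiv ℝ G z).comp (Jc n) = (-2 : ℝ) • Complex.imCLM.comp ((ζ z)⁻¹ • mu ζ v z) := by
    ext1 w
    have : ((-2 : ℝ) • Complex.imCLM.comp ((ζ z)⁻¹ • mu ζ v z)) w =
      -2 * ((ζ z)⁻¹ * mu ζ v z w).im := rfl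
    rw [this, ContinuousLinearMap.comp_apply, hd, hm, Jc_apply, map_smul]
    simp
    ring
  rw [dcf, h5, h4, wdg_wedge1, wdg_wedge1, wdg_one0, wedge1_smul_left, wedge1_smul_left,
    wedge1_smul_right]
  have h6 : wedge1 (Complex.reCLM.comp ((ζ z)⁻¹ • mu ζ v z))
      (wedge1 (Complex.imCLM.comp ((ζ z)⁻¹ • mu ζ v z)) Ψ) = RI ((ζ z)⁻¹ • mu ζ v z) Ψ := rfl
  rw [h6, RI_smul, smul_smul, smul_smul, smul_smul]
  congr 1
  have h7 : ‖ζ z‖ ≠ 0 := norm_ne_zero_iff.2 h0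
  rw [norm_inv]
  field_simp
  ring

end Vale.Agent.P277Z.Top.PL
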