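import Vale.Agent.P277Z.Top.PL2
import Vale.Agent.P277Z.Top.PL3

/-!
# P277, block TOP, Poincare-Lelong: the local limit
-/

set_option maxSynthPendingDepth 3

open scoped ContDiff Topology Real
open ContinuousAlternatingMap Vale.Agent.P267.H928.Int Vale.Agent.P267.H175
open Vale.Agent.P277 Vale.Agent.P277.H60 Vale.Agent.P277.H619 Filter Set MeasureTheory

noncomputable section

namespace Vale.Agent.P277Z.Top.PL

variable {d q : ℕ}

theorem integrableOn_of_cont {n : ℕ} {S : Set (Fin n → ℂ)} (hS : IsOpen S) {K : Set (Fin n → ℂ)}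
    (hK : IsCompact K) (hKS : K ⊆ S) {f : (Fin n → ℂ) → ℝ} (hf : ContinuousOn f S)
    (h0 : ∀ z ∈ S, z ∉ K → f z = 0) : IntegrableOn f S := by
  have h1 : IntegrableOn f K := (hf.mono hKS).integrableOn_compact hK
  exact h1.of_forall_sdiff_eq_zero hS.measurableSet fun z hz => h0 z hz.1 hz.2

/-- the bases of `ℂ^(d+1)` and `ℂ^d` are adapted -/
structure Adapted (B : Fin (q + 1 + 1) → (Fin (d + 1) → ℂ)) (B' : Fin q → (Fin d → ℂ)) :
    Prop where
  h0 : B 0 = iot d (1, 0)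
  h1 : B (Fin.succ 0) = iot d (Complex.I, 0)
  h2 : ∀ i : Fin q, B i.succ.succ = iot d (0, B' i)

/-- the first coordinate -/
def pr0 (d : ℕ) : (Fin (d + 1) → ℂ) →L[ℝ] ℂ :=
  (ContinuousLinearMap.proj (R := ℂ) (φ := fun _ : Fin (d + 1) => ℂ) 0).restrictScalars ℝ

theorem pr0_apply (v : Fin (d + 1) → ℂ) : pr0 d v = v 0 := rfl

theorem RI_pr0 {B : Fin (q + 1 + 1) → (Fin (d + 1) → ℂ)} {B' : Fin q → (Fin d → ℂ)}
    (h : Adapted B B') (Ψ : (Fin (d + 1) → ℂ) [⋀^Fin q]→L[ℝ] ℝ) :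
    RI (pr0 d) Ψ B = Ψ fun i => iot d (0, B' i) := by
  rw [RI, wedge1_apply_dual, wedge1_apply_dual]
  · congr 1
    funext i
    exact h.h2 i
  · show (B (Fin.succ 0) 0).im = 1
    rw [h.h1, iot_zero, Complex.I_im]
  · intro i
    show (B i.succ.succ 0).im = 0
    rw [h.h2, iot_zero, Complex.zero_im]
  · show (B 0 0).re = 1
    rw [h.h0, iot_zero, Complex.one_re]
  · intro i
    show (B i.succ 0).re = 0
    refine Fin.cases ?_ (fun i => ?_) i
    · rw [h.h1, iot_zero, Complex.I_re]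
    · rw [h.h2, iot_zero, Complex.zero_re]

theorem det_nonneg {n : ℕ} {f : (Fin n → ℂ) → (Fin n → ℂ)} {z : Fin n → ℂ}
    (hf : DifferentiableAt ℂ f z) : 0 ≤ (fderiv ℝ f z).det := by
  rw [hf.fderiv_restrictScalars ℝ, det_real]
  exact Complex.normSq_nonneg _

/-- the embedding of the hyperplane -/
def inr (d : ℕ) : (Fin d → ℂ) →L[ℂ] (Fin (d + 1) → ℂ) :=
  (iot d : (ℂ × (Fin d → ℂ)) →L[ℂ] (Fin (d + 1) → ℂ)).comp (ContinuousLinearMap.inr ℂ ℂ (Fin d → ℂ))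

theorem inr_apply (w : Fin d → ℂ) : inr d w = iot d (0, w) := rfl

/-- the projection onto the hyperplane -/
def tl (d : ℕ) : (Fin (d + 1) → ℂ) →L[ℂ] (Fin d → ℂ) :=
  (ContinuousLinearMap.snd ℂ ℂ (Fin d → ℂ)).comp
    ((iot d).symm : (Fin (d + 1) → ℂ) →L[ℂ] (ℂ × (Fin d → ℂ)))

theorem inr_tl {y : Fin (d + 1) → ℂ} (hy : y 0 = 0) : inr d (tl d y) = y := by
  funext i
  refine Fin.cases ?_ (fun i => ?_) i
  · exact hy.symm
  · rfl

section kappa

variable {κ : OpenPartialHomeomorph (Fin (d + 1) → ℂ) (Fin (d + 1) → ℂ)}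
  {ζ : (Fin (d + 1) → ℂ) → ℂ}

theorem zeta_diff (hκ : DifferentiableOn ℂ κ κ.source) (hg : ∀ z ∈ κ.source, κ z 0 = ζ z) :
    DifferentiableOn ℂ ζ κ.source :=
  (differentiableOn_pi.1 hκ 0).congr fun z hz => (hg z hz).symm

theorem slice_val (B : Module.Basis (Fin (q + 1 + 1)) ℝ (Fin (d + 1) → ℂ))
    {B' : Fin q → (Fin d → ℂ)} (hB : Adapted B B') (hκ : DifferentiableOn ℂ κ κ.source)
    (hκs : DifferentiableOn ℂ κ.symm κ.target) (hg : ∀ z ∈ κ.source, κ z 0 = ζ z)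
    {w : Fin d → ℂ} (hw : inr d w ∈ κ.target) (Ψ : (Fin (d + 1) → ℂ) [⋀^Fin q]→L[ℝ] ℝ) :
    adet κ.symm (inr d w) * RI ((fderiv ℂ ζ (κ.symm (inr d w))).restrictScalars ℝ) Ψ B =
      Ψ.compContinuousLinearMap (fderiv ℝ (fun w => κ.symm (inr d w)) w) B' := by
  have h1 : DifferentiableAt ℂ κ.symm (inr d w) := hκs.differentiableAt (κ.open_target.mem_nhds hw)
  have h2 : DifferentiableAt ℂ ζ (κ.symm (inr d w)) :=
    (zeta_diff hκ hg).differentiableAt (κ.open_source.mem_nhds (κ.map_target hw))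
  have h3 : ((fderiv ℂ ζ (κ.symm (inr d w))).restrictScalars ℝ).comp
      (fderiv ℝ κ.symm (inr d w)) = pr0 d := by
    have h4 : (fun y => ζ (κ.symm y)) =ᶠ[𝓝 (inr d w)] pr0 d := by
      filter_upwards [κ.open_target.mem_nhds hw] with y hy
      rw [← hg _ (κ.map_target hy), κ.right_inv hy, pr0_apply]
    rw [← h2.fderiv_restrictScalars ℝ, ← fderiv_fun_comp _ (h2.restrictScalars ℝ)
      (h1.restrictScalars ℝ), h4.fderiv_eq, ContinuousLinearMap.fderiv]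
  rw [adet, abs_of_nonneg (det_nonneg h1), ← smul_eq_mul, ← top_comp, RI_comp, h3, RI_pr0 hB]
  have h5 : HasFDerivAt (fun w => κ.symm (inr d w))
      ((fderiv ℝ κ.symm (inr d w)).comp ((inr d).restrictScalars ℝ)) w :=
    (h1.restrictScalars ℝ).hasFDerivAt.comp w ((inr d).restrictScalars ℝ).hasFDerivAt
  rw [h5.fderiv]
  rfl

/-- the integral over the slice, in any holomorphic parametrisation -/
theorem slice_int (B' : Module.Basis (Fin q) ℝ (Fin d → ℂ)) (hκ : DifferentiableOn ℂ κ κ.source)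
    (hκs : DifferentiableOn ℂ κ.symm κ.target) (hg : ∀ z ∈ κ.source, κ z 0 = ζ z)
    {γ : (Fin d → ℂ) → (Fin (d + 1) → ℂ)} {V : Set (Fin d → ℂ)} (hV : IsOpen V)
    (hγ : DifferentiableOn ℂ γ V) (hinj : InjOn γ V) (hγs : ∀ t ∈ V, γ t ∈ κ.source)
    (hγ0 : ∀ t ∈ V, ζ (γ t) = 0)
    (Ψ : (Fin (d + 1) → ℂ) → (Fin (d + 1) → ℂ) [⋀^Fin q]→L[ℝ] ℝ)
    (hΨ : ∀ z ∈ κ.source, ζ z = 0 → z ∉ γ '' V → Ψ z = 0) :
    ∫ w in {w | inr d w ∈ κ.target}, (Ψ (κ.symm (inr d w))).compContinuousLinearMap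
        (fderiv ℝ (fun w => κ.symm (inr d w)) w) B' =
      ∫ t in V, (Ψ (γ t)).compContinuousLinearMap (fderiv ℝ γ t) B' := by
  set h : (Fin d → ℂ) → (Fin d → ℂ) := fun t => tl d (κ (γ t)) with hh
  have hin : ∀ t ∈ V, inr d (h t) = κ (γ t) := fun t ht =>
    inr_tl (by rw [hg _ (hγs t ht), hγ0 t ht])
  have hσ : ∀ t ∈ V, κ.symm (inr d (h t)) = γ t := fun t ht => by
    rw [hin t ht, κ.left_inv (hγs t ht)]
  have hW : IsOpen {w | inr d w ∈ κ.target} := κ.open_target.preimage (inr d).continuous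
  have hsub : h '' V ⊆ {w | inr d w ∈ κ.target} := by
    rintro _ ⟨t, ht, rfl⟩
    show inr d (h t) ∈ κ.target
    rw [hin t ht]
    exact κ.map_source (hγs t ht)
  have hd : ∀ t ∈ V, DifferentiableAt ℂ h t := fun t ht =>
    (tl d).differentiableAt.comp t ((hκ.differentiableAt (κ.open_source.mem_nhds (hγs t ht))).comp t
      (hγ.differentiableAt (hV.mem_nhds ht)))
  have hhi : InjOn h V := fun t ht t' ht' e => hinj ht ht' (by rw [← hσ t ht, e, hσ t' ht'])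
  rw [setIntegral_eq_of_subset_of_forall_sdiff_eq_zero hW.measurableSet hsub,
    integral_image_eq_integral_abs_det_fderiv_smul volume hV.measurableSet
      (fun t ht => ((hd t ht).restrictScalars ℝ).hasFDerivAt.hasFDerivWithinAt) hhi]
  · refine setIntegral_congr_fun hV.measurableSet fun t ht => ?_
    have h1 : inr d (h t) ∈ κ.target := hsub ⟨t, ht, rfl⟩
    have h2 : DifferentiableAt ℝ (fun w => κ.symm (inr d w)) (h t) :=
      ((hκs.differentiableAt (κ.open_target.mem_nhds h1)).comp (h t)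
        (inr d).differentiableAt).restrictScalars ℝ
    have h3 : γ =ᶠ[𝓝 t] fun t => κ.symm (inr d (h t)) := by
      filter_upwards [hV.mem_nhds ht] with s hs
      exact (hσ s hs).symm
    rw [abs_of_nonneg (det_nonneg (hd t ht)), ← top_comp, hσ t ht, comp_comp_alt, h3.fderiv_eq,
      fderiv_fun_comp (g := fun w => κ.symm (inr d w)) t h2 ((hd t ht).restrictScalars ℝ)]
  · rintro w ⟨hw, hw'⟩
    have h1 : κ.symm (inr d w) ∈ κ.source := κ.map_target hw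
    have h2 : ζ (κ.symm (inr d w)) = 0 := by
      rw [← hg _ h1, κ.right_inv hw]; rfl
    have h3 : κ.symm (inr d w) ∉ γ '' V := by
      rintro ⟨t, ht, e⟩
      refine hw' ⟨t, ht, ?_⟩
      show tl d (κ (γ t)) = w
      rw [e, κ.right_inv hw]
      rfl
    rw [hΨ _ h1 h2 h3]
    rfl

end kappa

section lim

variable {n : ℕ} {U K : Set (Fin n → ℂ)} {ζ : (Fin n → ℂ) → ℂ} {v : (Fin n → ℂ) → ℝ}
  {Ψ : (Fin n → ℂ) → (Fin n → ℂ) [⋀^Fin q]→L[ℝ] ℝ}

theorem cd_of_diff (hU : IsOpen U) (hζ : DifferentiableOn ℂ ζ U) {z : Fin n → ℂ} (hz : z ∈ U) :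
    ContDiffAt ℂ ∞ ζ z :=
  (contDiffOn_infty.2 fun k => P268.contDiffOn_of_differentiableOn hU hζ k).contDiffAt
    (hU.mem_nhds hz)

theorem contOn_main (hU : IsOpen U) (hv : ∀ z ∈ U, ContDiffAt ℝ ∞ v z) (hΨ : ContinuousOn Ψ U)
    (B : Fin (q + 1 + 1) → (Fin n → ℂ)) :
    ContinuousOn (fun z => wdg (extDeriv (dcf v) z) (Ψ z) B) U := by
  intro z hz
  have h1 : ContinuousAt (extDeriv (dcf v)) z :=
    (contDiffAt_extDeriv (contDiffAt_dcf (hv z hz))).continuousAt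
  have h2 : ContinuousAt (fun z => wdg (extDeriv (dcf v) z) (Ψ z)) z :=
    ((wdgL (Fin n → ℂ) (0 + 1 + 1) q).continuous.continuousAt.comp h1).clm_apply
      (hΨ.continuousAt (hU.mem_nhds hz))
  exact ((evL B).continuous.continuousAt.comp h2).continuousWithinAt

theorem contOn_RI (hU : IsOpen U) (hζ : DifferentiableOn ℂ ζ U) (hv : ∀ z ∈ U, ContDiffAt ℝ ∞ v z)
    (hΨ : ContinuousOn Ψ U) (B : Fin (q + 1 + 1) → (Fin n → ℂ)) :
    ContinuousOn (fun z => RI (mu ζ v z) (Ψ z) B) U := by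
  intro z hz
  exact ((evL B).continuous.continuousAt.comp (continuousAt_RI
    (continuousAt_mu (cd_of_diff hU hζ hz) (hv z hz))
    (hΨ.continuousAt (hU.mem_nhds hz)))).continuousWithinAt

/-- the integral splits, and the first part has the expected limit -/
theorem split_lim (hU : IsOpen U) (hζ : DifferentiableOn ℂ ζ U) (hv : ∀ z ∈ U, ContDiffAt ℝ ∞ v z)
    (hΨ : ContinuousOn Ψ U) (hK : IsCompact K) (hKU : K ⊆ U) (hΨ0 : ∀ z ∈ U, z ∉ K → Ψ z = 0)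
    (hnull : volume {z ∈ U | ζ z = 0} = 0) (B : Fin (q + 1 + 1) → (Fin n → ℂ)) {L : ℝ}
    (hL : Tendsto (fun ε : ℝ => ∫ z in U, ε * Real.exp (v z) /
      (‖ζ z‖ ^ 2 * Real.exp (v z) + ε) ^ 2 * RI (mu ζ v z) (Ψ z) B) (𝓝[>] 0) (𝓝 L)) :
    Tendsto (fun ε : ℝ => ∫ z in U, wdg (extDeriv (dcf fun y =>
        Real.log (‖ζ y‖ ^ 2 * Real.exp (v y) + ε)) z) (Ψ z) B) (𝓝[>] 0)
      (𝓝 ((∫ z in U, wdg (extDeriv (dcf v) z) (Ψ z) B) - 4 * L)) := by
  have hvc : ContinuousOn v U := fun z hz => (hv z hz).continuousAt.continuousWithinAt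
  have hN : ContinuousOn (fun z => ‖ζ z‖ ^ 2 * Real.exp (v z)) U :=
    (hζ.continuousOn.norm.pow 2).mul hvc.rexp
  have hae : ∀ᵐ z ∂(volume.restrict U), z ∈ U ∧ ζ z ≠ 0 := by
    rw [ae_restrict_iff' hU.measurableSet]
    have : ∀ᵐ z, z ∉ {z ∈ U | ζ z = 0} := measure_eq_zero_iff_ae_notMem.1 hnull
    filter_upwards [this] with z hz hzU
    exact ⟨hzU, fun h => hz ⟨hzU, h⟩⟩
  have c1 := contOn_main hU hv hΨ B
  have c2 := contOn_RI hU hζ hv hΨ B
  have z1 : ∀ z ∈ U, z ∉ K → wdg (extDeriv (dcf v) z) (Ψ z) B = 0 := fun z hz hzK => by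
    rw [hΨ0 z hz hzK, wdg_zero_right]; rfl
  have z2 : ∀ z ∈ U, z ∉ K → RI (mu ζ v z) (Ψ z) B = 0 := fun z hz hzK => by
    rw [hΨ0 z hz hzK, RI, wedge1_zero_right, wedge1_zero_right]; rfl
  have h1 := tendsto_dom (μ := volume.restrict U) (integrableOn_of_cont hU hK hKU c1 z1)
    (hN.aestronglyMeasurable hU.measurableSet) (by
      filter_upwards [hae] with z hz
      exact mul_pos (pow_pos (norm_pos_iff.2 hz.2) 2) (Real.exp_pos _))
  refine (h1.sub (hL.const_mul 4)).congr' ?_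
  filter_upwards [self_mem_nhdsWithin] with ε hε
  have hε' : (0 : ℝ) < ε := hε
  have hne : ∀ z ∈ U, ‖ζ z‖ ^ 2 * Real.exp (v z) + ε ≠ 0 := fun z _ => by positivity
  have i1 : IntegrableOn (fun z => ‖ζ z‖ ^ 2 * Real.exp (v z) / (‖ζ z‖ ^ 2 * Real.exp (v z) + ε) *
      wdg (extDeriv (dcf v) z) (Ψ z) B) U :=
    integrableOn_of_cont hU hK hKU ((hN.div (hN.add continuousOn_const) hne).mul c1)
      fun z hz hzK => by rw [z1 z hz hzK, mul_zero]
  have i2 : IntegrableOn (fun z => ε * Real.exp (v z) /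
      (‖ζ z‖ ^ 2 * Real.exp (v z) + ε) ^ 2 * RI (mu ζ v z) (Ψ z) B) U :=
    integrableOn_of_cont hU hK hKU (((continuousOn_const.mul hvc.rexp).div
      ((hN.add continuousOn_const).pow 2) fun z hz => pow_ne_zero 2 (hne z hz)).mul c2)
      fun z hz hzK => by rw [z2 z hz hzK, mul_zero]
  rw [← integral_const_mul, ← integral_sub i1 (i2.const_mul 4)]
  refine integral_congr_ae ?_
  filter_upwards [hae] with z hz
  have h2 := congrArg (fun a : (Fin n → ℂ) [⋀^Fin (q + 1 + 1)]→L[ℝ] ℝ => a B)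
    (ddc_eps (cd_of_diff hU hζ hz.1) (hv z hz.1) hz.2 hε' (Ψ z))
  refine Eq.trans ?_ h2.symm
  show _ = _ * wdg (extDeriv (dcf v) z) (Ψ z) B + _ * RI (mu ζ v z) (Ψ z) B
  ring

/-- the limit off the zero set -/
theorem lim_off (hU : IsOpen U) (hζ : DifferentiableOn ℂ ζ U) (hv : ∀ z ∈ U, ContDiffAt ℝ ∞ v z)
    (hΨ : ContinuousOn Ψ U) (hK : IsCompact K) (hKU : K ⊆ U) (hΨ0 : ∀ z ∈ U, z ∉ K → Ψ z = 0)
    (h0 : ∀ z ∈ U, ζ z ≠ 0) (B : Fin (q + 1 + 1) → (Fin n → ℂ)) :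
    Tendsto (fun ε : ℝ => ∫ z in U, wdg (extDeriv (dcf fun y =>
        Real.log (‖ζ y‖ ^ 2 * Real.exp (v y) + ε)) z) (Ψ z) B) (𝓝[>] 0)
      (𝓝 (∫ z in U, wdg (extDeriv (dcf v) z) (Ψ z) B)) := by
  have hnull : volume {z ∈ U | ζ z = 0} = 0 := by
    have : {z ∈ U | ζ z = 0} = ∅ := eq_empty_of_forall_notMem fun z hz => h0 z hz.1 hz.2
    rw [this, measure_empty]
  have key := split_lim hU hζ hv hΨ hK hKU hΨ0 hnull B (L := 0) ?_
  · rwa [mul_zero, sub_zero] at key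
  have hvc : ContinuousOn v U := fun z hz => (hv z hz).continuousAt.continuousWithinAt
  have hN : ContinuousOn (fun z => ‖ζ z‖ ^ 2 * Real.exp (v z)) U :=
    (hζ.continuousOn.norm.pow 2).mul hvc.rexp
  have hp : ∀ z ∈ U, 0 < ‖ζ z‖ ^ 2 * Real.exp (v z) := fun z hz =>
    mul_pos (pow_pos (norm_pos_iff.2 (h0 z hz)) 2) (Real.exp_pos _)
  have c2 := contOn_RI hU hζ hv hΨ B
  have z2 : ∀ z ∈ U, z ∉ K → RI (mu ζ v z) (Ψ z) B = 0 := fun z hz hzK => by
    rw [hΨ0 z hz hzK, RI, wedge1_zero_right, wedge1_zero_right]; rfl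
  have i0 : IntegrableOn (fun z => Real.exp (v z) /
      (‖ζ z‖ ^ 2 * Real.exp (v z)) ^ 2 * |RI (mu ζ v z) (Ψ z) B|) U :=
    integrableOn_of_cont hU hK hKU ((hvc.rexp.div (hN.pow 2)
      fun z hz => pow_ne_zero 2 (hp z hz).ne').mul c2.abs)
      fun z hz hzK => by rw [z2 z hz hzK, abs_zero, mul_zero]
  refine squeeze_zero_norm' (a := fun ε => ε * ∫ z in U, Real.exp (v z) /
      (‖ζ z‖ ^ 2 * Real.exp (v z)) ^ 2 * |RI (mu ζ v z) (Ψ z) B|) ?_ ?_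
  · filter_upwards [self_mem_nhdsWithin] with ε hε
    have hε' : (0 : ℝ) < ε := hε
    rw [← integral_const_mul]
    refine norm_integral_le_of_norm_le (i0.const_mul ε) ?_
    filter_upwards [ae_restrict_mem hU.measurableSet] with z hz
    have h1 := hp z hz
    rw [norm_mul, Real.norm_of_nonneg (by positivity), Real.norm_eq_abs, ← mul_assoc,
      ← mul_div_assoc]
    gcongr
    linarith
  · have h1 : Tendsto (fun ε : ℝ => ε * ∫ z in U, Real.exp (v z) /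
        (‖ζ z‖ ^ 2 * Real.exp (v z)) ^ 2 * |RI (mu ζ v z) (Ψ z) B|) (𝓝 0) (𝓝 (0 * _)) :=
      tendsto_id.mul_const _
    rw [zero_mul] at h1
    exact h1.mono_left nhdsWithin_le_nhds

end lim

/-- the limit along the zero set -/
theorem lim_on {κ : OpenPartialHomeomorph (Fin (d + 1) → ℂ) (Fin (d + 1) → ℂ)}
    {ζ : (Fin (d + 1) → ℂ) → ℂ} (B : Module.Basis (Fin (q + 1 + 1)) ℝ (Fin (d + 1) → ℂ))
    (B' : Module.Basis (Fin q) ℝ (Fin d → ℂ)) (hB : Adapted B B')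
    (hκ : DifferentiableOn ℂ κ κ.source)
    (hκs : DifferentiableOn ℂ κ.symm κ.target) (hg : ∀ z ∈ κ.source, κ z 0 = ζ z)
    {v : (Fin (d + 1) → ℂ) → ℝ} (hv : ∀ z ∈ κ.source, ContDiffAt ℝ ∞ v z)
    {Ψ : (Fin (d + 1) → ℂ) → (Fin (d + 1) → ℂ) [⋀^Fin q]→L[ℝ] ℝ} (hΨ : ContinuousOn Ψ κ.source)
    {K : Set (Fin (d + 1) → ℂ)} (hK : IsCompact K) (hKU : K ⊆ κ.source)
    (hΨ0 : ∀ z ∈ κ.source, z ∉ K → Ψ z = 0)
    {γ : (Fin d → ℂ) → (Fin (d + 1) → ℂ)} {V : Set (Fin d → ℂ)} (hV : IsOpen V)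
    (hγ : DifferentiableOn ℂ γ V) (hinj : InjOn γ V) (hγs : ∀ t ∈ V, γ t ∈ κ.source)
    (hγ0 : ∀ t ∈ V, ζ (γ t) = 0) (hΨγ : ∀ z ∈ κ.source, ζ z = 0 → z ∉ γ '' V → Ψ z = 0) :
    Tendsto (fun ε : ℝ => ∫ z in κ.source, wdg (extDeriv (dcf fun y =>
        Real.log (‖ζ y‖ ^ 2 * Real.exp (v y) + ε)) z) (Ψ z) B) (𝓝[>] 0)
      (𝓝 ((∫ z in κ.source, wdg (extDeriv (dcf v) z) (Ψ z) B) -
        4 * (π * ∫ t in V, (Ψ (γ t)).compContinuousLinearMap (fderiv ℝ γ t) B'))) := by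
  have hζ := zeta_diff hκ hg
  refine split_lim κ.open_source hζ hv hΨ hK hKU hΨ0 (volume_zero hκs hg) B ?_
  have hvc : ContinuousOn v κ.source := fun z hz => (hv z hz).continuousAt.continuousWithinAt
  have key := tendsto_flat hκs hg (θ := fun z => Real.exp (v z)) hvc.rexp
    (fun z _ => Real.exp_pos _) (contOn_RI κ.open_source hζ hv hΨ B) hK hKU fun z hz hzK => by
      rw [hΨ0 z hz hzK, RI, wedge1_zero_right, wedge1_zero_right]; rfl
  rw [← slice_int B' hκ hκs hg hV hγ hinj hγs hγ0 Ψ hΨγ]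
  have hW : IsOpen {w | inr d w ∈ κ.target} := κ.open_target.preimage (inr d).continuous
  have e1 : ∫ w in {w | inr d w ∈ κ.target}, (Ψ (κ.symm (inr d w))).compContinuousLinearMap
        (fderiv ℝ (fun w => κ.symm (inr d w)) w) B' =
      ∫ w in {w | inr d w ∈ κ.target}, adet κ.symm (inr d w) *
        RI (mu ζ v (κ.symm (inr d w))) (Ψ (κ.symm (inr d w))) B := by
    refine setIntegral_congr_fun hW.measurableSet fun w hw => ?_
    have h2 : ζ (κ.symm (inr d w)) = 0 := by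
      rw [← hg _ (κ.map_target hw), κ.right_inv hw]; rfl
    rw [mu_zero v h2, slice_val B hB hκ hκs hg hw]
  rw [e1]
  exact key

end Vale.Agent.P277Z.Top.PL
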