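import Vale.Agent.P277Z.Top.PL4
import Vale.Agent.P277Z.Gd.Wdg

/-!
# P277, block TOP, Poincare-Lelong on a compact complex manifold
-/

set_option maxSynthPendingDepth 3

open scoped Manifold ContDiff Topology Real
open ContinuousAlternatingMap Vale.Agent.P267.H928.Int Vale.Agent.P267.H175
open Vale.Agent.P277 Vale.Agent.P277.H60 Vale.Agent.P277.H619 Filter Set MeasureTheory
open Vale.Agent.P277Z.Tr Vale.Agent.P277Z.Gd Module
open Vale.Agent.P272.K (Cm Chart At)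

noncomputable section

namespace Vale.Agent.P277Z.Top.PL

section dc

variable {n : ℕ} {M : Type*} [TopologicalSpace M] [ChartedSpace (Cm n) M]

/-- the form `du ∘ J` on a complex manifold -/
def dcM (n : ℕ) [ChartedSpace (Cm n) M] (u : M → ℝ) (x : M) : Cm n [⋀^Fin (0 + 1)]→L[ℝ] ℝ :=
  dcf (fun z => u ((chartAt (Cm n) x).symm z)) (chartAt (Cm n) x x)

/-- smoothness of a function at a point -/
def SmF (n : ℕ) [ChartedSpace (Cm n) M] (u : M → ℝ) (x : M) : Prop :=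
  ContDiffAt ℝ ∞ (fun z => u ((chartAt (Cm n) x).symm z)) (chartAt (Cm n) x x)

theorem dcM_congr {u u' : M → ℝ} {x : M} (h : u =ᶠ[𝓝 x] u') : dcM n u =ᶠ[𝓝 x] dcM n u' := by
  filter_upwards [h.eventuallyEq_nhds] with y hy
  exact (dcf_congr (ev_symm (mem_chart_source (Cm n) y) hy)).self_of_nhds

theorem dcM_const (c : ℝ) : dcM n (fun _ : M => c) = 0 := by
  funext x
  rw [dcM, dcf, fderiv_fun_const, Pi.zero_apply, ContinuousLinearMap.zero_comp, wedge1_zero_left]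
  rfl

variable [IsManifold 𝓘(ℂ, Cm n) ω M]

theorem SmF.chart {u : M → ℝ} {e : Chart n M} (he : e ∈ atlas (Cm n) M) {z : Cm n}
    (hz : z ∈ e.target) (hu : SmF n u (e.symm z)) : ContDiffAt ℝ ∞ (fun y => u (e.symm y)) z := by
  set c := chartAt (Cm n) (e.symm z) with hc
  have hcx : e.symm z ∈ c.source := mem_chart_source _ _
  have h1 : ContDiffAt ℝ ∞ (fun y => c (e.symm y)) z := trR he (chart_mem_atlas _ _) hz hcx
  refine (ContDiffAt.comp (g := fun y => u (c.symm y)) (f := fun y => c (e.symm y)) z hu h1).congr_of_eventuallyEq ?_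
  filter_upwards [(e.continuousAt_symm hz).eventually (c.open_source.mem_nhds hcx)] with y hy
  simp only [Function.comp_apply]
  rw [c.left_inv hy]

theorem loc_dcM {u : M → ℝ} {e : Chart n M} (he : e ∈ atlas (Cm n) M) {z : Cm n}
    (hz : z ∈ e.target) (hu : SmF n u (e.symm z)) :
    loc e (dcM n u) z = dcf (fun y => u (e.symm y)) z := by
  set c := chartAt (Cm n) (e.symm z) with hc
  have hcx : e.symm z ∈ c.source := mem_chart_source _ _
  have hca : c ∈ atlas (Cm n) M := chart_mem_atlas _ _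
  have h1 : DifferentiableAt ℝ (fun y => c (e.symm y)) z :=
    (trR he hca hz hcx).differentiableAt (by simp)
  have h2 : fderiv ℝ (fun y => u (e.symm y)) z =
      (fderiv ℝ (fun y => u (c.symm y)) (c (e.symm z))).comp (fderiv ℝ (fun y => c (e.symm y)) z) := by
    rw [← fderiv_fun_comp (g := fun y => u (c.symm y)) z (hu.differentiableAt (by simp)) h1]
    apply Filter.EventuallyEq.fderiv_eq
    filter_upwards [(e.continuousAt_symm hz).eventually (c.open_source.mem_nhds hcx)] with y hy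
    rw [c.left_inv hy]
  have h3 : fderiv ℝ (fun y => c (e.symm y)) z = (fderiv ℂ (chg e c) z).restrictScalars ℝ :=
    fderiv_chg_real he hca hz hcx
  have h4 : loc e (dcM n u) z = (wedge1 ((fderiv ℝ (fun y => u (c.symm y)) (c (e.symm z))).comp
      (Jc n)) one0).compContinuousLinearMap (fderiv ℝ (fun y => c (e.symm y)) z) := rfl
  rw [h4, wedge1_comp, dcf, h2, h3]
  congr 1
  ext1 w
  simp [Jc_apply]

theorem loc_dcM_ev {u : M → ℝ} {e : Chart n M} (he : e ∈ atlas (Cm n) M) {z : Cm n}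
    (hz : z ∈ e.target) (hu : ∀ᶠ x in 𝓝 (e.symm z), SmF n u x) :
    loc e (dcM n u) =ᶠ[𝓝 z] dcf (fun y => u (e.symm y)) := by
  filter_upwards [e.open_target.mem_nhds hz, (e.continuousAt_symm hz).eventually hu] with y hy hy'
  exact loc_dcM he hy hy'

theorem smAt_dcM {u : M → ℝ} {x : M} (hu : ∀ᶠ y in 𝓝 x, SmF n u y) : SmAt (dcM n u) x := by
  have h1 : (chartAt (Cm n) x).symm (chartAt (Cm n) x x) = x :=
    (chartAt (Cm n) x).left_inv (mem_chart_source _ x)
  exact (contDiffAt_dcf hu.self_of_nhds).congr_of_eventuallyEq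
    (loc_dcM_ev (chart_mem_atlas _ x) (mem_chart_target _ x) (by rw [h1]; exact hu))

theorem loc_ddcM {u : M → ℝ} {e : Chart n M} (he : e ∈ atlas (Cm n) M) {z : Cm n}
    (hz : z ∈ e.target) (hu : ∀ᶠ x in 𝓝 (e.symm z), SmF n u x) :
    loc e (dF (dcM n u)) z = extDeriv (dcf fun y => u (e.symm y)) z := by
  rw [loc_dF he hz (smAt_dcM hu), (loc_dcM_ev he hz hu).extDeriv_eq]

theorem smF_of_contMDiff {ρ : M → ℝ} (hρ : ContMDiff 𝓘(ℝ, Cm n) 𝓘(ℝ) ∞ ρ) (x : M) : SmF n ρ x :=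
  Pou.contDiffAt_comp_symm hρ (chart_mem_atlas _ x) (mem_chart_target _ x)

omit [IsManifold 𝓘(ℂ, Cm n) ω M] in
theorem smAt_fsm {k : ℕ} {ρ : M → ℝ} {a : Fm n k M} {x : M} (hρ : SmF n ρ x) (ha : SmAt a x) :
    SmAt (fun y => ρ y • a y) x := by
  rw [SmAt, loc_fsmul]
  exact ContDiffAt.smul hρ ha

variable [T2Space M] [CompactSpace M]

theorem intG_loc {k : ℕ} (b : Basis (Fin k) ℝ (Cm n)) {a : Fm n k M} (ha : ∀ y, SmAt a y)
    {e : Chart n M} (he : e ∈ atlas (Cm n) M) {U : Set (Cm n)} (hU : U ⊆ e.target)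
    (h0 : ∀ y, ¬ (y ∈ e.source ∧ e y ∈ U) → a y = 0) :
    intG volume b a = ∫ z in U, loc e a z b := by
  rw [intG_chart volume b ha he fun y hy => h0 y fun h => hy h.1]
  refine setIntegral_eq_of_subset_of_forall_sdiff_eq_zero e.open_target.measurableSet hU ?_
  rintro z ⟨hz, hz'⟩
  rw [loc, h0 _ fun h => hz' (by rw [← e.right_inv hz]; exact h.2)]
  rfl

/-- `∫ da ∧ b = 0` if `b` is closed near the support of `a` -/
theorem intG_dF_wg' {p q : ℕ} (v : Basis (Fin (q + p + 1)) ℝ (Cm n)) {a : Fm n p M} {b : Fm n q M}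
    (ha : ∀ y, SmAt a y) (hb : ∀ y, SmAt b y) (h0 : ∀ y, dF b y = 0 ∨ a =ᶠ[𝓝 y] 0) :
    intG volume v (wg (p := p + 1) (q := q) (dF a) b) = 0 := by
  have hz : ∀ {k : ℕ} (y : M), dF (0 : Fm n k M) y = 0 := fun {k} y => by
    have := dF_smul (0 : ℝ) (0 : Fm n k M) y
    rwa [zero_smul, zero_smul] at this
  have h : wg (p := p + 1) (q := q) (dF a) b = dF (wg a b) := by
    funext y
    rcases h0 y with h | h
    · exact (dF_wg (ha y) (hb y) h).symm
    · have h1 : wg a b =ᶠ[𝓝 y] 0 := by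
        filter_upwards [h] with x hx
        show wdg (a x) (b x) = 0
        rw [hx, Pi.zero_apply, wdg_zero_left]
      have h2 : dF a y = 0 := (dF_congr h).trans (hz y)
      refine Eq.trans ?_ ((dF_congr h1).trans (hz y)).symm
      show wdg (dF a y) (b y) = 0
      rw [h2, wdg_zero_left]
  exact (congrArg (intG volume v) h).trans (intG_dF volume v fun y => smAt_wg (ha y) (hb y))

theorem intG_sum {k : ℕ} (b : Basis (Fin k) ℝ (Cm n)) {ι : Type*} (s : Finset ι)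
    {a : ι → Fm n k M} (ha : ∀ i y, SmAt (a i) y) :
    (∀ y, SmAt (∑ i ∈ s, a i) y) ∧ intG volume b (∑ i ∈ s, a i) = ∑ i ∈ s, intG volume b (a i) := by
  classical
  induction s using Finset.induction_on with
  | empty => exact ⟨fun y => smAt_zero y, intG_zero volume b⟩
  | insert i s hi ih =>
    rw [Finset.sum_insert hi, Finset.sum_insert hi]
    exact ⟨fun y => (ha i y).add (ih.1 y), by rw [intG_add volume b (ha i) ih.1, ih.2]⟩

theorem intG_pou {k : ℕ} (b : Basis (Fin k) ℝ (Cm n)) {ι : Type*} (s : Finset ι) {ρ : ι → M → ℝ}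
    (hρ : ∀ i y, SmF n (ρ i) y) (h1 : ∀ y, ∑ i ∈ s, ρ i y = 1) {a : Fm n k M}
    (ha : ∀ y, SmAt a y) : intG volume b a = ∑ i ∈ s, intG volume b fun y => ρ i y • a y := by
  rw [← (intG_sum b s fun i y => smAt_fsm (hρ i y) (ha y)).2]
  congr 1
  funext y
  rw [Finset.sum_apply, ← Finset.sum_smul, h1, one_smul]

end dc

variable {d q : ℕ} {M : Type*} [TopologicalSpace M] [ChartedSpace (Cm (d + 1)) M]
  {S : Type*} [TopologicalSpace S] [ChartedSpace (Cm d) S]

/-- local description of `N = |s|²` and of its curvature form in the chart at `p` -/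
structure LocD (Z : Set M) (N : M → ℝ) (θ : Fm (d + 1) (0 + 1 + 1) M) (p : M) (D : Set (Cm (d + 1)))
    (ζ : Cm (d + 1) → ℂ) (v : Cm (d + 1) → ℝ) : Prop where
  op : IsOpen D
  mem : chartAt (Cm (d + 1)) p p ∈ D
  sub : D ⊆ (chartAt (Cm (d + 1)) p).target
  hol : DifferentiableOn ℂ ζ D
  sm : ∀ z ∈ D, ContDiffAt ℝ ∞ v z
  hN : ∀ z ∈ D, N ((chartAt (Cm (d + 1)) p).symm z) = ‖ζ z‖ ^ 2 * Real.exp (v z)
  hθ : ∀ z ∈ D, loc (chartAt (Cm (d + 1)) p) θ z = extDeriv (dcf v) z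
  zero : ∀ z ∈ D, ζ z = 0 ↔ (chartAt (Cm (d + 1)) p).symm z ∈ Z
  ne : ζ (chartAt (Cm (d + 1)) p p) = 0 → fderiv ℂ ζ (chartAt (Cm (d + 1)) p p) ≠ 0

variable {Z : Set M} {N : M → ℝ} {θ : Fm (d + 1) (0 + 1 + 1) M} {p : M} {D : Set (Cm (d + 1))}
    {ζ : Cm (d + 1) → ℂ} {v : Cm (d + 1) → ℝ}

theorem LocD.smAt (h : LocD Z N θ p D ζ v) : SmAt θ p := by
  refine (contDiffAt_extDeriv (contDiffAt_dcf (h.sm _ h.mem))).congr_of_eventuallyEq ?_
  filter_upwards [h.op.mem_nhds h.mem] with z hz using h.hθ z hz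

theorem LocD.smF (h : LocD Z N θ p D ζ v) {ε : ℝ} (hε : 0 < ε) :
    SmF (d + 1) (fun x => Real.log (N x + ε)) p := by
  have h1 : ContDiffAt ℝ ∞ ζ (chartAt (Cm (d + 1)) p p) :=
    (cd_of_diff h.op h.hol h.mem).restrict_scalars ℝ
  have h2 : ContDiffAt ℝ ∞ (fun z => Real.log (‖ζ z‖ ^ 2 * Real.exp (v z) + ε))
      (chartAt (Cm (d + 1)) p p) :=
    (((h1.norm_sq ℝ).mul (h.sm _ h.mem).exp).add contDiffAt_const).log (by positivity)
  refine h2.congr_of_eventuallyEq ?_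
  filter_upwards [h.op.mem_nhds h.mem] with z hz
  rw [h.hN z hz]

variable [IsManifold 𝓘(ℂ, Cm (d + 1)) ω M] [T2Space M] [CompactSpace M]

/-- the integral of `ρ ω_ε ∧ Φ` in the chart -/
theorem LocD.int_eps (h : LocD Z N θ p D ζ v) (B : Basis (Fin (q + (0 + 1 + 1))) ℝ (Cm (d + 1)))
    {ε : ℝ} (hs : ∀ x, SmF (d + 1) (fun x => Real.log (N x + ε)) x) {Φ : Fm (d + 1) q M}
    (hΦ : ∀ y, SmAt Φ y) {ρ : M → ℝ} (hρ : ∀ y, SmF (d + 1) ρ y) {U : Set (Cm (d + 1))}
    (hU : IsOpen U) (hUD : U ⊆ D)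
    (h0 : ∀ y, ¬ (y ∈ (chartAt (Cm (d + 1)) p).source ∧ chartAt (Cm (d + 1)) p y ∈ U) → ρ y = 0) :
    intG volume B (fun y => ρ y • wg (dF (dcM (d + 1) fun x => Real.log (N x + ε))) Φ y) =
      ∫ z in U, wdg (extDeriv (dcf fun y => Real.log (‖ζ y‖ ^ 2 * Real.exp (v y) + ε)) z)
        (ρ ((chartAt (Cm (d + 1)) p).symm z) • loc (chartAt (Cm (d + 1)) p) Φ z) B := by
  have hsm : ∀ y, SmAt (dF (dcM (d + 1) fun x => Real.log (N x + ε))) y := fun y =>
    smAt_dF isOpen_univ (fun x _ => smAt_dcM (Eventually.of_forall hs)) (mem_univ y)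
  rw [intG_loc B (fun y => smAt_fsm (hρ y) (smAt_wg (hsm y) (hΦ y))) (chart_mem_atlas _ p)
    (hUD.trans h.sub) fun y hy => by rw [h0 y hy, zero_smul]]
  refine setIntegral_congr_fun hU.measurableSet fun z hz => ?_
  have h1 : (fun y => Real.log (N ((chartAt (Cm (d + 1)) p).symm y) + ε)) =ᶠ[𝓝 z]
      fun y => Real.log (‖ζ y‖ ^ 2 * Real.exp (v y) + ε) := by
    filter_upwards [h.op.mem_nhds (hUD hz)] with y hy
    rw [h.hN y hy]
  rw [loc_fsmul, loc_wg, wdg_smul_right, ← (dcf_congr h1).extDeriv_eq,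
    ← loc_ddcM (chart_mem_atlas _ p) (h.sub (hUD hz)) (Eventually.of_forall hs)]

/-- the integral of `ρ θ ∧ Φ` in the chart -/
theorem LocD.int_theta (h : LocD Z N θ p D ζ v) (B : Basis (Fin (q + (0 + 1 + 1))) ℝ (Cm (d + 1)))
    (hθ : ∀ y, SmAt θ y) {Φ : Fm (d + 1) q M}
    (hΦ : ∀ y, SmAt Φ y) {ρ : M → ℝ} (hρ : ∀ y, SmF (d + 1) ρ y) {U : Set (Cm (d + 1))}
    (hU : IsOpen U) (hUD : U ⊆ D)
    (h0 : ∀ y, ¬ (y ∈ (chartAt (Cm (d + 1)) p).source ∧ chartAt (Cm (d + 1)) p y ∈ U) → ρ y = 0) :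
    intG volume B (fun y => ρ y • wg θ Φ y) =
      ∫ z in U, wdg (extDeriv (dcf v) z)
        (ρ ((chartAt (Cm (d + 1)) p).symm z) • loc (chartAt (Cm (d + 1)) p) Φ z) B := by
  rw [intG_loc B (fun y => smAt_fsm (hρ y) (smAt_wg (hθ y) (hΦ y))) (chart_mem_atlas _ p)
    (hUD.trans h.sub) fun y hy => by rw [h0 y hy, zero_smul]]
  refine setIntegral_congr_fun hU.measurableSet fun z hz => ?_
  rw [loc_fsmul, loc_wg, wdg_smul_right, ← h.hθ z (hUD hz)]

omit [T2Space M] in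
/-- the localised form in the chart -/
theorem psi_props {Φ : Fm (d + 1) q M} (hΦ : ∀ y, SmAt Φ y) {ρ : M → ℝ}
    (hρ : ∀ y, SmF (d + 1) ρ y) {e : Chart (d + 1) M} (he : e ∈ atlas (Cm (d + 1)) M)
    {U : Set (Cm (d + 1))} (hU : U ⊆ e.target) (hs : tsupport ρ ⊆ e.source ∩ e ⁻¹' U) :
    ContinuousOn (fun z => ρ (e.symm z) • loc e Φ z) U ∧ IsCompact (e '' tsupport ρ) ∧
      e '' tsupport ρ ⊆ U ∧ (∀ z ∈ U, z ∉ e '' tsupport ρ → ρ (e.symm z) • loc e Φ z = 0) ∧
      ∀ y, ¬ (y ∈ e.source ∧ e y ∈ U) → ρ y = 0 := by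
  refine ⟨fun z hz => ?_, ?_, ?_, fun z hz hz' => ?_, fun y hy => ?_⟩
  · exact (((hρ _).chart he (hU hz)).continuousAt.smul
      (contDiffAt_loc he (hU hz) (hΦ _)).continuousAt).continuousWithinAt
  · exact (isClosed_tsupport ρ).isCompact.image_of_continuousOn
      (e.continuousOn.mono fun y hy => (hs hy).1)
  · rintro _ ⟨y, hy, rfl⟩
    exact (hs hy).2
  · rw [image_eq_zero_of_notMem_tsupport fun h => hz' ⟨_, h, e.right_inv (hU hz)⟩, zero_smul]
  · exact image_eq_zero_of_notMem_tsupport fun h => hy (hs h)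

variable [IsManifold 𝓘(ℂ, Cm d) ω S] [T2Space S] [CompactSpace S]

omit [T2Space M] [CompactSpace M] [T2Space S] [CompactSpace S] [IsManifold 𝓘(ℂ, Cm (d + 1)) ω M]
  [IsManifold 𝓘(ℂ, Cm d) ω S] in
theorem smF_comp {ι : S → M} (hι : HolM d (d + 1) ι) {ρ : M → ℝ} (hρ : ∀ y, SmF (d + 1) ρ y)
    (s : S) : SmF d (fun s => ρ (ι s)) s := by
  have hx : s ∈ (chartAt (Cm d) s).source := mem_chart_source _ s
  have h1 : (chartAt (Cm d) s).symm (chartAt (Cm d) s s) = s := (chartAt (Cm d) s).left_inv hx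
  have h2 : ContDiffAt ℝ ∞ (fun z => ρ ((chartAt (Cm (d + 1)) (ι s)).symm z))
      (chartAt (Cm (d + 1)) (ι s) (ι ((chartAt (Cm d) s).symm (chartAt (Cm d) s s)))) := by
    rw [h1]; exact hρ (ι s)
  refine (ContDiffAt.comp (g := fun z => ρ ((chartAt (Cm (d + 1)) (ι s)).symm z))
    (f := fun z => chartAt (Cm (d + 1)) (ι s) (ι ((chartAt (Cm d) s).symm z))) _ h2
    (hι.smM s).2).congr_of_eventuallyEq ?_
  filter_upwards [ev_symm hx (hι.1.continuousAt.preimage_mem_nhds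
    ((chartAt (Cm (d + 1)) (ι s)).open_source.mem_nhds (mem_chart_source _ _)))] with z hz
  simp only [Function.comp_apply]
  rw [(chartAt (Cm (d + 1)) (ι s)).left_inv hz]

/-- the local statement -/
theorem good (B : Basis (Fin (q + (0 + 1 + 1))) ℝ (Cm (d + 1))) (B' : Basis (Fin q) ℝ (Cm d))
    (hB : Adapted (q := q) B B') {ι : S → M} (hι : HolM d (d + 1) ι) (hinj : Function.Injective ι)
    (h : LocD (range ι) N θ p D ζ v)
    (hs : ∀ ε > 0, ∀ x, SmF (d + 1) (fun x => Real.log (N x + ε)) x) (hθ : ∀ y, SmAt θ y)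
    {Φ : Fm (d + 1) q M} (hΦ : ∀ y, SmAt Φ y) :
    ∃ W : Set M, IsOpen W ∧ p ∈ W ∧ ∀ ρ : M → ℝ, (∀ y, SmF (d + 1) ρ y) → tsupport ρ ⊆ W →
      Tendsto (fun ε : ℝ => intG volume B
          (fun y => ρ y • wg (dF (dcM (d + 1) fun x => Real.log (N x + ε))) Φ y)) (𝓝[>] 0)
        (𝓝 (intG volume B (fun y => ρ y • wg θ Φ y) -
          4 * (π * intG volume B' fun s => ρ (ι s) • pb (Cm d) ι Φ s))) := by
  have he : chartAt (Cm (d + 1)) p ∈ atlas (Cm (d + 1)) M := chart_mem_atlas _ p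
  have hp : p ∈ (chartAt (Cm (d + 1)) p).source := mem_chart_source _ p
  by_cases h0 : ζ (chartAt (Cm (d + 1)) p p) = 0
  · set e := chartAt (Cm (d + 1)) p with hee
    obtain ⟨s₀, hs₀⟩ : p ∈ range ι := by
      have := (h.zero _ h.mem).1 h0
      rwa [e.left_inv hp] at this
    set e' := chartAt (Cm d) s₀ with he'
    have he'a : e' ∈ atlas (Cm d) S := chart_mem_atlas _ s₀
    have hC : IsClosed (ι '' e'.sourceᶜ) :=
      (e'.open_source.isClosed_compl.isCompact.image hι.1).isClosed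
    have hD' : IsOpen (D ∩ (e.target ∩ e.symm ⁻¹' (ι '' e'.sourceᶜ)ᶜ)) :=
      h.op.inter (e.symm.isOpen_inter_preimage hC.isOpen_compl)
    have hpD' : e p ∈ D ∩ (e.target ∩ e.symm ⁻¹' (ι '' e'.sourceᶜ)ᶜ) := by
      refine ⟨h.mem, e.map_source hp, ?_⟩
      rw [mem_preimage, e.left_inv hp]
      rintro ⟨s, hs, hsp⟩
      rw [hinj (hsp.trans hs₀.symm)] at hs
      exact hs (mem_chart_source _ s₀)
    obtain ⟨κ, hκp, hκD, hg, hκ, hκs⟩ :=
      exists_kappa hD' (h.hol.mono inter_subset_left) hpD' (h.ne h0)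
    have hUD : κ.source ⊆ D := fun z hz => (hκD hz).1
    have hW : IsOpen (e.source ∩ e ⁻¹' κ.source) := e.isOpen_inter_preimage κ.open_source
    refine ⟨e.source ∩ e ⁻¹' κ.source, hW, ⟨hp, hκp⟩, fun ρ hρ hsupp => ?_⟩
    obtain ⟨c1, c2, c3, c4, c5⟩ := psi_props hΦ hρ he (hUD.trans h.sub) hsupp
    set V : Set (Cm d) := e'.target ∩ e'.symm ⁻¹' (ι ⁻¹' (e.source ∩ e ⁻¹' κ.source)) with hV
    have hVo : IsOpen V := e'.symm.isOpen_inter_preimage (hW.preimage hι.1)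
    have hγ : DifferentiableOn ℂ (fun t => e (ι (e'.symm t))) V := by
      intro t ht
      have := hι.2 (e'.symm t) e' e ⟨he'a, e'.map_target ht.1⟩ ⟨he, ht.2.1⟩
      rw [e'.right_inv ht.1] at this
      exact this.differentiableAt.differentiableWithinAt
    have hγi : InjOn (fun t => e (ι (e'.symm t))) V := fun t ht t' ht' hh =>
      e'.symm.injOn ht.1 ht'.1 (hinj (e.injOn ht.2.1 ht'.2.1 hh))
    have key := lim_on B B' hB hκ hκs hg (fun z hz => h.sm z (hUD hz)) c1 c2 c3 c4 hVo hγ hγi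
      (fun t ht => ht.2.2) (fun t ht => (h.zero _ (hUD ht.2.2)).2 (by
        rw [e.left_inv ht.2.1]; exact mem_range_self _)) (fun z hz hz0 hz' => (hz' (by
        obtain ⟨s, hs⟩ := (h.zero z (hUD hz)).1 hz0
        have hzt : z ∈ e.target := h.sub (hUD hz)
        have hse : s ∈ e'.source := by
          by_contra hn
          exact (hκD hz).2.2 ⟨s, hn, hs⟩
        refine ⟨e' s, ⟨e'.map_source hse, ?_⟩, ?_⟩
        · rw [mem_preimage, e'.left_inv hse, mem_preimage, hs]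
          exact ⟨e.map_target hzt, by rw [mem_preimage, e.right_inv hzt]; exact hz⟩
        · show e (ι (e'.symm (e' s))) = z
          rw [e'.left_inv hse, hs, e.right_inv hzt])).elim)
    have hS : intG volume B' (fun s => ρ (ι s) • pb (Cm d) ι Φ s) =
        ∫ t in V, (ρ (e.symm (e (ι (e'.symm t)))) • loc e Φ (e (ι (e'.symm t)))
          ).compContinuousLinearMap (fderiv ℝ (fun t => e (ι (e'.symm t))) t) B' := by
      rw [intG_loc B' (fun s => smAt_fsm (smF_comp hι hρ s)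
        (smAt_pb (Eventually.of_forall hι.smM) (hΦ _))) he'a (U := V) inter_subset_left]
      · refine setIntegral_congr_fun hVo.measurableSet fun t ht => ?_
        have h1 := loc_pb he'a he Φ (hι.smM (e'.symm t)) (e'.map_target ht.1) ht.2.1
        rw [e'.right_inv ht.1] at h1
        rw [loc_fsmul]
        beta_reduce
        rw [h1, e.left_inv ht.2.1]
        rfl
      · intro s hs
        rw [c5 (ι s), zero_smul]
        intro hh
        have hse : s ∈ e'.source := by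
          by_contra hn
          refine (hκD hh.2).2.2 ⟨s, hn, ?_⟩
          rw [e.left_inv hh.1]
        refine hs ⟨hse, e'.map_source hse, ?_⟩
        rw [mem_preimage, e'.left_inv hse]
        exact hh
    rw [h.int_theta B hθ hΦ hρ κ.open_source hUD c5, hS]
    refine key.congr' ?_
    filter_upwards [self_mem_nhdsWithin] with ε hε
    exact (h.int_eps B (hs ε hε) hΦ hρ κ.open_source hUD c5).symm
  · set e := chartAt (Cm (d + 1)) p with hee
    have hU : IsOpen (D ∩ ζ ⁻¹' {0}ᶜ) :=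
      h.hol.continuousOn.isOpen_inter_preimage h.op isOpen_compl_singleton
    have hUD : D ∩ ζ ⁻¹' {0}ᶜ ⊆ D := inter_subset_left
    refine ⟨e.source ∩ e ⁻¹' (D ∩ ζ ⁻¹' {0}ᶜ), e.isOpen_inter_preimage hU, ⟨hp, h.mem, h0⟩,
      fun ρ hρ hsupp => ?_⟩
    obtain ⟨c1, c2, c3, c4, c5⟩ := psi_props hΦ hρ he (hUD.trans h.sub) hsupp
    have key := lim_off hU (h.hol.mono hUD) (fun z hz => h.sm z hz.1) c1 c2 c3 c4
      (fun z hz => hz.2) B
    have hS : (fun s => ρ (ι s) • pb (Cm d) ι Φ s) = 0 := by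
      funext s
      rw [c5 (ι s), zero_smul, Pi.zero_apply]
      intro hh
      refine hh.2.2 ((h.zero _ hh.2.1).2 ?_)
      rw [e.left_inv hh.1]
      exact mem_range_self s
    rw [h.int_theta B hθ hΦ hρ hU hUD c5, hS, intG_zero, mul_zero, mul_zero, sub_zero]
    refine key.congr' ?_
    filter_upwards [self_mem_nhdsWithin] with ε hε
    exact (h.int_eps B (hs ε hε) hΦ hρ hU hUD c5).symm

/-- **Poincare-Lelong** for a smooth compact hypersurface. -/
theorem pl_gen (B : Basis (Fin (q + (0 + 1 + 1))) ℝ (Cm (d + 1))) (B' : Basis (Fin q) ℝ (Cm d))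
    (hB : Adapted (q := q) B B') {ι : S → M} (hι : HolM d (d + 1) ι) (hinj : Function.Injective ι)
    (h : ∀ p, ∃ D ζ v, LocD (range ι) N θ p D ζ v)
    {Φ : Fm (d + 1) q M} (hΦ : ∀ y, SmAt Φ y) (hc : ∀ y, dF Φ y = 0 ∨ ∀ᶠ x in 𝓝 y, N x = 1) :
    intG volume B (wg θ Φ) = 4 * π * intG volume B' (pb (Cm d) ι Φ) := by
  classical
  have hs : ∀ ε > 0, ∀ x, SmF (d + 1) (fun x => Real.log (N x + ε)) x := fun ε hε x => by
    obtain ⟨D, ζ, v, hx⟩ := h x
    exact hx.smF hε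
  have hθ : ∀ y, SmAt θ y := fun x => by
    obtain ⟨D, ζ, v, hx⟩ := h x
    exact hx.smAt
  have h1 := fun p => (h p).elim fun D h1 => h1.elim fun ζ h2 => h2.elim fun v h3 =>
    good B B' hB hι hinj h3 hs hθ hΦ
  choose W hWo hWp hW using h1
  obtain ⟨ρ, hρ⟩ := SmoothPartitionOfUnity.exists_isSubordinate (M := M) 𝓘(ℝ, Cm (d + 1))
    (s := univ) isClosed_univ W hWo (fun x _ => mem_iUnion.2 ⟨x, hWp x⟩)
  have hfin : {i | (Function.support (ρ i)).Nonempty}.Finite :=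
    ρ.locallyFinite.finite_nonempty_of_compact
  have hone : ∀ y, ∑ i ∈ hfin.toFinset, ρ i y = 1 := by
    intro y
    rw [← ρ.sum_eq_one (mem_univ y), finsum_eq_sum_of_support_subset]
    intro i hi
    exact hfin.mem_toFinset.2 ⟨y, hi⟩
  have hsm : ∀ i y, SmF (d + 1) (ρ i) y := fun i => smF_of_contMDiff (ρ i).contMDiff
  have hlim := tendsto_finsetSum hfin.toFinset fun i _ => hW i (ρ i) (hsm i) (hρ i)
  rw [Finset.sum_sub_distrib, ← Finset.mul_sum, ← Finset.mul_sum,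
    ← intG_pou B _ hsm hone fun y => smAt_wg (hθ y) (hΦ y),
    ← intG_pou B' _ (ρ := fun i s => ρ i (ι s)) (fun i => smF_comp hι (hsm i)) (fun s => hone _)
      fun s => smAt_pb (Eventually.of_forall hι.smM) (hΦ _)] at hlim
  have hz : Tendsto (fun _ : ℝ => (0 : ℝ)) (𝓝[>] 0) (𝓝 (intG volume B (wg θ Φ) -
      4 * (π * intG volume B' (pb (Cm d) ι Φ)))) := by
    refine hlim.congr' ?_
    filter_upwards [self_mem_nhdsWithin] with ε hε
    have h2 : ∀ y, SmAt (dcM (d + 1) fun x => Real.log (N x + ε)) y := fun y =>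
      smAt_dcM (Eventually.of_forall (hs ε hε))
    rw [← intG_pou B _ hsm hone fun y => smAt_wg
      (smAt_dF isOpen_univ (fun x _ => h2 x) (mem_univ y)) (hΦ y)]
    refine intG_dF_wg' (p := 0 + 1) (q := q) B h2 hΦ fun y => (hc y).imp_right fun hy => ?_
    rw [← dcM_const (Real.log (1 + ε))]
    exact dcM_congr (hy.mono fun x hx => by simp only [hx])
  have := tendsto_nhds_unique hz tendsto_const_nhds
  linarith

end Vale.Agent.P277Z.Top.PL
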