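import Vale.Agent.P277Z.Top.Six
import Vale.Agent.P277Z.Ps.Met

/-!
# P277, block TOP: the data for the vanishing theorem near a fibre
-/

set_option linter.all false
set_option maxSynthPendingDepth 3

open scoped Manifold ContDiff Topology ComplexOrder
open Vale.Agent.P272.K Vale.Agent.P285.H281.FD Vale.Agent.P277 Set Filter Module
open Vale.Agent.P277.PH (HolF SmR)
open Vale.Agent.P277Z.Val (Sb Lg IsCC eqn)
open Vale.Agent.P277Z.Ln (RData at_self)
open Vale.Agent.P277Z.Gd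

noncomputable section

namespace Vale.Agent.P277Z.Top.H98

theorem spsh_ev {d : ℕ} {M : Type} [TopologicalSpace M] [ChartedSpace (Cm d) M]
    [IsManifold 𝓘(ℂ, Cm d) ω M] {φ : M → ℝ} {x : M} (hs : ∀ᶠ w in 𝓝 x, SmR d φ w)
    (hp : ∀ v, v ≠ 0 → 0 < ddc d φ x ![v, Complex.I • v]) : ∀ᶠ w in 𝓝 x, Spsh d φ w := by
  have he := at_self (n := d) x
  have h1 := ((j11_ddc hs).posDef hp).smul (a := ((4 * Real.pi : ℝ) : ℂ))
    (Complex.zero_lt_real.2 (by positivity))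
  rw [Gd.mat_ddc hs, smul_smul, ← Complex.ofReal_mul, mul_inv_cancel₀ (by positivity),
    Complex.ofReal_one, one_smul] at h1
  set e := chartAt (Cm d) x
  obtain ⟨ε, hε, h⟩ := N.posDef_of_near h1
  have h2 : ∀ i j, ∀ᶠ w in 𝓝 x, ‖cHess (fun z => φ (e.symm z)) (e w) i j -
      cHess (fun z => φ (e.symm z)) (e x) i j‖ ≤ ε := fun i j => by
    have k1 := (INT.smooth_cHess (hs.self_of_nhds e he) i j).continuousAt.comp
      (e.continuousAt he.2)
    exact ((k1.sub (continuousAt_const (y := cHess (fun z => φ (e.symm z)) (e x) i j))).norm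
      ).eventually (Iic_mem_nhds (by simpa using hε))
  filter_upwards [eventually_all.2 fun i => eventually_all.2 (h2 i), hs,
    e.open_source.mem_nhds he.2] with w k1 k2 k3
  exact Ps.spsh_of_chart ⟨he.1, k3⟩ k2 (h _ (C2.cHess_isHermitian
    ((k2 e ⟨he.1, k3⟩).of_le INT.two_le_inf)) k1)

theorem sum_eqn {W κ : Type} [Fintype κ] {n : ℕ} (Φ : W → Cm n) (lab : κ → Option (Fin n))
    (c : κ → ℝ) (w : W) : ∑ k, c k * Real.log (‖eqn Φ lab k w‖ ^ 2) =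
      ∑ j, (∑ k, if lab k = some j then c k else 0) * Real.log (‖Φ w j‖ ^ 2) := by
  simp only [Finset.sum_mul]
  rw [Finset.sum_comm]
  refine Finset.sum_congr rfl fun k _ => ?_
  unfold eqn
  cases lab k <;> simp

/-- the data for the vanishing theorem -/
theorem rdata {U : Lg} {Y : CSp} {p : U.W → Y.pt} (hp : HolY 4 Y p) (R : Pol U Y p)
    (hV : Vol U Y p) {σ O t g Δ} (hD : IsDisc Y σ O t g Δ) {s : ℂ} (hs : s ∈ Δ)
    (hσ : ∀ᶠ y in 𝓝 (g s), y ∈ p '' U.E → y ∈ σ) {N : ℕ} [SecondCountableTopology U.W]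
    {cpt conn π hol fib} :
    ∃ D : RData (⟨U.W, p ⁻¹' {g s}, cpt, conn, π, hol, fib⟩ : Geo 4 N), D.E = U.E := by
  obtain ⟨O', m, η, h1, h2, h3, h4⟩ := hV (g s)
  obtain ⟨g₀, hg⟩ := R.gr
  have hO : g s ∈ O := (hD.img.ge ⟨s, hs, rfl⟩).2
  have ev : ∀ {P : Y.pt → Prop}, (∀ᶠ y in 𝓝 (g s), P y) → ∀ᶠ w in 𝓝ˢ (p ⁻¹' {g s}), P (p w) :=
    fun h => eventually_nhdsSet_iff_forall.2 fun x hx =>
      hp.1.continuousAt.eventually (by rwa [show p x = g s from hx])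
  refine ⟨⟨U.E, fun w => g₀ w + ∑ i, R.τ * R.B.ρ i (g s) * ‖R.B.t i (p w)‖ ^ 2,
    fun w => t (p w) - s, m, η, h3, fun x hx => ?_, fun x hx => ⟨fun e he => ?_, ?_⟩, ?_, ?_, ?_⟩,
    rfl⟩
  · have hx' : p x = g s := hx
    obtain ⟨Φ, ρ, lab, h, -⟩ := U.snc.nch x (Eventually.of_forall fun _ => trivial)
    obtain ⟨u, hu⟩ := gr_loc hg (x := x) (ζ := eqn Φ lab) fun k _ => h.eq h.src k
    have k1 : ∀ i, (∀ᶠ w in 𝓝 x, SmR 4 (fun w => R.τ * R.B.ρ i (g s) * ‖R.B.t i (p w)‖ ^ 2) w) ∧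
        ddc 4 (fun w => R.τ * R.B.ρ i (g s) * ‖R.B.t i (p w)‖ ^ 2) x =
          R.τ • R.B.ρ i (p x) • ddc 4 (fun w => ‖R.B.t i (p w)‖ ^ 2) x := fun i => by
      rw [hx']
      by_cases h0 : R.B.ρ i (g s) = 0
      · simp only [h0, mul_zero, zero_mul, zero_smul, smul_zero]
        exact ⟨.of_forall fun _ => smR_const 0, congrFun (ddc_const 0) x⟩
      · have k2 := (Val.holF_ev (hp.2 x _ (hx' ▸ R.B.hol i _ (subset_tsupport _ h0)))).mono
          fun w hw => smR_nsq hw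
        exact ⟨k2.mono fun w hw => smR_cmul _ hw, by rw [ddc_smul _ k2, smul_smul]⟩
    have k2 : ∀ᶠ w in 𝓝 x, SmR 4 (fun w => ∑ i, R.τ * R.B.ρ i (g s) * ‖R.B.t i (p w)‖ ^ 2) w :=
      (eventually_all.2 fun i => (k1 i).1).mono fun w hw => smR_sum _ fun i _ => hw i
    have k3 := hu.mono fun w hw => smR_neg hw.1
    have k4 := spsh_ev ((k3.and k2).mono fun w hw => smR_add hw.1 hw.2) fun v hv => by
      have k5 := R.pos x v hv
      rw [ddc_add k3 k2, ddc_neg (hu.mono fun w hw => hw.1), ← hu.self_of_nhds.2.1,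
        ddc_sum _ fun i _ => (k1 i).1, Finset.sum_congr rfl fun i _ => (k1 i).2,
        ← Finset.smul_sum, Pi.neg_apply, neg_neg]
      exact k5
    refine ⟨fun j w => Φ w j, fun j => ∑ k, if lab k = some j then (R.c k : ℝ) else 0,
      fun w => -u w + ∑ i, R.τ * R.B.ρ i (g s) * ‖R.B.t i (p w)‖ ^ 2,
      fun j => (h.crd x h.src).hol j, fun e he => ((Val.crd_chart he).chg (h.crd x h.src)).2,
      fun j => Finset.sum_nonneg fun k _ => by positivity, ?_⟩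
    filter_upwards [k4, hu, h.nhds] with w a1 a2 a3
    refine ⟨a1, ⟨fun a4 => ?_, fun ⟨j, a4, a5⟩ => ?_⟩, fun a4 => ?_⟩
    · obtain ⟨l, hl⟩ := mem_iUnion.1 a4
      obtain ⟨j, a5, a6⟩ := (h.iff w a3 l).1 hl
      refine ⟨j, (Finset.sum_pos' (fun k _ => by positivity) ⟨l, Finset.mem_univ _, ?_⟩).ne', a6⟩
      rw [if_pos a5]
      exact Nat.cast_pos.2 (R.cpos l)
    · obtain ⟨l, -, hl⟩ := Finset.exists_ne_zero_of_sum_ne_zero a4
      exact mem_iUnion.2 ⟨l, (h.iff w a3 l).2 ⟨j, by_contra fun a => hl (if_neg a), a5⟩⟩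
    · rw [a2.2.2 fun k _ a => a4 (mem_iUnion.2 ⟨k, a⟩), sum_eqn]
      ring
  · exact (hp.2 x t (hD.hol _ (hx ▸ hO : p x ∈ O)) e he).sub analyticAt_const
  · rw [show p x = g s from hx, (hD.par s hs).2.1, sub_self]
  · filter_upwards [ev hσ, ev (hD.isOpen.mem_nhds hO)] with w a1 a2 a3 a4
    obtain ⟨s', b1, b2⟩ := hD.img.le ⟨a1 ⟨w, a3, rfl⟩, a2⟩
    rw [← b2, (hD.par s' b1).2.1, sub_eq_zero] at a4
    exact (a4 ▸ b2).symm
  · filter_upwards [ev (h1.mem_nhds h2)] with w a e he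
    exact ⟨((h4 w a).1 e he).1, fun e' he' => (h4 w a).2 e e' he he'⟩
  · filter_upwards [ev (h1.mem_nhds h2)] with w a b e he using ((h4 w a).1 e he).2 b

end Vale.Agent.P277Z.Top.H98
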