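import Vale.Agent.P277Z.Top.Edge

/-!
# P277, block TOP: the divisor of a section with zeros on a normal crossing divisor
-/

set_option linter.all false
set_option maxSynthPendingDepth 3

open scoped Manifold ContDiff Topology
open Vale.Agent.P272.K Vale.Agent.P285.H281.FD Vale.Agent.P277 Set Filter
open Vale.Agent.P277.PH (HolF SmR)
open Vale.Agent.P277Z.Val (IsSnc holF_ev holF_cont holF_prod)
open Vale.Agent.P277Z.Slc (LEq)
open Vale.Agent.P277Z.Glc.Ad (leq_co leq_one)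
open Vale.Agent.P277Z.Gd

noncomputable section

namespace Vale.Agent.P277Z.Top.R1

variable {d : ℕ} {X : Mf (d + 1)} {ι : Type} [Fintype ι] {G : ι → Set X.M} {n n' : ι → ℕ}
  {f f' : X.M → ℂ} {y : X.M}

/-- a unit times a monomial -/
def Mn (G : ι → Set X.M) (n : ι → ℕ) (f : X.M → ℂ) (y : X.M) : Prop :=
  ∃ (ζ : ι → X.M → ℂ) (u : X.M → ℂ), (∀ l, LEq (d + 1) (G l) y (ζ l)) ∧ HolF (d + 1) u y ∧
    u y ≠ 0 ∧ ∀ᶠ x in 𝓝 y, f x = u x * ∏ l, ζ l x ^ n l

theorem Mn.ev (h : Mn G n f y) : ∀ᶠ x in 𝓝 y, Mn G n f x := by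
  obtain ⟨ζ, u, h1, h2, h3, h4⟩ := h
  filter_upwards [eventually_all.2 fun l => (h1 l).near, holF_ev h2,
    (holF_cont h2).eventually_ne h3, h4.eventually_nhds] with x a b c e using ⟨ζ, u, a, b, c, e⟩

theorem Mn.unit (h : Mn G n f y) {v : X.M → ℂ} (hv : HolF (d + 1) v y) (h0 : v y ≠ 0)
    (e : ∀ᶠ x in 𝓝 y, f' x = v x * f x) : Mn G n f' y := by
  obtain ⟨ζ, u, h1, h2, h3, h4⟩ := h
  exact ⟨ζ, _, h1, hv.mul h2, mul_ne_zero h0 h3, by
    filter_upwards [h4, e] with x a b using by rw [b, a, mul_assoc]⟩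

theorem Mn.zero (h : Mn G n f y) : f y = 0 ↔ ∃ l, y ∈ G l ∧ n l ≠ 0 := by
  obtain ⟨ζ, u, h1, -, h3, h4⟩ := h
  simp [h4.self_of_nhds, h3, Finset.prod_eq_zero_iff, (h1 _).mem]

variable (hG : IsSnc (d + 1) G)
include hG

theorem Mn.change (h : Mn G n f y) (e : ∀ l, y ∈ G l → n l = n' l) : Mn G n' f y := by
  classical
  obtain ⟨ζ, u, h1, h2, h3, h4⟩ := h
  refine ⟨fun l => if y ∈ G l then ζ l else fun _ => 1, fun x => u x * ∏ l with y ∉ G l, ζ l x ^ n l,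
    fun l => ?_, h2.mul (holF_prod (fun l _ => (h1 l).hol) n), mul_ne_zero h3
      (Finset.prod_ne_zero_iff.2 fun l hl =>
        pow_ne_zero _ (mt (h1 l).mem.1 (Finset.mem_filter.1 hl).2)), h4.mono fun x a => ?_⟩
  · by_cases a : y ∈ G l
    · simpa only [if_pos a] using h1 l
    · simpa only [if_neg a] using leq_one (hG.closed' l) a
  · rw [a, mul_assoc, Finset.prod_filter, ← Finset.prod_mul_distrib]
    refine congrArg _ (Finset.prod_congr rfl fun l _ => ?_)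
    by_cases b : y ∈ G l
    · simp [b, e l b]
    · simp [b]

theorem exists_mn (hf : HolF (d + 1) f y) (hne : ∀ᶠ x in 𝓝 y, (∀ l, x ∉ G l) → f x ≠ 0) :
    ∃ n, Mn G n f y := by
  obtain ⟨Φ, ρ, lab, h, hp⟩ := hG.nch y hne
  have hc := h.crd y h.src
  obtain ⟨g, u, h1, h2, h3⟩ := Val.exists_mon0 lab (f := fun w => f (Φ.symm w))
    (h.zero ▸ hc.an.hol (by rwa [hc.inv])) (by
      filter_upwards [Metric.ball_mem_nhds _ h.pos] with w hw e
      refine hp _ (h.symm_mem hw).1 fun l hl => ?_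
      obtain ⟨i, a, b⟩ := (h.iff _ (h.symm_mem hw).1 l).1 hl
      exact e l i a ((h.symm_mem hw).2 ▸ b))
  rw [← h.zero] at h1 h2 h3
  refine ⟨g, Val.eqn Φ lab, _, fun l => ?_, hc.holF h1, h2, ?_⟩
  · unfold Val.eqn
    cases e : lab l with
    | none => exact leq_one (hG.closed' l) fun a => by simpa [e] using h.mem.1 a
    | some i => exact leq_co hc.isCo' (mem_of_superset h.nhds fun x a => h.iff1 e a)
  · filter_upwards [hc.cont.eventually h3, hc.left] with x e1 e2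
    rwa [e2] at e1

theorem Mn.le (h : Mn G n f y) (h' : Mn G n' f y) {l : ι} (hl : y ∈ G l) : n' l ≤ n l := by
  classical
  obtain ⟨z, a, ⟨ζ, u, h1, h2, h3, h4⟩, ζ', u', k1, k2, -, k4⟩ :=
    ((hG.freq {l} (by simpa using hl)).and_eventually (h.ev.and h'.ev)).exists
  obtain ⟨v, v1, -, v3⟩ := leq_unit (h1 l) (k1 l)
  by_contra! c
  obtain ⟨m, e⟩ := Nat.exists_eq_add_of_lt c
  have b1 := holF_cont (h2.mul (holF_prod (s := Finset.univ.erase l) (fun k _ => (h1 k).hol) n))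
  have b2 := (holF_cont (k2.mul (holF_prod (s := Finset.univ.erase l)
    (fun k _ => (k1 k).hol) n'))).mul (((holF_cont v1).pow (n' l)).mul
      ((holF_cont (h1 l).hol).pow (m + 1)))
  have b3 := tendsto_nhds_unique_of_frequently_eq b1 b2 (((hG.freq ∅ (by simp)).and_eventually
    (h4.and (k4.and (v3.and (h1 l).1)))).mono fun x ⟨c0, c1, c2, c3, c4⟩ => by
      refine mul_left_cancel₀ (pow_ne_zero (n l) fun b => (c0 l).1 (c4.1 b)) ?_
      rw [c1, ← Finset.mul_prod_erase _ _ (Finset.mem_univ l),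
        ← Finset.mul_prod_erase _ _ (Finset.mem_univ l), c3, e] at c2
      simp only [e, Pi.mul_apply, Pi.pow_apply]
      linear_combination c2)
  simp only [Pi.mul_apply, Pi.pow_apply, (h1 l).mem.2 ((a l).2 rfl), zero_pow m.succ_ne_zero,
    mul_zero] at b3
  exact mul_ne_zero h3 (Finset.prod_ne_zero_iff.2 fun k hk => pow_ne_zero _ fun b =>
    (Finset.mem_erase.1 hk).1 ((a k).1 ((h1 k).mem.1 b))) b3

/-- the divisor of a section -/
theorem gr_sec (hc : ∀ l, IsConnected (G l)) {L : Bd X.M} {ψ : L.ι → X.M → ℝ}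
    {α : Fr (d + 1) 2 X.M} (hL : IsCv L ψ α) {σ : L.ι → X.M → ℂ}
    (h1 : ∀ i, ∀ x ∈ L.U i, HolF (d + 1) (σ i) x)
    (h2 : ∀ i j x, x ∈ L.U i → x ∈ L.U j → σ i x = L.g i j x * σ j x)
    (h3 : ∀ i, ∀ x ∈ L.U i, (∀ l, x ∉ G l) → σ i x ≠ 0) : ∃ (n : ι → ℕ) (g : X.M → ℝ),
      IsGr Finset.univ G (fun l => n l) α g ∧
        ∀ i, ∀ x ∈ L.U i, σ i x = 0 ↔ ∃ l, x ∈ G l ∧ n l ≠ 0 := by
  choose i hi using hL.lb.cover
  have o := fun j x (a : x ∈ L.U j) => (hL.lb.isOpen j).eventually_mem a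
  have t : ∀ n j j' x, x ∈ L.U j → x ∈ L.U j' → Mn G n (σ j) x → Mn G n (σ j') x :=
    fun n j j' x a b c => c.unit (fun e he => (hL.lb.holo j' j e x he b a).analyticAt)
      (hL.lb.ne_zero _ _ _ b a) (((o _ _ b).and (o _ _ a)).mono fun z e => h2 _ _ z e.1 e.2)
  choose N hN using fun x => exists_mn hG (h1 _ x (hi x)) ((o _ x (hi x)).mono (h3 _))
  choose b hb using fun l => (hc l).nonempty
  have key : ∀ j, ∀ x ∈ L.U j, Mn G (fun l => N (b l) l) (σ j) x := fun j x a =>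
    (t _ _ _ x (hi x) a (hN x)).change hG fun l hl =>
      (hc l).isPreconnected.induction₂ (fun x y => N x l = N y l) (fun x _ =>
        eventually_nhdsWithin_iff.2 (((hN x).ev.and (o _ x (hi x))).mono fun z c e =>
          have k := t _ _ _ z c.2 (hi z) c.1
          le_antisymm ((hN z).le hG k e) (k.le hG (hN z) e)))
        (fun _ _ _ _ _ _ => Eq.trans) (fun _ _ _ _ => Eq.symm) hl (hb l)
  refine ⟨_, fun x => Real.log (‖σ (i x) x‖ ^ 2) - ψ (i x) x, fun y => ?_,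
    fun j x a => (key j x a).zero⟩
  obtain ⟨ζ, u, k1, k2, k3, k4⟩ := key _ y (hi y)
  have s : ∀ x ∈ L.U (i y), SmR (d + 1) (ψ (i y)) x := fun x a e he => hL.met.smooth _ e x he a
  refine ⟨ζ, fun x => ψ (i y) x - Real.log (‖u x‖ ^ 2), fun l _ => k1 l, ?_⟩
  filter_upwards [o _ y (hi y), holF_ev k2, (holF_cont k2).eventually_ne k3, k4,
    eventually_all.2 fun l => (k1 l).1] with x a1 a2 a3 a4 a5
  refine ⟨smR_sub (s x a1) (smR_log a2 a3), ?_, fun a6 => ?_⟩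
  · rw [ddc_sub ((o _ x a1).mono s) (ev_smR_log a2 a3), ddc_log a2 a3, sub_zero, hL.eq _ x a1]
  · have b1 : ∀ l ∈ Finset.univ, ‖ζ l x ^ N (b l) l‖ ^ 2 ≠ 0 := fun l hl =>
      pow_ne_zero _ (norm_ne_zero_iff.2 (pow_ne_zero _ (mt (a5 l).1 (a6 l hl))))
    have b2 := pow_ne_zero 2 (norm_ne_zero_iff.2 (hL.lb.ne_zero _ _ x (hi x) a1))
    have b3 := pow_ne_zero 2 (norm_ne_zero_iff.2 a3)
    have b4 := Finset.prod_ne_zero_iff.2 b1
    show _ - _ = _
    rw [h2 _ _ x (hi x) a1, hL.met.change _ _ x (hi x) a1, a4, norm_mul, norm_mul, mul_pow, mul_pow,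
      norm_prod, ← Finset.prod_pow, Real.log_mul b2 (mul_ne_zero b3 b4), Real.log_mul b3 b4,
      Real.log_prod b1]
    simp only [norm_pow, pow_right_comm _ (N _ _) 2, Real.log_pow (_ ^ 2)]
    ring

end Vale.Agent.P277Z.Top.R1
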