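import Vale.Agent.P277Z.Top.Br
import Vale.Agent.P277Z.Top.Good
import Vale.Agent.P277Z.Top.HiPos

/-!
# P277, block TOP: line bundles near a fibre with given classes on the components (step 6a)
-/

set_option linter.all false
set_option maxSynthPendingDepth 3

open scoped Manifold ContDiff Topology
open Vale.Agent.P272.K Vale.Agent.P285.H281.FD Vale.Agent.P277 Set Filter Module
open Vale.Agent.P267.H175 (SmAt dF)
open Vale.Agent.P277.PH (HolF SmR)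
open Vale.Agent.P277Z.Tr (pb HolM)
open Vale.Agent.P277Z.Val (Sb Lg IsCC)
open Vale.Agent.P277Z.Ln (Iso CB Rel pl triv dual at_self RData)
open Vale.Agent.P277Z.Gd

noncomputable section

namespace Vale.Agent.P277Z.Top.H98

theorem cv_pow {d : ℕ} {M : Type} [TopologicalSpace M] [ChartedSpace (Cm d) M]
    [IsManifold 𝓘(ℂ, Cm d) ω M] {L : Bd M} {ψ : L.ι → M → ℝ} {α : Fr d 2 M} (h : IsCv L ψ α)
    (n : ℕ) : IsCv (L.pow n) (fun i x => n * ψ i x) ((n : ℝ) • α) := by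
  refine ⟨⟨h.lb.isOpen, h.lb.cover, fun i j e x a b c => (h.lb.holo i j e x a b c).pow n,
    fun i j x a b => pow_ne_zero n (h.lb.ne_zero i j x a b), fun i j k x a b c => ?_⟩,
    ⟨fun i e x a b => contDiffAt_const.mul (h.met.smooth i e x a b), fun i j x a b => ?_⟩,
    fun i x a => ?_⟩
  · show _ ^ n * _ ^ n = _ ^ n
    rw [← mul_pow, h.lb.cocycle i j k x a b c]
  · show _ = _ + Real.log (‖_ ^ n‖ ^ 2)
    rw [h.met.change i j x a b, norm_pow, ← pow_mul, mul_comm n 2, pow_mul, Real.log_pow _ n]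
    ring
  · rw [Pi.smul_apply, h.eq i x a]
    exact (ddc_smul _ (met_ev h a)).symm

/-- The curves `N i` are the double curves over `F`, and `x`, `x'` have the same degrees on them. -/
def DC {W : Type} (F : Set W) {H H' : Mf 3} (ι : H.M → W) (ι' : H'.M → W) (x : Fr 3 2 H.M)
    (x' : Fr 3 2 H'.M) : Prop :=
  ∃ (J : Type) (_ : Fintype J) (N : J → Mf 1) (a : ∀ i, (N i).M → H.M) (b : ∀ i, (N i).M → H'.M),
    (∀ i, ConnectedSpace (N i).M ∧ HolM 1 3 (a i) ∧ HolM 1 3 (b i) ∧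
      Function.Injective (fun z => ι (a i z)) ∧ (∀ z, ι (a i z) = ι' (b i z) ∧ ι (a i z) ∈ F) ∧
      (N i).int (pb (Cm 1) (a i) x) = (N i).int (pb (Cm 1) (b i) x')) ∧
    (∀ i i' z z', ι (a i z) = ι (a i' z') → i = i') ∧
    ∀ w ∈ F, w ∈ range ι → w ∈ range ι' → ∃ i z, ι (a i z) = w

theorem DC.symm {W : Type} {F : Set W} {H H' : Mf 3} {ι : H.M → W} {ι' : H'.M → W}
    {x : Fr 3 2 H.M} {x' : Fr 3 2 H'.M} (h : DC F ι ι' x x') : DC F ι' ι x' x := by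
  obtain ⟨J, _, N, a, b, h1, h2, h3⟩ := h
  have h4 : ∀ i z, ι' (b i z) = ι (a i z) := fun i z => ((h1 i).2.2.2.2.1 z).1.symm
  refine ⟨J, ‹_›, N, b, a, fun i => ?_, ?_, fun w a b c => ?_⟩
  · obtain ⟨k1, k2, k3, k4, k5, k6⟩ := h1 i
    simp only [h4]
    exact ⟨k1, k3, k2, k4, fun z => ⟨trivial, (k5 z).2⟩, k6.symm⟩
  · simpa only [h4] using h2
  · simpa only [h4] using h3 w a c b

theorem DC.iso (hL : StLam) {W : Type} {F : Set W} {H H' : Mf 3} {ι : H.M → W} {ι' : H'.M → W}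
    (hι : Function.Injective ι) (hι' : Function.Injective ι') {x : Fr 3 2 H.M} {x' : Fr 3 2 H'.M}
    (h : DC F ι ι' x x') {L : Bd H.M} {L' : Bd H'.M} {ψ ψ'} (c : IsCv L ψ x) (c' : IsCv L' ψ' x') :
    ∃ n, 1 ≤ n ∧ Iso {q : H.M × H'.M | ι q.1 = ι' q.2 ∧ ι q.1 ∈ F} ((pl Prod.fst L).pow n)
      ((pl Prod.snd L').pow n) := by
  obtain ⟨J, _, N, a, b, h1, h2, h3⟩ := h
  have key : ∀ i, ∃ n, 1 ≤ n ∧ Iso univ ((pl (a i) L).pow n) ((pl (b i) L').pow n) := fun i => by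
    obtain ⟨k1, k2, k3, -, -, k6⟩ := h1 i
    have c1 := (hL 3 H).2.2.2.2 1 (N i) (a i) L ψ x k2 c
    have c2 := (hL 3 H').2.2.2.2 1 (N i) (b i) L' ψ' x' k3 c'
    have m1 := (hL 1 (N i)).1 _ _ _ c1
    have m2 := (hL 1 (N i)).1 _ _ _ c2
    refine iso_of_ex (N i) c1 c2 (stHI.1 (N i) k1 ⟨_, sub_mem m1 m2⟩ ?_)
    exact (int_sub (d := 1) _ (cl_sm m1.1) (cl_sm m2.1)).trans (sub_eq_zero.2 k6)
  choose n hn hi using key
  have hc : ∀ i, Continuous fun z => (a i z, b i z) := fun i => (h1 i).2.1.1.prodMk (h1 i).2.2.1.1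
  have he : ∀ i, Topology.IsClosedEmbedding fun z => (a i z, b i z) := fun i =>
    (hc i).isClosedEmbedding fun z z' h => (h1 i).2.2.2.1 (congrArg (fun q => ι q.1) h)
  refine ⟨∏ i, n i, Finset.one_le_prod' fun i _ => hn i, Ln.Iso.mono (iso_fin Finset.univ
    (fun i => (he i).isClosed_range) (fun i i' h => disjoint_left.2 ?_) fun i => ?_) ?_⟩
  · rintro _ ⟨z, rfl⟩ ⟨z', h4⟩
    exact h (h2 i i' z z' (congrArg (fun q => ι q.1) h4).symm)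
  · obtain ⟨m, hm⟩ := Finset.dvd_prod_of_mem n (Finset.mem_univ i)
    rw [hm]
    exact iso_push (he i).isEmbedding (iso_pow (hi i) m)
  · rintro ⟨y, y'⟩ ⟨h4, h5⟩
    obtain ⟨i, z, h6⟩ := h3 _ h5 ⟨y, rfl⟩ ⟨y', h4.symm⟩
    exact mem_iUnion₂.2 ⟨i, Finset.mem_univ _, z, Prod.ext (hι h6)
      (hι' (((h1 i).2.2.2.2.1 z).1.symm.trans (h6.trans h4)))⟩

theorem lb_pl {n N d : ℕ} {G : Geo n N} {L : Bd G.W} (h : G.LB L) {X : Mf d} {f : X.M → G.W}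
    (hf : HolM d n f) (hF : ∀ z, f z ∈ G.F) : IsLB d (HD.pull f L) :=
  ⟨fun i => (h.isOpen i).preimage hf.1, fun z => h.cover _ (hF z), fun i j e z a b c =>
    (holF_comp hf (h.holo i j _ b c) e a).contDiffAt, fun i j z => h.ne_zero i j (f z),
    fun i j k z => h.cocycle i j k (f z)⟩

theorem siso_iso {n : ℕ} {X : Type} [TopologicalSpace X] [ChartedSpace (Cm n) X] {V : Set X}
    {L L' : Bd X} (h : Ln.SIso n V L L') : Iso V L L' := by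
  obtain ⟨u, h1, h2⟩ := h
  exact ⟨u, h1, fun i j x hx => (Ln.SmH.sm_cont (h2 i j x hx.1.1 hx.1.2 hx.2)).continuousWithinAt⟩

/-- **Step 6a** -/
theorem six (hR : R2.StR2') (hL : StLam) {N : ℕ} (G : Geo 4 N) (R : RData G) (hE : G.F ⊆ R.E)
    {κ : Type} [Fintype κ] (H : κ → Mf 3) (ι : ∀ k, (H k).M → G.W) (hι : ∀ k, Sb 3 4 (ι k))
    (cov : ∀ w ∈ G.F, ∃ k, w ∈ range (ι k))
    (tri : ∀ k m j, k ≠ m → m ≠ j → k ≠ j →
      (G.F ∩ range (ι k) ∩ range (ι m) ∩ range (ι j)).Finite)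
    (x : ∀ k, C11 (H k)) (hx : ∀ k, x k ∈ Lam (H k))
    (dc : ∀ k m, k ≠ m → DC G.F (ι k) (ι m) (x k).1 (x m).1) :
    ∃ (n : ℕ) (L : Bd G.W), 1 ≤ n ∧ G.LB L ∧ ∀ k (d : ℕ) (X : Mf d) (j : X.M → (H k).M),
      HolM d 3 j → (∀ z, ι k (j z) ∈ G.F) → IsLB d (HD.pull (fun z => ι k (j z)) L) ∧
        ∀ ψ α, IsCv (d := d) (HD.pull (fun z => ι k (j z)) L) ψ α →
          ∃ θ : Fr d 1 X.M, Sm θ ∧ α - (n : ℝ) • pb (Cm d) j (x k).1 = dF θ := by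
  classical
  choose L ψ hc using fun k => ((hL 3 (H k)).2.2.1 (x k)).1 (hx k)
  have key : ∀ q : κ × κ, ∃ n, 1 ≤ n ∧ (q.1 ≠ q.2 → Iso {z : (H q.1).M × (H q.2).M |
      ι q.1 z.1 = ι q.2 z.2 ∧ ι q.1 z.1 ∈ G.F} ((pl Prod.fst (L q.1)).pow n)
      ((pl Prod.snd (L q.2)).pow n)) := fun q => by
    by_cases h : q.1 = q.2
    · exact ⟨1, le_rfl, fun h' => absurd h h'⟩
    · obtain ⟨n, h1, h2⟩ := (dc _ _ h).iso hL (hι _).inj (hι _).inj (hc _) (hc _)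
      exact ⟨n, h1, fun _ => h2⟩
  choose n hn hi using key
  have := fun k => ChartedSpace.secondCountable_of_sigmaCompact (Cm 3) (H k).M
  have hp := fun k => cv_pow (hc k) (∏ q, n q)
  obtain ⟨L₁, h1, h2⟩ := Ln.lb_of hR N G R hE κ (fun k => (H k).M) ι
    (fun k => (L k).pow (∏ q, n q)) (fun k => (hι k).cont) (fun k => (hι k).inj)
    (fun k => (G.cpt.isClosed.preimage (hι k).cont).isCompact)
    (fun k y a ha => holF_comp (sb_holM (hι k)) ha) cov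
    (fun k => by
      have h := lb_cb (hp k).lb
      exact ⟨h.isOpen, fun y _ => h.cover y trivial, h.sm, h.ne_zero, h.cocycle⟩) tri
    fun k m hkm => by
      obtain ⟨c, hc⟩ := Finset.dvd_prod_of_mem n (Finset.mem_univ (k, m))
      rw [hc]
      exact iso_pow (hi (k, m) hkm) c
  refine ⟨∏ q, n q, L₁, Finset.one_le_prod' fun q _ => hn q, h1, fun k d X j hj hF =>
    ⟨lb_pl h1 (holM_comp (sb_holM (hι k)) hj) hF, fun ψ' α hα => ?_⟩⟩
  obtain ⟨V, -, hV, h3⟩ := h2 k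
  exact ex_of_iso X hα ((hL 3 (H k)).2.2.2.2 d X j _ _ _ hj (hp k))
    (((siso_iso h3).pl hj.1).mono fun z _ => hV (hF z))

/-- the double curves of a model over a point -/
theorem dc_par {U : Lg} (Q : Par U) {Y : CSp} (p : U.W → Y.pt) (y : Y.pt)
    (x : ∀ k, Fr 3 2 (Q.H k).M)
    (h : ∀ e : Ed U, ∃ (J : Type) (_ : Fintype J) (N : J → Mf 1)
      (j : ∀ i, (N i).M → (Q.S e.1.2.2).M), IsFib (fun z => p (Q.ι₂ _ z)) y N j ∧ ∀ i,
        (N i).int (pb (Cm 1) (j i) (pb (Cm 2) (Q.j e.1.1 e.1.2.2) (x _))) =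
          (N i).int (pb (Cm 1) (j i) (pb (Cm 2) (Q.j e.1.2.1 e.1.2.2) (x _))))
    (k m : Fin U.r) (hkm : k ≠ m) : DC (p ⁻¹' {y}) (Q.ι k) (Q.ι m) (x k) (x m) := by
  classical
  wlog hlt : k < m
  · exact (this Q p y x h m k hkm.symm (lt_of_le_of_ne (not_lt.1 hlt) hkm.symm)).symm
  let A := {T // (k, m, T) ∈ ed U}
  have : Finite A := Finite.of_injective (fun T : A => (⟨_, T.2⟩ : Ed U)) fun T T' h =>
    Subtype.ext (congrArg (fun e : Ed U => e.1.2.2) h)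
  have := Fintype.ofFinite A
  choose J hJ N j h1 h2 using fun T : A => h ⟨_, T.2⟩
  have s1 : ∀ T : A, (k, T.1) ∈ U.cmp := fun T => ed_s ⟨_, T.2⟩
  have s2 : ∀ T : A, (m, T.1) ∈ U.cmp := fun T => ed_t ⟨_, T.2⟩
  have s3 : ∀ T : A, IsCC U k m T.1 := fun T => (ed_cc ⟨_, T.2⟩).2
  have f1 : ∀ (T : A) z, Q.ι k (Q.j k T.1 z) = Q.ι₂ T.1 z := fun T => Q.fac _ (s1 T)
  have f2 : ∀ (T : A) z, Q.ι m (Q.j m T.1 z) = Q.ι₂ T.1 z := fun T => Q.fac _ (s2 T)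
  have f3 : ∀ (T : A) z, Q.ι₂ T.1 z ∈ T.1 := fun T z => (Q.rng₂ _ (s1 T)).le ⟨z, rfl⟩
  have f4 : ∀ (T : A) z z', Q.ι k (Q.j k T.1 z) = Q.ι k (Q.j k T.1 z') → z = z' :=
    fun T z z' h => (Q.emb₂ _ (s1 T)).inj ((Q.emb k).inj h)
  refine ⟨Σ T, J T, inferInstance, fun i => N i.1 i.2, fun i z => Q.j k i.1.1 (j i.1 i.2 z),
    fun i z => Q.j m i.1.1 (j i.1 i.2 z), fun ⟨T, i⟩ => ?_, fun ⟨T, i⟩ ⟨T', i'⟩ z z' h3 => ?_,
    fun w a b c => ?_⟩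
  · have k1 := sb_holM ((h1 T).emb i)
    refine ⟨(h1 T).conn i, holM_comp (par_hol₂ Q (s1 T)) k1, holM_comp (par_hol₂ Q (s2 T)) k1,
      fun z z' h => ((h1 T).emb i).inj (f4 T _ _ h), fun z => ⟨(f1 T _).trans (f2 T _).symm, ?_⟩,
      ?_⟩
    · rw [f1]
      exact (h1 T).rng.le (mem_iUnion.2 ⟨i, z, rfl⟩)
    · have k2 : HolM 2 3 (Q.j k T.1) := par_hol₂ Q (s1 T)
      have k3 : HolM 2 3 (Q.j m T.1) := par_hol₂ Q (s2 T)
      have k4 := pb_pb k1 k2 (x k)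
      have k5 := pb_pb k1 k3 (x m)
      exact (congrArg (N T i).int k4).symm.trans ((h2 T i).trans (congrArg (N T i).int k5))
  · obtain rfl : T = T' := by
      have k1 := f3 T (j T i z)
      have k2 := f3 T' (j T' i' z')
      rw [← f1 T] at k1
      rw [← f1 T'] at k2
      exact Subtype.ext (((s3 T).eq _ k1).trans (h3 ▸ ((s3 T').eq _ k2).symm))
    obtain rfl : i = i' := by
      by_contra hi
      exact disjoint_left.1 ((h1 T).disj i i' hi) ⟨z, rfl⟩ ⟨z', (f4 T _ _ h3).symm⟩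
    rfl
  · rw [Q.rng] at b c
    let T : A := ⟨_, mem_ed hlt (Val.isCC_cc hkm.symm ⟨b, c⟩)⟩
    obtain ⟨z, hz⟩ := (Q.rng₂ _ (s1 T)).ge (mem_connectedComponentIn ⟨b, c⟩)
    have h5 : z ∈ (fun z => p (Q.ι₂ T.1 z)) ⁻¹' {y} := (congrArg p hz).trans a
    obtain ⟨i, z', h4⟩ := mem_iUnion.1 ((h1 T).rng.ge h5)
    exact ⟨⟨T, i⟩, z', by rw [f1, h4]; exact hz⟩

/-- equal degrees on the components of a smooth fibre of a surface -/
theorem deg_fib (hFib : StFib) (hEqd : StEqd) {Y : CSp} (B : Bas Y) (X : Mf 2) (f : X.M → Y.pt)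
    (hc : ConnectedSpace X.M) (hf : HolY 2 Y f) (hd : DimLe Y 1 (range f))
    (hn : ¬ (range f).Subsingleton) {O t g Δ} (hD : IsDisc Y (range f) O t g Δ) {s : ℂ}
    (hs : s ∈ Δ) (hr : ∀ x, f x = g s → Sub 2 (fun x => t (f x)) x) {a b : Fr 2 2 X.M}
    (ha : Cl a) (hb : Cl b) (h : B2 X a (B.form 2 f) = B2 X b (B.form 2 f)) :
    ∃ (J : Type) (_ : Fintype J) (N : J → Mf 1) (j : ∀ i, (N i).M → X.M), IsFib f (g s) N j ∧
      ∀ i, (N i).int (pb (Cm 1) (j i) a) = (N i).int (pb (Cm 1) (j i) b) := by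
  obtain ⟨κ, hκ, h1⟩ := hFib Y B 1 X f hc hf hd hn
  obtain ⟨⟨J, _, N, j, h2⟩, h3⟩ := h1 O t g Δ hD s hs hr
  obtain ⟨δ, h4⟩ := hEqd Y 1 X f hc hf hd a ha
  obtain ⟨δ', h5⟩ := hEqd Y 1 X f hc hf hd b hb
  have h6 := h4 O t g Δ hD s hs hr J N j h2
  have h7 := h5 O t g Δ hD s hs hr J N j h2
  refine ⟨J, ‹_›, N, j, h2, fun i => ?_⟩
  have h8 := ((h3 J N j h2 a ha).symm.trans ((B2_comm X _ _).trans (h.trans (B2_comm X _ _)))).trans
    (h3 J N j h2 b hb)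
  simp only [h6, h7, Finset.sum_const, nsmul_eq_mul] at h8
  have h9 : (0 : ℝ) < (Finset.univ : Finset J).card :=
    Nat.cast_pos.2 (Finset.card_pos.2 ⟨i, Finset.mem_univ _⟩)
  exact (h6 i).trans ((mul_left_cancel₀ h9.ne' (mul_left_cancel₀ hκ.ne' h8)).trans (h7 i).symm)

/-- the empty fibre -/
theorem deg_empty {d : ℕ} {Y : CSp} {X : Mf (d + 1)} {f : X.M → Y.pt} {y : Y.pt}
    (h : y ∉ range f) (P : ∀ N : Mf d, (N.M → X.M) → Prop) :
    ∃ (J : Type) (_ : Fintype J) (N : J → Mf d) (j : ∀ i, (N i).M → X.M), IsFib f y N j ∧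
      ∀ i, P (N i) (j i) :=
  ⟨Empty, inferInstance, fun i => i.elim, fun i => i.elim, ⟨fun i => i.elim, fun i => i.elim,
    fun i => i.elim, by
      rw [iUnion_of_empty]
      exact (eq_empty_of_forall_notMem fun z hz => h ⟨z, hz⟩).symm⟩, fun i => i.elim⟩

end Vale.Agent.P277Z.Top.H98
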