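import Vale.Agent.P277Z.Top.TrSk
import Vale.Agent.P277Z.Top.Api
import Vale.Agent.P277Z.Tr.Inj

/-!
# P277, block TOP, row TR: the cycle vanishes on forms which are closed near the exceptional set
-/

set_option linter.all false
set_option maxSynthPendingDepth 3

open scoped Manifold ContDiff Topology
open Vale.Agent.P272.K Vale.Agent.P285.H281.FD Vale.Agent.P277 Set Filter Module
open Vale.Agent.P267.H175
open Vale.Agent.P277Z.Tr Vale.Agent.P277Z.Gd
open Vale.Agent.P277Z.Val (Lg Sb Hom LocIso)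

noncomputable section

namespace Vale.Agent.P277Z.Top.TrX

section pb

variable {d d' k : ℕ} {M S : Type} [TopologicalSpace M] [ChartedSpace (Cm d) M]
  [TopologicalSpace S] [ChartedSpace (Cm d') S]

theorem pb_congr {f g : S → M} {x : S} (h : f =ᶠ[𝓝 x] g) (a : Fr d k M) :
    pb (Cm d') f a x = pb (Cm d') g a x := by
  have h1 : (fun y => chartAt (Cm d) (g x) (f ((chartAt (Cm d') x).symm y))) =ᶠ[𝓝 (chartAt (Cm d') x x)]
      fun y => chartAt (Cm d) (g x) (g ((chartAt (Cm d') x).symm y)) := by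
    filter_upwards [ev_symm (mem_chart_source (Cm d') x) h] with z hz
    rw [show f _ = g _ from hz]
  rw [pb, pb, h.self_of_nhds, h1.fderiv_eq]

theorem pb_id (a : Fr d k M) (x : M) : pb (Cm d) (fun y => y) a x = a x := by
  have h1 : (fun y => chartAt (Cm d) x ((chartAt (Cm d) x).symm y)) =ᶠ[𝓝 (chartAt (Cm d) x x)]
      id := by
    filter_upwards [(chartAt (Cm d) x).open_target.mem_nhds (mem_chart_target (Cm d) x)] with z hz
      using (chartAt (Cm d) x).right_inv hz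
  rw [pb, h1.fderiv_eq, fderiv_id]
  rfl

theorem pb_pt {f : S → M} {x : S} {a b : Fr d k M} (h : a (f x) = b (f x)) :
    pb (Cm d') f a x = pb (Cm d') f b x := by
  rw [pb, pb, h]

end pb

variable {V U : Lg} {μ : V.W → U.W} {s : Fin U.r → Fin V.r} {X : Finset (Fin V.r)}

/-- the union of the components in `X` -/
def Ex (V : Lg) (X : Finset (Fin V.r)) : Set V.W := ⋃ k ∈ X, V.G k

theorem closed_Ex : IsClosed (Ex V X) := isClosed_biUnion_finset fun k _ => V.closed k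

theorem rg {y : V.W} (hy : y ∉ Ex V X) : Rg s X y :=
  fun _ hk h => absurd (mem_biUnion hk h) hy

theorem inv_eq (h : Dom V U μ s X) {y : V.W} (hy : y ∉ Ex V X) :
    Function.surjInv h.surj (μ y) = y := h.inj y _ (rg hy) (Function.surjInv_eq h.surj _)

theorem notMem_img (h : Dom V U μ s X) {y : V.W} (hy : y ∉ Ex V X) : μ y ∉ μ '' Ex V X := by
  rintro ⟨y', h1, h2⟩
  exact hy (h.inj y y' (rg hy) h2 ▸ h1)

theorem inv_notMem (h : Dom V U μ s X) {z : U.W} (hz : z ∉ μ '' Ex V X) :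
    Function.surjInv h.surj z ∉ Ex V X := fun k => hz ⟨_, k, Function.surjInv_eq h.surj z⟩

theorem sm_inv (h : Dom V U μ s X) {z : U.W} (hz : z ∉ μ '' Ex V X) :
    SmM (Cm 4) (Cm 4) (Function.surjInv h.surj) z := by
  obtain ⟨x, rfl⟩ := h.surj z
  have hx : x ∉ Ex V X := fun k => hz ⟨x, k, rfl⟩
  set e' := chartAt (Cm 4) x with he'
  set e := chartAt (Cm 4) (μ x) with he
  have a' : At e' x := at_ch x
  have a : At e (μ x) := at_ch (μ x)
  have hl : LocIso (fun w => e (μ (e'.symm w))) (e' x) :=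
    ⟨h.hol.2 x e' e a' a, h.det x (rg hx) e' e a' a⟩
  obtain ⟨θ, t1, t2, -, t4⟩ := hl.exists_inv
  simp only [e'.left_inv a'.2] at t1 t2 t4
  have c1 : Tendsto θ (𝓝 (e (μ x))) (𝓝 (e' x)) := by
    have := t1.1.continuousAt
    rwa [ContinuousAt, t2] at this
  have c2 : Tendsto (fun w => e'.symm (θ w)) (𝓝 (e (μ x))) (𝓝 x) :=
    (e'.tendsto_symm a'.2).comp c1
  have k1 : ∀ᶠ w in 𝓝 (e (μ x)), Function.surjInv h.surj (e.symm w) = e'.symm (θ w) := by
    filter_upwards [t4, c2.eventually (closed_Ex.isOpen_compl.mem_nhds hx),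
      c2.eventually (h.hol.1.continuousAt.eventually (e.open_source.mem_nhds a.2))] with w h1 h2 h3
    rw [← h1, e.left_inv h3, inv_eq h h2, h1]
  have k2 : ∀ᶠ z in 𝓝 (μ x), Function.surjInv h.surj z = e'.symm (θ (e z)) := by
    filter_upwards [(e.continuousAt a.2).eventually k1, e.open_source.mem_nhds a.2] with z h1 h2
    rw [← h1, e.left_inv h2]
  refine ⟨?_, ?_⟩
  · rw [ContinuousAt, inv_eq h hx]
    exact (c2.comp (e.continuousAt a.2)).congr' (EventuallyEq.symm k2)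
  · rw [inv_eq h hx]
    refine (t1.1.restrictScalars (𝕜 := ℝ)).contDiffAt.congr_of_eventuallyEq ?_
    filter_upwards [k1, c1.eventually (e'.open_target.mem_nhds (e'.map_source a'.2))] with w h1 h2
    rw [h1, e'.right_inv h2]

/-- forms which are closed near the exceptional set -/
theorem exists_prim (h : Dom V U μ s X) (hi : ∀ θ : Fr 4 8 U.W, Sm θ →
      (lgM V).int (pb (Cm 4) μ θ) = (lgM U).int θ) {θ : Fr 4 4 V.W} (hθ : Sm θ)
    (h0 : ∀ y ∈ Ex V X, ∀ᶠ y' in 𝓝 y, dF θ y' = 0) :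
    ∃ β : Fr 4 4 U.W, Sm β ∧ Cl (θ - pb (Cm 4) μ β) := by
  set ψ := Function.surjInv h.surj with hψ
  have hr : ∀ z, μ (ψ z) = z := Function.surjInv_eq h.surj
  set O : Set U.W := (μ '' Ex V X)ᶜ with hO
  have oO : IsOpen O := (closed_Ex.isCompact.image h.hol.1).isClosed.isOpen_compl
  set τ : Fr 4 5 U.W := O.indicator (pb (Cm 4) ψ (dF θ)) with hτ
  have sd : Sm (dF θ) := cl_sm (cl_dF hθ)
  have e1 : ∀ z ∈ O, τ =ᶠ[𝓝 z] pb (Cm 4) ψ (dF θ) := fun z hz => by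
    filter_upwards [oO.mem_nhds hz] with z' hz' using indicator_of_mem hz' _
  have e2 : ∀ z ∈ O, ∀ᶠ z' in 𝓝 z, SmM (Cm 4) (Cm 4) ψ z' := fun z hz => by
    filter_upwards [oO.mem_nhds hz] with z' hz' using sm_inv h hz'
  have e3 : ∀ z ∉ O, ∀ᶠ z' in 𝓝 z, τ z' = 0 := fun z hz => by
    have hK : IsClosed (μ '' tsupport (dF θ)) :=
      ((isClosed_tsupport _).isCompact.image h.hol.1).isClosed
    have hz' : z ∉ μ '' tsupport (dF θ) := by
      rintro ⟨y, h1, rfl⟩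
      by_cases hy : y ∈ Ex V X
      · exact notMem_tsupport_iff_eventuallyEq.2 (h0 y hy) h1
      · exact hz (notMem_img h hy)
    filter_upwards [hK.isOpen_compl.mem_nhds hz'] with z' h1
    by_cases h2 : z' ∈ O
    · rw [hτ, indicator_of_mem h2]
      exact pb_eq_zero (image_eq_zero_of_notMem_tsupport fun k => h1 ⟨_, k, hr z'⟩)
    · exact indicator_of_notMem h2 _
  have s1 : ∀ z, SmAt τ z := fun z => by
    by_cases hz : z ∈ O
    · exact (smAt_pb (e2 z hz) (sd _)).congr (e1 z hz)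
    · exact smAt_of_zero (e3 z hz)
  have s2 : ∀ z, dF τ z = 0 := fun z => by
    by_cases hz : z ∈ O
    · rw [dF_congr (e1 z hz), dF_pb (e2 z hz) (sd _)]
      exact pb_eq_zero (cl_dF hθ _).2
    · exact dF_zero_of (e3 z hz)
  have s3 : ∀ x, dF θ x = pb (Cm 4) μ τ x := fun x => by
    by_cases hx : x ∈ Ex V X
    · rw [(h0 x hx).self_of_nhds, pb_eq_zero (e3 _ fun k => k ⟨x, hx, rfl⟩).self_of_nhds]
    · have h1 : μ x ∈ O := notMem_img h hx
      rw [pb_pt (e1 _ h1).self_of_nhds, pb_comp _ (h.hol.smM x) (e2 _ h1).self_of_nhds,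
        pb_congr (g := fun y => y), pb_id]
      filter_upwards [closed_Ex.isOpen_compl.mem_nhds hx] with y hy using inv_eq h hy
  obtain ⟨β, b1, b2⟩ := inj (Cm 4) MeasureTheory.volume 7 (tb 4) V.W U.W μ h.hol.smM hi 4 τ θ
    (by norm_num) s1 s2 hθ s3
  refine ⟨β, b1, fun x => ⟨sm_sub hθ (sm_pb h.hol b1) x, ?_⟩⟩
  rw [dF_sub (hθ x) (sm_pb h.hol b1 x), dF_hpb h.hol (b1 _), s3, pb_pt (b2 _), sub_self]

/-- the part of the cycle on the threefold `G l` -/
def Zl (P : Par V) (ρ : Fin V.r × Set V.W → ℝ) (l : Fin V.r) (θ : Fr 4 4 V.W) : ℝ :=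
  ∑ T ∈ cl V l, ρ (l, T) * (P.S T).int (pb (Cm 2) (P.ι₂ T) θ)

theorem Z_eq (P : Par V) (ρ : Fin V.r × Set V.W → ℝ) (θ : Fr 4 4 V.W) :
    P.Z ρ θ = ∑ l, Zl P ρ l θ := by
  classical
  rw [Par.Z, ← Finset.sum_fiberwise V.cmp Prod.fst]
  refine Finset.sum_congr rfl fun l _ => ?_
  rw [Zl, cl, Finset.sum_image]
  · refine Finset.sum_congr (by ext; simp) fun c hc => ?_
    rw [← (Finset.mem_filter.1 hc).2]
  · intro c hc c' hc' e
    exact Prod.ext ((Finset.mem_filter.1 hc).2.trans (Finset.mem_filter.1 hc').2.symm) e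

theorem Zl_zero (hPL : StPL) (P : Par V) {ρ : Fin V.r × Set V.W → ℝ} (hρ : P.Nul ρ) (l : Fin V.r)
    {θ : Fr 4 4 V.W} (hθ : Cl (pb (Cm 3) (P.ι l) θ)) : Zl P ρ l θ = 0 := by
  obtain ⟨g, hg⟩ := hρ l
  have := hPL 2 (P.H l) _ (cl V l) P.S (P.j l) _ 0 g univ univ _
    (fun T hT => P.emb₂ (l, T) (mem_cl.1 hT)) hg isClosed_univ isOpen_univ subset_rfl
    (fun _ _ => subset_univ _) (fun x hx => absurd (mem_univ x) hx) (cl_sm hθ) fun x _ => (hθ x).2
  rw [wd_zero_left, int_zero] at this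
  rw [this]
  exact Finset.sum_congr rfl fun T hT => by rw [par_pb P (c := (l, T)) (mem_cl.1 hT)]

theorem Z_add (P : Par V) (ρ : Fin V.r × Set V.W → ℝ) {θ θ' : Fr 4 4 V.W} (h : Sm θ)
    (h' : Sm θ') : P.Z ρ (θ + θ') = P.Z ρ θ + P.Z ρ θ' := by
  rw [Par.Z, Par.Z, Par.Z, ← Finset.sum_add_distrib]
  refine Finset.sum_congr rfl fun c hc => ?_
  rw [pb_add, int_add _ (sm_pb (par_hol₄ P hc) h) (sm_pb (par_hol₄ P hc) h'), mul_add]

theorem tra (hPL : StPL) (hP : StPar) (hL : StLift) (h : Dom V U μ s X) (P : Par V)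
    {ρ : Fin V.r × Set V.W → ℝ} (hρ : P.Nul ρ)
    (hZ : ∀ θ : Fr 4 4 U.W, Sm θ → P.Z ρ (pb (Cm 4) μ θ) = 0) {θ : Fr 4 4 V.W} (hθ : Sm θ)
    (h0 : ∀ y ∈ Ex V X, ∀ᶠ y' in 𝓝 y, dF θ y' = 0) : ∑ l, Zl P ρ l θ = 0 := by
  obtain ⟨β, b1, b2⟩ := exists_prim h (hL V U P (hP U).some μ s X h).2 hθ h0
  have h1 := Z_add P ρ (cl_sm b2) (sm_pb h.hol b1)
  rw [sub_add_cancel, hZ β b1, add_zero, Z_eq, Z_eq] at h1
  rw [h1]
  exact Finset.sum_eq_zero fun l _ => Zl_zero hPL P hρ l (cl_pb (par_hol P l) b2)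

end Vale.Agent.P277Z.Top.TrX
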