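import Vale.Agent.P277Z.Top.TrA
import Vale.Agent.P277Z.Top.HiPos
import Vale.Agent.P277Z.Tr.Slice

/-!
# P277, block TOP, row TR: the test form
-/

set_option linter.all false
set_option maxSynthPendingDepth 3

open scoped Manifold ContDiff Topology
open Vale.Agent.P272.K Vale.Agent.P285.H281.FD Vale.Agent.P277 Set Filter Module Metric
open Vale.Agent.P267.H175 Vale.Agent.P267.H928.Int
open Vale.Agent.P277Z.Tr Vale.Agent.P277Z.Gd
open Vale.Agent.P277Z.Val (Lg Sb Hom LocIso)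

noncomputable section

namespace Vale.Agent.P277Z.Top.TrX

/-- the pull back of the volume form -/
def vv (v : Cm 4 →L[ℂ] Cm 2) : Cm 4 [⋀^Fin 4]→L[ℝ] ℝ :=
  (vol (tb 2)).compContinuousLinearMap (v.restrictScalars ℝ)

theorem five_zero (a : Cm 2 [⋀^Fin 5]→L[ℝ] ℝ) : a = 0 := by
  ext w
  refine a.toAlternatingMap.map_linearDependent w fun h => ?_
  have h1 := h.fintype_card_le_finrank
  rw [finrank_eq_card_basis (tb 2)] at h1
  simp at h1

theorem closed_vv (v : Cm 4 →L[ℂ] Cm 2) {ρ : Cm 2 → ℝ} (hρ : ContDiff ℝ ∞ ρ) (z : Cm 4) :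
    extDeriv (fun z => ρ (v z) • vv v) z = 0 := by
  have h0 : DifferentiableAt ℝ (fun w => ρ w • vol (tb 2)) (v.restrictScalars ℝ z) :=
    (hρ.differentiable (by simp) _).smul_const _
  have h1 := extDeriv_pullback h0 (v.restrictScalars ℝ).contDiff.contDiffAt minS
  rw [five_zero (extDeriv _ _)] at h1
  simp only [ContinuousLinearMap.fderiv] at h1
  exact h1

theorem bump {Γ : Set (Cm 4)} (hΓ : IsCompact Γ) (v : Cm 4 →L[ℂ] Cm 2) (p : Cm 4) {R : ℝ}
    (hR : 0 < R) (hc : {z | z ∈ Γ ∧ v z = v p}.Countable) :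
    ∃ f : Cm 4 → ℝ, ContDiff ℝ ∞ f ∧ (∀ z, 0 ≤ f z) ∧ 0 < f p ∧ (∀ z ∉ closedBall p R, f z = 0) ∧
      ∀ z ∈ Γ, ∀ᶠ w in 𝓝 z, extDeriv (fun z => f z • vv v) w = 0 := by
  obtain ⟨r, ⟨r0, r1⟩, hr⟩ : ∃ r ∈ Ioo 0 R, r ∉ (fun z => dist z p) '' {z | z ∈ Γ ∧ v z = v p} := by
    by_contra h
    push Not at h
    have h1 : (Ioo 0 R).Countable := (hc.image _).mono h
    have h2 := h1.measure_zero MeasureTheory.volume
    simp [hR.not_ge] at h2
  obtain ⟨m, m0, hm⟩ : ∃ m, 0 < m ∧ ∀ z ∈ Γ, m ≤ |dist z p - r| + dist (v z) (v p) := by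
    refine hΓ.exists_forall_le' (by fun_prop) fun z hz => ?_
    by_cases h : v z = v p
    · have : dist z p - r ≠ 0 := fun k => hr ⟨z, ⟨hz, h⟩, sub_eq_zero.1 k⟩
      positivity
    · have := dist_pos.2 h
      positivity
  obtain ⟨ε, e0, e1, e2, e3⟩ : ∃ ε, 0 < ε ∧ 2 * ε < m ∧ ε < r ∧ r + ε ≤ R :=
    ⟨min (m / 3) (min (r / 2) (R - r)), by simp [*], by
      linarith [min_le_left (m / 3) (min (r / 2) (R - r))], by
      linarith [min_le_right (m / 3) (min (r / 2) (R - r)), min_le_left (r / 2) (R - r)], by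
      linarith [min_le_right (m / 3) (min (r / 2) (R - r)), min_le_right (r / 2) (R - r)]⟩
  let χ : ContDiffBump p := ⟨r - ε, r + ε, by linarith, by linarith⟩
  let ρ : ContDiffBump (v p) := ⟨ε / 2, ε, by linarith, by linarith⟩
  have z0 : ∀ {z : Cm 4} {f : Cm 4 → ℝ}, (∀ᶠ w in 𝓝 z, f w = 0) →
      ∀ᶠ w in 𝓝 z, extDeriv (fun z => f z • vv v) w = 0 := fun h => by
    filter_upwards [h.eventually_nhds] with w hw
    rw [EventuallyEq.extDeriv_eq (ω₂ := 0) (hw.mono fun y hy => by simp [hy])]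
    exact extDeriv_zero' _
  refine ⟨fun z => χ z * ρ (v z), χ.contDiff.mul (ρ.contDiff.comp (v.restrictScalars ℝ).contDiff),
    fun z => mul_nonneg χ.nonneg ρ.nonneg, ?_, fun z hz => ?_, fun z hz => ?_⟩
  · exact mul_pos (χ.pos_of_mem_ball (mem_ball_self χ.rOut_pos))
      (ρ.pos_of_mem_ball (mem_ball_self ρ.rOut_pos))
  · exact mul_eq_zero_of_left (χ.zero_of_le_dist (e3.trans (not_le.1 hz).le)) _
  · by_cases h1 : ε < dist (v z) (v p)
    · refine z0 ?_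
      filter_upwards [(isOpen_lt continuous_const (by fun_prop) :
        IsOpen {w | ε < dist (v w) (v p)}).mem_nhds h1] with w hw
      rw [ρ.zero_of_le_dist (le_of_lt hw), mul_zero]
    · have h2 : ε < |dist z p - r| := by linarith [hm z hz]
      rcases lt_abs.1 h2 with h3 | h3
      · refine z0 ?_
        filter_upwards [(isOpen_lt continuous_const (by fun_prop) :
          IsOpen {w | r + ε < dist w p}).mem_nhds (show r + ε < dist z p by linarith)] with w hw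
        rw [χ.zero_of_le_dist (le_of_lt hw), zero_mul]
      · have h4 : ∀ᶠ w in 𝓝 z, χ w = 1 := by
          filter_upwards [isOpen_ball.mem_nhds (show z ∈ ball p (r - ε) by
            rw [mem_ball]; linarith)] with w hw using χ.one_of_mem_closedBall (ball_subset_closedBall hw)
        filter_upwards [h4.eventually_nhds] with w hw
        rw [← closed_vv v ρ.contDiff w]
        exact EventuallyEq.extDeriv_eq (hw.mono fun y hy => by simp [hy])

variable {Y : Type} [TopologicalSpace Y] [T2Space Y] [ChartedSpace (Cm 4) Y]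
  [IsManifold 𝓘(ℂ, Cm 4) ω Y]

theorem exists_form {Γ N : Set Y} (hΓ : IsClosed Γ) {e : Chart 4 Y} {y : Y} (he : At e y)
    (v : Cm 4 →L[ℂ] Cm 2) (hc : {z | z ∈ Γ ∧ z ∈ e.source ∧ v (e z) = v (e y)}.Countable)
    (hN : N ∈ 𝓝 y) : ∃ (f : Cm 4 → ℝ) (θ : Fr 4 4 Y), Sm θ ∧ (∀ z ∉ N, ∀ᶠ z' in 𝓝 z, θ z' = 0) ∧
      (∀ z ∈ Γ, ∀ᶠ z' in 𝓝 z, dF θ z' = 0) ∧ (∀ w, 0 ≤ f w) ∧ 0 < f (e y) ∧
      (∀ z ∉ e.source, θ z = 0) ∧ ∀ z ∈ e.source, loc e θ (e z) = f (e z) • vv v := by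
  obtain ⟨R, hR, h1⟩ := nhds_basis_closedBall.eventually_iff.1
    ((ev_symm he.2 hN).and (e.open_target.mem_nhds (e.map_source he.2)))
  have hK : closedBall (e y) R ⊆ e.target := fun z hz => (h1 hz).2
  have cK := isCompact_symm (isCompact_closedBall (e y) R) hK
  have hs : e.symm '' closedBall (e y) R ⊆ e.source := by
    rintro _ ⟨z, hz, rfl⟩
    exact e.map_target (hK hz)
  obtain ⟨f, f1, f2, f3, f4, f5⟩ := bump ((cK.inter_right hΓ).image_of_continuousOn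
    (e.continuousOn.mono fun z hz => hs hz.1)) v (e y) hR ((hc.image e).mono (by
      rintro _ ⟨⟨z, hz, rfl⟩, h⟩
      exact ⟨z, ⟨hz.2, hs hz.1, h⟩, rfl⟩))
  have g1 : ContDiff ℝ ∞ fun z => f z • vv v := f1.smul contDiff_const
  have g2 : ∀ z ∉ closedBall (e y) R, f z • vv v = 0 := fun z hz => by rw [f4 z hz, zero_smul]
  have g3 : ∀ z ∉ e.symm '' closedBall (e y) R, ∀ᶠ z' in 𝓝 z,
      ext0 e (fun z => f z • vv v) z' = 0 := fun z hz => by
    filter_upwards [cK.isClosed.isOpen_compl.mem_nhds hz] with z' hz' using ext0_zero g2 hz'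
  refine ⟨f, ext0 e fun z => f z • vv v, smAt_ext0 he.1 g1 (isCompact_closedBall _ _) hK g2,
    fun z hz => g3 z ?_, fun z hz => ?_, f2, f3, fun z hz => ext0_zero g2 fun k => hz (hs k),
    fun z hz => loc_ext0 he.1 (e.map_source hz)⟩
  · rintro ⟨w, hw, rfl⟩
    exact hz (h1 hw).1
  · by_cases h : z ∈ e.symm '' closedBall (e y) R
    · filter_upwards [(e.continuousAt (hs h)).eventually (f5 _ ⟨z, ⟨h, hz⟩, rfl⟩),
        e.open_source.mem_nhds (hs h)] with z' k1 k2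
      refine loc_inj (b := 0) he.1 k2 ?_
      rw [loc_dF_ext0 he.1 g1 (isCompact_closedBall _ _) hK g2 k2, k1, loc_zero]
      rfl
    · filter_upwards [(g3 z h).eventually_nhds] with z' k using dF_zero_of k

theorem int_pos (S : Mf 2) {F : S.M → Y} (hF : HolM 2 4 F) {θ : Fr 4 4 Y} {f : Cm 4 → ℝ}
    {e : Chart 4 Y} (he : e ∈ atlas (Cm 4) Y) {v : Cm 4 →L[ℂ] Cm 2} (hθ : Sm θ) (f0 : ∀ w, 0 ≤ f w)
    (h0 : ∀ z ∉ e.source, θ z = 0) (h1 : ∀ z ∈ e.source, loc e θ (e z) = f (e z) • vv v)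
    {x : S.M} {c : Chart 2 S.M} (hc : At c x) (hx : F x ∈ e.source) (hf : 0 < f (e (F x)))
    (hd : (fderiv ℂ (fun w => v (e (F (c.symm w)))) (c x)).det ≠ 0) :
    0 < S.int (pb (Cm 2) F θ) := by
  have key : ∀ (c : Chart 2 S.M) x, At c x → F x ∈ e.source →
      loc c (pb (Cm 2) F θ) (c x) (tb 2) =
        f (e (F x)) * Complex.normSq (fderiv ℂ (fun w => v (e (F (c.symm w)))) (c x)).det := by
    intro c x hc hx
    have d1 := (hF.2 x c e hc ⟨he, hx⟩).differentiableAt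
    have d2 : fderiv ℂ (fun w => v (e (F (c.symm w)))) (c x) =
        v.comp (fderiv ℂ (fun w => e (F (c.symm w))) (c x)) :=
      (v.hasFDerivAt.comp _ d1.hasFDerivAt).fderiv
    have d3 := top_comp (tb 2) (vol (tb 2))
      ((v.comp (fderiv ℂ (fun w => e (F (c.symm w))) (c x))).restrictScalars ℝ)
    rw [det_real, vol_self, smul_eq_mul, mul_one] at d3
    rw [loc_pb hc.1 he θ (hF.smM x) hc.2 hx, h1 _ hx, d1.fderiv_restrictScalars ℝ, d2]
    exact congrArg (f (e (F x)) * ·) d3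
  have hs := sm_pb hF hθ
  rw [H38.int_eq S hs]
  refine H38.pos_of_pos S (H38.dens_top (tb 2) hs) (fun c x hc => ?_) hc ?_
  · by_cases hx : F x ∈ e.source
    · exact (mul_nonneg (f0 _) (Complex.normSq_nonneg _)).trans_eq (key c x hc hx).symm
    · show 0 ≤ loc c (pb (Cm 2) F θ) (c x) (tb 2)
      rw [loc, c.left_inv hc.2, pb_eq_zero (h0 _ hx)]
      exact le_rfl
  · exact (mul_pos hf (Complex.normSq_pos.2 hd)).trans_eq (key c x hc hx).symm

theorem exists_test (S : Mf 2) {F : S.M → Y} (hF : HolM 2 4 F) {x₀ : S.M}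
    (hx : Function.Injective (dM 2 4 F x₀)) {κ : Type} [Finite κ] (D : κ → Mf 3)
    (f : ∀ k, (D k).M → Y) (hf : ∀ k, HolM 3 4 (f k)) (hc : ∀ k, Ctr 3 4 (f k)) {N : Set Y}
    (hN : N ∈ 𝓝 (F x₀)) : ∃ θ : Fr 4 4 Y, Sm θ ∧ (∀ z ∉ N, ∀ᶠ z' in 𝓝 z, θ z' = 0) ∧
      (∀ k x, ∀ᶠ z in 𝓝 (f k x), dF θ z = 0) ∧ 0 < S.int (pb (Cm 2) F θ) := by
  set c := chartAt (Cm 2) x₀
  set e := chartAt (Cm 4) (F x₀)
  have ac : At c x₀ := at_ch x₀
  have ae : At e (F x₀) := at_ch _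
  have an := hF.2 x₀ c e ac ae
  obtain ⟨g, hg⟩ := (dM 2 4 F x₀ : Cm 2 →ₗ[ℂ] Cm 4).exists_leftInverse_of_injective
    (LinearMap.ker_eq_bot.2 hx)
  set v : Cm 4 →L[ℂ] Cm 2 := LinearMap.toContinuousLinearMap g
  have hl : LocIso (fun w => v (e (F (c.symm w)))) (c x₀) := by
    refine Val.locIso_of_inj ((v.analyticAt _).comp an) ?_
    rw [show fderiv ℂ (fun w => v (e (F (c.symm w)))) (c x₀) = v.comp (dM 2 4 F x₀) from
      (v.hasFDerivAt.comp _ an.differentiableAt.hasFDerivAt).fderiv]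
    exact Function.LeftInverse.injective (g := id) fun w => LinearMap.congr_fun hg w
  obtain ⟨t, t1, t2, -, t4⟩ := hl.exists_inv
  have c1 : Tendsto t (𝓝 (v (e (F (c.symm (c x₀)))))) (𝓝 (c x₀)) := by
    have := t1.1.continuousAt
    rwa [ContinuousAt, t2] at this
  have c2 := hF.1.continuousAt.tendsto.comp ((c.tendsto_symm ac.2).comp c1)
  have ha : ∀ᵐ s : Cm 2, ∀ k, {y | y ∈ range (f k) ∧ y ∈ e.source ∧ v (e y) = s}.Countable :=
    MeasureTheory.ae_all_iff.2 fun k => slice 2 4 (D k).M Y (f k) e v (hf k) (hc k) ae.1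
  obtain ⟨s, s1, s2, s3, s4, s5, s6⟩ := ((mem_closure_iff_frequently.1
    (MeasureTheory.Measure.dense_of_ae ha _)).and_eventually (t4.and ((c1.eventually hl.eventually).and
      ((c1.eventually (c.open_target.mem_nhds (c.map_source ac.2))).and
        ((c2.eventually (e.open_source.mem_nhds ae.2)).and
          (c2.eventually (eventually_mem_nhds_iff.2 hN))))))).exists
  obtain ⟨φ, θ, k1, k2, k3, k4, k5, k6, k7⟩ := exists_form (Γ := ⋃ k, range (f k))
    (isClosed_iUnion_of_finite fun k => (isCompact_range (hf k).1).isClosed)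
    (y := F (c.symm (t s))) ⟨ae.1, s5⟩ v ((countable_iUnion s1).mono (by
      rintro y ⟨h1, h2, h3⟩
      obtain ⟨k, hk⟩ := mem_iUnion.1 h1
      exact mem_iUnion.2 ⟨k, hk, h2, h3.trans s2⟩)) s6
  refine ⟨θ, k1, k2, fun k x => k3 _ (mem_iUnion.2 ⟨k, x, rfl⟩),
    int_pos S hF ae.1 k1 k4 k6 k7 (c := c) ⟨ac.1, c.map_target s4⟩ s5 k5 ?_⟩
  rw [c.right_inv s4]
  exact s3.2

end Vale.Agent.P277Z.Top.TrX
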