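import Vale.Agent.P277Z.Top.TrB

/-!
# P277, block TOP, row TR: the assembly
-/

set_option linter.all false
set_option maxSynthPendingDepth 3

open scoped Manifold ContDiff Topology
open Vale.Agent.P272.K Vale.Agent.P285.H281.FD Vale.Agent.P277 Set Filter Module
open Vale.Agent.P267.H175
open Vale.Agent.P277.T3 (ThinM)
open Vale.Agent.P277Z.Tr Vale.Agent.P277Z.Gd
open Vale.Agent.P277Z.Val (Lg Sb Hom)

noncomputable section

namespace Vale.Agent.P277Z.Top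

namespace TrX

variable {V V₀ U : Lg} {π : V.W → V₀.W} {μ : V.W → U.W} {s : Fin U.r → Fin V.r}
  {X : Finset (Fin V.r)}

theorem coef_zero (hPL : StPL) (hP : StPar) (hL : StLift) (hRk : StRk) (hG : StTrGen)
    (hπ : Hom V V₀ π) (h : Dom V U μ s X) (P : Par V) {ρ : Fin V.r × Set V.W → ℝ} (hρ : P.Nul ρ)
    (hZ : ∀ θ : Fr 4 4 U.W, Sm θ → P.Z ρ (pb (Cm 4) μ θ) = 0) {c : Fin V.r × Set V.W}
    (hc : c ∈ V.cmp) (hX : c.1 ∉ X) (h1 : ¬ ThinM 4 2 (π '' V.G c.1))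
    (h2 : ¬ ThinM 4 1 (π '' c.2)) (h3 : ¬ Dbl V₀ (π '' c.2)) : ρ c = 0 := by
  classical
  obtain ⟨l, T⟩ := c
  obtain ⟨x₀, x1, x2, x3⟩ := hG V V₀ π P hπ _ hc h1 h2 h3
  have hh : HolM 4 4 π := ⟨hπ.cont, hπ.hol⟩
  have hf : ∀ m, HolM 3 4 fun x => π (P.ι m x) := fun m => holM_comp hh (par_hol P m)
  have hcl : ∀ {A : Set V.W}, IsClosed A → IsClosed (π '' A) := fun hA =>
    (hA.isCompact.image hπ.cont).isClosed
  have n1 : ∀ᶠ z in 𝓝 (π (P.ι₂ T x₀)), ∀ m, m ≠ l → ¬ ThinM 4 2 (π '' V.G m) → z ∉ π '' V.G m :=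
    eventually_all.2 fun m => eventually_imp_distrib_left.2 fun k1 =>
      eventually_imp_distrib_left.2 fun k2 => (hcl (V.closed m)).isOpen_compl.mem_nhds (x2 m k1 k2)
  have n2 : ∀ᶠ z in 𝓝 (π (P.ι₂ T x₀)), ∀ T' ∈ cl V l, T' ≠ T → z ∉ π '' T' :=
    (eventually_all_finset _).2 fun T' k1 => eventually_imp_distrib_left.2 fun k2 => by
      refine (hcl ?_).isOpen_compl.mem_nhds (x3 T' k1 k2)
      have := (isCompact_range (par_hol₄ P (c := (l, T')) (mem_cl.1 k1)).1).isClosed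
      rwa [P.rng₂ (l, T') (mem_cl.1 k1)] at this
  obtain ⟨θ, t1, t2, t3, t4⟩ := exists_test (P.S T) (holM_comp hh (par_hol₄ P hc)) x1
    (κ := {m // ThinM 4 2 (π '' V.G m)}) (fun m => P.H m.1) (fun m x => π (P.ι m.1 x))
    (fun m => hf m.1) (fun m => by
      have := P.conn m.1
      refine (hRk 2 4 (P.H m.1) (lgM V₀) _ (hf m.1)).2 this univ isOpen_univ univ_nonempty ?_
      rw [image_univ, show (fun x => π (P.ι m.1 x)) = π ∘ P.ι m.1 from rfl, range_comp, P.rng]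
      exact m.2) (n1.and n2)
  have s1 : Sm (pb (Cm 4) π θ) := sm_pb hh t1
  have k0 : ∀ m, m ≠ l → ∀ y ∈ V.G m, ∀ᶠ y' in 𝓝 y, dF (pb (Cm 4) π θ) y' = 0 := by
    intro m hm y hy
    have k1 : ∀ᶠ z in 𝓝 (π y), dF θ z = 0 := by
      by_cases k : ThinM 4 2 (π '' V.G m)
      · obtain ⟨x, rfl⟩ : y ∈ range (P.ι m) := by rwa [P.rng]
        exact t3 ⟨m, k⟩ x
      · filter_upwards [(t2 _ fun n => n.1 m hm k ⟨y, hy, rfl⟩).eventually_nhds] with z hz
          using dF_zero_of hz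
    filter_upwards [hπ.cont.continuousAt.eventually k1] with y' k2
    rw [dF_hpb hh (t1 _)]
    exact pb_eq_zero k2
  have k1 := tra hPL hP hL h P hρ hZ s1 fun y hy => by
    obtain ⟨m, hm, k⟩ := mem_iUnion₂.1 hy
    exact k0 m (fun e => hX (e ▸ hm)) y k
  rw [Finset.sum_eq_single l (fun m _ hm => Zl_zero hPL P hρ m fun x =>
    ⟨sm_pb (par_hol P m) s1 x, by
      rw [dF_hpb (par_hol P m) (s1 _)]
      exact pb_eq_zero (k0 m hm _ (P.rng m ▸ mem_range_self x)).self_of_nhds⟩) (by simp), Zl,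
    Finset.sum_eq_single T (fun T' k1 k2 => ?_) (fun k => absurd (mem_cl.2 hc) k),
    pb_pb (par_hol₄ P hc) hh] at k1
  · exact (mul_eq_zero.1 k1).resolve_right t4.ne'
  · have k3 : pb (Cm 2) (P.ι₂ T') (pb (Cm 4) π θ) = 0 := funext fun x => pb_eq_zero (pb_eq_zero
      (t2 _ fun n => n.2 T' k1 k2 ⟨_, (P.rng₂ (l, T') (mem_cl.1 k1)).subset (mem_range_self x),
        rfl⟩).self_of_nhds)
    rw [k3, int_zero, mul_zero]

end TrX

theorem stTR_of (hPL : StPL) (hP : StPar) (hL : StLift) (hRk : StRk) (hN : StTrNeg)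
    (hC : StTrCnt) (hG : StTrGen) : StTR := by
  classical
  intro V V₀ U π μ s P L X hπ h hl R hR
  refine le_trans ?_ (hC V V₀ π hπ)
  set J := V.cmp.filter fun c => ¬ ThinM 4 2 (π '' V.G c.1) ∧ ¬ ThinM 4 1 (π '' c.2) ∧
    Dbl V₀ (π '' c.2) with hJ
  have key : Function.Injective ((LinearMap.funLeft ℝ ℝ (Subtype.val : J → _)).comp R.subtype) := by
    refine (injective_iff_map_eq_zero _).2 fun ρ h0 => Subtype.ext (funext fun c => ?_)
    obtain ⟨h1, ρ', h2, h3, h4⟩ := hR ρ.1 ρ.2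
    by_contra hc
    obtain ⟨c1, c2⟩ := h1 c hc
    refine hc ((h2 c c2).symm.trans (hN V V₀ π P c.1 (fun T => ρ' (c.1, T)) hπ (hl _ c2).1 (h3 _)
      (fun T hT k => ?_) c.2 (mem_cl.2 c1)))
    by_contra k1
    by_cases k2 : Dbl V₀ (π '' T)
    · exact k ((h2 (c.1, T) c2).trans (congrFun h0 ⟨(c.1, T),
        Finset.mem_filter.2 ⟨mem_cl.1 hT, (hl _ c2).1, k1, k2⟩⟩))
    · exact k (TrX.coef_zero hPL hP hL hRk hG hπ h P h3 h4 (mem_cl.1 hT) (hl _ c2).2 (hl _ c2).1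
        k1 k2)
  simpa using LinearMap.finrank_le_finrank_of_injective key

end Vale.Agent.P277Z.Top
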