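import Vale.Agent.P277Z.Top.Sk

/-!
# P277, block TOP, row TR: the statements of the steps
-/

set_option linter.all false
set_option maxSynthPendingDepth 3

open scoped Manifold ContDiff Topology
open Vale.Agent.P272.K Vale.Agent.P285.H281.FD Vale.Agent.P277 Set Filter Module
open Vale.Agent.P267.H175 (SmAt dF)
open Vale.Agent.P277.PH (HolF SmR)
open Vale.Agent.P277.T3 (ThinM)
open Vale.Agent.P277Z.Tr (pb HolM Ctr dM)
open Vale.Agent.P277Z.Val (Lg Sb Hom)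

noncomputable section

namespace Vale.Agent.P277Z.Top

/-- **BDD**: pluriharmonic functions are bounded near thin sets of codimension two -/
def StTrBdd : Prop :=
  ∀ (X : Mf 3) (Θ : Set X.M) (h : X.M → ℝ), IsClosed Θ → ThinM 3 1 Θ →
    (∀ x ∉ Θ, SmR 3 h x ∧ ddc 3 h x = 0) → ∀ x, ∃ C : ℝ, ∀ᶠ y in 𝓝 x, y ∉ Θ → |h y| ≤ C

/-- **NEG**: a contracted divisor of class zero vanishes -/
def StTrNeg : Prop :=
  ∀ (V V₀ : Lg) (π : V.W → V₀.W) (P : Par V) (l : Fin V.r) (m : Set V.W → ℝ), Hom V V₀ π →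
    ¬ ThinM 4 2 (π '' V.G l) → P.Cls l m 0 → (∀ T ∈ cl V l, m T ≠ 0 → ThinM 4 1 (π '' T)) →
    ∀ T ∈ cl V l, m T = 0

/-- `S` lies in two components -/
def Dbl (V : Lg) (S : Set V.W) : Prop := ∃ k k', k ≠ k' ∧ S ⊆ V.G k ∩ V.G k'

open Classical in
/-- **CNT**: the surfaces over the double surfaces -/
def StTrCnt : Prop :=
  ∀ (V V₀ : Lg) (π : V.W → V₀.W), Hom V V₀ π →
    (V.cmp.filter fun c => ¬ ThinM 4 2 (π '' V.G c.1) ∧ ¬ ThinM 4 1 (π '' c.2) ∧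
      Dbl V₀ (π '' c.2)).card ≤ V₀.cmp.card

/-- **GEN**: general points of the other surfaces -/
def StTrGen : Prop :=
  ∀ (V V₀ : Lg) (π : V.W → V₀.W) (P : Par V), Hom V V₀ π → ∀ c ∈ V.cmp,
    ¬ ThinM 4 2 (π '' V.G c.1) → ¬ ThinM 4 1 (π '' c.2) → ¬ Dbl V₀ (π '' c.2) →
    ∃ x : (P.S c.2).M, Function.Injective (dM 2 4 (fun x => π (P.ι₂ c.2 x)) x) ∧
      (∀ m, m ≠ c.1 → ¬ ThinM 4 2 (π '' V.G m) → π (P.ι₂ c.2 x) ∉ π '' V.G m) ∧
      ∀ T ∈ cl V c.1, T ≠ c.2 → π (P.ι₂ c.2 x) ∉ π '' T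

end Vale.Agent.P277Z.Top
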